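import Vale.Agent.Lib.P099.Unfold

/-!
# Billiards in a triangle: compositions of reflections in the sides

The unfolding maps of the trajectories are compositions of reflections in the sides; they
are indexed by the lists of sides, hence form a countable family.
-/

namespace Vale.Agent.Lib.P099

open Set

/-- The composition of the reflections in the sides of the list (the head of the list is
applied first). -/
noncomputable def mirrorList (T : Triangle) : List (Fin 3) → ℂ → ℂ
  | [] => fun z => z
  | i :: L => fun z => mirrorList T L (T.sideMirror i z)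

/-- The straight line issued from `x` in the direction `θ` meets, at a time in `(0, t]`, a
point which an unfolding map sends to `c`. -/
def PassThrough (T : Triangle) (c x : ℂ) (θ : Dir) (t : ℝ) : Prop :=
  ∃ t₁ : ℝ, 0 < t₁ ∧ t₁ ≤ t ∧ ∃ L : List (Fin 3), mirrorList T L (x + (t₁ : ℂ) * dirVec θ) = c

/-- The points which some unfolding map sends to `c` or to a vertex. -/
def specialPts (T : Triangle) (c : ℂ) : Set ℂ :=
  {P | ∃ L : List (Fin 3), mirrorList T L P = c ∨ ∃ m : Fin 3, mirrorList T L P = T.vertex m}

namespace Triangle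

variable {T : Triangle}

lemma unf_mirrorList (T : Triangle) (L : List (Fin 3)) :
    ∃ γ : Dir → Dir, Unf (mirrorList T L) γ := by
  induction L with
  | nil => exact ⟨fun θ => θ, Unf.id⟩
  | cons i L ih =>
    obtain ⟨γ, hγ⟩ := ih
    refine ⟨fun θ => γ (T.reflect i θ), ⟨fun z θ t => ?_⟩⟩
    show mirrorList T L (T.sideMirror i (z + (t : ℂ) * dirVec θ))
      = mirrorList T L (T.sideMirror i z) + (t : ℂ) * dirVec (γ (T.reflect i θ))
    rw [T.sideMirror_ray, hγ.ray]

lemma mirrorList_injective (T : Triangle) (L : List (Fin 3)) :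
    Function.Injective (mirrorList T L) := by
  induction L with
  | nil => exact fun a b h => h
  | cons i L ih =>
    intro a b h
    have h1 : T.sideMirror i a = T.sideMirror i b := ih h
    have h2 := congrArg (T.sideMirror i) h1
    unfold Triangle.sideMirror at h2
    rwa [mirror_mirror (T.sideVec_ne_zero i), mirror_mirror (T.sideVec_ne_zero i)] at h2

lemma specialPts_countable (T : Triangle) (c : ℂ) : (specialPts T c).Countable := by
  have hsub : specialPts T c ⊆ ⋃ L : List (Fin 3), ({P | mirrorList T L P = c}
      ∪ ⋃ m : Fin 3, {P | mirrorList T L P = T.vertex m}) := by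
    intro P hP
    obtain ⟨L, h | ⟨m, hm⟩⟩ := hP
    · exact Set.mem_iUnion.2 ⟨L, Or.inl h⟩
    · exact Set.mem_iUnion.2 ⟨L, Or.inr (Set.mem_iUnion.2 ⟨m, hm⟩)⟩
  refine Set.Countable.mono hsub (Set.countable_iUnion (fun L =>
    Set.Countable.union ?_ (Set.countable_iUnion (fun m => ?_))))
  · refine Set.Subsingleton.countable (fun a ha b hb => ?_)
    have ha' : mirrorList T L a = c := ha
    have hb' : mirrorList T L b = c := hb
    exact T.mirrorList_injective L (ha'.trans hb'.symm)
  · refine Set.Subsingleton.countable (fun a ha b hb => ?_)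
    have ha' : mirrorList T L a = T.vertex m := ha
    have hb' : mirrorList T L b = T.vertex m := hb
    exact T.mirrorList_injective L (ha'.trans hb'.symm)

/-- The end point of a piece of trajectory is the image of the end point of the straight
line under an unfolding map. -/
theorem reach_mirrorList {t : ℝ} {p q : ℂ × Dir} (h : T.Reach t p q) :
    ∃ (L : List (Fin 3)) (γ : Dir → Dir), Unf (mirrorList T L) γ ∧
      q.1 = mirrorList T L (p.1 + (t : ℂ) * dirVec p.2) ∧ q.2 = γ p.2 := by
  induction h with
  | free x θ t ht hfree => exact ⟨[], fun θ => θ, Unf.id, rfl, rfl⟩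
  | bounce x θ τ t i q hτ hfree hhit hrest ih =>
    obtain ⟨L, γ, hU, h1, h2⟩ := ih
    refine ⟨i :: L, fun θ0 => γ (T.reflect i θ0), ⟨fun z θ0 s => ?_⟩, ?_, h2⟩
    · show mirrorList T L (T.sideMirror i (z + (s : ℂ) * dirVec θ0))
        = mirrorList T L (T.sideMirror i z) + (s : ℂ) * dirVec (γ (T.reflect i θ0))
      rw [T.sideMirror_ray, hU.ray]
    · rw [h1]
      show mirrorList T L (x + (τ : ℂ) * dirVec θ + (t : ℂ) * dirVec (T.reflect i θ))
        = mirrorList T L (T.sideMirror i (x + ((τ + t : ℝ) : ℂ) * dirVec θ))
      have e : x + ((τ + t : ℝ) : ℂ) * dirVec θ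
          = (x + (τ : ℂ) * dirVec θ) + (t : ℂ) * dirVec θ := by
        push_cast
        ring
      rw [e, T.sideMirror_ray, T.sideMirror_fix hhit]

end Triangle

end Vale.Agent.Lib.P099
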