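import Vale.Agent.Lib.P099.BVDefs
import Vale.Agent.Lib.P099.MirrorList

/-!
# Billiards in a triangle: the directions of the trajectories joining two vertices

Outside a countable set of directions, no trajectory runs into a vertex both in the future
and in the past.
-/

namespace Vale.Agent.Lib.P099

namespace Triangle

/-- A trajectory running into a vertex: the straight line issued from the initial point
meets, at a positive time, a point which an unfolding map sends to a vertex. -/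
private lemma bvx_sing_special (T : Triangle) {x : ℂ} {θ : Dir} {i : Fin 3}
    (h : (x, θ) ∈ T.Sing i) :
    ∃ r : ℝ, 0 < r ∧ x + (r : ℂ) * dirVec θ ∈ specialPts T 0 := by
  obtain ⟨t, q, hreach, -, s, hs, hv⟩ := h
  obtain ⟨L, γ, hU, h1, h2⟩ := reach_mirrorList hreach
  have ht : 0 ≤ t := T.reach_nonneg hreach
  refine ⟨t + s, by linarith, L, Or.inr ⟨i, ?_⟩⟩
  rw [unf_shift hU x θ t s, ← hv, h1, h2]

/-- The set of the directions of the segments joining two distinct special points is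
countable. -/
private lemma bvx_countable (T : Triangle) :
    {θ : Dir | ∃ P₁ ∈ specialPts T 0, ∃ P₂ ∈ specialPts T 0, P₁ ≠ P₂ ∧
      dirVec θ = (P₁ - P₂) / ((‖P₁ - P₂‖ : ℝ) : ℂ)}.Countable := by
  have hV : (specialPts T 0 ×ˢ specialPts T 0).Countable :=
    (T.specialPts_countable 0).prod (T.specialPts_countable 0)
  have hsub : {θ : Dir | ∃ P₁ ∈ specialPts T 0, ∃ P₂ ∈ specialPts T 0, P₁ ≠ P₂ ∧
      dirVec θ = (P₁ - P₂) / ((‖P₁ - P₂‖ : ℝ) : ℂ)} ⊆
      ⋃ p ∈ specialPts T 0 ×ˢ specialPts T 0,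
      {θ : Dir | dirVec θ = (p.1 - p.2) / ((‖p.1 - p.2‖ : ℝ) : ℂ)} := by
    intro θ hθ
    obtain ⟨P₁, hP₁, P₂, hP₂, -, hd⟩ := hθ
    exact Set.mem_biUnion (x := (P₁, P₂)) (Set.mk_mem_prod hP₁ hP₂) hd
  refine Set.Countable.mono hsub (Set.Countable.biUnion hV (fun p _ => ?_))
  refine Set.Subsingleton.countable (fun a ha b hb => ?_)
  have ha' : dirVec a = (p.1 - p.2) / ((‖p.1 - p.2‖ : ℝ) : ℂ) := ha
  have hb' : dirVec b = (p.1 - p.2) / ((‖p.1 - p.2‖ : ℝ) : ℂ) := hb
  exact dirVec_injective (ha'.trans hb'.symm)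

/-- There is a countable set `E` of directions such that, for `θ ∉ E` and every point `x`
of the table, the trajectory issued from `(x, θ)` does not run into a vertex, or the
trajectory issued from `(x, θ + π)` does not run into a vertex. -/
theorem exists_countable_exceptional (T : Triangle) :
    ∃ E : Set Dir, E.Countable ∧ ∀ θ : Dir, θ ∉ E → ∀ x : ℂ, x ∈ T.table →
      (∀ i, (x, θ) ∉ T.Sing i) ∨ (∀ i, (x, θ + ((Real.pi : ℝ) : Dir)) ∉ T.Sing i) := by
  refine ⟨_, bvx_countable T, fun θ hθ x _ => ?_⟩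
  by_contra hcon
  rw [not_or] at hcon
  obtain ⟨hc1, hc2⟩ := hcon
  rw [not_forall] at hc1 hc2
  obtain ⟨i, hi⟩ := hc1
  obtain ⟨j, hj⟩ := hc2
  rw [not_not] at hi hj
  obtain ⟨r₁, hr₁, hP₁⟩ := bvx_sing_special T hi
  obtain ⟨r₂, hr₂, hP₂⟩ := bvx_sing_special T hj
  rw [dirVec_add_pi] at hP₂
  apply hθ
  have hdiff : (x + (r₁ : ℂ) * dirVec θ) - (x + (r₂ : ℂ) * -dirVec θ)
      = ((r₁ + r₂ : ℝ) : ℂ) * dirVec θ := by
    push_cast
    ring
  have hnorm : ‖(x + (r₁ : ℂ) * dirVec θ) - (x + (r₂ : ℂ) * -dirVec θ)‖ = r₁ + r₂ := by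
    rw [hdiff, norm_mul, norm_dirVec, mul_one, Complex.norm_real, Real.norm_eq_abs,
      abs_of_pos (by linarith)]
  have hpos : (0 : ℝ) < r₁ + r₂ := by linarith
  refine ⟨_, hP₁, _, hP₂, ?_, ?_⟩
  · intro heq
    have h0 : ‖(x + (r₁ : ℂ) * dirVec θ) - (x + (r₂ : ℂ) * -dirVec θ)‖ = 0 := by
      rw [heq, sub_self, norm_zero]
    rw [hnorm] at h0
    linarith
  · rw [hnorm, hdiff]
    have hne : ((r₁ + r₂ : ℝ) : ℂ) ≠ 0 := by
      exact_mod_cast hpos.ne'
    field_simp

end Triangle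

end Vale.Agent.Lib.P099
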