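import Vale.Agent.Lib.P099.BVDefs

/-!
# Billiards in a triangle: a trajectory which does not run into a vertex is defined for all times

The reflection times of a billiard trajectory in a triangle do not accumulate: a
trajectory which never runs into a vertex is in the open table at arbitrarily large times.
-/

namespace Vale.Agent.Lib.P099

namespace Triangle

/-- A state of the unfolding of the trajectory issued from the phase point with position `x`
and direction `θ`: at the time `t` the trajectory has just been reflected in the side `k`. -/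
private def NaSt (T : Triangle) (x : ℂ) (θ : Dir) (g : ℂ → ℂ) (γ : Dir → Dir) (t : ℝ)
    (k : Fin 3) : Prop :=
  Unf g γ ∧ T.Entering x θ g γ t ∧ g (x + (t : ℂ) * dirVec θ) ∈ T.side k

private lemma nonacc_third : ∀ a b : Fin 3, ∃ c : Fin 3, c ≠ a ∧ c ≠ b := by decide

/-- The first reflection. -/
private lemma nonacc_init (T : Triangle) {x : ℂ} {θ : Dir} (hx : x ∈ T.table)
    (hns : ∀ i, (x, θ) ∉ T.Sing i) :
    ∃ (g : ℂ → ℂ) (γ : Dir → Dir) (t : ℝ) (k : Fin 3), NaSt T x θ g γ t k := by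
  obtain ⟨ρ, hρ, hball⟩ := Metric.isOpen_iff.mp T.isOpen_table x hx
  have hE0 : T.Entering x θ (fun z => z) (fun θ => θ) 0 := by
    refine ⟨Reach.free x _ 0 le_rfl (fun r hr hr' => absurd hr (not_lt.mpr hr')), ρ / 2,
      by linarith, ?_⟩
    intro r hr1 hr2
    apply hball
    rw [Metric.mem_ball, dist_eq_norm, add_sub_cancel_left, norm_ofReal_mul_dirVec,
      abs_of_pos hr1]
    linarith
  obtain ⟨t', k, -, -, hside, -, hE'⟩ := step_one Unf.id hE0 hns
  refine ⟨_, _, t', k, Triangle.Unf.mirror T Unf.id k, hE', ?_⟩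
  rw [T.sideMirror_fix hside]
  exact hside

/-- The next reflection: it takes place on another side. -/
private lemma nonacc_step {T : Triangle} {x : ℂ} {θ : Dir} (hns : ∀ i, (x, θ) ∉ T.Sing i)
    {g : ℂ → ℂ} {γ : Dir → Dir} {t : ℝ} {k : Fin 3} (h : NaSt T x θ g γ t k) :
    ∃ (t' : ℝ) (k' : Fin 3), t < t' ∧ k ≠ k' ∧ g (x + (t' : ℂ) * dirVec θ) ∈ T.side k' ∧
      NaSt T x θ (fun z => T.sideMirror k' (g z)) (fun θ => T.reflect k' (γ θ)) t' k' := by
  obtain ⟨hU, hE, hk⟩ := h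
  obtain ⟨t', k', htt', hfree, hside, -, hE'⟩ := step_one hU hE hns
  refine ⟨t', k', htt', ?_, hside, Triangle.Unf.mirror T hU k', hE', ?_⟩
  · rintro rfl
    have ha := (T.bc_of_mem_side hk).1
    have hb := (T.bc_of_mem_side hside).1
    have hc := (T.mem_table.mp (hfree ((t + t') / 2) (by linarith) (by linarith))) k
    rw [T.bc_unf hU] at ha hb hc
    have hm : (T.bc k).linear (dirVec (γ θ)) = 0 := by
      have h0 : (t' - t) * (T.bc k).linear (dirVec (γ θ)) = 0 := by linarith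
      rcases mul_eq_zero.mp h0 with h | h
      · linarith
      · exact h
    rw [hm] at ha hc
    linarith
  · change T.sideMirror k' (g (x + (t' : ℂ) * dirVec θ)) ∈ T.side k'
    rw [T.sideMirror_fix hside]
    exact hside

/-- Two points of two different sides which are close to each other are close to the
common vertex of the two sides. -/
private lemma nonacc_near (T : Triangle) {C L : ℝ}
    (hC : ∀ (k : Fin 3) (w : ℂ), |(T.bc k).linear w| ≤ C * ‖w‖) (hL : ∀ j, ‖T.sideVec j‖ ≤ L)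
    {k k' c : Fin 3} (hkk' : k ≠ k') (hck : c ≠ k) (hck' : c ≠ k') {P Z : ℂ}
    (hP : P ∈ T.side k) (hZ : Z ∈ T.side k') :
    ‖Z - T.vertex c‖ ≤ L * C * ‖Z - P‖ := by
  obtain ⟨s, -, -, hZeq⟩ := T.mem_side_iff.mp hZ
  have hv : ∃ s' : ℝ, Z - T.vertex c = s' • T.sideVec k' := by
    rcases fin3_cases k' c with h | h | h
    · exact absurd h hck'
    · refine ⟨s, ?_⟩
      rw [h, hZeq, Complex.real_smul]
      ring
    · refine ⟨s - 1, ?_⟩
      rw [h, hZeq, Complex.real_smul, sideVec]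
      push_cast
      ring
  obtain ⟨s', hs'⟩ := hv
  have h1 : T.bc k Z = s' * (T.bc k).linear (T.sideVec k') := by
    have h0 : (T.bc k).linear (Z - T.vertex c) = T.bc k Z - T.bc k (T.vertex c) :=
      T.bc_lin_sub k _ _
    rw [hs', map_smul, smul_eq_mul, T.bc_vertex_ne (Ne.symm hck), sub_zero] at h0
    exact h0.symm
  have h2 : |s'| = |T.bc k Z| := by
    rw [h1, abs_mul, T.abs_bc_lin_sideVec (Ne.symm hkk'), mul_one]
  have h3 : |T.bc k Z| ≤ C * ‖Z - P‖ := by
    have h0 : T.bc k Z = (T.bc k).linear (Z - P) := by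
      rw [T.bc_lin_sub, (T.bc_of_mem_side hP).1, sub_zero]
    rw [h0]
    exact hC k _
  have hL0 : 0 ≤ L := le_trans (norm_nonneg _) (hL 0)
  calc ‖Z - T.vertex c‖ = |s'| * ‖T.sideVec k'‖ := by
        rw [hs', norm_smul, Real.norm_eq_abs]
    _ ≤ |s'| * L := mul_le_mul_of_nonneg_left (hL k') (abs_nonneg _)
    _ ≤ (C * ‖Z - P‖) * L := by
        rw [h2]
        exact mul_le_mul_of_nonneg_right h3 hL0
    _ = L * C * ‖Z - P‖ := by ring

/-- The reflection in a side fixes the two end points of the side. -/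
private lemma nonacc_mirror_vertex (T : Triangle) {k c : Fin 3} (h : c ≠ k) :
    T.sideMirror k (T.vertex c) = T.vertex c := by
  rcases fin3_cases k c with h' | h' | h'
  · exact absurd h' h
  · have h0 := mirror_fix (T.sideVec_ne_zero k) (T.vertex (k + 1)) 0
    simp only [Complex.ofReal_zero, zero_mul, add_zero] at h0
    rw [h', sideMirror]
    exact h0
  · have e : T.vertex (k + 2) = T.vertex (k + 1) + ((1 : ℝ) : ℂ) * T.sideVec k := by
      rw [sideVec]
      push_cast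
      ring
    have h1 := mirror_fix (T.sideVec_ne_zero k) (T.vertex (k + 1)) 1
    rw [← e] at h1
    rw [h', sideMirror]
    exact h1

/-- The reflection in a side preserves the distance to a fixed point. -/
private lemma nonacc_mirror_norm (T : Triangle) (k : Fin 3) (y v : ℂ)
    (hv : T.sideMirror k v = v) : ‖T.sideMirror k y - v‖ = ‖y - v‖ := by
  have h := (Triangle.Unf.mirror T Unf.id k).norm_sub v y
  simp only [hv] at h
  exact h

/-- The reflection times are unbounded. -/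
private lemma nonacc_unbounded (T : Triangle) {x : ℂ} {θ : Dir} (hx : x ∈ T.table)
    (hns : ∀ i, (x, θ) ∉ T.Sing i) :
    ¬ BddAbove {t : ℝ | ∃ (g : ℂ → ℂ) (γ : Dir → Dir) (k : Fin 3), NaSt T x θ g γ t k} := by
  intro hbdd
  obtain ⟨g₀, γ₀, t₀, k₀, h₀⟩ := nonacc_init T hx hns
  obtain ⟨L, hL, hLb⟩ := T.exists_side_bound
  obtain ⟨C, hC, hCb⟩ := T.exists_bc_bound
  obtain ⟨A, hAdef⟩ : ∃ A : Set ℝ,
      A = {t : ℝ | ∃ (g : ℂ → ℂ) (γ : Dir → Dir) (k : Fin 3), NaSt T x θ g γ t k} := ⟨_, rfl⟩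
  rw [← hAdef] at hbdd
  have hmem : ∀ {g : ℂ → ℂ} {γ : Dir → Dir} {t : ℝ} {k : Fin 3}, NaSt T x θ g γ t k → t ∈ A := by
    intro g γ t k h
    rw [hAdef]
    exact ⟨g, γ, k, h⟩
  have hle : ∀ {g : ℂ → ℂ} {γ : Dir → Dir} {t : ℝ} {k : Fin 3},
      NaSt T x θ g γ t k → t ≤ sSup A := fun h => le_csSup hbdd (hmem h)
  obtain ⟨ε, hε⟩ : ∃ ε : ℝ, ε = 1 / (2 * C * (C * L + 1)) := ⟨_, rfl⟩
  have hεpos : 0 < ε := by
    rw [hε]
    positivity
  have hεC : C * (L * C * ε + ε) < 1 := by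
    have h0 : C * (L * C * ε + ε) = 1 / 2 := by
      rw [hε]
      field_simp
    linarith
  -- a state close to the supremum of the reflection times, and the next one
  obtain ⟨t₁, ht₁A, ht₁⟩ :=
    exists_lt_of_lt_csSup ⟨t₀, hmem h₀⟩ (by linarith : sSup A - ε < sSup A)
  rw [hAdef] at ht₁A
  obtain ⟨g₁, γ₁, k₁, h₁⟩ := ht₁A
  obtain ⟨t₂, k₂, ht₁₂, hk₁₂, hside₂, h₂⟩ := nonacc_step hns h₁
  have ht₂ : t₂ ≤ sSup A := hle h₂
  obtain ⟨c, hck₁, hck₂⟩ := nonacc_third k₁ k₂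
  obtain ⟨v, hv⟩ : ∃ v : ℂ, v = T.vertex c := ⟨_, rfl⟩
  have hP₂ : ‖g₁ (x + (t₂ : ℂ) * dirVec θ) - v‖ ≤ L * C * (t₂ - t₁) := by
    have h0 := nonacc_near T hCb hLb hk₁₂ hck₁ hck₂ h₁.2.2 hside₂
    rw [unf_norm_ray h₁.1, abs_of_pos (by linarith), ← hv] at h0
    exact h0
  obtain ⟨g₂, hg₂⟩ : ∃ g₂ : ℂ → ℂ, g₂ = fun z => T.sideMirror k₂ (g₁ z) := ⟨_, rfl⟩
  obtain ⟨γ₂, hγ₂⟩ : ∃ γ₂ : Dir → Dir, γ₂ = fun θ => T.reflect k₂ (γ₁ θ) := ⟨_, rfl⟩
  rw [← hg₂, ← hγ₂] at h₂
  have hP₂' : g₂ (x + (t₂ : ℂ) * dirVec θ) = g₁ (x + (t₂ : ℂ) * dirVec θ) := by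
    rw [hg₂]
    exact T.sideMirror_fix hside₂
  -- up to the supremum, the unfolded trajectory stays close to the vertex
  have hD : ∀ r : ℝ, t₂ ≤ r → r ≤ sSup A →
      ‖g₂ (x + (r : ℂ) * dirVec θ) - v‖ ≤ L * C * ε + ε := by
    intro r hr1 hr2
    have h1 : ‖g₂ (x + (r : ℂ) * dirVec θ) - g₂ (x + (t₂ : ℂ) * dirVec θ)‖ = |r - t₂| :=
      unf_norm_ray h₂.1 x θ t₂ r
    have h2 : g₂ (x + (r : ℂ) * dirVec θ) - v
        = (g₂ (x + (r : ℂ) * dirVec θ) - g₂ (x + (t₂ : ℂ) * dirVec θ))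
          + (g₂ (x + (t₂ : ℂ) * dirVec θ) - v) := by ring
    rw [h2]
    refine (norm_add_le _ _).trans ?_
    rw [h1, hP₂', abs_of_nonneg (by linarith)]
    have h3 : L * C * (t₂ - t₁) ≤ L * C * ε :=
      mul_le_mul_of_nonneg_left (by linarith) (by positivity)
    linarith
  -- one more reflection: it does not take place on the side opposite to the vertex
  have hinv : ∀ {g : ℂ → ℂ} {γ : Dir → Dir} {t : ℝ} {k : Fin 3}, NaSt T x θ g γ t k → k ≠ c →
      t₂ ≤ t → (∀ z, ‖g z - v‖ = ‖g₂ z - v‖) →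
      ∃ (t' : ℝ) (k' : Fin 3),
        NaSt T x θ (fun z => T.sideMirror k' (g z)) (fun θ => T.reflect k' (γ θ)) t' k' ∧
        k' ≠ c ∧ t < t' ∧ (∀ z, ‖T.sideMirror k' (g z) - v‖ = ‖g₂ z - v‖) ∧
        ‖g₂ (x + (t' : ℂ) * dirVec θ) - v‖ ≤ L * C * (t' - t) := by
    intro g γ t k h hkc htt hgz
    obtain ⟨t', k', htt', hkk', hside', h'⟩ := nonacc_step hns h
    have ht' : t' ≤ sSup A := hle h'
    have hk'c : k' ≠ c := by
      intro hk'c
      have hb0 : T.bc c (g (x + (t' : ℂ) * dirVec θ)) = 0 := by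
        rw [← hk'c]
        exact (T.bc_of_mem_side hside').1
      have hb1 := T.bc_vertex_self c
      have hb2 := hCb c (T.vertex c - g (x + (t' : ℂ) * dirVec θ))
      rw [T.bc_lin_sub, hb0, hb1, sub_zero, abs_one, ← hv, norm_sub_rev, hgz] at hb2
      have hb3 := hD t' (by linarith) ht'
      have hb4 : C * ‖g₂ (x + (t' : ℂ) * dirVec θ) - v‖ ≤ C * (L * C * ε + ε) :=
        mul_le_mul_of_nonneg_left hb3 hC.le
      linarith
    have hfix : T.sideMirror k' v = v := by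
      rw [hv]
      exact nonacc_mirror_vertex T (Ne.symm hk'c)
    refine ⟨t', k', h', hk'c, htt', ?_, ?_⟩
    · intro z
      rw [nonacc_mirror_norm T k' (g z) v hfix, hgz]
    · have h0 := nonacc_near T hCb hLb hkk' (Ne.symm hkc) (Ne.symm hk'c) h.2.2 hside'
      rw [unf_norm_ray h.1, abs_of_pos (by linarith), ← hv, hgz] at h0
      exact h0
  -- the unfolded straight line and the vertex
  obtain ⟨w, hw⟩ : ∃ w : ℂ, w = dirVec (γ₂ θ) := ⟨_, rfl⟩
  have hline : ∀ r : ℝ, g₂ (x + (r : ℂ) * dirVec θ) = g₂ x + (r : ℂ) * w := by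
    intro r
    rw [hw]
    exact h₂.1.ray x θ r
  have hwc : w * (starRingEnd ℂ) w = 1 := by
    rw [hw]
    exact dirVec_mul_conj _
  have hwn : ‖(starRingEnd ℂ) w‖ = 1 := by
    rw [RCLike.norm_conj, hw, norm_dirVec]
  obtain ⟨z₀, hz₀⟩ : ∃ z₀ : ℂ, z₀ = (g₂ x - v) * (starRingEnd ℂ) w := ⟨_, rfl⟩
  have hz : ∀ r : ℝ,
      (g₂ (x + (r : ℂ) * dirVec θ) - v) * (starRingEnd ℂ) w = z₀ + (r : ℂ) := by
    intro r
    rw [hline, hz₀]
    linear_combination (r : ℂ) * hwc
  have hnorm : ∀ r : ℝ, ‖g₂ (x + (r : ℂ) * dirVec θ) - v‖ = ‖z₀ + (r : ℂ)‖ := by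
    intro r
    rw [← hz r, norm_mul, hwn, mul_one]
  by_cases him : z₀.im = 0
  · -- the unfolded line passes through the vertex: impossible
    have hr₀ : g₂ (x + ((-z₀.re : ℝ) : ℂ) * dirVec θ) = v := by
      have h0 : ‖g₂ (x + ((-z₀.re : ℝ) : ℂ) * dirVec θ) - v‖ = 0 := by
        rw [hnorm]
        have h1 : z₀ + ((-z₀.re : ℝ) : ℂ) = 0 := by
          apply Complex.ext <;> simp [him]
        rw [h1, norm_zero]
      exact sub_eq_zero.mp (norm_eq_zero.mp h0)
    have hb0 : T.bc k₂ (g₂ (x + (t₂ : ℂ) * dirVec θ)) = 0 := (T.bc_of_mem_side h₂.2.2).1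
    have hbv : T.bc k₂ (g₂ (x + ((-z₀.re : ℝ) : ℂ) * dirVec θ)) = 0 := by
      rw [hr₀, hv]
      exact T.bc_vertex_ne (Ne.symm hck₂)
    obtain ⟨ε', hε', hfree'⟩ := h₂.2.1.2
    have hpos := (T.mem_table.mp (hfree' (t₂ + ε') (by linarith) le_rfl)) k₂
    by_cases hrt : -z₀.re = t₂
    · have hP₂v : g₂ (x + (t₂ : ℂ) * dirVec θ) = v := by
        rw [← hrt]
        exact hr₀
      have h3 := T.bc_of_mem_side h₂.2.2
      have h4 : 0 < T.bc k₁ (g₂ (x + (t₂ : ℂ) * dirVec θ)) := by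
        rcases fin3_cases k₂ k₁ with h | h | h
        · exact absurd h hk₁₂
        · rw [h]
          exact h3.2.1
        · rw [h]
          exact h3.2.2
      rw [hP₂v, hv, T.bc_vertex_ne (Ne.symm hck₁)] at h4
      exact lt_irrefl _ h4
    · rw [T.bc_unf h₂.1] at hb0 hbv hpos
      have hm : (T.bc k₂).linear (dirVec (γ₂ θ)) = 0 := by
        have h0 : (-z₀.re - t₂) * (T.bc k₂).linear (dirVec (γ₂ θ)) = 0 := by linarith
        rcases mul_eq_zero.mp h0 with h | h
        · exact absurd (sub_eq_zero.mp h) hrt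
        · exact h
      rw [hm] at hb0 hpos
      linarith
  · -- the unfolded line stays away from the vertex: every reflection takes a definite time
    have hd : ∀ r : ℝ, |z₀.im| ≤ ‖g₂ (x + (r : ℂ) * dirVec θ) - v‖ := by
      intro r
      rw [hnorm]
      have h0 : (z₀ + (r : ℂ)).im = z₀.im := by simp
      rw [← h0]
      exact Complex.abs_im_le_norm _
    have hdpos : 0 < |z₀.im| := abs_pos.mpr him
    obtain ⟨η, hη⟩ : ∃ η : ℝ, η = |z₀.im| / (L * C) := ⟨_, rfl⟩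
    have hηpos : 0 < η := by
      rw [hη]
      positivity
    have key : ∀ n : ℕ, ∃ (g : ℂ → ℂ) (γ : Dir → Dir) (t : ℝ) (k : Fin 3),
        NaSt T x θ g γ t k ∧ k ≠ c ∧ t₂ ≤ t ∧ (∀ z, ‖g z - v‖ = ‖g₂ z - v‖) ∧
        t₂ + n * η ≤ t := by
      intro n
      induction n with
      | zero => exact ⟨g₂, γ₂, t₂, k₂, h₂, Ne.symm hck₂, le_rfl, fun z => rfl, by simp⟩
      | succ n ih =>
        obtain ⟨g, γ, t, k, h, hkc, htt, hgz, hn⟩ := ih
        obtain ⟨t', k', h', hk'c, htt', hgz', hbound⟩ := hinv h hkc htt hgz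
        refine ⟨_, _, t', k', h', hk'c, by linarith, hgz', ?_⟩
        have h5 := hd t'
        have h6 : η ≤ t' - t := by
          rw [hη, div_le_iff₀ (by positivity)]
          linarith
        push_cast
        linarith
    obtain ⟨n, hn⟩ := exists_nat_gt ((sSup A - t₂) / η)
    obtain ⟨g, γ, t, k, h, -, -, -, hnt⟩ := key n
    have h7 := hle h
    rw [div_lt_iff₀ hηpos] at hn
    linarith

/-- If the trajectory issued from the phase point `(x, θ)` of the table does not run into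
a vertex, then for every `S` there is a time `t ≥ S` up to which it is defined, with its
point at the time `t` in the open table. -/
theorem exists_dom_ge (T : Triangle) {x : ℂ} {θ : Dir} (hx : x ∈ T.table)
    (hns : ∀ i, (x, θ) ∉ T.Sing i) (S : ℝ) : ∃ t : ℝ, S ≤ t ∧ (x, θ) ∈ T.Dom t := by
  obtain ⟨t, ⟨g, γ, k, hU, hE, -⟩, hSt⟩ := not_bddAbove_iff.mp (nonacc_unbounded T hx hns) S
  obtain ⟨ε, hε, hfree⟩ := hE.2
  refine ⟨t + ε, by linarith, hx, (g (x + ((t + ε : ℝ) : ℂ) * dirVec θ), γ θ), ?_, ?_⟩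
  · exact entering_reach hU hE (by linarith) (fun r h1 h2 => hfree r h1 h2)
  · exact hfree (t + ε) (by linarith) le_rfl

end Triangle

end Vale.Agent.Lib.P099
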