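import Vale.Agent.Lib.P099.BVBackward
import Vale.Agent.Lib.P099.BVNonAcc
import Vale.Agent.Lib.P099.BVExcept

/-!
# Billiards in a triangle: the transversal estimate on compact sets
-/

namespace Vale.Agent.Lib.P099

open MeasureTheory

namespace Triangle

/-- The set of the phase points of the table whose trajectory is defined beyond the time
`2 s` is open. -/
private theorem isOpen_domSet_local (T : Triangle) (s : ℝ) (hs : 1 ≤ s) :
    IsOpen {p : ℂ × Dir | p.1 ∈ T.table ∧ ∃ t : ℝ, 2 * s < t ∧ p ∈ T.Dom t} := by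
  rw [Metric.isOpen_iff]
  rintro p ⟨_, t, ht, hpt⟩
  have ht0 : 0 < t := by linarith
  obtain ⟨g, γ, ε, _, _, hε, hch⟩ := T.exists_chart ht0 hpt
  refine ⟨ε, hε, fun p' hp' => ?_⟩
  have hd : dist p' p < ε := Metric.mem_ball.mp hp'
  have ht' : |t - t| < ε := by
    rw [sub_self, abs_zero]
    exact hε
  have h := hch p' t hd ht'
  refine ⟨h.1, t, ht, ?_⟩
  show p'.1 ∈ T.table ∧ ∃ q : ℂ × Dir, T.Reach t p' q ∧ q.1 ∈ T.table
  exact ⟨h.1, _, h.2.1, h.2.2⟩

/-- The reversal of the directions is continuous. -/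
private theorem continuous_reverse_local : Continuous (reverse : ℂ × Dir → ℂ × Dir) := by
  unfold reverse
  exact continuous_fst.prodMk (continuous_snd.add continuous_const)

/-- The set of the phase points of the table whose backward trajectory is defined beyond
the time `2 s` is open. -/
private theorem isOpen_domSet_bwd_local (T : Triangle) (s : ℝ) (hs : 1 ≤ s) :
    IsOpen {p : ℂ × Dir | p.1 ∈ T.table ∧ ∃ t : ℝ, 2 * s < t ∧ reverse p ∈ T.Dom t} :=
  (isOpen_domSet_local T s hs).preimage continuous_reverse_local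

/-- There is a countable set `E` of directions such that the estimates of
`local_bound_fwd` and `local_bound_bwd` give, on every compact set `K` of phase points of
the table with directions outside `E`: for small `h`, the variation of `F` under the
transversal translation `trv h` is at most a constant times `|h| / s`. -/
theorem local_bound (T : Triangle) :
    ∃ E : Set Dir, E.Countable ∧ ∀ (F : ℂ × Dir → ℂ) (_hF : Measurable F) (lam C : ℝ)
      (_hinv : ∀ t : ℝ, (fun p => F (T.flow t p)) =ᵐ[T.leb]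
        fun p => Complex.exp (lam * t * Complex.I) * F p)
      (_hBV : ∀ δ : ℝ, ∫⁻ p, ‖F (rotD δ p) - F p‖ₑ ∂T.leb ≤ ENNReal.ofReal (C * |δ|))
      (s : ℝ) (_hs : 1 ≤ s) (K : Set (ℂ × Dir)) (_hK : IsCompact K)
      (_hKE : ∀ p ∈ K, p.1 ∈ T.table ∧ p.2 ∉ E),
      ∃ h₀ : ℝ, 0 < h₀ ∧ ∀ h : ℝ, |h| < h₀ →
        ∫⁻ p in K, ‖F (trv h p) - F p‖ₑ ∂T.leb
          ≤ ENNReal.ofReal (|h| / s) * (2 * (ENNReal.ofReal (20 * C)
            + ENNReal.ofReal (20 * |lam|) * ∫⁻ p, ‖F p‖ₑ ∂T.leb)) := by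
  obtain ⟨E, hE, hEprop⟩ := T.exists_countable_exceptional
  refine ⟨E, hE, ?_⟩
  intro F hF lam C hinv hBV s hs K hK hKE
  have hU := isOpen_domSet_local T s hs
  have hV := isOpen_domSet_bwd_local T s hs
  have hcov : K ⊆ {p : ℂ × Dir | p.1 ∈ T.table ∧ ∃ t : ℝ, 2 * s < t ∧ p ∈ T.Dom t} ∪
      {p : ℂ × Dir | p.1 ∈ T.table ∧ ∃ t : ℝ, 2 * s < t ∧ reverse p ∈ T.Dom t} := by
    intro p hp
    obtain ⟨hp1, hp2⟩ := hKE p hp
    rcases hEprop p.2 hp2 p.1 hp1 with h | h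
    · left
      obtain ⟨t, ht, hdom⟩ := T.exists_dom_ge hp1 h (2 * s + 1)
      exact ⟨hp1, t, by linarith, hdom⟩
    · right
      obtain ⟨t, ht, hdom⟩ := T.exists_dom_ge hp1 h (2 * s + 1)
      exact ⟨hp1, t, by linarith, hdom⟩
  obtain ⟨K₁, K₂, hK₁, hK₂, hK₁U, hK₂V, hKeq⟩ := hK.binary_compact_cover hU hV hcov
  obtain ⟨h₁, hh₁, hb₁⟩ := T.local_bound_fwd F hF lam C hinv hBV s hs K₁ hK₁
    (fun p hp => hK₁U hp)
  obtain ⟨h₂, hh₂, hb₂⟩ := T.local_bound_bwd F hF lam C hinv hBV s hs K₂ hK₂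
    (fun p hp => hK₂V hp)
  refine ⟨min h₁ h₂, lt_min hh₁ hh₂, fun h hh => ?_⟩
  have e1 := hb₁ h (lt_of_lt_of_le hh (min_le_left _ _))
  have e2 := hb₂ h (lt_of_lt_of_le hh (min_le_right _ _))
  rw [hKeq]
  calc ∫⁻ p in K₁ ∪ K₂, ‖F (trv h p) - F p‖ₑ ∂T.leb
      ≤ ∫⁻ p in K₁, ‖F (trv h p) - F p‖ₑ ∂T.leb
        + ∫⁻ p in K₂, ‖F (trv h p) - F p‖ₑ ∂T.leb := lintegral_union_le _ _ _
    _ ≤ ENNReal.ofReal (|h| / s) * (ENNReal.ofReal (20 * C)
          + ENNReal.ofReal (20 * |lam|) * ∫⁻ p, ‖F p‖ₑ ∂T.leb)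
        + ENNReal.ofReal (|h| / s) * (ENNReal.ofReal (20 * C)
          + ENNReal.ofReal (20 * |lam|) * ∫⁻ p, ‖F p‖ₑ ∂T.leb) := add_le_add e1 e2
    _ = ENNReal.ofReal (|h| / s) * (2 * (ENNReal.ofReal (20 * C)
          + ENNReal.ofReal (20 * |lam|) * ∫⁻ p, ‖F p‖ₑ ∂T.leb)) := by
      rw [← two_mul, mul_left_comm]

end Triangle

end Vale.Agent.Lib.P099
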