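import Mathlib

/-!
# Functions of the plane invariant along a direction: definitions

`rdot w x` is the real inner product of two points of the plane `ℂ`.  A function `h` is
(almost everywhere, locally on a set `Q`) invariant along the direction `v` with frequency
`lam` when `h (x + t v) = exp (i lam t) h x` for almost every `x` such that `x` and
`x + t v` are in `Q`, for every positive rational `t`.
-/

namespace Vale.Agent.Lib.P099

open MeasureTheory

/-- The real inner product of two points of the plane `ℂ`. -/
def rdot (w x : ℂ) : ℝ := (starRingEnd ℂ w * x).re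

/-- `TwInv Q v lam h`: for every rational `t > 0` and almost every `x` with `x ∈ Q` and
`x + t v ∈ Q`, `h (x + t v) = exp (i lam t) h x`. -/
def TwInv (Q : Set ℂ) (v : ℂ) (lam : ℝ) (h : ℂ → ℂ) : Prop :=
  ∀ t : ℚ, 0 < t → ∀ᵐ x ∂(volume : Measure ℂ), x ∈ Q → x + ((t : ℝ) : ℂ) * v ∈ Q →
    h (x + ((t : ℝ) : ℂ) * v) = Complex.exp (lam * (t : ℝ) * Complex.I) * h x

/-- For two unit vectors `v`, `u` with `u ≠ -v`, the point `w` of the plane with
`rdot w v = 1` and `rdot w u = 1`. -/
noncomputable def pole (v u : ℂ) : ℂ := (((1 + rdot v u)⁻¹ : ℝ) : ℂ) * (v + u)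

end Vale.Agent.Lib.P099
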