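import Vale.Agent.Lib.P099.BVDefs
import Vale.Agent.Lib.P099.RidgeDefs

/-!
# Billiards in a triangle: changes of measure and slices
-/

namespace Vale.Agent.Lib.P099

open MeasureTheory

namespace Triangle

/-- The Lebesgue integral over the phase space is the integral for the invariant probability
measure multiplied by the total mass. -/
private theorem bvPrep_lintegral_leb (T : Triangle) (f : ℂ × Dir → ENNReal) :
    ∫⁻ p, f p ∂T.leb
      = (ENNReal.ofReal (2 * Real.pi) * volume T.table) * ∫⁻ p, f p ∂T.mu := by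
  have hk0 : ENNReal.ofReal (2 * Real.pi) * volume T.table ≠ 0 := by
    refine mul_ne_zero ?_ T.volume_table_pos.ne'
    rw [Ne, ENNReal.ofReal_eq_zero, not_le]
    exact mul_pos two_pos Real.pi_pos
  have hktop : ENNReal.ofReal (2 * Real.pi) * volume T.table ≠ ⊤ :=
    ENNReal.mul_ne_top ENNReal.ofReal_ne_top T.volume_table_ne_top
  have h1 : ∫⁻ p, f p ∂T.mu
      = (ENNReal.ofReal (2 * Real.pi) * volume T.table)⁻¹ * ∫⁻ p, f p ∂T.leb := by
    unfold mu leb
    rw [lintegral_smul_measure, smul_eq_mul]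
  rw [h1, ← mul_assoc, ENNReal.mul_inv_cancel hk0 hktop, one_mul]

private theorem bvPrep_mass_ne_top (T : Triangle) :
    ENNReal.ofReal (2 * Real.pi) * volume T.table ≠ ⊤ :=
  ENNReal.mul_ne_top ENNReal.ofReal_ne_top T.volume_table_ne_top

/-- A bound of the mean variation under the rotations of the directions with respect to
the invariant probability measure gives such a bound with respect to the Lebesgue
measure of the phase space. -/
theorem bv_leb (T : Triangle) (F : ℂ × Dir → ℂ) (C : ℝ)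
    (hBV : ∀ δ : ℝ, ∫⁻ p, ‖F (p.1, p.2 + (δ : Dir)) - F p‖ₑ ∂T.mu
      ≤ ENNReal.ofReal (C * |δ|)) :
    ∃ C' : ℝ, ∀ δ : ℝ, ∫⁻ p, ‖F (rotD δ p) - F p‖ₑ ∂T.leb ≤ ENNReal.ofReal (C' * |δ|) := by
  refine ⟨(ENNReal.ofReal (2 * Real.pi) * volume T.table).toReal * C, fun δ => ?_⟩
  have e : ENNReal.ofReal ((ENNReal.ofReal (2 * Real.pi) * volume T.table).toReal * C * |δ|)
      = (ENNReal.ofReal (2 * Real.pi) * volume T.table) * ENNReal.ofReal (C * |δ|) := by
    rw [mul_assoc, ENNReal.ofReal_mul ENNReal.toReal_nonneg,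
      ENNReal.ofReal_toReal (bvPrep_mass_ne_top T)]
  rw [bvPrep_lintegral_leb, e]
  gcongr
  exact hBV δ

/-- A function integrable for the invariant probability measure has a finite integral for
the Lebesgue measure of the phase space. -/
theorem lintegral_leb_ne_top (T : Triangle) (F : ℂ × Dir → ℂ) (hFi : Integrable F T.mu) :
    ∫⁻ p, ‖F p‖ₑ ∂T.leb ≠ ⊤ := by
  rw [bvPrep_lintegral_leb]
  exact ENNReal.mul_ne_top (bvPrep_mass_ne_top T) hFi.hasFiniteIntegral.ne

/-- Invariance under the transversal translations, read on the slices. -/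
theorem ae_slice_trv (T : Triangle) (F : ℂ × Dir → ℂ)
    (h : ∀ a : ℝ, ∀ᵐ p ∂T.leb, (trv a p).1 ∈ T.table → F (trv a p) = F p) :
    ∀ᵐ θ ∂(volume : Measure Dir),
      TwInv T.table (Complex.I * dirVec θ) 0 (fun x => F (x, θ)) := by
  have key : ∀ t : ℚ, 0 < t → ∀ᵐ θ ∂(volume : Measure Dir),
      ∀ᵐ x ∂(volume : Measure ℂ), x ∈ T.table →
        x + ((t : ℝ) : ℂ) * (Complex.I * dirVec θ) ∈ T.table →
        F (x + ((t : ℝ) : ℂ) * (Complex.I * dirVec θ), θ)
          = Complex.exp (((0 : ℝ) : ℂ) * (t : ℝ) * Complex.I) * F (x, θ) := by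
    intro t _
    have h0 := h (t : ℝ)
    have h1 : ∀ᵐ p ∂T.leb, p.1 ∈ T.table →
        p.1 + ((t : ℝ) : ℂ) * (Complex.I * dirVec p.2) ∈ T.table →
        F (p.1 + ((t : ℝ) : ℂ) * (Complex.I * dirVec p.2), p.2)
          = Complex.exp (((0 : ℝ) : ℂ) * (t : ℝ) * Complex.I) * F (p.1, p.2) := by
      filter_upwards [h0] with p hp _ hy
      have h2 : F (trv (t : ℝ) p) = F p := hp hy
      have h3 : Complex.exp (((0 : ℝ) : ℂ) * (t : ℝ) * Complex.I) = 1 := by
        rw [Complex.ofReal_zero, zero_mul, zero_mul, Complex.exp_zero]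
      rw [h3, one_mul]
      exact h2
    have hsw : MeasurePreserving Prod.swap
        ((volume : Measure Dir).prod (volume.restrict T.table)) T.leb :=
      Measure.measurePreserving_swap
    have h2 := hsw.quasiMeasurePreserving.ae h1
    have h3 := Measure.ae_ae_of_ae_prod h2
    filter_upwards [h3] with θ hθ
    rw [ae_restrict_iff' T.isOpen_table.measurableSet] at hθ
    filter_upwards [hθ] with x hx hxT hyT
    exact hx hxT hxT hyT
  have hall : ∀ᵐ θ ∂(volume : Measure Dir), ∀ t : ℚ, 0 < t →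
      ∀ᵐ x ∂(volume : Measure ℂ), x ∈ T.table →
        x + ((t : ℝ) : ℂ) * (Complex.I * dirVec θ) ∈ T.table →
        F (x + ((t : ℝ) : ℂ) * (Complex.I * dirVec θ), θ)
          = Complex.exp (((0 : ℝ) : ℂ) * (t : ℝ) * Complex.I) * F (x, θ) := by
    rw [ae_all_iff]
    intro t
    by_cases ht : 0 < t
    · filter_upwards [key t ht] with θ hθ _ using hθ
    · exact Filter.Eventually.of_forall (fun θ h => absurd h ht)
  filter_upwards [hall] with θ hθ
  exact hθ

end Triangle

end Vale.Agent.Lib.P099
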