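import Vale.Agent.Lib.P099.Flow

/-!
# Billiards in a triangle: invariant functions that are entire in the position
-/

namespace Vale.Agent.Lib.P099

open MeasureTheory Set Filter Topology

/-- Lebesgue measure on `Q × Dir`, without normalization. -/
noncomputable def Triangle.leb (T : Triangle) : Measure (ℂ × Dir) :=
  (volume.restrict T.table).prod (volume : Measure Dir)

namespace Triangle

variable (T : Triangle)

lemma volume_table_ne_top : volume T.table ≠ ⊤ := by
  have hsub : T.table ⊆ convexHull ℝ (Set.range T.vertex) := interior_subset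
  have hc : IsCompact (convexHull ℝ (Set.range T.vertex)) :=
    (Set.finite_range T.vertex).isCompact_convexHull ℝ
  exact ((measure_mono hsub).trans_lt hc.measure_lt_top).ne

lemma volume_table_pos : 0 < volume T.table :=
  T.isOpen_table.measure_pos volume T.table_nonempty

lemma ae_mu : ae T.mu = ae T.leb := by
  unfold mu leb
  apply Measure.ae_ennreal_smul_measure_eq
  rw [Ne, ENNReal.inv_eq_zero]
  exact ENNReal.mul_ne_top ENNReal.ofReal_ne_top T.volume_table_ne_top

/-- Fubini and the identity principle: an identity between two functions which are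
entire in the position, valid almost everywhere on a set with open slices inside the
table, holds for almost every direction (with nonempty slice) at all positions. -/
lemma ae_slice_identity {V : Set (ℂ × Dir)} (hVopen : ∀ θ : Dir, IsOpen {x : ℂ | (x, θ) ∈ V})
    (hVsub : ∀ (x : ℂ) (θ : Dir), (x, θ) ∈ V → x ∈ T.table) {g h : ℂ → Dir → ℂ}
    (hg : ∀ θ : Dir, AnalyticOnNhd ℝ (fun x : ℂ => g x θ) Set.univ)
    (hh : ∀ θ : Dir, AnalyticOnNhd ℝ (fun x : ℂ => h x θ) Set.univ)
    (hae : ∀ᵐ p ∂T.leb, p ∈ V → g p.1 p.2 = h p.1 p.2) :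
    ∀ᵐ θ ∂(volume : Measure Dir), (∃ x : ℂ, (x, θ) ∈ V) → ∀ x : ℂ, g x θ = h x θ := by
  have hsw : MeasurePreserving Prod.swap
      ((volume : Measure Dir).prod (volume.restrict T.table)) T.leb :=
    Measure.measurePreserving_swap
  have h1 := hsw.quasiMeasurePreserving.ae hae
  have h2 := Measure.ae_ae_of_ae_prod h1
  filter_upwards [h2] with θ hθ
  rintro ⟨x₀, hx₀⟩
  have hU : IsOpen {x : ℂ | (x, θ) ∈ V} := hVopen θ
  have hsub : {x : ℂ | (x, θ) ∈ V} ⊆ T.table := fun x hx => hVsub x θ hx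
  have hae' : (fun x : ℂ => g x θ) =ᵐ[volume.restrict {x : ℂ | (x, θ) ∈ V}]
      (fun x : ℂ => h x θ) := by
    have h3 := ae_restrict_of_ae_restrict_of_subset hsub hθ
    filter_upwards [h3, ae_restrict_mem hU.measurableSet] with x hx hxU
    exact hx hxU
  have heq : EqOn (fun x : ℂ => g x θ) (fun x : ℂ => h x θ) {x : ℂ | (x, θ) ∈ V} :=
    Measure.eqOn_open_of_ae_eq hae' hU ((hg θ).continuousOn.mono (subset_univ _))
      ((hh θ).continuousOn.mono (subset_univ _))
  have hev : (fun x : ℂ => g x θ) =ᶠ[𝓝 x₀] (fun x : ℂ => h x θ) :=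
    heq.eventuallyEq_of_mem (hU.mem_nhds hx₀)
  have hfun := (hg θ).eq_of_eventuallyEq (hh θ) hev
  intro x
  exact congrFun hfun x

lemma analytic_shift {F : ℂ × Dir → ℂ}
    (hFa : ∀ θ : Dir, AnalyticOnNhd ℝ (fun x : ℂ => F (x, θ)) Set.univ) (c : ℂ) (θ : Dir) :
    AnalyticOnNhd ℝ (fun x : ℂ => F (x + c, θ)) Set.univ := by
  have h1 : AnalyticOnNhd ℝ (fun x : ℂ => x + c) univ :=
    analyticOnNhd_id.add analyticOnNhd_const
  exact (hFa θ).comp h1 (mapsTo_univ _ _)

lemma analytic_mirror {F : ℂ × Dir → ℂ}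
    (hFa : ∀ θ : Dir, AnalyticOnNhd ℝ (fun x : ℂ => F (x, θ)) Set.univ) (P d c : ℂ) (θ : Dir) :
    AnalyticOnNhd ℝ (fun x : ℂ => F (mirror P d (x + c), θ)) Set.univ := by
  have h0 : AnalyticOnNhd ℝ (fun x : ℂ => (starRingEnd ℂ) x) univ :=
    Complex.conjCLE.analyticOnNhd _
  have h1 : AnalyticOnNhd ℝ (fun x : ℂ => x + c - P) univ :=
    (analyticOnNhd_id.add analyticOnNhd_const).sub analyticOnNhd_const
  have h2 : AnalyticOnNhd ℝ (fun x : ℂ => (starRingEnd ℂ) (x + c - P)) univ :=
    h0.comp h1 (mapsTo_univ _ _)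
  have h3 : AnalyticOnNhd ℝ (fun x : ℂ => mirror P d (x + c)) univ := by
    unfold mirror
    exact analyticOnNhd_const.add (analyticOnNhd_const.mul h2)
  exact (hFa θ).comp h3 (mapsTo_univ _ _)

lemma analytic_const_mul {F : ℂ × Dir → ℂ}
    (hFa : ∀ θ : Dir, AnalyticOnNhd ℝ (fun x : ℂ => F (x, θ)) Set.univ) (a : ℂ) (θ : Dir) :
    AnalyticOnNhd ℝ (fun x : ℂ => a * F (x, θ)) Set.univ :=
  analyticOnNhd_const.mul (hFa θ)

section steps

variable {T} {F : ℂ × Dir → ℂ} {lam : ℝ}

/-- Step 1 (free flight): the extension is covariant under translations along the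
direction, for small times. -/
lemma step_free (hFa : ∀ θ : Dir, AnalyticOnNhd ℝ (fun x : ℂ => F (x, θ)) Set.univ)
    (hinv : ∀ t : ℝ, (fun p => F (T.flow t p)) =ᵐ[T.mu]
      fun p => Complex.exp (lam * t * Complex.I) * F p)
    {c : ℂ} {δ : ℝ} (hball : Metric.ball c (2 * δ) ⊆ T.table) (hδ : 0 < δ)
    {t : ℝ} (ht : 0 ≤ t) (htδ : t < δ) :
    ∀ᵐ θ ∂(volume : Measure Dir), ∀ x : ℂ,
      F (x + (t : ℂ) * dirVec θ, θ) = Complex.exp (lam * t * Complex.I) * F (x, θ) := by
  have hae : ∀ᵐ p ∂T.leb, p ∈ (Metric.ball c δ ×ˢ (univ : Set Dir)) →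
      F (p.1 + (t : ℂ) * dirVec p.2, p.2) = Complex.exp (lam * t * Complex.I) * F p := by
    have h := hinv t
    rw [Filter.EventuallyEq, T.ae_mu] at h
    filter_upwards [h] with p hp hpV
    rw [← hp]
    congr 1
    obtain ⟨x, θ⟩ := p
    exact (T.flow_free_ball hball ht htδ hpV.1 θ).symm
  have hsl : ∀ θ : Dir, {x : ℂ | (x, θ) ∈ Metric.ball c δ ×ˢ (univ : Set Dir)}
      = Metric.ball c δ := by
    intro θ; ext x; simp
  have key := T.ae_slice_identity (V := Metric.ball c δ ×ˢ (univ : Set Dir))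
    (g := fun x θ => F (x + (t : ℂ) * dirVec θ, θ))
    (h := fun x θ => Complex.exp (lam * t * Complex.I) * F (x, θ))
    (fun θ => by rw [hsl θ]; exact Metric.isOpen_ball)
    (fun x θ hx => hball (Metric.ball_subset_ball (by linarith) hx.1))
    (fun θ => analytic_shift hFa ((t : ℂ) * dirVec θ) θ)
    (fun θ => analytic_const_mul hFa (Complex.exp (lam * t * Complex.I)) θ) hae
  filter_upwards [key] with θ hθ
  exact hθ ⟨c, by simp [hδ]⟩

/-- Step 2 (one reflection): for almost every direction pointing towards the side `i`,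
the extension is invariant under the reflection in this side. -/
lemma step_bounce (hFa : ∀ θ : Dir, AnalyticOnNhd ℝ (fun x : ℂ => F (x, θ)) Set.univ)
    (hinv : ∀ t : ℝ, (fun p => F (T.flow t p)) =ᵐ[T.mu]
      fun p => Complex.exp (lam * t * Complex.I) * F p) (i : Fin 3) :
    ∀ᵐ θ ∂(volume : Measure Dir), (T.bc i).linear (dirVec θ) < 0 →
      ∀ y : ℂ, F (T.sideMirror i y, T.reflect i θ) = F (y, θ) := by
  obtain ⟨c, δ, hδ, hfree⟩ := T.exists_free_ball
  obtain ⟨ε, hε, hside⟩ := T.exists_side_ball i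
  set t : ℝ := min δ ε / 2 with ht_def
  have hmin : 0 < min δ ε := lt_min hδ hε
  have ht : 0 < t := by rw [ht_def]; linarith
  have htδ : t < δ := by
    have := min_le_left δ ε
    rw [ht_def]; linarith
  have htε : 3 * t < 2 * ε := by
    have := min_le_right δ ε
    rw [ht_def]; linarith
  set V : Set (ℂ × Dir) := {p | dist p.1 (T.sideMid i) < ε - t ∧ 0 < T.bc i p.1 ∧
    T.bc i p.1 + t * (T.bc i).linear (dirVec p.2) < 0} with hV
  have hae : ∀ᵐ p ∂T.leb, p ∈ V →
      F (T.sideMirror i (p.1 + (t : ℂ) * dirVec p.2), T.reflect i p.2)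
        = Complex.exp (lam * t * Complex.I) * F p := by
    have h := hinv t
    rw [Filter.EventuallyEq, T.ae_mu] at h
    filter_upwards [h] with p hp hpV
    rw [← hp]
    congr 1
    obtain ⟨x, θ⟩ := p
    exact (T.flow_bounce_ball i hside ht hpV.1 hpV.2.1 hpV.2.2).symm
  have hopen : ∀ θ : Dir, IsOpen {x : ℂ | (x, θ) ∈ V} := by
    intro θ
    have h1 : IsOpen {x : ℂ | dist x (T.sideMid i) < ε - t} :=
      isOpen_lt (continuous_id.dist continuous_const) continuous_const
    have h2 : IsOpen {x : ℂ | 0 < T.bc i x} := isOpen_lt continuous_const (T.bc_continuous i)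
    have h3 : IsOpen {x : ℂ | T.bc i x + t * (T.bc i).linear (dirVec θ) < 0} :=
      isOpen_lt ((T.bc_continuous i).add continuous_const) continuous_const
    exact h1.inter (h2.inter h3)
  have hsub : ∀ (x : ℂ) (θ : Dir), (x, θ) ∈ V → x ∈ T.table := by
    intro x θ hx
    have hxb : x ∈ Metric.ball (T.sideMid i) ε := by
      rw [Metric.mem_ball]; have := hx.1; simp only at this; linarith
    rw [T.mem_table]
    intro j
    rcases fin3_cases i j with rfl | rfl | rfl
    · exact hx.2.1
    · exact (hside x hxb).1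
    · exact (hside x hxb).2
  have key := T.ae_slice_identity (V := V)
    (g := fun x θ => F (T.sideMirror i (x + (t : ℂ) * dirVec θ), T.reflect i θ))
    (h := fun x θ => Complex.exp (lam * t * Complex.I) * F (x, θ))
    hopen hsub
    (fun θ => analytic_mirror hFa (T.vertex (i + 1)) (T.sideVec i) ((t : ℂ) * dirVec θ)
      (T.reflect i θ))
    (fun θ => analytic_const_mul hFa (Complex.exp (lam * t * Complex.I)) θ) hae
  have hfr := step_free hFa hinv hfree hδ ht.le htδ
  filter_upwards [key, hfr] with θ hθ hθ' hl y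
  have hne : ∃ x : ℂ, (x, θ) ∈ V := by
    refine ⟨T.sideMid i + ((-(t / 2) : ℝ) : ℂ) * dirVec θ, ?_, ?_, ?_⟩
    · simp only
      rw [dist_eq_norm, add_sub_cancel_left, norm_ofReal_mul_dirVec, abs_neg, abs_of_pos (by linarith)]
      linarith
    · simp only
      rw [T.bc_add_smul, (T.bc_of_mem_side (T.sideMid_mem_side i)).1]
      nlinarith
    · simp only
      rw [T.bc_add_smul, (T.bc_of_mem_side (T.sideMid_mem_side i)).1]
      nlinarith
  have h1 := hθ hne (y - (t : ℂ) * dirVec θ)
  have h2 := hθ' (y - (t : ℂ) * dirVec θ)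
  simp only [sub_add_cancel] at h1 h2
  rw [h1, h2]

end steps

end Triangle

end Vale.Agent.Lib.P099
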