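import Vale.Agent.Lib.P099.RidgeDefs
import Vale.Agent.Lib.P099.Core

/-!
# Billiards in a triangle: a representative with exponential slices
-/

namespace Vale.Agent.Lib.P099

open MeasureTheory

namespace Triangle

/-- The real inner product with a fixed point is real-analytic. -/
private theorem rep_analyticAt_rdot (w : ℂ) (x : ℂ) :
    AnalyticAt ℝ (fun x : ℂ => ((rdot w x : ℝ) : ℂ)) x := by
  have h1 : AnalyticAt ℝ (fun x : ℂ => rdot w x) x := by
    have e : (fun x : ℂ => rdot w x)
        = fun x : ℂ => w.re * Complex.reCLM x + w.im * Complex.imCLM x := by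
      funext x
      simp [rdot]
    rw [e]
    exact (analyticAt_const.mul (Complex.reCLM.analyticAt x)).add
      (analyticAt_const.mul (Complex.imCLM.analyticAt x))
  exact (Complex.ofRealCLM.analyticAt _).comp h1

/-- A constant times an exponential of the inner product is real-analytic. -/
private theorem rep_analyticAt_exp (lam : ℝ) (c w x : ℂ) :
    AnalyticAt ℝ (fun x : ℂ => c * Complex.exp (lam * rdot w x * Complex.I)) x := by
  have h : AnalyticAt ℂ (fun z : ℂ => c * Complex.exp (lam * z * Complex.I))
      ((rdot w x : ℝ) : ℂ) := by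
    apply Differentiable.analyticAt
    fun_prop
  exact AnalyticAt.comp (g := fun z : ℂ => c * Complex.exp (lam * z * Complex.I))
    (f := fun x : ℂ => ((rdot w x : ℝ) : ℂ)) h.restrictScalars (rep_analyticAt_rdot w x)

/-- The inner product of the direction with the position is jointly continuous. -/
private theorem rep_continuous_rdot :
    Continuous (fun p : ℂ × Dir => rdot (dirVec p.2) p.1) := by
  have hd : Continuous dirVec := by
    unfold dirVec
    fun_prop
  unfold rdot
  fun_prop

/-- The coefficient of the slice in the direction `θ`: the mean over the table of the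
function multiplied by the inverse exponential. -/
private noncomputable def repC (T : Triangle) (F : ℂ × Dir → ℂ) (lam : ℝ) (θ : Dir) : ℂ :=
  (((volume T.table).toReal : ℝ) : ℂ)⁻¹ *
    ∫ x in T.table, F (x, θ) * Complex.exp (-(lam * rdot (dirVec θ) x * Complex.I))

private theorem rep_measurable_repC (T : Triangle) (F : ℂ × Dir → ℂ) (hF : Measurable F)
    (lam : ℝ) : Measurable (repC T F lam) := by
  have hEic : Continuous (fun p : ℂ × Dir =>
      Complex.exp (-(lam * rdot (dirVec p.2) p.1 * Complex.I))) := by
    have h := rep_continuous_rdot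
    fun_prop
  have hint : Measurable (fun p : ℂ × Dir =>
      F p * Complex.exp (-(lam * rdot (dirVec p.2) p.1 * Complex.I))) :=
    hF.mul hEic.measurable
  have hcm : Measurable (fun θ : Dir =>
      ∫ x in T.table, F (x, θ) * Complex.exp (-(lam * rdot (dirVec θ) x * Complex.I))) :=
    (hint.stronglyMeasurable.integral_prod_left' (μ := volume.restrict T.table)).measurable
  unfold repC
  exact measurable_const.mul hcm

/-- The coefficient equals the constant of the slice when the slice is an exponential. -/
private theorem rep_coeff (T : Triangle) (F : ℂ × Dir → ℂ) (lam : ℝ) (θ : Dir) (c : ℂ)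
    (h : ∀ᵐ x ∂(volume : Measure ℂ), x ∈ T.table →
      F (x, θ) = c * Complex.exp (lam * rdot (dirVec θ) x * Complex.I)) :
    repC T F lam θ = c := by
  have hmeasT : MeasurableSet T.table := T.isOpen_table.measurableSet
  have h1 : ∫ x in T.table, F (x, θ) * Complex.exp (-(lam * rdot (dirVec θ) x * Complex.I))
      = ∫ _ in T.table, c := by
    apply setIntegral_congr_ae hmeasT
    filter_upwards [h] with x hx hxT
    rw [hx hxT, mul_assoc, ← Complex.exp_add, add_neg_cancel, Complex.exp_zero, mul_one]
  have hV : (volume T.table).toReal ≠ 0 :=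
    (ENNReal.toReal_pos T.volume_table_pos.ne' T.volume_table_ne_top).ne'
  have hVc : (((volume T.table).toReal : ℝ) : ℂ) ≠ 0 := Complex.ofReal_ne_zero.mpr hV
  unfold repC
  rw [h1, setIntegral_const, Measure.real, Complex.real_smul, ← mul_assoc,
    inv_mul_cancel₀ hVc, one_mul]

/-- Fubini: almost everywhere equality on almost every slice gives almost everywhere
equality for the invariant measure. -/
private theorem rep_ae_of_slices (T : Triangle) (F G : ℂ × Dir → ℂ) (hF : Measurable F)
    (hG : Measurable G)
    (h : ∀ᵐ θ ∂(volume : Measure Dir), ∀ᵐ x ∂(volume.restrict T.table),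
      G (x, θ) = F (x, θ)) : G =ᵐ[T.mu] F := by
  show ∀ᵐ p ∂T.mu, G p = F p
  rw [T.ae_mu]
  unfold Triangle.leb
  refine (Measure.ae_prod_iff_ae_ae (measurableSet_eq_fun hG hF)).mpr ?_
  refine (Measure.ae_ae_comm (p := fun x θ => G (x, θ) = F (x, θ)) ?_).mpr h
  exact measurableSet_eq_fun hG hF

/-- If for almost every direction `θ` the slice `F (·, θ)` of the measurable function `F`
is almost everywhere on the table equal to `c exp (i lam ⟨dirVec θ, x⟩)` for a constant
`c`, then `F` is almost everywhere equal to a measurable function all of whose slices are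
real-analytic on the plane. -/
theorem exists_profile_rep (T : Triangle) (F : ℂ × Dir → ℂ) (hF : Measurable F) (lam : ℝ)
    (hslice : ∀ᵐ θ ∂(volume : Measure Dir), ∃ c : ℂ, ∀ᵐ x ∂(volume : Measure ℂ),
      x ∈ T.table → F (x, θ) = c * Complex.exp (lam * rdot (dirVec θ) x * Complex.I)) :
    ∃ G : ℂ × Dir → ℂ, Measurable G ∧
      (∀ θ : Dir, AnalyticOnNhd ℝ (fun x => G (x, θ)) Set.univ) ∧ (G =ᵐ[T.mu] F) := by
  have hEc : Continuous (fun p : ℂ × Dir =>
      Complex.exp (lam * rdot (dirVec p.2) p.1 * Complex.I)) := by
    have h := rep_continuous_rdot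
    fun_prop
  have hGm : Measurable (fun p : ℂ × Dir =>
      repC T F lam p.2 * Complex.exp (lam * rdot (dirVec p.2) p.1 * Complex.I)) :=
    ((rep_measurable_repC T F hF lam).comp measurable_snd).mul hEc.measurable
  refine ⟨fun p => repC T F lam p.2 * Complex.exp (lam * rdot (dirVec p.2) p.1 * Complex.I),
    hGm, ?_, ?_⟩
  · intro θ x _
    exact rep_analyticAt_exp lam (repC T F lam θ) (dirVec θ) x
  · refine rep_ae_of_slices T F _ hF hGm ?_
    filter_upwards [hslice] with θ hθ
    obtain ⟨c, hc⟩ := hθ
    rw [ae_restrict_iff' T.isOpen_table.measurableSet]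
    filter_upwards [hc] with x hx hxT
    show repC T F lam θ * Complex.exp (lam * rdot (dirVec θ) x * Complex.I) = F (x, θ)
    rw [rep_coeff T F lam θ c hc, hx hxT]

end Triangle

end Vale.Agent.Lib.P099
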