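import Vale.Agent.Lib.P099.Defs

/-!
# Billiards in a triangle: elementary geometry and local evaluation of the flow
-/

namespace Vale.Agent.Lib.P099

open MeasureTheory Set

/-! ### Index bookkeeping in `Fin 3` -/

lemma fin3_ne_add_one (i : Fin 3) : i ≠ i + 1 := by revert i; decide
lemma fin3_ne_add_two (i : Fin 3) : i ≠ i + 2 := by revert i; decide
lemma fin3_add_one_ne_add_two (i : Fin 3) : i + 1 ≠ i + 2 := by revert i; decide
lemma fin3_cases (i j : Fin 3) : j = i ∨ j = i + 1 ∨ j = i + 2 := by revert i j; decide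
lemma fin3_add_one_add_two (i : Fin 3) : i + 1 + 2 = i := by revert i; decide
lemma fin3_add_two_add_one (i : Fin 3) : i + 2 + 1 = i := by revert i; decide
lemma fin3_add_one_add_one (i : Fin 3) : i + 1 + 1 = i + 2 := by revert i; decide
lemma fin3_add_two_add_two (i : Fin 3) : i + 2 + 2 = i + 1 := by revert i; decide

lemma fin3_sum (i : Fin 3) (f : Fin 3 → ℝ) : ∑ j, f j = f i + f (i + 1) + f (i + 2) := by
  fin_cases i <;> simp [Fin.sum_univ_three] <;> ring

/-! ### Reflections in lines -/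

/-- Reflection of the plane in the line through `P` with direction `d`. -/
noncomputable def mirror (P d : ℂ) (x : ℂ) : ℂ :=
  P + d / (starRingEnd ℂ) d * (starRingEnd ℂ) (x - P)

/-- Reflection of directions in a line with direction `d`. -/
noncomputable def mirrorDir (d : ℂ) (θ : Dir) : Dir :=
  (2 : ℕ) • ((Complex.arg d : ℝ) : Dir) - θ

lemma dirVec_coe (x : ℝ) : dirVec ((x : ℝ) : Dir) = Complex.exp (x * Complex.I) := by
  unfold dirVec
  rw [AddCircle.toCircle_apply_mk, Circle.coe_exp]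
  congr 2
  have : (2 * Real.pi) ≠ 0 := Real.two_pi_pos.ne'
  rw [div_self this, one_mul]

lemma dirVec_add (θ₁ θ₂ : Dir) : dirVec (θ₁ + θ₂) = dirVec θ₁ * dirVec θ₂ := by
  simp [dirVec, AddCircle.toCircle_add]

lemma dirVec_neg (θ : Dir) : dirVec (-θ) = (starRingEnd ℂ) (dirVec θ) := by
  rw [dirVec, dirVec, AddCircle.toCircle_neg, Circle.coe_inv_eq_conj]

lemma norm_dirVec (θ : Dir) : ‖dirVec θ‖ = 1 := Circle.norm_coe _

lemma dirVec_ne_zero (θ : Dir) : dirVec θ ≠ 0 := by
  intro h
  have := norm_dirVec θ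
  rw [h, norm_zero] at this
  exact zero_ne_one this

lemma dirVec_mul_conj (θ : Dir) : dirVec θ * (starRingEnd ℂ) (dirVec θ) = 1 := by
  rw [Complex.mul_conj, Complex.normSq_eq_norm_sq, norm_dirVec]; simp

lemma dirVec_arg {d : ℂ} (hd : d ≠ 0) : dirVec ((Complex.arg d : ℝ) : Dir) = d / (‖d‖ : ℂ) := by
  rw [dirVec_coe]
  have h := Complex.norm_mul_exp_arg_mul_I d
  have hn : (‖d‖ : ℂ) ≠ 0 := by
    simpa using hd
  field_simp
  rw [mul_comm]; exact h

lemma dirVec_mirrorDir {d : ℂ} (hd : d ≠ 0) (θ : Dir) :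
    dirVec (mirrorDir d θ) = d / (starRingEnd ℂ) d * (starRingEnd ℂ) (dirVec θ) := by
  unfold mirrorDir
  rw [sub_eq_add_neg, dirVec_add, dirVec_neg, two_nsmul, dirVec_add, dirVec_arg hd]
  congr 1
  have hn : (‖d‖ : ℂ) ≠ 0 := by simpa using hd
  have hc : (starRingEnd ℂ) d ≠ 0 := by simpa using hd
  have h2 : d * (starRingEnd ℂ) d = (‖d‖ : ℂ) * (‖d‖ : ℂ) := by
    rw [Complex.mul_conj, Complex.normSq_eq_norm_sq]; push_cast; ring
  field_simp
  rw [h2]; ring

lemma mirror_add (P d x w : ℂ) :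
    mirror P d (x + w) = mirror P d x + d / (starRingEnd ℂ) d * (starRingEnd ℂ) w := by
  simp only [mirror, map_add, map_sub]; ring

lemma mirror_fix {d : ℂ} (hd : d ≠ 0) (P : ℂ) (s : ℝ) :
    mirror P d (P + (s : ℂ) * d) = P + (s : ℂ) * d := by
  have hc : (starRingEnd ℂ) d ≠ 0 := by simpa using hd
  simp only [mirror, add_sub_cancel_left, map_mul, Complex.conj_ofReal]
  field_simp

lemma mirror_mirror {d : ℂ} (hd : d ≠ 0) (P x : ℂ) : mirror P d (mirror P d x) = x := by
  have hc : (starRingEnd ℂ) d ≠ 0 := by simpa using hd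
  simp only [mirror, add_sub_cancel_left, map_mul, map_div₀, Complex.conj_conj, map_sub]
  field_simp
  ring

lemma mirrorDir_mirrorDir (d : ℂ) (θ : Dir) : mirrorDir d (mirrorDir d θ) = θ := by
  simp [mirrorDir]

lemma mirror_neg_dir (P d : ℂ) : mirror P (-d) = mirror P d := by
  funext x; simp [mirror, neg_div_neg_eq]

lemma mirror_base {d : ℂ} (hd : d ≠ 0) (P : ℂ) (s : ℝ) :
    mirror (P + (s : ℂ) * d) d = mirror P d := by
  have hc : (starRingEnd ℂ) d ≠ 0 := by simpa using hd
  funext x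
  simp only [mirror, map_sub, map_add, map_mul, Complex.conj_ofReal]
  field_simp
  ring

/-! ### Barycentric coordinates of a triangle -/

namespace Triangle

variable (T : Triangle)

/-- The vertices of the triangle form an affine basis of the plane. -/
noncomputable def basis : AffineBasis (Fin 3) ℝ ℂ :=
  ⟨T.vertex, T.nondegenerate, by
    rw [T.nondegenerate.affineSpan_eq_top_iff_card_eq_finrank_add_one]
    simp [Complex.finrank_real_complex]⟩

/-- The barycentric coordinate attached to the vertex `i`. -/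
noncomputable def bc (i : Fin 3) : ℂ →ᵃ[ℝ] ℝ := T.basis.coord i

lemma table_eq : T.table = {x | ∀ i, 0 < T.bc i x} :=
  T.basis.interior_convexHull

lemma mem_table {x : ℂ} : x ∈ T.table ↔ ∀ i, 0 < T.bc i x := by
  rw [table_eq]; rfl

lemma bc_vertex_self (i : Fin 3) : T.bc i (T.vertex i) = 1 :=
  T.basis.coord_apply_eq i

lemma bc_vertex_ne {i j : Fin 3} (h : i ≠ j) : T.bc i (T.vertex j) = 0 :=
  T.basis.coord_apply_ne h

lemma sum_bc (i : Fin 3) (x : ℂ) : T.bc i x + T.bc (i + 1) x + T.bc (i + 2) x = 1 := by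
  rw [← fin3_sum i (fun j => T.bc j x)]
  exact T.basis.sum_coord_apply_eq_one x

lemma bc_add (i : Fin 3) (x w : ℂ) : T.bc i (x + w) = T.bc i x + (T.bc i).linear w := by
  have h := (T.bc i).map_vadd x w
  simp only [vadd_eq_add] at h
  rw [add_comm x w, h, add_comm]

lemma bc_lin_sub (i : Fin 3) (x y : ℂ) : (T.bc i).linear (x - y) = T.bc i x - T.bc i y := by
  have h := (T.bc i).linearMap_vsub x y
  simpa using h

lemma isOpen_table : IsOpen T.table := isOpen_interior

lemma bc_continuous (i : Fin 3) : Continuous (T.bc i) :=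
  (T.bc i).continuous_of_finiteDimensional

lemma bc_lin_continuous (i : Fin 3) : Continuous (T.bc i).linear :=
  (T.bc i).linear.continuous_of_finiteDimensional

/-- The direction vector of the side `i`. -/
noncomputable def sideVec (i : Fin 3) : ℂ := T.vertex (i + 2) - T.vertex (i + 1)

lemma sideVec_ne_zero (i : Fin 3) : T.sideVec i ≠ 0 := by
  intro h
  have h1 : T.vertex (i + 2) = T.vertex (i + 1) := sub_eq_zero.mp h
  have h2 := T.bc_vertex_self (i + 2)
  rw [h1, T.bc_vertex_ne (fin3_add_one_ne_add_two i).symm] at h2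
  exact zero_ne_one h2

lemma reflect_eq (i : Fin 3) (θ : Dir) : T.reflect i θ = mirrorDir (T.sideVec i) θ := rfl

lemma bc_lin_sideVec (i : Fin 3) : (T.bc i).linear (T.sideVec i) = 0 := by
  rw [sideVec, bc_lin_sub, T.bc_vertex_ne (fin3_ne_add_two i), T.bc_vertex_ne (fin3_ne_add_one i)]
  ring

lemma mem_side_iff {i : Fin 3} {x : ℂ} :
    x ∈ T.side i ↔ ∃ s : ℝ, 0 < s ∧ s < 1 ∧ x = T.vertex (i + 1) + (s : ℂ) * T.sideVec i := by
  unfold side sideVec
  rw [openSegment_eq_image_lineMap]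
  constructor
  · rintro ⟨s, ⟨hs0, hs1⟩, rfl⟩
    refine ⟨s, hs0, hs1, ?_⟩
    rw [AffineMap.lineMap_apply]
    simp [add_comm]
  · rintro ⟨s, hs0, hs1, rfl⟩
    refine ⟨s, ⟨hs0, hs1⟩, ?_⟩
    rw [AffineMap.lineMap_apply]
    simp [add_comm]

lemma bc_of_mem_side {i : Fin 3} {x : ℂ} (hx : x ∈ T.side i) :
    T.bc i x = 0 ∧ 0 < T.bc (i + 1) x ∧ 0 < T.bc (i + 2) x := by
  obtain ⟨s, hs0, hs1, rfl⟩ := T.mem_side_iff.mp hx
  have hsm : ((s : ℂ) * T.sideVec i) = s • T.sideVec i := by simp
  rw [hsm]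
  simp only [bc_add, map_smul, smul_eq_mul]
  refine ⟨?_, ?_, ?_⟩
  · rw [T.bc_lin_sideVec, T.bc_vertex_ne (fin3_ne_add_one i)]; ring
  · rw [sideVec, bc_lin_sub, T.bc_vertex_self, T.bc_vertex_ne (fin3_add_one_ne_add_two i)]
    linarith
  · rw [sideVec, bc_lin_sub, T.bc_vertex_self, T.bc_vertex_ne (fin3_add_one_ne_add_two i).symm]
    linarith

lemma mem_side_of_bc {i : Fin 3} {x : ℂ} (h0 : T.bc i x = 0) (h1 : 0 < T.bc (i + 1) x)
    (h2 : 0 < T.bc (i + 2) x) : x ∈ T.side i := by
  have hsum := T.sum_bc i x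
  rw [T.mem_side_iff]
  refine ⟨T.bc (i + 2) x, h2, by linarith, ?_⟩
  apply T.basis.ext_elem
  intro j
  change T.bc j x = T.bc j _
  have hsm : ((T.bc (i + 2) x : ℂ) * T.sideVec i) = (T.bc (i + 2) x) • T.sideVec i := by simp
  rw [hsm]
  simp only [bc_add, map_smul, smul_eq_mul]
  rcases fin3_cases i j with rfl | rfl | rfl
  · rw [T.bc_lin_sideVec, T.bc_vertex_ne (fin3_ne_add_one j)]; linarith
  · rw [sideVec, bc_lin_sub, T.bc_vertex_self, T.bc_vertex_ne (fin3_add_one_ne_add_two i)]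
    linarith
  · rw [sideVec, bc_lin_sub, T.bc_vertex_self, T.bc_vertex_ne (fin3_add_one_ne_add_two i).symm]
    linarith

lemma side_disjoint_table {i : Fin 3} {x : ℂ} (hx : x ∈ T.side i) : x ∉ T.table := by
  intro h
  have h1 := (T.mem_table.mp h) i
  rw [(T.bc_of_mem_side hx).1] at h1
  exact lt_irrefl _ h1

lemma side_index_unique {i j : Fin 3} {x : ℂ} (hi : x ∈ T.side i) (hj : x ∈ T.side j) :
    i = j := by
  by_contra hne
  have h0 := (T.bc_of_mem_side hi).1
  have hj' := T.bc_of_mem_side hj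
  rcases fin3_cases j i with h | h | h
  · exact hne h
  · rw [h] at h0; linarith [hj'.2.1]
  · rw [h] at h0; linarith [hj'.2.2]

/-- The reflection of the plane in the line carrying the side `i`. -/
noncomputable def sideMirror (i : Fin 3) : ℂ → ℂ := mirror (T.vertex (i + 1)) (T.sideVec i)

lemma bc_lin_mirror (i : Fin 3) (w : ℂ) :
    (T.bc i).linear (T.sideVec i / (starRingEnd ℂ) (T.sideVec i) * (starRingEnd ℂ) w)
      = - (T.bc i).linear w := by
  set d := T.sideVec i with hd
  have hd0 : d ≠ 0 := T.sideVec_ne_zero i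
  have hc : (starRingEnd ℂ) d ≠ 0 := by simpa using hd0
  set z := w / d with hz
  have hw : w = z.re • d + z.im • (Complex.I * d) := by
    have : w = z * d := by rw [hz]; field_simp
    rw [this]
    conv_lhs => rw [← Complex.re_add_im z]
    simp only [Complex.real_smul]
    ring
  have hw' : d / (starRingEnd ℂ) d * (starRingEnd ℂ) w = z.re • d - z.im • (Complex.I * d) := by
    have : w = z * d := by rw [hz]; field_simp
    rw [this, map_mul]
    conv_lhs => rw [← Complex.re_add_im z]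
    simp only [Complex.real_smul, map_add, map_mul, Complex.conj_ofReal, Complex.conj_I]
    field_simp
    ring
  rw [hw', hw, map_sub, map_add, map_smul, map_smul, T.bc_lin_sideVec]
  simp

end Triangle

end Vale.Agent.Lib.P099
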