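import Mathlib

/-!
# Sets of the plane invariant under small translations in two directions

A measurable subset `B` of the plane which, inside a convex open set `Q`, is invariant up
to sets of measure zero under the small translations along two independent directions is
of measure zero in `Q` or of full measure in `Q`.
-/

namespace Vale.Agent.Lib.P099

open Set MeasureTheory

/-- Two unit vectors which are not parallel span the plane, with control on the
coefficients. -/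
private lemma trans_decomp {e₁ e₂ : ℂ} (h₁ : ‖e₁‖ = 1) (h₂ : ‖e₂‖ = 1)
    (hne : e₁ ≠ e₂) (hne' : e₁ ≠ -e₂) :
    ∃ C : ℝ, 0 < C ∧ ∀ w : ℂ, ∃ a b : ℝ,
      w = (a : ℂ) * e₁ + (b : ℂ) * e₂ ∧ |a| ≤ C * ‖w‖ ∧ |b| ≤ C * ‖w‖ := by
  have hn1 : e₁.re * e₁.re + e₁.im * e₁.im = 1 := by
    have h := Complex.sq_norm e₁
    rw [h₁, Complex.normSq_apply] at h
    linarith
  have hn2 : e₂.re * e₂.re + e₂.im * e₂.im = 1 := by
    have h := Complex.sq_norm e₂
    rw [h₂, Complex.normSq_apply] at h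
    linarith
  obtain ⟨D, hD⟩ : ∃ D : ℝ, D = e₁.im * e₂.re - e₁.re * e₂.im := ⟨_, rfl⟩
  have hD0 : D ≠ 0 := by
    intro h0
    rw [hD] at h0
    have hs : (e₁.re * e₂.re + e₁.im * e₂.im) * (e₁.re * e₂.re + e₁.im * e₂.im) = 1 := by
      nlinarith
    rcases mul_self_eq_one_iff.mp hs with h | h
    · apply hne
      apply Complex.ext
      · linear_combination (-e₁.re) * h - e₁.im * h0 + e₂.re * hn1
      · linear_combination (-e₁.im) * h + e₁.re * h0 + e₂.im * hn1
    · apply hne'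
      apply Complex.ext
      · rw [Complex.neg_re]
        linear_combination e₁.re * h + e₁.im * h0 - e₂.re * hn1
      · rw [Complex.neg_im]
        linear_combination e₁.im * h - e₁.re * h0 - e₂.im * hn1
  have hDpos : 0 < |D| := abs_pos.mpr hD0
  have hbound : ∀ (w e : ℂ), e.re * e.re + e.im * e.im = 1 →
      |w.im * e.re - w.re * e.im| ≤ ‖w‖ := by
    intro w e he
    refine abs_le_of_sq_le_sq ?_ (norm_nonneg w)
    rw [Complex.sq_norm, Complex.normSq_apply]
    nlinarith [sq_nonneg (w.re * e.re + w.im * e.im)]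
  refine ⟨1 / |D|, by positivity, fun w => ?_⟩
  refine ⟨(w.im * e₂.re - w.re * e₂.im) / D, (w.re * e₁.im - w.im * e₁.re) / D, ?_, ?_, ?_⟩
  · apply Complex.ext
    · simp only [Complex.add_re, Complex.mul_re, Complex.ofReal_re, Complex.ofReal_im, zero_mul,
        sub_zero]
      field_simp
      rw [hD]
      ring
    · simp only [Complex.add_im, Complex.mul_im, Complex.ofReal_re, Complex.ofReal_im, zero_mul,
        add_zero]
      field_simp
      rw [hD]
      ring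
  · rw [abs_div, div_mul_eq_mul_div, one_mul]
    exact div_le_div_of_nonneg_right (hbound w e₂ hn2) hDpos.le
  · rw [abs_div, div_mul_eq_mul_div, one_mul]
    refine div_le_div_of_nonneg_right ?_ hDpos.le
    have h := hbound w e₁ hn1
    rw [abs_sub_comm] at h
    exact h

/-- Rational translations: the mollified indicator is invariant. -/
private lemma trans_rat {Q B : Set ℂ} {e : ℂ}
    (hinv : ∀ t r : ℚ, 0 < t → t < r →
      ∀ᵐ x ∂(volume : Measure ℂ), Metric.ball x (r : ℝ) ⊆ Q →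
        ((x + ((t : ℝ) : ℂ) * e ∈ B) ↔ x ∈ B))
    {ψ : ℂ → ℝ} {ε : ℝ} (hψ : ∀ s, ε ≤ ‖s‖ → ψ s = 0) {M : ℂ → ℝ}
    (hM : ∀ x, M x = ∫ s, ψ s * B.indicator (fun _ => (1 : ℝ)) (x - s))
    {x : ℂ} {r : ℝ} (hx : Metric.ball x r ⊆ Q) (t : ℚ) (ht : 0 < t) (htr : (t : ℝ) + ε < r) :
    M (x + ((t : ℝ) : ℂ) * e) = M x := by
  obtain ⟨r', hr'1, hr'2⟩ := exists_rat_btwn (show (t : ℝ) < r - ε by linarith)
  have hae := hinv t r' ht (by exact_mod_cast hr'1)
  have hae' : ∀ᵐ s ∂(volume : Measure ℂ), Metric.ball (x - s) (r' : ℝ) ⊆ Q →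
      (((x - s) + ((t : ℝ) : ℂ) * e ∈ B) ↔ (x - s) ∈ B) :=
    (Measure.measurePreserving_sub_left volume x).quasiMeasurePreserving.ae hae
  rw [hM, hM]
  refine integral_congr_ae ?_
  filter_upwards [hae'] with s hs
  by_cases hsε : ε ≤ ‖s‖
  · rw [hψ s hsε, zero_mul, zero_mul]
  · push Not at hsε
    have hsub : Metric.ball (x - s) (r' : ℝ) ⊆ Q := by
      refine subset_trans (Metric.ball_subset_ball' ?_) hx
      rw [dist_eq_norm]
      have h0 : x - s - x = -s := by ring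
      rw [h0, norm_neg]
      linarith
    have hiff := hs hsub
    have heq : x + ((t : ℝ) : ℂ) * e - s = x - s + ((t : ℝ) : ℂ) * e := by ring
    rw [heq]
    congr 1
    by_cases hmem : x - s ∈ B
    · rw [Set.indicator_of_mem hmem, Set.indicator_of_mem (hiff.mpr hmem)]
    · rw [Set.indicator_of_notMem hmem, Set.indicator_of_notMem (fun h => hmem (hiff.mp h))]

/-- Real nonnegative translations, by continuity. -/
private lemma trans_real_nonneg {Q B : Set ℂ} {e : ℂ}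
    (hinv : ∀ t r : ℚ, 0 < t → t < r →
      ∀ᵐ x ∂(volume : Measure ℂ), Metric.ball x (r : ℝ) ⊆ Q →
        ((x + ((t : ℝ) : ℂ) * e ∈ B) ↔ x ∈ B))
    {ψ : ℂ → ℝ} {ε : ℝ} (hψ : ∀ s, ε ≤ ‖s‖ → ψ s = 0) {M : ℂ → ℝ}
    (hM : ∀ x, M x = ∫ s, ψ s * B.indicator (fun _ => (1 : ℝ)) (x - s)) (hMc : Continuous M)
    {x : ℂ} {r : ℝ} (hx : Metric.ball x r ⊆ Q) {t : ℝ} (ht : 0 ≤ t) (htr : t + ε < r) :
    M (x + (t : ℂ) * e) = M x := by
  rcases ht.eq_or_lt with h0 | hpos
  · rw [← h0]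
    simp
  have hclosed : IsClosed {u : ℝ | M (x + (u : ℂ) * e) = M x} := by
    refine isClosed_eq ?_ continuous_const
    exact hMc.comp (continuous_const.add (Complex.continuous_ofReal.mul continuous_const))
  have hsub : Set.Ioo 0 (r - ε) ∩ Set.range ((↑) : ℚ → ℝ)
      ⊆ {u : ℝ | M (x + (u : ℂ) * e) = M x} := by
    rintro u ⟨⟨hu0, hur⟩, q, rfl⟩
    exact trans_rat hinv hψ hM hx q (by exact_mod_cast hu0) (by linarith)
  have hcl : Set.Ioo 0 (r - ε) ⊆ closure (Set.Ioo 0 (r - ε) ∩ Set.range ((↑) : ℚ → ℝ)) := by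
    have h := isOpen_Ioo.inter_closure (s := Set.Ioo 0 (r - ε)) (t := Set.range ((↑) : ℚ → ℝ))
    rw [Rat.denseRange_cast.closure_range, Set.inter_univ] at h
    exact h
  exact (closure_minimal hsub hclosed) (hcl ⟨hpos, by linarith⟩)

/-- Real translations of either sign. -/
private lemma trans_real {Q B : Set ℂ} {e : ℂ}
    (hinv : ∀ t r : ℚ, 0 < t → t < r →
      ∀ᵐ x ∂(volume : Measure ℂ), Metric.ball x (r : ℝ) ⊆ Q →
        ((x + ((t : ℝ) : ℂ) * e ∈ B) ↔ x ∈ B))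
    {ψ : ℂ → ℝ} {ε : ℝ} (hψ : ∀ s, ε ≤ ‖s‖ → ψ s = 0) {M : ℂ → ℝ}
    (hM : ∀ x, M x = ∫ s, ψ s * B.indicator (fun _ => (1 : ℝ)) (x - s)) (hMc : Continuous M)
    (he : ‖e‖ = 1) {p : ℂ} {ρ : ℝ} (hp : Metric.ball p ρ ⊆ Q) {a : ℝ}
    (ha : 2 * |a| + ε < ρ) :
    M (p + (a : ℂ) * e) = M p := by
  rcases le_or_gt 0 a with h0 | h0
  · refine trans_real_nonneg hinv hψ hM hMc hp h0 ?_
    rw [abs_of_nonneg h0] at ha
    linarith
  · have hsub : Metric.ball (p + (a : ℂ) * e) (ρ - |a|) ⊆ Q := by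
      refine subset_trans (Metric.ball_subset_ball' ?_) hp
      rw [dist_eq_norm]
      have h1 : p + (a : ℂ) * e - p = (a : ℂ) * e := by ring
      rw [h1, norm_mul, he, mul_one, Complex.norm_real, Real.norm_eq_abs]
      linarith
    have h := trans_real_nonneg hinv hψ hM hMc hsub (t := -a) (by linarith)
      (by rw [abs_of_neg h0] at ha ⊢; linarith)
    have h2 : p + (a : ℂ) * e + ((-a : ℝ) : ℂ) * e = p := by
      push_cast
      ring
    rw [h2] at h
    exact h.symm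

/-- The set of centres of balls of a given radius inside a convex set is convex. -/
private lemma trans_ball_convex {Q : Set ℂ} (hQc : Convex ℝ Q) {x y : ℂ} {ρ : ℝ}
    (hx : Metric.ball x ρ ⊆ Q) (hy : Metric.ball y ρ ⊆ Q) {θ : ℝ} (h0 : 0 ≤ θ) (h1 : θ ≤ 1) :
    Metric.ball (x + (θ : ℂ) * (y - x)) ρ ⊆ Q := by
  intro z hz
  rw [Metric.mem_ball, dist_eq_norm] at hz
  have hxv : x + (z - (x + (θ : ℂ) * (y - x))) ∈ Q := by
    apply hx
    rw [Metric.mem_ball, dist_eq_norm]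
    simpa using hz
  have hyv : y + (z - (x + (θ : ℂ) * (y - x))) ∈ Q := by
    apply hy
    rw [Metric.mem_ball, dist_eq_norm]
    simpa using hz
  have h := hQc hxv hyv (sub_nonneg.mpr h1) h0 (by ring)
  have hz' : (1 - θ) • (x + (z - (x + (θ : ℂ) * (y - x))))
      + θ • (y + (z - (x + (θ : ℂ) * (y - x)))) = z := by
    rw [Complex.real_smul, Complex.real_smul]
    push_cast
    ring
  rw [hz'] at h
  exact h
/-- The mollified indicator takes the same value at two points which are centres of balls of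
radius `ρ` inside `Q`, when the kernel is supported in a ball of radius `ε < ρ`. -/
private lemma trans_const {Q B : Set ℂ} (hQc : Convex ℝ Q) {e₁ e₂ : ℂ} (h₁ : ‖e₁‖ = 1)
    (h₂ : ‖e₂‖ = 1) (hne : e₁ ≠ e₂) (hne' : e₁ ≠ -e₂)
    (hinv : ∀ e : ℂ, e = e₁ ∨ e = e₂ → ∀ t r : ℚ, 0 < t → t < r →
      ∀ᵐ x ∂(volume : Measure ℂ), Metric.ball x (r : ℝ) ⊆ Q →
        ((x + ((t : ℝ) : ℂ) * e ∈ B) ↔ x ∈ B))
    {ψ : ℂ → ℝ} {ε : ℝ} (hψ : ∀ s, ε ≤ ‖s‖ → ψ s = 0) {M : ℂ → ℝ}
    (hM : ∀ x, M x = ∫ s, ψ s * B.indicator (fun _ => (1 : ℝ)) (x - s)) (hMc : Continuous M)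
    {x y : ℂ} {ρ : ℝ} (hx : Metric.ball x ρ ⊆ Q) (hy : Metric.ball y ρ ⊆ Q) (hερ : ε < ρ) :
    M x = M y := by
  obtain ⟨C, hC, hdec⟩ := trans_decomp h₁ h₂ hne hne'
  obtain ⟨n, hn⟩ := exists_nat_gt (4 * C * ‖y - x‖ / (ρ - ε))
  have hρε : 0 < ρ - ε := by linarith
  have hn0 : (0 : ℝ) < (n : ℝ) + 1 := by positivity
  have hn1 : 4 * C * ‖y - x‖ < ((n : ℝ) + 1) * (ρ - ε) := by
    rw [div_lt_iff₀ hρε] at hn
    nlinarith
  obtain ⟨w, hw⟩ : ∃ w : ℂ, w = (((n : ℝ) + 1)⁻¹ : ℝ) * (y - x) := ⟨_, rfl⟩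
  have hwn : ‖w‖ = ((n : ℝ) + 1)⁻¹ * ‖y - x‖ := by
    rw [hw, norm_mul, Complex.norm_real, Real.norm_eq_abs, abs_of_pos (inv_pos.mpr hn0)]
  have hCw : 4 * (C * ‖w‖) < ρ - ε := by
    rw [hwn]
    have h1 : 4 * (C * (((n : ℝ) + 1)⁻¹ * ‖y - x‖)) = (4 * C * ‖y - x‖) / ((n : ℝ) + 1) := by
      field_simp
    rw [h1, div_lt_iff₀ hn0]
    linarith
  obtain ⟨a, b, hab, ha, hb⟩ := hdec w
  have hkey : ∀ k : ℕ, k ≤ n + 1 → M (x + (k : ℂ) * w) = M x := by
    intro k
    induction k with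
    | zero =>
      intro _
      simp
    | succ k ih =>
      intro hk
      have hk' : k ≤ n + 1 := by omega
      have hkn : (k : ℝ) ≤ (n : ℝ) + 1 := by exact_mod_cast hk'
      have hθ0 : 0 ≤ (k : ℝ) / ((n : ℝ) + 1) := by positivity
      have hθ1 : (k : ℝ) / ((n : ℝ) + 1) ≤ 1 := by
        rw [div_le_one hn0]
        exact hkn
      have hp := trans_ball_convex hQc hx hy hθ0 hθ1
      have hpe : x + (((k : ℝ) / ((n : ℝ) + 1) : ℝ) : ℂ) * (y - x) = x + (k : ℂ) * w := by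
        rw [hw]
        push_cast
        ring
      rw [hpe] at hp
      have hstep1 : M (x + (k : ℂ) * w + (a : ℂ) * e₁) = M (x + (k : ℂ) * w) :=
        trans_real (hinv e₁ (Or.inl rfl)) hψ hM hMc h₁ hp (by linarith [abs_nonneg b])
      have hsub : Metric.ball (x + (k : ℂ) * w + (a : ℂ) * e₁) (ρ - |a|) ⊆ Q := by
        refine subset_trans (Metric.ball_subset_ball' ?_) hp
        rw [dist_eq_norm]
        have h1 : x + (k : ℂ) * w + (a : ℂ) * e₁ - (x + (k : ℂ) * w) = (a : ℂ) * e₁ := by ring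
        rw [h1, norm_mul, h₁, mul_one, Complex.norm_real, Real.norm_eq_abs]
        linarith
      have hstep2 : M (x + (k : ℂ) * w + (a : ℂ) * e₁ + (b : ℂ) * e₂)
          = M (x + (k : ℂ) * w + (a : ℂ) * e₁) :=
        trans_real (hinv e₂ (Or.inr rfl)) hψ hM hMc h₂ hsub (by linarith)
      have hnext : x + ((k + 1 : ℕ) : ℂ) * w
          = x + (k : ℂ) * w + (a : ℂ) * e₁ + (b : ℂ) * e₂ := by
        push_cast
        rw [add_mul, one_mul]
        nth_rewrite 2 [hab]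
        ring
      rw [hnext, hstep2, hstep1]
      exact ih hk'
  have hend : x + ((n + 1 : ℕ) : ℂ) * w = y := by
    rw [hw]
    push_cast
    have h1 : ((n : ℂ) + 1) ≠ 0 := by
      have h2 : ((n : ℂ) + 1) = (((n : ℝ) + 1 : ℝ) : ℂ) := by push_cast; ring
      rw [h2]
      exact Complex.ofReal_ne_zero.mpr hn0.ne'
    field_simp
    ring
  have hfin := hkey (n + 1) (le_refl _)
  rw [hend] at hfin
  exact hfin.symm
/-- `e₁`, `e₂` are two unit vectors, not parallel.  If for `e ∈ {e₁, e₂}` and all rational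
`0 < t < r`, for almost every `x` such that the ball of radius `r` around `x` is contained in
`Q`, the points `x` and `x + t e` are both in `B` or both outside `B`, then `B ∩ Q` or
`Q \ B` has measure zero. -/
theorem null_or_conull_of_two_translations {Q B : Set ℂ} (hQo : IsOpen Q)
    (hQc : Convex ℝ Q) (hB : MeasurableSet B) {e₁ e₂ : ℂ} (h₁ : ‖e₁‖ = 1) (h₂ : ‖e₂‖ = 1)
    (hne : e₁ ≠ e₂) (hne' : e₁ ≠ -e₂)
    (hinv : ∀ e : ℂ, e = e₁ ∨ e = e₂ → ∀ t r : ℚ, 0 < t → t < r →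
      ∀ᵐ x ∂(volume : Measure ℂ), Metric.ball x (r : ℝ) ⊆ Q →
        ((x + ((t : ℝ) : ℂ) * e ∈ B) ↔ x ∈ B)) :
    volume (B ∩ Q) = 0 ∨ volume (Q \ B) = 0 := by
  classical
  have hgli : LocallyIntegrable (B.indicator (fun _ => (1 : ℝ))) (volume : Measure ℂ) :=
    (locallyIntegrable_const (1 : ℝ)).indicator hB
  obtain ⟨φ, hφdef⟩ : ∃ φ : ℕ → ContDiffBump (0 : ℂ),
      ∀ i, (φ i).rIn = 1 / ((i : ℝ) + 1) ∧ (φ i).rOut = 2 / ((i : ℝ) + 1) := by
    refine ⟨fun i => ⟨1 / ((i : ℝ) + 1), 2 / ((i : ℝ) + 1), by positivity, ?_⟩,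
      fun i => ⟨rfl, rfl⟩⟩
    have h0 : (0 : ℝ) < (i : ℝ) + 1 := by positivity
    exact div_lt_div_of_pos_right (by norm_num) h0
  have hφ : Filter.Tendsto (fun i => (φ i).rOut) Filter.atTop (nhds 0) := by
    have h0 : (fun i => (φ i).rOut) = fun i : ℕ => 2 * (1 / ((i : ℝ) + 1)) := by
      funext i
      rw [(hφdef i).2]
      ring
    rw [h0]
    have h1 := (tendsto_one_div_add_atTop_nhds_zero_nat (𝕜 := ℝ)).const_mul 2
    rw [mul_zero] at h1
    exact h1
  have hφ' : ∀ᶠ i in Filter.atTop, (φ i).rOut ≤ 2 * (φ i).rIn := by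
    refine Filter.Eventually.of_forall fun i => ?_
    rw [(hφdef i).1, (hφdef i).2]
    apply le_of_eq
    ring
  have hae := ContDiffBump.ae_convolution_tendsto_right_of_locallyIntegrable
    (μ := (volume : Measure ℂ)) hφ hφ' hgli
  have hconst : ∀ x y : ℂ, x ∈ Q → y ∈ Q →
      Filter.Tendsto (fun i => (convolution ((φ i).normed volume) (B.indicator (fun _ => (1 : ℝ)))
        (ContinuousLinearMap.lsmul ℝ ℝ) volume) x) Filter.atTop
        (nhds (B.indicator (fun _ => (1 : ℝ)) x)) →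
      Filter.Tendsto (fun i => (convolution ((φ i).normed volume) (B.indicator (fun _ => (1 : ℝ)))
        (ContinuousLinearMap.lsmul ℝ ℝ) volume) y) Filter.atTop
        (nhds (B.indicator (fun _ => (1 : ℝ)) y)) →
      B.indicator (fun _ => (1 : ℝ)) x = B.indicator (fun _ => (1 : ℝ)) y := by
    intro x y hxQ hyQ hxt hyt
    obtain ⟨ρ₁, hρ₁, hb₁⟩ := Metric.isOpen_iff.mp hQo x hxQ
    obtain ⟨ρ₂, hρ₂, hb₂⟩ := Metric.isOpen_iff.mp hQo y hyQ
    have hx : Metric.ball x (min ρ₁ ρ₂) ⊆ Q :=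
      (Metric.ball_subset_ball (min_le_left _ _)).trans hb₁
    have hy : Metric.ball y (min ρ₁ ρ₂) ⊆ Q :=
      (Metric.ball_subset_ball (min_le_right _ _)).trans hb₂
    have hev : ∀ᶠ i in Filter.atTop, (φ i).rOut < min ρ₁ ρ₂ :=
      hφ.eventually (gt_mem_nhds (lt_min hρ₁ hρ₂))
    refine tendsto_nhds_unique hxt (hyt.congr' ?_)
    filter_upwards [hev] with i hi
    have hψ : ∀ s : ℂ, (φ i).rOut ≤ ‖s‖ → (φ i).normed volume s = 0 := by
      intro s hs
      have hsupp := (φ i).support_normed_eq (μ := (volume : Measure ℂ))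
      have hns : s ∉ Function.support ((φ i).normed volume) := by
        rw [hsupp, Metric.mem_ball, dist_zero_right]
        exact not_lt.mpr hs
      exact Function.notMem_support.mp hns
    have hM : ∀ z : ℂ, (convolution ((φ i).normed volume) (B.indicator (fun _ => (1 : ℝ)))
        (ContinuousLinearMap.lsmul ℝ ℝ) volume) z
        = ∫ s, (φ i).normed volume s * B.indicator (fun _ => (1 : ℝ)) (z - s) := by
      intro z
      rfl
    have hMc : Continuous (convolution ((φ i).normed volume) (B.indicator (fun _ => (1 : ℝ)))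
        (ContinuousLinearMap.lsmul ℝ ℝ) volume) :=
      (φ i).hasCompactSupport_normed.continuous_convolution_left _ (φ i).continuous_normed hgli
    exact (trans_const hQc h₁ h₂ hne hne' hinv hψ hM hMc hx hy hi).symm
  by_cases hex : ∃ x, x ∈ Q ∧ x ∈ B ∧
      Filter.Tendsto (fun i => (convolution ((φ i).normed volume)
        (B.indicator (fun _ => (1 : ℝ))) (ContinuousLinearMap.lsmul ℝ ℝ) volume) x) Filter.atTop
        (nhds (B.indicator (fun _ => (1 : ℝ)) x))
  · right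
    obtain ⟨x, hxQ, hxB, hxt⟩ := hex
    refine measure_mono_null ?_ (ae_iff.mp hae)
    rintro y ⟨hyQ, hyB⟩
    intro hyt
    have h := hconst x y hxQ hyQ hxt hyt
    rw [Set.indicator_of_mem hxB, Set.indicator_of_notMem hyB] at h
    exact one_ne_zero h
  · left
    push Not at hex
    refine measure_mono_null ?_ (ae_iff.mp hae)
    rintro y ⟨hyB, hyQ⟩
    exact hex y hyQ hyB

end Vale.Agent.Lib.P099
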