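import Vale.Agent.Lib.P099.RidgeDefs
import Vale.Agent.Lib.P099.Translations
import Vale.Agent.Lib.P099.Geometry

/-!
# A function invariant along a direction and along its normal is an exponential
-/

namespace Vale.Agent.Lib.P099

open MeasureTheory

namespace Triangle

private lemma slice_rdot_add_v (v : ℂ) (hv : ‖v‖ = 1) (x : ℂ) (t : ℝ) :
    rdot v (x + (t : ℂ) * v) = rdot v x + t := by
  unfold rdot
  rw [mul_add, Complex.add_re]
  have h2 : starRingEnd ℂ v * ((t : ℂ) * v) = (t : ℂ) * (starRingEnd ℂ v * v) := by ring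
  rw [h2, Complex.conj_mul', hv]
  simp

private lemma slice_rdot_add_Iv (v : ℂ) (x : ℂ) (t : ℝ) :
    rdot v (x + (t : ℂ) * (Complex.I * v)) = rdot v x := by
  unfold rdot
  rw [mul_add, Complex.add_re]
  have h2 : starRingEnd ℂ v * ((t : ℂ) * (Complex.I * v))
      = ((t * ‖v‖ ^ 2 : ℝ) : ℂ) * Complex.I := by
    have h3 : starRingEnd ℂ v * ((t : ℂ) * (Complex.I * v))
        = (t : ℂ) * (starRingEnd ℂ v * v) * Complex.I := by ring
    rw [h3, Complex.conj_mul']
    push_cast
    ring
  rw [h2, Complex.re_ofReal_mul, Complex.I_re, mul_zero, add_zero]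

/-- Let `v` be a unit vector.  If a measurable function `f` is, on the table, invariant
with frequency `lam` along `v` and invariant (with frequency `0`) along the normal `i v`,
then on the table `f x = c exp (i lam ⟨v, x⟩)` for almost every `x`, for a constant `c`. -/
theorem slice_profile (T : Triangle) (f : ℂ → ℂ) (hf : Measurable f) (v : ℂ) (hv : ‖v‖ = 1)
    (lam : ℝ) (h1 : TwInv T.table v lam f) (h2 : TwInv T.table (Complex.I * v) 0 f) :
    ∃ c : ℂ, ∀ᵐ x ∂(volume : Measure ℂ), x ∈ T.table →
      f x = c * Complex.exp (lam * rdot v x * Complex.I) := by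
  obtain ⟨g, hgdef⟩ : ∃ g : ℂ → ℂ,
      g = fun x => f x * Complex.exp (-(lam * rdot v x * Complex.I)) := ⟨_, rfl⟩
  have hgx : ∀ x, g x = f x * Complex.exp (-(lam * rdot v x * Complex.I)) := by
    intro x
    rw [hgdef]
  have hrc : Continuous (fun x : ℂ => rdot v x) := by
    unfold rdot
    exact Complex.continuous_re.comp (continuous_const.mul continuous_id)
  have hec : Continuous (fun x : ℂ => Complex.exp (-(lam * rdot v x * Complex.I))) := by
    refine Complex.continuous_exp.comp ?_
    exact ((continuous_const.mul (Complex.continuous_ofReal.comp hrc)).mul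
      continuous_const).neg
  have hgm : Measurable g := by
    rw [hgdef]
    exact hf.mul hec.measurable
  have hinv_v : ∀ t : ℚ, 0 < t → ∀ᵐ x ∂(volume : Measure ℂ), x ∈ T.table →
      x + ((t : ℝ) : ℂ) * v ∈ T.table → g (x + ((t : ℝ) : ℂ) * v) = g x := by
    intro t ht
    filter_upwards [h1 t ht] with x hx hxQ hxtQ
    rw [hgx, hgx, hx hxQ hxtQ, slice_rdot_add_v v hv x t]
    have he : Complex.exp (lam * (t : ℝ) * Complex.I)
        * Complex.exp (-(lam * ((rdot v x + (t : ℝ) : ℝ) : ℂ) * Complex.I))
        = Complex.exp (-(lam * (rdot v x : ℂ) * Complex.I)) := by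
      rw [← Complex.exp_add]
      congr 1
      push_cast
      ring
    rw [← he]
    ring
  have hinv_Iv : ∀ t : ℚ, 0 < t → ∀ᵐ x ∂(volume : Measure ℂ), x ∈ T.table →
      x + ((t : ℝ) : ℂ) * (Complex.I * v) ∈ T.table →
      g (x + ((t : ℝ) : ℂ) * (Complex.I * v)) = g x := by
    intro t ht
    filter_upwards [h2 t ht] with x hx hxQ hxtQ
    rw [hgx, hgx, hx hxQ hxtQ, slice_rdot_add_Iv v x t]
    have he : Complex.exp (((0 : ℝ) : ℂ) * (t : ℝ) * Complex.I) = 1 := by
      rw [Complex.ofReal_zero, zero_mul, zero_mul, Complex.exp_zero]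
    rw [he, one_mul]
  have hQo : IsOpen T.table := T.isOpen_table
  have hQm : MeasurableSet T.table := hQo.measurableSet
  have hQc : Convex ℝ T.table := by
    unfold Triangle.table
    exact (convex_convexHull ℝ _).interior
  have hnormIv : ‖Complex.I * v‖ = 1 := by
    rw [norm_mul, Complex.norm_I, one_mul, hv]
  have hvne : v ≠ 0 := by
    intro h
    rw [h, norm_zero] at hv
    exact zero_ne_one hv
  have hne1 : v ≠ Complex.I * v := by
    intro h
    have h3 : (1 - Complex.I) * v = 0 := by linear_combination h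
    rcases mul_eq_zero.mp h3 with h4 | h4
    · have h5 := congrArg Complex.re h4
      simp at h5
    · exact hvne h4
  have hne2 : v ≠ -(Complex.I * v) := by
    intro h
    have h3 : (1 + Complex.I) * v = 0 := by linear_combination h
    rcases mul_eq_zero.mp h3 with h4 | h4
    · have h5 := congrArg Complex.re h4
      simp at h5
    · exact hvne h4
  have h01 : ∀ U : Set ℂ, MeasurableSet U →
      (∀ᵐ x ∂(volume.restrict T.table), g x ∈ U)
        ∨ (∀ᵐ x ∂(volume.restrict T.table), g x ∉ U) := by
    intro U hU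
    have hB : MeasurableSet (g ⁻¹' U) := hgm hU
    have hinv : ∀ e : ℂ, e = v ∨ e = Complex.I * v → ∀ t r : ℚ, 0 < t → t < r →
        ∀ᵐ x ∂(volume : Measure ℂ), Metric.ball x (r : ℝ) ⊆ T.table →
          ((x + ((t : ℝ) : ℂ) * e ∈ g ⁻¹' U) ↔ x ∈ g ⁻¹' U) := by
      intro e he t r ht htr
      have hge : ∀ᵐ x ∂(volume : Measure ℂ), x ∈ T.table →
          x + ((t : ℝ) : ℂ) * e ∈ T.table → g (x + ((t : ℝ) : ℂ) * e) = g x := by
        rcases he with rfl | rfl
        · exact hinv_v t ht
        · exact hinv_Iv t ht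
      have hen : ‖e‖ = 1 := by
        rcases he with rfl | rfl
        · exact hv
        · exact hnormIv
      filter_upwards [hge] with x hx hball
      have ht' : (0 : ℝ) < (t : ℝ) := by exact_mod_cast ht
      have hr : (0 : ℝ) < (r : ℝ) := by exact_mod_cast ht.trans htr
      have hxQ : x ∈ T.table := hball (Metric.mem_ball_self hr)
      have hxtQ : x + ((t : ℝ) : ℂ) * e ∈ T.table := by
        apply hball
        rw [Metric.mem_ball, dist_eq_norm, add_sub_cancel_left, norm_mul, hen, mul_one,
          Complex.norm_real, Real.norm_eq_abs, abs_of_pos ht']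
        exact_mod_cast htr
      show g (x + ((t : ℝ) : ℂ) * e) ∈ U ↔ g x ∈ U
      rw [hx hxQ hxtQ]
    rcases null_or_conull_of_two_translations hQo hQc hB hv hnormIv hne1 hne2 hinv with h0 | h0
    · right
      rw [ae_restrict_iff' hQm, ae_iff]
      refine measure_mono_null ?_ h0
      intro x hx
      by_contra hcon
      apply hx
      intro hxQ hgU
      exact hcon ⟨hgU, hxQ⟩
    · left
      rw [ae_restrict_iff' hQm, ae_iff]
      refine measure_mono_null ?_ h0
      intro x hx
      by_contra hcon
      apply hx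
      intro hxQ
      by_contra hgU
      exact hcon ⟨hxQ, hgU⟩
  obtain ⟨c, hc⟩ := Filter.exists_eventuallyEq_const_of_forall_separating
    (l := ae (volume.restrict T.table)) (f := g) MeasurableSet h01
  refine ⟨c, ?_⟩
  have hc' : ∀ᵐ x ∂(volume : Measure ℂ), x ∈ T.table → g x = c :=
    (ae_restrict_iff' hQm).mp hc
  filter_upwards [hc'] with x hx hxQ
  have h3 := hx hxQ
  rw [hgx] at h3
  rw [← h3, mul_assoc, ← Complex.exp_add, neg_add_cancel, Complex.exp_zero, mul_one]

end Triangle

end Vale.Agent.Lib.P099
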