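import Vale.Agent.Lib.P099.BVDefs

/-!
# Billiards in a triangle: from the transversal estimates to the transversal invariance
-/

namespace Vale.Agent.Lib.P099

open MeasureTheory

private lemma tvi_trv_zero (p : ℂ × Dir) : trv 0 p = p := by
  unfold trv
  simp

private lemma tvi_trv_trv (a b : ℝ) (p : ℂ × Dir) : trv a (trv b p) = trv (a + b) p := by
  unfold trv
  refine Prod.ext ?_ rfl
  simp only [Complex.ofReal_add]
  ring

private lemma tvi_continuous_nrm : Continuous nrm := by
  unfold nrm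
  exact continuous_const.mul continuous_dirVec

private lemma tvi_continuous_trv2 (a : ℝ) :
    Continuous (fun z : (ℂ × Dir) × ℝ => trv (z.2 * a) z.1) := by
  unfold trv
  refine Continuous.prodMk ?_ (continuous_snd.comp continuous_fst)
  exact (continuous_fst.comp continuous_fst).add
    ((Complex.continuous_ofReal.comp (continuous_snd.mul continuous_const)).mul
      (tvi_continuous_nrm.comp (continuous_snd.comp continuous_fst)))

private lemma tvi_measurable_trv (h : ℝ) : Measurable (trv h) := by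
  unfold trv
  exact ((continuous_fst.add
    (continuous_const.mul (tvi_continuous_nrm.comp continuous_snd))).prodMk
      continuous_snd).measurable

private lemma tvi_trv_mp (h : ℝ) :
    MeasurePreserving (trv h) ((volume : Measure ℂ).prod (volume : Measure Dir))
      ((volume : Measure ℂ).prod (volume : Measure Dir)) := by
  have hm : Measurable (Function.uncurry fun (θ : Dir) (x : ℂ) => x + (h : ℂ) * nrm θ) :=
    (continuous_snd.add
      (continuous_const.mul (tvi_continuous_nrm.comp continuous_fst))).measurable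
  have hsk : MeasurePreserving (fun p : Dir × ℂ => (id p.1, p.2 + (h : ℂ) * nrm p.1))
      ((volume : Measure Dir).prod (volume : Measure ℂ))
      ((volume : Measure Dir).prod (volume : Measure ℂ)) :=
    MeasurePreserving.skew_product (MeasurePreserving.id volume) hm
      (Filter.Eventually.of_forall fun θ => (measurePreserving_add_right volume _).map_eq)
  have hs1 : MeasurePreserving (Prod.swap : ℂ × Dir → Dir × ℂ)
      ((volume : Measure ℂ).prod (volume : Measure Dir))
      ((volume : Measure Dir).prod (volume : Measure ℂ)) := Measure.measurePreserving_swap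
  have hs2 : MeasurePreserving (Prod.swap : Dir × ℂ → ℂ × Dir)
      ((volume : Measure Dir).prod (volume : Measure ℂ))
      ((volume : Measure ℂ).prod (volume : Measure Dir)) := Measure.measurePreserving_swap
  exact hs2.comp (hsk.comp hs1)

private lemma tvi_leb_restrict (T : Triangle) {K : Set (ℂ × Dir)} (hKm : MeasurableSet K)
    (hK : ∀ p ∈ K, p.1 ∈ T.table) :
    T.leb.restrict K = ((volume : Measure ℂ).prod (volume : Measure Dir)).restrict K := by
  rw [T.leb_eq, Measure.restrict_restrict hKm]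
  congr 1
  ext p
  simp only [Set.mem_inter_iff, Set.mem_prod, Set.mem_univ, and_true, and_iff_left_iff_imp]
  exact hK p

private lemma tvi_measurable_G (F : ℂ × Dir → ℂ) (hF : Measurable F) (h : ℝ) :
    Measurable (fun q : ℂ × Dir => ‖F (trv h q) - F q‖ₑ) :=
  ((hF.comp (tvi_measurable_trv h)).sub hF).enorm

/-- One compact piece: the variation under `trv a` vanishes on a compact set of phase points
whose transversal segments stay in the table. -/
private lemma tvi_step1 (T : Triangle) (F : ℂ × Dir → ℂ) (hF : Measurable F)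
    (E : Set Dir) (M₁ : ENNReal) (hM : M₁ ≠ ⊤)
    (hloc : ∀ s : ℝ, 1 ≤ s → ∀ K : Set (ℂ × Dir), IsCompact K →
      (∀ p ∈ K, p.1 ∈ T.table ∧ p.2 ∉ E) →
      ∃ h₀ : ℝ, 0 < h₀ ∧ ∀ h : ℝ, |h| < h₀ →
        ∫⁻ p in K, ‖F (trv h p) - F p‖ₑ ∂T.leb ≤ ENNReal.ofReal (|h| / s) * M₁)
    (a : ℝ) (K₀ : Set (ℂ × Dir)) (hK₀ : IsCompact K₀)
    (hK₀E : ∀ p ∈ K₀, p.2 ∉ E)
    (hK₀t : ∀ p ∈ K₀, ∀ b ∈ Set.Icc (0 : ℝ) 1, (trv (b * a) p).1 ∈ T.table) :
    ∫⁻ p in K₀, ‖F (trv a p) - F p‖ₑ ∂T.leb = 0 := by
  obtain ⟨Kt, hKt⟩ : ∃ Kt, Kt = (fun z : (ℂ × Dir) × ℝ => trv (z.2 * a) z.1) ''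
      (K₀ ×ˢ Set.Icc (0 : ℝ) 1) := ⟨_, rfl⟩
  have hKtc : IsCompact Kt := by
    rw [hKt]
    exact (hK₀.prod isCompact_Icc).image (tvi_continuous_trv2 a)
  have hKtp : ∀ q ∈ Kt, q.1 ∈ T.table ∧ q.2 ∉ E := by
    intro q hq
    rw [hKt] at hq
    obtain ⟨z, ⟨hz1, hz2⟩, rfl⟩ := hq
    exact ⟨hK₀t z.1 hz1 z.2 hz2, hK₀E z.1 hz1⟩
  have hK₀sub : ∀ p ∈ K₀, p.1 ∈ T.table := by
    intro p hp
    have h0 := hK₀t p hp 0 ⟨le_refl _, zero_le_one⟩
    rw [zero_mul, tvi_trv_zero] at h0
    exact h0
  have hK₀m : MeasurableSet K₀ := hK₀.measurableSet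
  have hKtm : MeasurableSet Kt := hKtc.measurableSet
  have hbound : ∀ s : ℝ, 1 ≤ s →
      ∫⁻ p in K₀, ‖F (trv a p) - F p‖ₑ ∂T.leb ≤ ENNReal.ofReal (|a| / s) * M₁ := by
    intro s hs
    obtain ⟨h₀, hh₀, hh⟩ := hloc s hs Kt hKtc hKtp
    obtain ⟨n, hn⟩ := exists_nat_gt (|a| / h₀)
    have hnpos : (0 : ℝ) < n := lt_of_le_of_lt (div_nonneg (abs_nonneg a) hh₀.le) hn
    have hnne : (n : ℝ) ≠ 0 := hnpos.ne'
    obtain ⟨h, hdef⟩ : ∃ h : ℝ, h = a / n := ⟨_, rfl⟩
    have hnh : (n : ℝ) * h = a := by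
      rw [hdef]
      field_simp
    have habs : |h| = |a| / n := by
      rw [hdef, abs_div, abs_of_pos hnpos]
    have hsmall : |h| < h₀ := by
      rw [habs, div_lt_iff₀ hnpos]
      rw [div_lt_iff₀ hh₀] at hn
      linarith
    have hG := hh h hsmall
    have hGm := tvi_measurable_G F hF h
    -- telescoping
    have htel : ∀ p : ℂ × Dir, ‖F (trv a p) - F p‖ₑ
        ≤ ∑ k ∈ Finset.range n, ‖F (trv h (trv ((k : ℝ) * h) p)) - F (trv ((k : ℝ) * h) p)‖ₑ := by
      intro p
      have h1 := edist_le_range_sum_edist (fun i : ℕ => F (trv ((i : ℝ) * h) p)) n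
      simp only [Nat.cast_zero, zero_mul, tvi_trv_zero, hnh] at h1
      rw [edist_comm, edist_eq_enorm_sub] at h1
      refine h1.trans (le_of_eq (Finset.sum_congr rfl (fun k _ => ?_)))
      rw [edist_comm, edist_eq_enorm_sub, tvi_trv_trv]
      congr 4
      push_cast
      ring
    -- each term
    have hterm : ∀ k ∈ Finset.range n,
        ∫⁻ p in K₀, ‖F (trv h (trv ((k : ℝ) * h) p)) - F (trv ((k : ℝ) * h) p)‖ₑ ∂T.leb
          ≤ ENNReal.ofReal (|h| / s) * M₁ := by
      intro k hk
      have hkn : k < n := Finset.mem_range.mp hk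
      refine le_trans ?_ hG
      rw [tvi_leb_restrict T hK₀m hK₀sub, tvi_leb_restrict T hKtm (fun q hq => (hKtp q hq).1),
        ← lintegral_indicator hK₀m, ← lintegral_indicator hKtm,
        ← (tvi_trv_mp ((k : ℝ) * h)).lintegral_comp (hGm.indicator hKtm)]
      refine lintegral_mono (fun p => ?_)
      by_cases hp : p ∈ K₀
      · have hmem : trv ((k : ℝ) * h) p ∈ Kt := by
          rw [hKt]
          refine ⟨(p, (k : ℝ) / n), ⟨hp, ?_, ?_⟩, ?_⟩
          · positivity
          · rw [div_le_one hnpos]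
            exact_mod_cast hkn.le
          · show trv ((k : ℝ) / n * a) p = trv ((k : ℝ) * h) p
            rw [hdef]
            congr 1
            field_simp
        rw [Set.indicator_of_mem hp, Set.indicator_of_mem hmem]
      · rw [Set.indicator_of_notMem hp]
        exact bot_le
    calc ∫⁻ p in K₀, ‖F (trv a p) - F p‖ₑ ∂T.leb
        ≤ ∫⁻ p in K₀, ∑ k ∈ Finset.range n,
            ‖F (trv h (trv ((k : ℝ) * h) p)) - F (trv ((k : ℝ) * h) p)‖ₑ ∂T.leb :=
          lintegral_mono (fun p => htel p)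
      _ = ∑ k ∈ Finset.range n, ∫⁻ p in K₀,
            ‖F (trv h (trv ((k : ℝ) * h) p)) - F (trv ((k : ℝ) * h) p)‖ₑ ∂T.leb :=
          lintegral_finsetSum _ (fun k _ => hGm.comp (tvi_measurable_trv _))
      _ ≤ ∑ _k ∈ Finset.range n, ENNReal.ofReal (|h| / s) * M₁ := Finset.sum_le_sum hterm
      _ = ENNReal.ofReal (|a| / s) * M₁ := by
          rw [Finset.sum_const, Finset.card_range, nsmul_eq_mul, ← mul_assoc,
            ← ENNReal.ofReal_natCast, ← ENNReal.ofReal_mul (Nat.cast_nonneg n)]
          congr 2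
          rw [habs]
          field_simp
  -- let s tend to infinity
  have hlim : Filter.Tendsto (fun m : ℕ => ENNReal.ofReal (|a| / (m : ℝ)) * M₁) Filter.atTop
      (nhds 0) := by
    have h1 : Filter.Tendsto (fun m : ℕ => ENNReal.ofReal (|a| / (m : ℝ))) Filter.atTop
        (nhds 0) := by
      have h2 := ENNReal.tendsto_ofReal (tendsto_const_div_atTop_nhds_zero_nat |a|)
      rwa [ENNReal.ofReal_zero] at h2
    have h3 := ENNReal.Tendsto.mul_const (b := M₁) h1 (Or.inr hM)
    rwa [zero_mul] at h3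
  have hev : ∀ᶠ m : ℕ in Filter.atTop, ∫⁻ p in K₀, ‖F (trv a p) - F p‖ₑ ∂T.leb
      ≤ ENNReal.ofReal (|a| / (m : ℝ)) * M₁ := by
    filter_upwards [Filter.eventually_ge_atTop 1] with m hm
    exact hbound m (by exact_mod_cast hm)
  exact le_antisymm (ge_of_tendsto hlim hev) bot_le

namespace Triangle

/-- Let `E` be a countable set of directions and `M₁ < ∞`.  If on every compact set `K` of
phase points of the table with directions outside `E`, and for every `s ≥ 1`, the
variation of `F` under the transversal translation `trv h` is at most `(|h| / s) M₁` for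
small `h`, then `F` is invariant under all the transversal translations: for every real
`a`, `F (trv a p) = F p` for almost every `p` such that `trv a p` is in the table. -/
theorem transversal_invariant (T : Triangle) (F : ℂ × Dir → ℂ) (hF : Measurable F)
    (E : Set Dir) (hE : E.Countable) (M₁ : ENNReal) (hM : M₁ ≠ ⊤)
    (hloc : ∀ s : ℝ, 1 ≤ s → ∀ K : Set (ℂ × Dir), IsCompact K →
      (∀ p ∈ K, p.1 ∈ T.table ∧ p.2 ∉ E) →
      ∃ h₀ : ℝ, 0 < h₀ ∧ ∀ h : ℝ, |h| < h₀ →
        ∫⁻ p in K, ‖F (trv h p) - F p‖ₑ ∂T.leb ≤ ENNReal.ofReal (|h| / s) * M₁) :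
    ∀ a : ℝ, ∀ᵐ p ∂T.leb, (trv a p).1 ∈ T.table → F (trv a p) = F p := by
  intro a
  have hEm : MeasurableSet E := hE.measurableSet
  have hconv : Convex ℝ T.table := (convex_convexHull ℝ _).interior
  obtain ⟨G, hGdef⟩ : ∃ G : Set (ℂ × Dir), G = {p | p.1 ∈ T.table ∧ (trv a p).1 ∈ T.table ∧
      p.2 ∉ E ∧ F (trv a p) ≠ F p} := ⟨_, rfl⟩
  have hGm : MeasurableSet G := by
    have h1 : MeasurableSet {p : ℂ × Dir | p.1 ∈ T.table} :=
      measurable_fst T.isOpen_table.measurableSet
    have h2 : MeasurableSet {p : ℂ × Dir | (trv a p).1 ∈ T.table} :=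
      (measurable_fst.comp (tvi_measurable_trv a)) T.isOpen_table.measurableSet
    have h3 : MeasurableSet {p : ℂ × Dir | p.2 ∉ E} := measurable_snd hEm.compl
    have h4 : MeasurableSet {p : ℂ × Dir | F (trv a p) ≠ F p} :=
      (measurableSet_eq_fun (hF.comp (tvi_measurable_trv a)) hF).compl
    rw [hGdef]
    exact h1.inter (h2.inter (h3.inter h4))
  have hG0 : ((volume : Measure ℂ).prod (volume : Measure Dir)) G = 0 := by
    by_contra hne
    have hpos : 0 < ((volume : Measure ℂ).prod (volume : Measure Dir)) G :=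
      pos_iff_ne_zero.mpr hne
    obtain ⟨K, hKG, hKc, hKpos⟩ := hGm.exists_lt_isCompact hpos
    have hKG' : ∀ p ∈ K, p.1 ∈ T.table ∧ (trv a p).1 ∈ T.table ∧
        p.2 ∉ E ∧ F (trv a p) ≠ F p := by
      intro p hp
      have := hKG hp
      rw [hGdef] at this
      exact this
    have hint := tvi_step1 T F hF E M₁ hM hloc a K hKc (fun p hp => (hKG' p hp).2.2.1)
      (fun p hp b hb => by
        have hx := (hKG' p hp).1
        have hy := (hKG' p hp).2.1
        have hmem := hconv.add_smul_sub_mem hx hy hb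
        have heq : (trv (b * a) p).1 = p.1 + b • ((trv a p).1 - p.1) := by
          unfold trv
          simp only [Complex.real_smul, Complex.ofReal_mul]
          ring
        rw [heq]
        exact hmem)
    rw [setLIntegral_eq_zero_iff hKc.measurableSet (tvi_measurable_G F hF a)] at hint
    have hK0 : T.leb K = 0 := by
      refine measure_mono_null ?_ (ae_iff.mp hint)
      intro p hp
      show ¬(p ∈ K → ‖F (trv a p) - F p‖ₑ = 0)
      intro hcon
      have h0 := hcon hp
      rw [enorm_eq_zero, sub_eq_zero] at h0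
      exact (hKG' p hp).2.2.2 h0
    have hKeq : T.leb K = ((volume : Measure ℂ).prod (volume : Measure Dir)) K := by
      rw [← Measure.restrict_apply_self T.leb K, tvi_leb_restrict T hKc.measurableSet
        (fun p hp => (hKG' p hp).1), Measure.restrict_apply_self]
    rw [hKeq] at hK0
    rw [hK0] at hKpos
    exact lt_irrefl _ hKpos
  have hsing : ∀ x : Dir, (volume : Measure Dir) {x} = 0 := by
    intro x
    have h := AddCircle.volume_closedBall (T := 2 * Real.pi) (x := x) 0
    rw [Metric.closedBall_zero, mul_zero, min_eq_right Real.two_pi_pos.le,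
      ENNReal.ofReal_zero] at h
    exact h
  have hE0 : (volume : Measure Dir) E = 0 := by
    refine measure_mono_null ?_ ((measure_biUnion_null_iff hE).2 (fun x _ => hsing x))
    intro x hx
    exact Set.mem_biUnion hx rfl
  have hae1 : ∀ᵐ p ∂((volume : Measure ℂ).prod (volume : Measure Dir)), p ∉ G :=
    measure_eq_zero_iff_ae_notMem.mp hG0
  have hae2 : ∀ᵐ p ∂((volume : Measure ℂ).prod (volume : Measure Dir)), p.2 ∉ E := by
    have h0 : ((volume : Measure ℂ).prod (volume : Measure Dir)) (Set.univ ×ˢ E) = 0 := by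
      rw [Measure.prod_prod, hE0, mul_zero]
    filter_upwards [measure_eq_zero_iff_ae_notMem.mp h0] with p hp hpE
    exact hp ⟨Set.mem_univ _, hpE⟩
  have hSm : MeasurableSet (T.table ×ˢ (Set.univ : Set Dir)) :=
    T.isOpen_table.measurableSet.prod MeasurableSet.univ
  rw [T.leb_eq]
  filter_upwards [ae_restrict_of_ae hae1, ae_restrict_of_ae hae2, ae_restrict_mem hSm]
    with p h1 h2 h3 h4
  by_contra hne
  apply h1
  rw [hGdef]
  exact ⟨h3.1, h4, h2, hne⟩

end Triangle

end Vale.Agent.Lib.P099
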