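import Vale.Agent.Lib.P099.Sets
import Vale.Agent.Lib.P099.RidgeDefs

/-!
# Billiards in a triangle: the slices of an eigenfunction are invariant along their direction
-/

namespace Vale.Agent.Lib.P099

open MeasureTheory

/-- If `F ∘ Φ_t = exp (i lam t) F` almost everywhere for every real `t`, then for almost
every direction `θ` the slice `x ↦ F (x, θ)` is invariant with frequency `lam` along
`dirVec θ` on the table. -/
theorem Triangle.ae_slice_twInv (T : Triangle) (F : ℂ × Dir → ℂ) (lam : ℝ)
    (hinv : ∀ t : ℝ, (fun p => F (T.flow t p)) =ᵐ[T.mu]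
      fun p => Complex.exp (lam * t * Complex.I) * F p) :
    ∀ᵐ θ ∂(volume : Measure Dir), TwInv T.table (dirVec θ) lam (fun x => F (x, θ)) := by
  have hconv : Convex ℝ T.table := by
    unfold Triangle.table
    exact (convex_convexHull ℝ _).interior
  have key : ∀ t : ℚ, 0 < t → ∀ᵐ θ ∂(volume : Measure Dir),
      ∀ᵐ x ∂(volume : Measure ℂ), x ∈ T.table → x + ((t : ℝ) : ℂ) * dirVec θ ∈ T.table →
        F (x + ((t : ℝ) : ℂ) * dirVec θ, θ)
          = Complex.exp (lam * (t : ℝ) * Complex.I) * F (x, θ) := by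
    intro t ht
    have htR : (0 : ℝ) < (t : ℝ) := by exact_mod_cast ht
    have h0 := hinv (t : ℝ)
    have h1 : ∀ᵐ p ∂T.leb, p.1 ∈ T.table → p.1 + ((t : ℝ) : ℂ) * dirVec p.2 ∈ T.table →
        F (p.1 + ((t : ℝ) : ℂ) * dirVec p.2, p.2)
          = Complex.exp (lam * (t : ℝ) * Complex.I) * F (p.1, p.2) := by
      rw [Filter.EventuallyEq, T.ae_mu] at h0
      filter_upwards [h0] with p hp hx hy
      have hflow : T.flow (t : ℝ) (p.1, p.2) = (p.1 + ((t : ℝ) : ℂ) * dirVec p.2, p.2) := by
        apply T.flow_free htR.le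
        intro s hs hst
        have hseg := hconv.add_smul_sub_mem hx hy (t := s / (t : ℝ))
          ⟨div_nonneg hs htR.le, (div_le_one htR).mpr hst⟩
        have e : p.1 + (s / (t : ℝ)) • (p.1 + ((t : ℝ) : ℂ) * dirVec p.2 - p.1)
            = p.1 + (s : ℂ) * dirVec p.2 := by
          rw [add_sub_cancel_left, Complex.real_smul, ← mul_assoc]
          congr 2
          have htC : ((t : ℝ) : ℂ) ≠ 0 := by exact_mod_cast htR.ne'
          push_cast
          field_simp
        rw [← e]
        exact hseg
      rw [← hflow]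
      exact hp
    have hsw : MeasurePreserving Prod.swap
        ((volume : Measure Dir).prod (volume.restrict T.table)) T.leb :=
      Measure.measurePreserving_swap
    have h2 := hsw.quasiMeasurePreserving.ae h1
    have h3 := Measure.ae_ae_of_ae_prod h2
    filter_upwards [h3] with θ hθ
    rw [ae_restrict_iff' T.isOpen_table.measurableSet] at hθ
    filter_upwards [hθ] with x hx hxT hyT
    exact hx hxT hxT hyT
  have hall : ∀ᵐ θ ∂(volume : Measure Dir), ∀ t : ℚ, 0 < t →
      ∀ᵐ x ∂(volume : Measure ℂ), x ∈ T.table → x + ((t : ℝ) : ℂ) * dirVec θ ∈ T.table →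
        F (x + ((t : ℝ) : ℂ) * dirVec θ, θ)
          = Complex.exp (lam * (t : ℝ) * Complex.I) * F (x, θ) := by
    rw [ae_all_iff]
    intro t
    by_cases ht : 0 < t
    · filter_upwards [key t ht] with θ hθ _ using hθ
    · exact Filter.Eventually.of_forall (fun θ h => absurd h ht)
  filter_upwards [hall] with θ hθ
  exact hθ

end Vale.Agent.Lib.P099
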