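import Vale.Agent.Lib.P099.Main

/-!
# Billiards in an irrational triangle: invariant sets of directions
-/

namespace Vale.Agent.Lib.P099

open MeasureTheory Set Filter Topology
open scoped symmDiff

namespace Triangle

variable (T : Triangle)

lemma mu_univ : T.mu Set.univ = 1 := by
  unfold mu
  rw [Measure.smul_apply, ← Set.univ_prod_univ, Measure.prod_prod, Measure.restrict_apply_univ,
    AddCircle.measure_univ, smul_eq_mul, mul_comm (volume T.table)]
  apply ENNReal.inv_mul_cancel
  · exact mul_ne_zero (by simp [Real.pi_pos]) T.volume_table_pos.ne'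
  · exact ENNReal.mul_ne_top ENNReal.ofReal_ne_top T.volume_table_ne_top

lemma ae_mu_fst_mem : ∀ᵐ p ∂T.mu, p.1 ∈ T.table := by
  rw [T.ae_mu]
  have hq := Measure.quasiMeasurePreserving_fst (μ := volume.restrict T.table)
    (ν := (volume : Measure Dir))
  exact hq.ae (ae_restrict_mem T.isOpen_table.measurableSet)

lemma flowFwd_fst_mem {t : ℝ} {p : ℂ × Dir} (hp : p.1 ∈ T.table) :
    (T.flowFwd t p).1 ∈ T.table := by
  unfold flowFwd
  split_ifs with h
  · exact h.choose_spec.2
  · exact hp

lemma flow_fst_mem {t : ℝ} {p : ℂ × Dir} (hp : p.1 ∈ T.table) :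
    (T.flow t p).1 ∈ T.table := by
  unfold flow
  split_ifs with h
  · exact T.flowFwd_fst_mem hp
  · exact T.flowFwd_fst_mem (p := reverse p) hp

/-- In an irrational triangle, a flow-invariant set of the form `Q × D` (a set of
directions) has measure `0` or `1`. -/
theorem direction_set_trivial (hT : T.IsIrrational) (D : Set Dir) (hD : MeasurableSet D)
    (hinv : ∀ t : ℝ, T.mu ((T.flow t ⁻¹' (T.table ×ˢ D)) ∆ (T.table ×ˢ D)) = 0) :
    T.mu (T.table ×ˢ D) = 0 ∨ T.mu (T.table ×ˢ D) = 1 := by
  classical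
  set F : ℂ × Dir → ℂ := fun p => if p.2 ∈ D then 1 else 0 with hF
  have hFm : Measurable F :=
    Measurable.ite (measurable_snd hD) measurable_const measurable_const
  have hFa : ∀ θ : Dir, AnalyticOnNhd ℝ (fun x : ℂ => F (x, θ)) Set.univ := by
    intro θ
    have hconst : (fun x : ℂ => F (x, θ)) = fun _ => F (0, θ) := by
      funext x; simp only [hF]
    rw [hconst]
    exact analyticOnNhd_const
  have hFinv : ∀ t : ℝ, (fun p => F (T.flow t p)) =ᵐ[T.mu]
      fun p => Complex.exp ((0 : ℝ) * t * Complex.I) * F p := by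
    intro t
    have h1 : ∀ᵐ p ∂T.mu, p ∉ (T.flow t ⁻¹' (T.table ×ˢ D)) ∆ (T.table ×ˢ D) :=
      measure_eq_zero_iff_ae_notMem.mp (hinv t)
    filter_upwards [h1, T.ae_mu_fst_mem] with p hp hp1
    have hp2 := T.flow_fst_mem (t := t) hp1
    have hiff : (T.flow t p).2 ∈ D ↔ p.2 ∈ D := by
      constructor
      · intro h
        by_contra hn
        apply hp
        left
        exact ⟨⟨hp2, h⟩, fun hc => hn hc.2⟩
      · intro h
        by_contra hn
        apply hp
        right
        exact ⟨⟨hp1, h⟩, fun hc => hn hc.2⟩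
    simp only [hF, Complex.ofReal_zero, zero_mul, Complex.exp_zero, one_mul]
    by_cases h : p.2 ∈ D
    · rw [if_pos h, if_pos (hiff.mpr h)]
    · rw [if_neg h, if_neg (fun hc => h (hiff.mp hc))]
  obtain ⟨c, hc, -⟩ := T.eigenfunction_const hT F hFm hFa 0 hFinv
  by_cases h1 : c = 1
  · right
    have hmem : ∀ᵐ p ∂T.mu, p ∈ T.table ×ˢ D := by
      filter_upwards [hc, T.ae_mu_fst_mem] with p hp hp1
      refine ⟨hp1, ?_⟩
      by_contra hn
      simp only [hF, if_neg hn, h1] at hp
      exact zero_ne_one hp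
    have heq : (T.table ×ˢ D : Set (ℂ × Dir)) =ᵐ[T.mu] Set.univ := eventuallyEq_univ.mpr hmem
    rw [measure_congr heq, T.mu_univ]
  · left
    rw [measure_eq_zero_iff_ae_notMem]
    filter_upwards [hc] with p hp hmem
    simp only [hF, if_pos hmem.2] at hp
    exact h1 hp.symm

end Triangle

end Vale.Agent.Lib.P099
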