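import Vale.Agent.Lib.P099.MirrorList
import Vale.Agent.Lib.P099.Sets

/-!
# Billiards in a triangle: the flow maps sets of measure zero to sets of measure zero

For every time `t`, the preimage under the billiard flow `Φ_t` of a set of measure zero
has measure zero: a property which holds almost everywhere holds almost everywhere along
the flow.
-/

namespace Vale.Agent.Lib.P099

open Set MeasureTheory

/-- The map of directions induced by a composition of reflections in the sides (the head of
the list is applied first). -/
private noncomputable def dirList (T : Triangle) : List (Fin 3) → Dir → Dir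
  | [] => fun θ => θ
  | i :: L => fun θ => dirList T L (T.reflect i θ)

private lemma unf_dirList (T : Triangle) (L : List (Fin 3)) :
    Unf (mirrorList T L) (dirList T L) := by
  induction L with
  | nil => exact Unf.id
  | cons i L ih =>
    refine ⟨fun z θ t => ?_⟩
    show mirrorList T L (T.sideMirror i (z + (t : ℂ) * dirVec θ))
      = mirrorList T L (T.sideMirror i z) + (t : ℂ) * dirVec (dirList T L (T.reflect i θ))
    rw [T.sideMirror_ray, ih.ray]

private lemma unf_unique {g : ℂ → ℂ} {γ γ' : Dir → Dir} (h : Unf g γ) (h' : Unf g γ') :
    γ = γ' := by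
  funext θ
  have h1 := h.ray 0 θ 1
  have h2 := h'.ray 0 θ 1
  rw [h1] at h2
  apply dirVec_injective
  simpa using h2

/-- A reflection of the plane in a line preserves the Lebesgue measure. -/
private lemma mirror_measurePreserving (P : ℂ) {d : ℂ} (hd : d ≠ 0) :
    MeasurePreserving (mirror P d) (volume : Measure ℂ) volume := by
  have hd' : (starRingEnd ℂ) d ≠ 0 := (map_ne_zero _).mpr hd
  have h1 : MeasurePreserving (fun x : ℂ => x - P) volume volume :=
    measurePreserving_sub_right volume P
  have h2 : MeasurePreserving (Complex.conjLIE : ℂ → ℂ) volume volume :=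
    Complex.conjLIE.measurePreserving
  have h3 : MeasurePreserving
      (rotation (Circle.ofConjDivSelf ((starRingEnd ℂ) d) hd') : ℂ → ℂ) volume volume :=
    (rotation _).measurePreserving
  have h4 : MeasurePreserving (fun x : ℂ => P + x) volume volume :=
    measurePreserving_add_left volume P
  have h := h4.comp (h3.comp (h2.comp h1))
  have he : mirror P d = (fun x : ℂ => P + x) ∘
      (rotation (Circle.ofConjDivSelf ((starRingEnd ℂ) d) hd')) ∘ Complex.conjLIE ∘
        (fun x : ℂ => x - P) := by
    funext x
    simp only [Function.comp_apply, rotation_apply, Complex.conjLIE_apply,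
      Circle.ofConjDivSelf_coe, mirror, Complex.conj_conj]
  rw [he]
  exact h

private lemma mirrorList_measurePreserving (T : Triangle) (L : List (Fin 3)) :
    MeasurePreserving (mirrorList T L) (volume : Measure ℂ) volume := by
  induction L with
  | nil => exact MeasurePreserving.id volume
  | cons i L ih =>
    have h1 : MeasurePreserving (T.sideMirror i) (volume : Measure ℂ) volume :=
      mirror_measurePreserving _ (T.sideVec_ne_zero i)
    exact ih.comp h1

private lemma dirList_measurePreserving (T : Triangle) (L : List (Fin 3)) :
    MeasurePreserving (dirList T L) (volume : Measure Dir) volume := by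
  induction L with
  | nil => exact MeasurePreserving.id volume
  | cons i L ih =>
    have h1 : MeasurePreserving (T.reflect i) (volume : Measure Dir) volume :=
      mirrorDir_measurePreserving (T.sideVec i)
    exact ih.comp h1

/-- The free motion for a time `t` preserves the Lebesgue measure of the phase space. -/
private lemma shear_measurePreserving (t : ℝ) :
    MeasurePreserving (fun p : ℂ × Dir => (p.1 + (t : ℂ) * dirVec p.2, p.2))
      ((volume : Measure ℂ).prod (volume : Measure Dir))
      ((volume : Measure ℂ).prod (volume : Measure Dir)) := by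
  have hm : Measurable (Function.uncurry fun (θ : Dir) (x : ℂ) => x + (t : ℂ) * dirVec θ) :=
    (continuous_snd.add
      (continuous_const.mul (continuous_dirVec.comp continuous_fst))).measurable
  have hsk : MeasurePreserving (fun p : Dir × ℂ => (id p.1, p.2 + (t : ℂ) * dirVec p.1))
      ((volume : Measure Dir).prod (volume : Measure ℂ))
      ((volume : Measure Dir).prod (volume : Measure ℂ)) :=
    MeasurePreserving.skew_product (MeasurePreserving.id volume) hm
      (Filter.Eventually.of_forall fun θ => (measurePreserving_add_right volume _).map_eq)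
  have hs1 : MeasurePreserving (Prod.swap : ℂ × Dir → Dir × ℂ)
      ((volume : Measure ℂ).prod (volume : Measure Dir))
      ((volume : Measure Dir).prod (volume : Measure ℂ)) := Measure.measurePreserving_swap
  have hs2 : MeasurePreserving (Prod.swap : Dir × ℂ → ℂ × Dir)
      ((volume : Measure Dir).prod (volume : Measure ℂ))
      ((volume : Measure ℂ).prod (volume : Measure Dir)) := Measure.measurePreserving_swap
  exact hs2.comp (hsk.comp hs1)

/-- The unfolded motion for a time `t` preserves the Lebesgue measure of the phase space. -/
private lemma psi_measurePreserving (T : Triangle) (t : ℝ) (L : List (Fin 3)) :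
    MeasurePreserving
      (fun p : ℂ × Dir => (mirrorList T L (p.1 + (t : ℂ) * dirVec p.2), dirList T L p.2))
      ((volume : Measure ℂ).prod (volume : Measure Dir))
      ((volume : Measure ℂ).prod (volume : Measure Dir)) :=
  ((mirrorList_measurePreserving T L).prod (dirList_measurePreserving T L)).comp
    (shear_measurePreserving t)

private lemma flowFwd_cases (T : Triangle) (t : ℝ) (p : ℂ × Dir) :
    T.flowFwd t p = p ∨ ∃ L : List (Fin 3),
      T.flowFwd t p = (mirrorList T L (p.1 + (t : ℂ) * dirVec p.2), dirList T L p.2) := by
  unfold Triangle.flowFwd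
  split_ifs with h
  · right
    obtain ⟨L, γ, hU, h1, h2⟩ := Triangle.reach_mirrorList h.choose_spec.1
    refine ⟨L, ?_⟩
    have hγ : γ = dirList T L := unf_unique hU (unf_dirList T L)
    rw [hγ] at h2
    exact Prod.ext h1 h2
  · left
    rfl

private lemma ae_mu_iff (T : Triangle) (P : ℂ × Dir → Prop) :
    (∀ᵐ p ∂T.mu, P p) ↔
      ∀ᵐ p ∂((volume : Measure ℂ).prod (volume : Measure Dir)), p.1 ∈ T.table → P p := by
  rw [T.ae_mu]
  have hleb : T.leb = ((volume : Measure ℂ).prod (volume : Measure Dir)).restrict
      (T.table ×ˢ (univ : Set Dir)) := by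
    unfold Triangle.leb
    rw [← Measure.prod_restrict, Measure.restrict_univ]
  rw [hleb, ae_restrict_iff' (T.isOpen_table.measurableSet.prod MeasurableSet.univ)]
  simp

private lemma ae_flowFwd (T : Triangle) (t : ℝ) {P : ℂ × Dir → Prop}
    (h : ∀ᵐ p ∂T.mu, P p) : ∀ᵐ p ∂T.mu, P (T.flowFwd t p) := by
  rw [ae_mu_iff] at h ⊢
  have hL : ∀ᵐ p ∂((volume : Measure ℂ).prod (volume : Measure Dir)), ∀ L : List (Fin 3),
      (mirrorList T L (p.1 + (t : ℂ) * dirVec p.2) ∈ T.table →
        P (mirrorList T L (p.1 + (t : ℂ) * dirVec p.2), dirList T L p.2)) := by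
    rw [ae_all_iff]
    intro L
    exact (psi_measurePreserving T t L).quasiMeasurePreserving.ae h
  filter_upwards [h, hL] with p hp hpL hmem
  have hmem' := T.flowFwd_fst_mem (t := t) hmem
  rcases flowFwd_cases T t p with h0 | ⟨L, h1⟩
  · rw [h0]
    exact hp hmem
  · rw [h1] at hmem' ⊢
    exact hpL L hmem'

private lemma ae_reverse (T : Triangle) {P : ℂ × Dir → Prop} (h : ∀ᵐ p ∂T.mu, P p) :
    ∀ᵐ p ∂T.mu, P (Triangle.reverse p) := by
  rw [ae_mu_iff] at h ⊢
  have hr : MeasurePreserving Triangle.reverse
      ((volume : Measure ℂ).prod (volume : Measure Dir))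
      ((volume : Measure ℂ).prod (volume : Measure Dir)) :=
    (MeasurePreserving.id volume).prod
      (measurePreserving_add_right volume ((Real.pi : ℝ) : Dir))
  exact hr.quasiMeasurePreserving.ae h

namespace Triangle

variable (T : Triangle)

/-- A property which holds almost everywhere on the phase space holds almost everywhere
at the image of the phase point under the billiard flow. -/
theorem ae_flow_of_ae (t : ℝ) {P : ℂ × Dir → Prop} (h : ∀ᵐ p ∂T.mu, P p) :
    ∀ᵐ p ∂T.mu, P (T.flow t p) := by
  by_cases ht : 0 ≤ t
  · have h1 := ae_flowFwd T t h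
    filter_upwards [h1] with p hp
    unfold Triangle.flow
    rw [if_pos ht]
    exact hp
  · have h1 : ∀ᵐ p ∂T.mu, P (Triangle.reverse p) := ae_reverse T h
    have h2 : ∀ᵐ p ∂T.mu, P (Triangle.reverse (T.flowFwd (-t) p)) :=
      ae_flowFwd T (-t) (P := fun p => P (Triangle.reverse p)) h1
    have h3 : ∀ᵐ p ∂T.mu, P (Triangle.reverse (T.flowFwd (-t) (Triangle.reverse p))) :=
      ae_reverse T (P := fun p => P (Triangle.reverse (T.flowFwd (-t) p))) h2
    filter_upwards [h3] with p hp
    unfold Triangle.flow
    rw [if_neg ht]
    exact hp

end Triangle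

end Vale.Agent.Lib.P099
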