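import Vale.Agent.Lib.P099.MainU
import Vale.Agent.Lib.P099.Quasi
import Vale.Agent.Lib.P099.FinRankSlice
import Vale.Agent.Lib.P099.BVLocal
import Vale.Agent.Lib.P099.BVTransversal
import Vale.Agent.Lib.P099.BVSlice
import Vale.Agent.Lib.P099.BVRep
import Vale.Agent.Lib.P099.BVPrep

/-!
# Billiards in an irrational triangle: eigenfunctions of bounded variation in the direction

A measurable eigenfunction `F` of the billiard flow of an irrational triangle whose mean
variation under the rotation of all directions by `δ` is at most `C |δ|` is almost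
everywhere constant, and zero unless the frequency is zero.  No regularity in the position
is assumed.
-/

namespace Vale.Agent.Lib.P099

open MeasureTheory

private theorem bv_core (T : Triangle) (hT : T.IsIrrational) (F : ℂ × Dir → ℂ)
    (hFm : Measurable F) (lam C : ℝ)
    (hfin : lam = 0 ∨ ∫⁻ p, ‖F p‖ₑ ∂T.leb ≠ ⊤)
    (hBV : ∀ δ : ℝ, ∫⁻ p, ‖F (p.1, p.2 + (δ : Dir)) - F p‖ₑ ∂T.mu
      ≤ ENNReal.ofReal (C * |δ|))
    (hinv : ∀ t : ℝ, (fun p => F (T.flow t p)) =ᵐ[T.mu]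
      fun p => Complex.exp (lam * t * Complex.I) * F p) :
    ∃ c : ℂ, (F =ᵐ[T.mu] fun _ => c) ∧ (lam ≠ 0 → c = 0) := by
  obtain ⟨C', hBV'⟩ := T.bv_leb F C hBV
  have hinv' : ∀ t : ℝ, (fun p => F (T.flow t p)) =ᵐ[T.leb]
      fun p => Complex.exp (lam * t * Complex.I) * F p := by
    intro t
    have h := hinv t
    rwa [Filter.EventuallyEq, T.ae_mu] at h
  obtain ⟨E, hEc, hloc⟩ := T.local_bound
  have hM2 : ENNReal.ofReal (20 * |lam|) * ∫⁻ p, ‖F p‖ₑ ∂T.leb ≠ ⊤ := by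
    rcases hfin with h0 | hI
    · rw [h0]
      simp
    · exact ENNReal.mul_ne_top ENNReal.ofReal_ne_top hI
  have hM : 2 * (ENNReal.ofReal (20 * C')
      + ENNReal.ofReal (20 * |lam|) * ∫⁻ p, ‖F p‖ₑ ∂T.leb) ≠ ⊤ :=
    ENNReal.mul_ne_top (by simp) (ENNReal.add_ne_top.mpr ⟨ENNReal.ofReal_ne_top, hM2⟩)
  have htr := T.transversal_invariant F hFm E hEc _ hM
    (fun s hs K hK hKE => hloc F hFm lam C' hinv' hBV' s hs K hK hKE)
  have hsl2 := T.ae_slice_trv F htr
  have hsl1 := T.ae_slice_twInv F lam hinv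
  have hslice : ∀ᵐ θ ∂(volume : Measure Dir), ∃ c : ℂ, ∀ᵐ x ∂(volume : Measure ℂ),
      x ∈ T.table → F (x, θ) = c * Complex.exp (lam * rdot (dirVec θ) x * Complex.I) := by
    filter_upwards [hsl1, hsl2] with θ h1 h2
    exact T.slice_profile (fun x => F (x, θ)) (hFm.comp (measurable_id.prodMk measurable_const))
      (dirVec θ) (norm_dirVec θ) lam h1 h2
  obtain ⟨G, hGm, hGa, hGF⟩ := T.exists_profile_rep F hFm lam hslice
  have hGinv : ∀ t : ℝ, (fun p => G (T.flow t p)) =ᵐ[T.mu]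
      fun p => Complex.exp (lam * t * Complex.I) * G p := by
    intro t
    have h1 := T.ae_flow_of_ae t hGF
    filter_upwards [h1, hinv t, hGF] with p hp1 hp2 hp3
    rw [hp1, hp3]
    exact hp2
  obtain ⟨c, hc, hc0⟩ := T.eigenfunction_const_nhd hT Set.univ isOpen_univ (Set.subset_univ _)
    G hGm hGa lam hGinv
  refine ⟨c, ?_, hc0⟩
  filter_upwards [hGF, hc] with p hp1 hp2
  rw [← hp1]
  exact hp2

/-- **Eigenfunctions of bounded variation in the direction.**  In an irrational triangle,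
a measurable eigenfunction `F` of the billiard flow such that the mean of
`|F (x, θ + δ) - F (x, θ)|` is at most `C |δ|` for every real `δ` is almost everywhere
constant, and zero unless the frequency is zero. -/
theorem Triangle.bv_eigen_measurable (T : Triangle) (hT : T.IsIrrational) (F : ℂ × Dir → ℂ)
    (hFm : Measurable F) (lam C : ℝ)
    (hBV : ∀ δ : ℝ, ∫⁻ p, ‖F (p.1, p.2 + (δ : Dir)) - F p‖ₑ ∂T.mu
      ≤ ENNReal.ofReal (C * |δ|))
    (hinv : ∀ t : ℝ, (fun p => F (T.flow t p)) =ᵐ[T.mu]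
      fun p => Complex.exp (lam * t * Complex.I) * F p) :
    ∃ c : ℂ, (F =ᵐ[T.mu] fun _ => c) ∧ (lam ≠ 0 → c = 0) := by
  -- the modulus of `F` is invariant and of bounded variation in the direction
  have hAm : Measurable (fun p : ℂ × Dir => ((‖F p‖ : ℝ) : ℂ)) :=
    Complex.measurable_ofReal.comp hFm.norm
  have hABV : ∀ δ : ℝ, ∫⁻ p, ‖((‖F (p.1, p.2 + (δ : Dir))‖ : ℝ) : ℂ) - ((‖F p‖ : ℝ) : ℂ)‖ₑ ∂T.mu
      ≤ ENNReal.ofReal (C * |δ|) := by
    intro δ
    refine le_trans (lintegral_mono fun p => ?_) (hBV δ)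
    rw [← Complex.ofReal_sub, enorm_eq_nnnorm, enorm_eq_nnnorm]
    refine ENNReal.coe_le_coe.mpr ?_
    rw [← NNReal.coe_le_coe, coe_nnnorm, coe_nnnorm, Complex.norm_real, Real.norm_eq_abs]
    exact abs_norm_sub_norm_le _ _
  have hAinv : ∀ t : ℝ, (fun p => ((‖F (T.flow t p)‖ : ℝ) : ℂ)) =ᵐ[T.mu]
      fun p => Complex.exp (((0 : ℝ) : ℂ) * t * Complex.I) * ((‖F p‖ : ℝ) : ℂ) := by
    intro t
    filter_upwards [hinv t] with p hp
    rw [hp, norm_mul]
    have h1 : ‖Complex.exp (lam * t * Complex.I)‖ = 1 := by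
      have : (lam : ℂ) * t * Complex.I = ((lam * t : ℝ) : ℂ) * Complex.I := by push_cast; ring
      rw [this, Complex.norm_exp_ofReal_mul_I]
    rw [h1]
    simp
  obtain ⟨c₀, hc₀, -⟩ := bv_core T hT (fun p => ((‖F p‖ : ℝ) : ℂ)) hAm 0 C (Or.inl rfl)
    hABV hAinv
  -- hence `F` is bounded, hence integrable
  have hFi : Integrable F T.mu := by
    have hprob : T.mu Set.univ = 1 := T.mu_univ
    have : IsFiniteMeasure T.mu := ⟨by rw [hprob]; exact ENNReal.one_lt_top⟩
    refine Integrable.mono' (integrable_const ‖c₀‖) hFm.aestronglyMeasurable ?_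
    filter_upwards [hc₀] with p hp
    have h2 : ‖((‖F p‖ : ℝ) : ℂ)‖ = ‖c₀‖ := by rw [hp]
    rw [Complex.norm_real, Real.norm_eq_abs, abs_of_nonneg (norm_nonneg _)] at h2
    exact h2.le
  exact bv_core T hT F hFm lam C (Or.inr (T.lintegral_leb_ne_top F hFi)) hBV hinv

/-- The same statement, with an integrability hypothesis which is not needed. -/
theorem Triangle.bv_eigen (T : Triangle) (hT : T.IsIrrational) (F : ℂ × Dir → ℂ)
    (hFm : Measurable F) (_hFi : Integrable F T.mu) (lam C : ℝ)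
    (hBV : ∀ δ : ℝ, ∫⁻ p, ‖F (p.1, p.2 + (δ : Dir)) - F p‖ₑ ∂T.mu
      ≤ ENNReal.ofReal (C * |δ|))
    (hinv : ∀ t : ℝ, (fun p => F (T.flow t p)) =ᵐ[T.mu]
      fun p => Complex.exp (lam * t * Complex.I) * F p) :
    ∃ c : ℂ, (F =ᵐ[T.mu] fun _ => c) ∧ (lam ≠ 0 → c = 0) :=
  T.bv_eigen_measurable hT F hFm lam C hBV hinv

end Vale.Agent.Lib.P099
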