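import Vale.Agent.Lib.P099.BVSet

/-!
# Billiards in an irrational triangle: invariant sets whose slices are unions of arcs
-/

namespace Vale.Agent.Lib.P099

open MeasureTheory
open scoped symmDiff

/-- The distance of two points of the circle is at most the distance of two of their
representatives. -/
private theorem bvArcs_dist_coe_le (u v : ℝ) : dist (u : Dir) (v : Dir) ≤ |u - v| := by
  rw [dist_eq_norm, ← AddCircle.coe_sub, ← Real.norm_eq_abs]
  exact QuotientAddGroup.norm_mk_le_norm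

/-- A point of a closed arc whose translate by `δ` leaves the arc is at distance at most
`|δ|` from one of the two ends. -/
private theorem bvArcs_out {a b δ : ℝ} {θ : Dir}
    (h1 : θ ∈ ((↑) : ℝ → Dir) '' Set.Icc a b)
    (h2 : θ + (δ : Dir) ∉ ((↑) : ℝ → Dir) '' Set.Icc a b) :
    θ ∈ Metric.closedBall (a : Dir) |δ| ∪ Metric.closedBall (b : Dir) |δ| := by
  obtain ⟨s, hs, rfl⟩ := h1
  have hs' : s + δ ∉ Set.Icc a b := fun h => h2 ⟨s + δ, h, AddCircle.coe_add _ s δ⟩
  rw [Set.mem_Icc, not_and_or, not_le, not_le] at hs'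
  have hδ1 := neg_abs_le δ
  have hδ2 := le_abs_self δ
  rcases hs' with h | h
  · left
    rw [Metric.mem_closedBall]
    refine (bvArcs_dist_coe_le s a).trans ?_
    rw [abs_le]
    constructor <;> linarith [hs.1, hs.2, neg_le_abs δ]
  · right
    rw [Metric.mem_closedBall]
    refine (bvArcs_dist_coe_le s b).trans ?_
    rw [abs_le]
    constructor <;> linarith [hs.1, hs.2, neg_le_abs δ]

/-- A point outside a closed arc whose translate by `δ` enters the arc is at distance at
most `|δ|` from one of the two ends. -/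
private theorem bvArcs_in {a b δ : ℝ} {θ : Dir}
    (h1 : θ + (δ : Dir) ∈ ((↑) : ℝ → Dir) '' Set.Icc a b)
    (h2 : θ ∉ ((↑) : ℝ → Dir) '' Set.Icc a b) :
    θ ∈ Metric.closedBall (a : Dir) |δ| ∪ Metric.closedBall (b : Dir) |δ| := by
  obtain ⟨s, hs, hsθ⟩ := h1
  have hθ : θ = ((s - δ : ℝ) : Dir) := by
    rw [AddCircle.coe_sub, hsθ, add_sub_cancel_right]
  have hs' : s - δ ∉ Set.Icc a b := fun h => h2 ⟨s - δ, h, hθ.symm⟩
  rw [Set.mem_Icc, not_and_or, not_le, not_le] at hs'
  have hδ1 := neg_abs_le δ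
  have hδ2 := le_abs_self δ
  rw [hθ]
  rcases hs' with h | h
  · left
    rw [Metric.mem_closedBall]
    refine (bvArcs_dist_coe_le (s - δ) a).trans ?_
    rw [abs_le]
    constructor <;> linarith [hs.1, hs.2, neg_le_abs δ]
  · right
    rw [Metric.mem_closedBall]
    refine (bvArcs_dist_coe_le (s - δ) b).trans ?_
    rw [abs_le]
    constructor <;> linarith [hs.1, hs.2, neg_le_abs δ]

/-- The volume of a closed ball of radius `|δ|` of the circle of directions. -/
private theorem bvArcs_ball (c : Dir) (δ : ℝ) :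
    volume (Metric.closedBall c |δ|) ≤ ENNReal.ofReal (2 * |δ|) := by
  rw [AddCircle.volume_closedBall]
  exact ENNReal.ofReal_le_ofReal (min_le_right _ _)

/-- The slice of the symmetric difference of a set whose slice is a union of `N` arcs and
of its rotation by `δ` has volume at most `4 N |δ|`. -/
private theorem bvArcs_slice (S : Set (ℂ × Dir)) (N : ℕ) (δ : ℝ) (x : ℂ) (a b : Fin N → ℝ)
    (hU : {θ : Dir | (x, θ) ∈ S} = ⋃ m, ((↑) : ℝ → Dir) '' Set.Icc (a m) (b m)) :
    volume (Prod.mk x ⁻¹' (((fun p : ℂ × Dir => (p.1, p.2 + (δ : Dir))) ⁻¹' S) ∆ S))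
      ≤ ENNReal.ofReal (4 * N * |δ|) := by
  have hmem : ∀ θ' : Dir, (x, θ') ∈ S ↔ ∃ m, θ' ∈ ((↑) : ℝ → Dir) '' Set.Icc (a m) (b m) := by
    intro θ'
    rw [← Set.mem_iUnion, ← hU]
    rfl
  have hsub : Prod.mk x ⁻¹' (((fun p : ℂ × Dir => (p.1, p.2 + (δ : Dir))) ⁻¹' S) ∆ S)
      ⊆ ⋃ m, (Metric.closedBall (a m : Dir) |δ| ∪ Metric.closedBall (b m : Dir) |δ|) := by
    intro θ hθ
    have hθ' : ((x, θ + (δ : Dir)) ∈ S ∧ (x, θ) ∉ S) ∨ ((x, θ) ∈ S ∧ (x, θ + (δ : Dir)) ∉ S) :=
      hθ
    rw [Set.mem_iUnion]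
    rcases hθ' with ⟨h1, h2⟩ | ⟨h1, h2⟩
    · obtain ⟨m, hm⟩ := (hmem _).mp h1
      exact ⟨m, bvArcs_in hm (fun h => h2 ((hmem _).mpr ⟨m, h⟩))⟩
    · obtain ⟨m, hm⟩ := (hmem _).mp h1
      exact ⟨m, bvArcs_out hm (fun h => h2 ((hmem _).mpr ⟨m, h⟩))⟩
  have hterm : ∀ m : Fin N, volume (Metric.closedBall (a m : Dir) |δ| ∪
      Metric.closedBall (b m : Dir) |δ|) ≤ ENNReal.ofReal (4 * |δ|) := by
    intro m
    have e : ENNReal.ofReal (4 * |δ|) = ENNReal.ofReal (2 * |δ|) + ENNReal.ofReal (2 * |δ|) := by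
      rw [← ENNReal.ofReal_add (by positivity) (by positivity)]
      congr 1
      ring
    rw [e]
    exact (measure_union_le _ _).trans (add_le_add (bvArcs_ball _ δ) (bvArcs_ball _ δ))
  have e2 : ENNReal.ofReal (4 * N * |δ|) = ∑ _m : Fin N, ENNReal.ofReal (4 * |δ|) := by
    rw [Finset.sum_const, Finset.card_univ, Fintype.card_fin, nsmul_eq_mul,
      ← ENNReal.ofReal_natCast N, ← ENNReal.ofReal_mul (Nat.cast_nonneg N)]
    congr 1
    ring
  rw [e2]
  exact (measure_mono hsub).trans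
    ((measure_iUnion_fintype_le _ _).trans (Finset.sum_le_sum (fun m _ => hterm m)))

/-- In an irrational triangle, an invariant measurable set `S` of the phase space such
that, for every point `x` of the table, the set of the directions `θ` with `(x, θ) ∈ S`
is a union of at most `N` closed arcs (images in `Dir` of intervals `[a m, b m]` of the
real line), has measure `0` or `1`. -/
theorem Triangle.arc_set_trivial (T : Triangle) (hT : T.IsIrrational) (S : Set (ℂ × Dir))
    (hS : MeasurableSet S) (N : ℕ)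
    (hslice : ∀ x ∈ T.table, ∃ a b : Fin N → ℝ,
      {θ : Dir | (x, θ) ∈ S} = ⋃ m, ((↑) : ℝ → Dir) '' Set.Icc (a m) (b m))
    (hinv : ∀ t : ℝ, T.mu ((T.flow t ⁻¹' S) ∆ S) = 0) :
    T.mu S = 0 ∨ T.mu S = 1 := by
  refine T.bv_set hT S hS (4 * N) ?_ hinv
  intro δ
  have hr : Measurable (fun p : ℂ × Dir => (p.1, p.2 + (δ : Dir))) :=
    measurable_fst.prodMk (measurable_snd.add measurable_const)
  have hD : MeasurableSet (((fun p : ℂ × Dir => (p.1, p.2 + (δ : Dir))) ⁻¹' S) ∆ S) :=
    (hr hS).symmDiff hS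
  have hk0 : ENNReal.ofReal (2 * Real.pi) * volume T.table ≠ 0 := by
    refine mul_ne_zero ?_ T.volume_table_pos.ne'
    rw [Ne, ENNReal.ofReal_eq_zero, not_le]
    exact mul_pos two_pos Real.pi_pos
  have hktop : ENNReal.ofReal (2 * Real.pi) * volume T.table ≠ ⊤ :=
    ENNReal.mul_ne_top ENNReal.ofReal_ne_top T.volume_table_ne_top
  have hVk : volume T.table ≤ ENNReal.ofReal (2 * Real.pi) * volume T.table := by
    have h1 : (1 : ENNReal) ≤ ENNReal.ofReal (2 * Real.pi) := by
      rw [← ENNReal.ofReal_one]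
      apply ENNReal.ofReal_le_ofReal
      linarith [Real.pi_gt_three]
    calc volume T.table = 1 * volume T.table := (one_mul _).symm
      _ ≤ ENNReal.ofReal (2 * Real.pi) * volume T.table := by gcongr
  have hleb : ((volume.restrict T.table).prod (volume : Measure Dir))
      (((fun p : ℂ × Dir => (p.1, p.2 + (δ : Dir))) ⁻¹' S) ∆ S)
      ≤ ENNReal.ofReal (4 * N * |δ|) * volume T.table := by
    rw [Measure.prod_apply hD, ← setLIntegral_const]
    apply setLIntegral_mono' T.isOpen_table.measurableSet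
    intro x hx
    obtain ⟨a, b, hU⟩ := hslice x hx
    exact bvArcs_slice S N δ x a b hU
  have hmu : T.mu (((fun p : ℂ × Dir => (p.1, p.2 + (δ : Dir))) ⁻¹' S) ∆ S)
      = (ENNReal.ofReal (2 * Real.pi) * volume T.table)⁻¹ *
        ((volume.restrict T.table).prod (volume : Measure Dir))
          (((fun p : ℂ × Dir => (p.1, p.2 + (δ : Dir))) ⁻¹' S) ∆ S) := by
    unfold Triangle.mu
    rw [Measure.smul_apply, smul_eq_mul]
  rw [hmu]
  calc (ENNReal.ofReal (2 * Real.pi) * volume T.table)⁻¹ *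
        ((volume.restrict T.table).prod (volume : Measure Dir))
          (((fun p : ℂ × Dir => (p.1, p.2 + (δ : Dir))) ⁻¹' S) ∆ S)
      ≤ (ENNReal.ofReal (2 * Real.pi) * volume T.table)⁻¹ *
        (ENNReal.ofReal (4 * N * |δ|) * volume T.table) := by gcongr
    _ = ENNReal.ofReal (4 * N * |δ|) *
        (volume T.table * (ENNReal.ofReal (2 * Real.pi) * volume T.table)⁻¹) := by ring
    _ ≤ ENNReal.ofReal (4 * N * |δ|) *
        ((ENNReal.ofReal (2 * Real.pi) * volume T.table) *
          (ENNReal.ofReal (2 * Real.pi) * volume T.table)⁻¹) := by gcongr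
    _ = ENNReal.ofReal (4 * N * |δ|) := by
        rw [ENNReal.mul_inv_cancel hk0 hktop, mul_one]

end Vale.Agent.Lib.P099
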