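import Vale.Agent.Lib.P099.BVTrv

/-!
# Billiards in a triangle: the transversal estimate averaged over the times
-/

namespace Vale.Agent.Lib.P099

open MeasureTheory

namespace Triangle

private lemma abs_arcsin_le_two_mul (x : ℝ) (hx : |x| ≤ 1) : |Real.arcsin x| ≤ 2 * |x| := by
  have hx1 : -1 ≤ x := (abs_le.mp hx).1
  have hx2 : x ≤ 1 := (abs_le.mp hx).2
  have hsin : Real.sin (Real.arcsin x) = x := Real.sin_arcsin hx1 hx2
  have hlo : -(Real.pi / 2) ≤ Real.arcsin x := Real.neg_pi_div_two_le_arcsin x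
  have hhi : Real.arcsin x ≤ Real.pi / 2 := Real.arcsin_le_pi_div_two x
  have hpi : Real.pi ≤ 4 := Real.pi_le_four
  have hpi0 : 0 < Real.pi := Real.pi_pos
  rcases le_total 0 (Real.arcsin x) with h0 | h0
  · have h1 := Real.mul_le_sin h0 hhi
    rw [hsin] at h1
    have hx0 : 0 ≤ x := le_trans (by positivity) h1
    rw [abs_of_nonneg h0, abs_of_nonneg hx0]
    have h2 : Real.arcsin x ≤ Real.pi / 2 * x := by
      have h3 := mul_le_mul_of_nonneg_left h1 (by positivity : (0 : ℝ) ≤ Real.pi / 2)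
      have e : Real.pi / 2 * (2 / Real.pi * Real.arcsin x) = Real.arcsin x := by field_simp
      rw [e] at h3
      exact h3
    nlinarith
  · have h0' : 0 ≤ -Real.arcsin x := by linarith
    have hhi' : -Real.arcsin x ≤ Real.pi / 2 := by linarith
    have h1 := Real.mul_le_sin h0' hhi'
    rw [Real.sin_neg, hsin] at h1
    have hx0 : 0 ≤ -x := le_trans (by positivity) h1
    rw [abs_of_nonpos h0, abs_of_nonpos (by linarith : x ≤ 0)]
    have h2 : -Real.arcsin x ≤ Real.pi / 2 * (-x) := by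
      have h3 := mul_le_mul_of_nonneg_left h1 (by positivity : (0 : ℝ) ≤ Real.pi / 2)
      have e : Real.pi / 2 * (2 / Real.pi * (-Real.arcsin x)) = -Real.arcsin x := by field_simp
      rw [e] at h3
      exact h3
    nlinarith

private lemma num_bounds (s t h : ℝ) (hs : 1 ≤ s) (hst : s ≤ t) (hh : |h| ≤ 1) :
    t * Real.sin (Real.arcsin (h / t)) = h ∧
    3 * |Real.arcsin (h / t)| ≤ 10 * (|h| / s) ∧
    t * Real.arcsin (h / t) ^ 2 ≤ 10 * (|h| / s) := by
  have ht : 0 < t := by linarith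
  have hs0 : 0 < s := by linarith
  have hx : |h / t| ≤ 1 := by
    rw [abs_div, abs_of_pos ht, div_le_one ht]
    linarith
  have hsin : Real.sin (Real.arcsin (h / t)) = h / t :=
    Real.sin_arcsin (abs_le.mp hx).1 (abs_le.mp hx).2
  have hδ := abs_arcsin_le_two_mul (h / t) hx
  have h3 : |h| / t ≤ |h| / s := div_le_div_of_nonneg_left (abs_nonneg h) hs0 hst
  have hxt : |h / t| ≤ |h| / s := by
    rw [abs_div, abs_of_pos ht]
    exact h3
  have hq : 0 ≤ |h| / s := by positivity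
  refine ⟨?_, ?_, ?_⟩
  · rw [hsin]
    field_simp
  · linarith
  · have h1 : Real.arcsin (h / t) ^ 2 ≤ (2 * |h / t|) ^ 2 := by
      rw [← sq_abs (Real.arcsin (h / t))]
      exact pow_le_pow_left₀ (abs_nonneg _) hδ 2
    have h2 : t * (2 * |h / t|) ^ 2 = 4 * |h| * (|h| / t) := by
      rw [abs_div, abs_of_pos ht]
      field_simp
      ring
    have h4 : 4 * |h| * (|h| / t) ≤ 4 * (|h| / s) := by
      have h5 : 0 ≤ |h| / t := by positivity
      nlinarith [abs_nonneg h]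
    have h6 := mul_le_mul_of_nonneg_left h1 ht.le
    linarith

theorem averaged_bound (T : Triangle) (F : ℂ × Dir → ℂ) (hF : Measurable F) (lam C : ℝ)
    (hinv : ∀ t : ℝ, (fun p => F (T.flow t p)) =ᵐ[T.leb]
      fun p => Complex.exp (lam * t * Complex.I) * F p)
    (hBV : ∀ δ : ℝ, ∫⁻ p, ‖F (rotD δ p) - F p‖ₑ ∂T.leb ≤ ENNReal.ofReal (C * |δ|))
    (s : ℝ) (hs : 1 ≤ s) (K : Set (ℂ × Dir)) (hKm : MeasurableSet K)
    (𝒞 : Set ((ℂ × Dir) × ℝ)) (h𝒞 : MeasurableSet 𝒞)
    (hsec : ∀ p ∈ K, ENNReal.ofReal (s / 2) ≤ volume {t : ℝ | (p, t) ∈ 𝒞})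
    (hsub : ∀ z ∈ 𝒞, z.1 ∈ K ∧ s ≤ z.2 ∧ z.2 ≤ 2 * s)
    (h : ℝ) (hh : |h| ≤ 1)
    (hcert : ∀ z ∈ 𝒞, T.Cert z.2 (Real.arcsin (h / z.2)) z.1 ∧ (trv h z.1).1 ∈ T.table) :
    ∫⁻ p in K, ‖F (trv h p) - F p‖ₑ ∂T.leb
      ≤ ENNReal.ofReal (|h| / s) * (ENNReal.ofReal (20 * C)
        + ENNReal.ofReal (20 * |lam|) * ∫⁻ p, ‖F p‖ₑ ∂T.leb) := by
  classical
  have hsf : SFinite T.leb := by
    unfold Triangle.leb
    infer_instance
  set D : ℂ × Dir → ENNReal := fun p => ‖F (trv h p) - F p‖ₑ with hD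
  set I₁ : ENNReal := ∫⁻ p, ‖F p‖ₑ ∂T.leb with hI₁
  set R : ENNReal := ENNReal.ofReal (|h| / s) * (ENNReal.ofReal (10 * C)
        + ENNReal.ofReal (10 * |lam|) * I₁) with hR
  have hs0 : 0 < s := by linarith
  have hq : 0 ≤ |h| / s := by positivity
  have htrvm : Measurable (trv h) := by
    have hc : Continuous (trv h) := by
      unfold trv nrm
      have hdv := continuous_dirVec
      fun_prop
    exact hc.measurable
  have hDm : Measurable D := ((hF.comp htrvm).sub hF).enorm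
  -- the bound at a fixed time
  have hper : ∀ t : ℝ, ∫⁻ p in {p | (p, t) ∈ 𝒞}, D p ∂T.leb
      ≤ (Set.Icc s (2 * s)).indicator (fun _ => R) t := by
    intro t
    by_cases ht : t ∈ Set.Icc s (2 * s)
    · rw [Set.indicator_of_mem ht]
      obtain ⟨e1, e2, e3⟩ := num_bounds s t h hs ht.1 hh
      have hAm : MeasurableSet {p : ℂ × Dir | (p, t) ∈ 𝒞} := measurable_prodMk_right h𝒞
      have key := T.trv_estimate F hF lam C hinv hBV t (Real.arcsin (h / t))
        (by linarith [ht.1]) {p | (p, t) ∈ 𝒞} hAm (fun p hp => (hcert (p, t) hp).1)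
        (fun p hp => by rw [e1]; exact (hcert (p, t) hp).2)
      rw [e1] at key
      refine key.trans ?_
      rw [hR, mul_add, ← mul_assoc]
      gcongr
      · rcases le_or_gt 0 C with hC | hC
        · rw [← ENNReal.ofReal_mul hq]
          apply ENNReal.ofReal_le_ofReal
          nlinarith
        · rw [ENNReal.ofReal_of_nonpos]
          · simp
          · have habs := abs_nonneg (Real.arcsin (h / t))
            nlinarith
      · rw [← ENNReal.ofReal_mul hq]
        apply ENNReal.ofReal_le_ofReal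
        have habs := abs_nonneg lam
        nlinarith
    · rw [Set.indicator_of_notMem ht]
      have hemp : {p : ℂ × Dir | (p, t) ∈ 𝒞} = ∅ := by
        apply Set.eq_empty_iff_forall_notMem.mpr
        intro p hp
        exact ht ⟨(hsub _ hp).2.1, (hsub _ hp).2.2⟩
      rw [hemp]
      simp
  -- Tonelli
  have hfm : Measurable (𝒞.indicator (fun z : (ℂ × Dir) × ℝ => D z.1)) :=
    (hDm.comp measurable_fst).indicator h𝒞
  have hswap := lintegral_lintegral_swap (μ := T.leb) (ν := (volume : Measure ℝ))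
    (f := fun p t => 𝒞.indicator (fun z : (ℂ × Dir) × ℝ => D z.1) (p, t)) hfm.aemeasurable
  have hleft : ∀ p, ∫⁻ t, 𝒞.indicator (fun z : (ℂ × Dir) × ℝ => D z.1) (p, t)
        ∂(volume : Measure ℝ) = D p * volume {t : ℝ | (p, t) ∈ 𝒞} := by
    intro p
    have hfun : (fun t : ℝ => 𝒞.indicator (fun z : (ℂ × Dir) × ℝ => D z.1) (p, t))
        = {t : ℝ | (p, t) ∈ 𝒞}.indicator (fun _ => D p) := by
      funext t
      by_cases ht : (p, t) ∈ 𝒞
      · rw [Set.indicator_of_mem ht, Set.indicator_of_mem (by exact ht)]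
      · rw [Set.indicator_of_notMem ht, Set.indicator_of_notMem (by exact ht)]
    have hm : MeasurableSet {t : ℝ | (p, t) ∈ 𝒞} := measurable_prodMk_left h𝒞
    rw [hfun, lintegral_indicator_const hm]
  have hright : ∀ t : ℝ, ∫⁻ p, 𝒞.indicator (fun z : (ℂ × Dir) × ℝ => D z.1) (p, t) ∂T.leb
      = ∫⁻ p in {p | (p, t) ∈ 𝒞}, D p ∂T.leb := by
    intro t
    have hm : MeasurableSet {p : ℂ × Dir | (p, t) ∈ 𝒞} := measurable_prodMk_right h𝒞
    rw [← lintegral_indicator hm]
    apply lintegral_congr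
    intro p
    by_cases ht : (p, t) ∈ 𝒞
    · rw [Set.indicator_of_mem ht, Set.indicator_of_mem (by exact ht)]
    · rw [Set.indicator_of_notMem ht, Set.indicator_of_notMem (by exact ht)]
  have hup : ∫⁻ p, D p * volume {t : ℝ | (p, t) ∈ 𝒞} ∂T.leb ≤ R * ENNReal.ofReal s := by
    calc ∫⁻ p, D p * volume {t : ℝ | (p, t) ∈ 𝒞} ∂T.leb
        = ∫⁻ p, ∫⁻ t, 𝒞.indicator (fun z : (ℂ × Dir) × ℝ => D z.1) (p, t)
            ∂(volume : Measure ℝ) ∂T.leb := by
          simp_rw [hleft]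
      _ = ∫⁻ t, ∫⁻ p, 𝒞.indicator (fun z : (ℂ × Dir) × ℝ => D z.1) (p, t) ∂T.leb
            ∂(volume : Measure ℝ) := hswap
      _ = ∫⁻ t, ∫⁻ p in {p | (p, t) ∈ 𝒞}, D p ∂T.leb ∂(volume : Measure ℝ) := by
          simp_rw [hright]
      _ ≤ ∫⁻ t, (Set.Icc s (2 * s)).indicator (fun _ => R) t ∂(volume : Measure ℝ) :=
          lintegral_mono hper
      _ = R * ENNReal.ofReal s := by
          rw [lintegral_indicator_const measurableSet_Icc, Real.volume_Icc]
          congr 2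
          ring
  have hlow : (∫⁻ p in K, D p ∂T.leb) * ENNReal.ofReal (s / 2)
      ≤ ∫⁻ p, D p * volume {t : ℝ | (p, t) ∈ 𝒞} ∂T.leb := by
    rw [← lintegral_mul_const _ hDm]
    calc ∫⁻ p in K, D p * ENNReal.ofReal (s / 2) ∂T.leb
        ≤ ∫⁻ p in K, D p * volume {t : ℝ | (p, t) ∈ 𝒞} ∂T.leb := by
          apply setLIntegral_mono' hKm
          intro p hp
          gcongr
          exact hsec p hp
      _ ≤ ∫⁻ p, D p * volume {t : ℝ | (p, t) ∈ 𝒞} ∂T.leb := setLIntegral_le_lintegral _ _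
  have htwo : ∀ x : ℝ, (2 : ENNReal) * ENNReal.ofReal x = ENNReal.ofReal (2 * x) := by
    intro x
    rw [ENNReal.ofReal_mul (by norm_num : (0 : ℝ) ≤ 2)]
    simp
  have hs2 : ENNReal.ofReal s = 2 * ENNReal.ofReal (s / 2) := by
    rw [htwo]
    congr 1
    ring
  have hne0 : ENNReal.ofReal (s / 2) ≠ 0 := by
    rw [Ne, ENNReal.ofReal_eq_zero]
    push Not
    linarith
  have hfin : (∫⁻ p in K, D p ∂T.leb) * ENNReal.ofReal (s / 2)
      ≤ (2 * R) * ENNReal.ofReal (s / 2) := by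
    calc (∫⁻ p in K, D p ∂T.leb) * ENNReal.ofReal (s / 2)
        ≤ R * ENNReal.ofReal s := hlow.trans hup
      _ = (2 * R) * ENNReal.ofReal (s / 2) := by
          rw [hs2]
          ring
  have hmain : ∫⁻ p in K, D p ∂T.leb ≤ 2 * R :=
    (ENNReal.mul_le_mul_iff_left hne0 ENNReal.ofReal_ne_top).mp hfin
  refine hmain.trans (le_of_eq ?_)
  rw [hR]
  have e1 : ENNReal.ofReal (20 * C) = 2 * ENNReal.ofReal (10 * C) := by
    rw [htwo]
    congr 1
    ring
  have e2 : ENNReal.ofReal (20 * |lam|) = 2 * ENNReal.ofReal (10 * |lam|) := by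
    rw [htwo]
    congr 1
    ring
  rw [e1, e2]
  ring

end Triangle

end Vale.Agent.Lib.P099
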