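import Vale.Agent.Lib.P099.BVLocalFwd

/-!
# Billiards in a triangle: the transversal estimate on compact sets, backward version
-/

namespace Vale.Agent.Lib.P099

open MeasureTheory

namespace Triangle

private lemma bvb_reverse_reverse (p : ℂ × Dir) : reverse (reverse p) = p := by
  apply Prod.ext
  · rfl
  · show p.2 + ((Real.pi : ℝ) : Dir) + ((Real.pi : ℝ) : Dir) = p.2
    rw [add_assoc, pi_add_pi, add_zero]

private lemma bvb_continuous_reverse : Continuous reverse := by
  unfold reverse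
  fun_prop

private lemma bvb_mp_reverse (T : Triangle) : MeasurePreserving reverse T.leb T.leb :=
  (MeasurePreserving.id (volume.restrict T.table)).prod
    (measurePreserving_add_right volume ((Real.pi : ℝ) : Dir))

private lemma bvb_flowFwd_zero (T : Triangle) (p : ℂ × Dir) : T.flowFwd 0 p = p := by
  unfold flowFwd
  split_ifs with h
  · exact T.reach_zero h.choose_spec.1 rfl
  · rfl

/-- Conjugation of the flow by the reversal of the directions reverses the time. -/
private lemma bvb_reverse_flow (T : Triangle) (t : ℝ) (p : ℂ × Dir) :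
    reverse (T.flow t p) = T.flow (-t) (reverse p) := by
  rcases lt_trichotomy t 0 with ht | ht | ht
  · have h1 : ¬ (0 ≤ t) := not_le.mpr ht
    have h2 : 0 ≤ -t := by linarith
    unfold flow
    rw [if_neg h1, if_pos h2, bvb_reverse_reverse]
  · rw [ht, neg_zero]
    unfold flow
    rw [if_pos le_rfl, if_pos le_rfl, bvb_flowFwd_zero, bvb_flowFwd_zero]
  · have h1 : 0 ≤ t := ht.le
    have h2 : ¬ (0 ≤ -t) := by
      rw [not_le]
      linarith
    unfold flow
    rw [if_pos h1, if_neg h2, neg_neg, bvb_reverse_reverse]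

private lemma bvb_reverse_rotD (δ : ℝ) (p : ℂ × Dir) :
    reverse (rotD δ p) = rotD δ (reverse p) := by
  unfold reverse rotD
  apply Prod.ext
  · rfl
  · show p.2 + (δ : Dir) + ((Real.pi : ℝ) : Dir) = p.2 + ((Real.pi : ℝ) : Dir) + (δ : Dir)
    rw [add_right_comm]

private lemma bvb_reverse_trv (h : ℝ) (q : ℂ × Dir) :
    reverse (trv (-h) q) = trv h (reverse q) := by
  unfold reverse trv nrm
  apply Prod.ext
  · show q.1 + ((-h : ℝ) : ℂ) * (Complex.I * dirVec q.2)
      = q.1 + (h : ℂ) * (Complex.I * dirVec (q.2 + ((Real.pi : ℝ) : Dir)))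
    rw [dirVec_add_pi]
    push_cast
    ring
  · rfl

private lemma bvb_measurable_rotD (δ : ℝ) : Measurable (rotD δ) := by
  have hc : Continuous (rotD δ) := by
    unfold rotD
    fun_prop
  exact hc.measurable

private lemma bvb_measurable_trv (h : ℝ) : Measurable (trv h) := by
  have hd := continuous_dirVec
  have hc : Continuous (trv h) := by
    unfold trv nrm
    fun_prop
  exact hc.measurable

/-- The estimate of `local_bound_fwd` on a compact set `K` of phase points whose backward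
trajectories (the trajectories of the reversed phase points) are defined beyond the time
`2 s`. -/
theorem local_bound_bwd (T : Triangle) (F : ℂ × Dir → ℂ) (hF : Measurable F) (lam C : ℝ)
    (hinv : ∀ t : ℝ, (fun p => F (T.flow t p)) =ᵐ[T.leb]
      fun p => Complex.exp (lam * t * Complex.I) * F p)
    (hBV : ∀ δ : ℝ, ∫⁻ p, ‖F (rotD δ p) - F p‖ₑ ∂T.leb ≤ ENNReal.ofReal (C * |δ|))
    (s : ℝ) (hs : 1 ≤ s) (K : Set (ℂ × Dir)) (hK : IsCompact K)
    (hKW : ∀ p ∈ K, p.1 ∈ T.table ∧ ∃ t : ℝ, 2 * s < t ∧ reverse p ∈ T.Dom t) :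
    ∃ h₀ : ℝ, 0 < h₀ ∧ ∀ h : ℝ, |h| < h₀ →
      ∫⁻ p in K, ‖F (trv h p) - F p‖ₑ ∂T.leb
        ≤ ENNReal.ofReal (|h| / s) * (ENNReal.ofReal (20 * C)
          + ENNReal.ofReal (20 * |lam|) * ∫⁻ p, ‖F p‖ₑ ∂T.leb) := by
  have hmp := bvb_mp_reverse T
  have hrm : Measurable reverse := bvb_continuous_reverse.measurable
  have hF' : Measurable (fun p => F (reverse p)) := hF.comp hrm
  have hinv' : ∀ t : ℝ, (fun p => (fun p => F (reverse p)) (T.flow t p)) =ᵐ[T.leb]
      fun p => Complex.exp (((-lam : ℝ) : ℂ) * t * Complex.I) * (fun p => F (reverse p)) p := by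
    intro t
    have h1 := hinv (-t)
    have h2 : ∀ᵐ p ∂T.leb, F (T.flow (-t) (reverse p))
        = Complex.exp (lam * ((-t : ℝ) : ℂ) * Complex.I) * F (reverse p) :=
      hmp.quasiMeasurePreserving.ae h1
    filter_upwards [h2] with p hp
    show F (reverse (T.flow t p))
      = Complex.exp (((-lam : ℝ) : ℂ) * t * Complex.I) * F (reverse p)
    rw [bvb_reverse_flow, hp]
    congr 2
    push_cast
    ring
  have hBV' : ∀ δ : ℝ, ∫⁻ p, ‖(fun p => F (reverse p)) (rotD δ p)
      - (fun p => F (reverse p)) p‖ₑ ∂T.leb ≤ ENNReal.ofReal (C * |δ|) := by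
    intro δ
    have hG : Measurable (fun q : ℂ × Dir => ‖F (rotD δ q) - F q‖ₑ) :=
      ((hF.comp (bvb_measurable_rotD δ)).sub hF).enorm
    have e : ∫⁻ p, ‖(fun p => F (reverse p)) (rotD δ p) - (fun p => F (reverse p)) p‖ₑ ∂T.leb
        = ∫⁻ p, (fun q : ℂ × Dir => ‖F (rotD δ q) - F q‖ₑ) (reverse p) ∂T.leb := by
      apply lintegral_congr
      intro p
      show ‖F (reverse (rotD δ p)) - F (reverse p)‖ₑ = ‖F (rotD δ (reverse p)) - F (reverse p)‖ₑ
      rw [bvb_reverse_rotD]
    rw [e, hmp.lintegral_comp hG]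
    exact hBV δ
  have hK' : IsCompact (reverse '' K) := hK.image bvb_continuous_reverse
  have hKW' : ∀ q ∈ reverse '' K, q.1 ∈ T.table ∧ ∃ t : ℝ, 2 * s < t ∧ q ∈ T.Dom t := by
    rintro q ⟨p, hp, rfl⟩
    exact ⟨(hKW p hp).1, (hKW p hp).2⟩
  obtain ⟨h₀, hh₀, H⟩ := T.local_bound_fwd (fun p => F (reverse p)) hF' (-lam) C hinv' hBV'
    s hs (reverse '' K) hK' hKW'
  refine ⟨h₀, hh₀, fun h hh => ?_⟩
  have H1 := H (-h) (by rwa [abs_neg])
  have himg : reverse '' K = reverse ⁻¹' K := by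
    ext q
    constructor
    · rintro ⟨p, hp, rfl⟩
      show reverse (reverse p) ∈ K
      rw [bvb_reverse_reverse]
      exact hp
    · intro hq
      exact ⟨reverse q, hq, bvb_reverse_reverse q⟩
  have hG : Measurable (fun p : ℂ × Dir => ‖F (trv h p) - F p‖ₑ) :=
    ((hF.comp (bvb_measurable_trv h)).sub hF).enorm
  have eL : ∫⁻ q in reverse '' K, ‖(fun p => F (reverse p)) (trv (-h) q)
      - (fun p => F (reverse p)) q‖ₑ ∂T.leb = ∫⁻ p in K, ‖F (trv h p) - F p‖ₑ ∂T.leb := by
    rw [himg, ← hmp.setLIntegral_comp_preimage hK.measurableSet hG]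
    apply lintegral_congr
    intro q
    show ‖F (reverse (trv (-h) q)) - F (reverse q)‖ₑ = ‖F (trv h (reverse q)) - F (reverse q)‖ₑ
    rw [bvb_reverse_trv]
  have eR : ∫⁻ p, ‖(fun p => F (reverse p)) p‖ₑ ∂T.leb = ∫⁻ p, ‖F p‖ₑ ∂T.leb :=
    hmp.lintegral_comp hF.enorm
  rw [eL, eR, abs_neg, abs_neg] at H1
  exact H1

end Triangle

end Vale.Agent.Lib.P099
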