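import Vale.Agent.Lib.P099.BVDefs

/-!
# Billiards in a triangle: the reflection times of a piece of trajectory are finitely many
-/

namespace Vale.Agent.Lib.P099

namespace Triangle

/-- Along a piece of trajectory issued from `p` and defined up to the time `t`, the times
of `[0, t]` at which the trajectory is not defined or is not in the open table are finitely
many (they are among `0` and the reflection times). -/
private theorem finite_bad_aux (T : Triangle) {t : ℝ} {p q : ℂ × Dir}
    (h : T.Reach t p q) :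
    {τ : ℝ | 0 ≤ τ ∧ τ ≤ t ∧
      ¬ ∃ q' : ℂ × Dir, T.Reach τ p q' ∧ q'.1 ∈ T.table}.Finite := by
  induction h with
  | free x θ t ht hfree =>
    refine (Set.finite_singleton (0 : ℝ)).subset ?_
    rintro τ ⟨h0, hτt, hn⟩
    by_contra hne
    have hne' : τ ≠ 0 := fun h => hne h
    have hpos : 0 < τ := lt_of_le_of_ne h0 (Ne.symm hne')
    exact hn ⟨_, Reach.free x θ τ h0 (fun s hs hsτ => hfree s hs (hsτ.trans hτt)),
      hfree τ hpos hτt⟩
  | bounce x θ τ₀ t i q hτ₀ hfree hhit hrest ih =>
    refine (((Set.finite_singleton (0 : ℝ)).union (Set.finite_singleton τ₀)).union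
      (ih.image (fun σ => τ₀ + σ))).subset ?_
    rintro τ ⟨h0, hτt, hn⟩
    by_cases hz : τ = 0
    · left; left; exact hz
    by_cases he : τ = τ₀
    · left; right; exact he
    rcases lt_or_gt_of_ne he with hlt | hgt
    · exfalso
      have hpos : 0 < τ := lt_of_le_of_ne h0 (Ne.symm hz)
      exact hn ⟨_, Reach.free x θ τ h0
        (fun s hs hsτ => hfree s hs (lt_of_le_of_lt hsτ hlt)), hfree τ hpos hlt⟩
    · right
      refine ⟨τ - τ₀, ⟨by linarith, by linarith, ?_⟩, by ring⟩
      rintro ⟨q', hq', hq'T⟩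
      apply hn
      refine ⟨q', ?_, hq'T⟩
      have hb := Reach.bounce x θ τ₀ (τ - τ₀) i q' hτ₀ hfree hhit hq'
      have hs : τ₀ + (τ - τ₀) = τ := by ring
      rw [hs] at hb
      exact hb

/-- If the trajectory issued from `p` is defined up to the time `t` (and in the open table
at the time `t`), then it is in the open table at all the times of `[0, t]` except
finitely many. -/
theorem finite_bad_times (T : Triangle) {t : ℝ} {p : ℂ × Dir} (hp : p ∈ T.Dom t) :
    {τ : ℝ | 0 ≤ τ ∧ τ ≤ t ∧ p ∉ T.Dom τ}.Finite := by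
  obtain ⟨hp1, q, hq, -⟩ := hp
  refine (finite_bad_aux T hq).subset ?_
  rintro τ ⟨h0, hτt, hn⟩
  exact ⟨h0, hτt, fun hex => hn ⟨hp1, hex⟩⟩

end Triangle

end Vale.Agent.Lib.P099
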