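import Vale.Agent.Lib.P099.BVDefs

/-!
# Billiards in a triangle: local charts of the flow
-/

namespace Vale.Agent.Lib.P099

namespace Triangle

/-- Around a phase point `p` whose trajectory is defined up to the time `t > 0`, and for
the times close to `t`, the flow is given by one unfolding `(g, γ)`. -/
theorem exists_chart (T : Triangle) {t : ℝ} {p : ℂ × Dir} (ht : 0 < t) (hp : p ∈ T.Dom t) :
    ∃ (g : ℂ → ℂ) (γ : Dir → Dir) (ε : ℝ), Unf g γ ∧ Continuous γ ∧ 0 < ε ∧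
      ∀ (p' : ℂ × Dir) (t' : ℝ), dist p' p < ε → |t' - t| < ε →
        p'.1 ∈ T.table ∧ T.Reach t' p' (g (p'.1 + (t' : ℂ) * dirVec p'.2), γ p'.2) ∧
        g (p'.1 + (t' : ℂ) * dirVec p'.2) ∈ T.table := by
  obtain ⟨hp1, q, hR, hq⟩ := hp
  obtain ⟨g, γ, hU, hγ, _, hev⟩ := T.reach_stable_aux hR (Or.inl hp1) hq
  obtain ⟨ε₁, hε₁, hball⟩ := Metric.eventually_nhds_iff.mp hev
  obtain ⟨ε₂, hε₂, hball₂⟩ := Metric.isOpen_iff.mp T.isOpen_table p.1 hp1
  refine ⟨g, γ, min ε₁ (min ε₂ t), hU, hγ, lt_min hε₁ (lt_min hε₂ ht), ?_⟩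
  intro p' t' hp' ht'
  have h1 : dist p' p < ε₁ := lt_of_lt_of_le hp' (min_le_left _ _)
  have h2 : dist p' p < ε₂ := lt_of_lt_of_le hp' ((min_le_right _ _).trans (min_le_left _ _))
  have h3 : |t' - t| < t := lt_of_lt_of_le ht' ((min_le_right _ _).trans (min_le_right _ _))
  have h4 : |t' - t| < ε₁ := lt_of_lt_of_le ht' (min_le_left _ _)
  have hp'1 : p'.1 ∈ T.table := by
    apply hball₂
    rw [Metric.mem_ball]
    refine lt_of_le_of_lt ?_ h2
    rw [Prod.dist_eq]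
    exact le_max_left _ _
  have hadm : T.Adm p.1 p'.1 :=
    ⟨fun _ => hp'1, fun i hi => absurd hp1 (T.side_disjoint_table hi)⟩
  have ht'0 : 0 ≤ t' := by
    have h5 := (abs_lt.mp h3).1
    linarith
  have hd : dist ((p', t') : (ℂ × Dir) × ℝ) (p, t) < ε₁ := by
    rw [Prod.dist_eq]
    exact max_lt h1 (by rw [Real.dist_eq]; exact h4)
  exact ⟨hp'1, hball hd hadm ht'0⟩

end Triangle

end Vale.Agent.Lib.P099
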