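import Vale.Agent.Lib.P099.BVDefs
import Vale.Agent.Lib.P099.BVBadTimes
import Vale.Agent.Lib.P099.BVChart

/-!
# Billiards in a triangle: certified times on a compact set of phase points
-/

namespace Vale.Agent.Lib.P099

open MeasureTheory

/-- A positive lower bound for finitely many positive numbers. -/
private lemma cert_exists_pos_le {α : Type*} (F : Finset α) (ε : α → ℝ)
    (h : ∀ a ∈ F, 0 < ε a) : ∃ e : ℝ, 0 < e ∧ ∀ a ∈ F, e ≤ ε a := by
  classical
  induction F using Finset.induction_on with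
  | empty => exact ⟨1, one_pos, by simp⟩
  | insert a F ha ih =>
    obtain ⟨e, he, hle⟩ := ih (fun b hb => h b (Finset.mem_insert_of_mem hb))
    refine ⟨min e (ε a), lt_min he (h a (Finset.mem_insert_self a F)), ?_⟩
    intro b hb
    rcases Finset.mem_insert.mp hb with rfl | hb
    · exact min_le_right _ _
    · exact (min_le_left _ _).trans (hle b hb)

/-- Jordan's inequality for the arc sine. -/
private lemma cert_abs_arcsin_le {x : ℝ} (hx : |x| ≤ 1) : |Real.arcsin x| ≤ 2 * |x| := by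
  wlog h0 : 0 ≤ x generalizing x
  · have h1 := this (x := -x) (by rwa [abs_neg]) (by linarith)
    rwa [Real.arcsin_neg, abs_neg, abs_neg] at h1
  rw [abs_of_nonneg h0] at hx ⊢
  have h1 : 0 ≤ Real.arcsin x := Real.arcsin_nonneg.mpr h0
  rw [abs_of_nonneg h1]
  have h2 := Real.mul_le_sin h1 (Real.arcsin_le_pi_div_two x)
  rw [Real.sin_arcsin (by linarith) hx] at h2
  have hpi : 0 < Real.pi := Real.pi_pos
  have h3 : Real.arcsin x ≤ Real.pi / 2 * x := by
    have h5 : Real.arcsin x = Real.pi / 2 * (2 / Real.pi * Real.arcsin x) := by field_simp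
    rw [h5]
    gcongr
  have h4 : Real.pi / 2 ≤ 2 := by linarith [Real.pi_le_four]
  nlinarith

private lemma cert_dist_rotD (δ : ℝ) (p : ℂ × Dir) : dist (rotD δ p) p ≤ |δ| := by
  rw [Prod.dist_eq]
  refine max_le ?_ ?_
  · change dist p.1 p.1 ≤ |δ|
    rw [dist_self]
    exact abs_nonneg δ
  · change dist (p.2 + (δ : Dir)) p.2 ≤ |δ|
    rw [dist_eq_norm, add_sub_cancel_left]
    exact QuotientAddGroup.norm_mk_le_norm.trans (le_of_eq (Real.norm_eq_abs δ))

private lemma cert_norm_dirVec_sub (θ : Dir) (δ : ℝ) :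
    ‖dirVec (θ + (δ : Dir)) - dirVec θ‖ ≤ |δ| := by
  rw [dirVec_add, dirVec_coe]
  have h1 : dirVec θ * Complex.exp (δ * Complex.I) - dirVec θ =
      dirVec θ * (Complex.exp (Complex.I * δ) - 1) := by
    rw [mul_comm (δ : ℂ) Complex.I]
    ring
  rw [h1, norm_mul, norm_dirVec, one_mul]
  exact Real.norm_exp_I_mul_ofReal_sub_one_le.trans (le_of_eq (Real.norm_eq_abs δ))

private lemma cert_dist_shr (t δ : ℝ) (ht : 0 ≤ t) (p : ℂ × Dir) :
    dist (shr t δ p) p ≤ t * |δ| := by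
  rw [Prod.dist_eq]
  refine max_le ?_ ?_
  · change dist (p.1 + (t : ℂ) * (dirVec (p.2 + (δ : Dir)) - dirVec p.2)) p.1 ≤ t * |δ|
    rw [dist_eq_norm, add_sub_cancel_left, norm_mul, Complex.norm_real, Real.norm_of_nonneg ht]
    exact mul_le_mul_of_nonneg_left (cert_norm_dirVec_sub p.2 δ) ht
  · change dist p.2 p.2 ≤ t * |δ|
    rw [dist_self]
    positivity

/-- The local step: around a phase point whose trajectory is defined beyond the time `2 s`
there is a compact set of times of `[s, 2 s]`, of measure at least `s / 2`, which are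
certified for all the neighbouring phase points and all the small angles. -/
private lemma cert_local (T : Triangle) (s : ℝ) (hs : 1 ≤ s) (p₀ : ℂ × Dir)
    (hp₀ : ∃ t : ℝ, 2 * s < t ∧ p₀ ∈ T.Dom t) :
    ∃ (r η : ℝ) (J : Set ℝ), 0 < r ∧ 0 < η ∧ MeasurableSet J ∧ J ⊆ Set.Icc s (2 * s) ∧
      ENNReal.ofReal (s / 2) ≤ volume J ∧
      ∀ p : ℂ × Dir, dist p p₀ < r → ∀ t ∈ J, ∀ h : ℝ, |h| < η →
        T.Cert t (Real.arcsin (h / t)) p := by
  obtain ⟨tstar, htstar, hdom⟩ := hp₀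
  have hfin := T.finite_bad_times hdom
  have hs0 : 0 < s := by linarith
  have hρpos : 0 < s / (4 * ((hfin.toFinset.card : ℝ) + 1)) := by positivity
  have hUo : IsOpen (⋃ τ ∈ hfin.toFinset, Set.Ioo (τ - s / (4 * ((hfin.toFinset.card : ℝ) + 1)))
      (τ + s / (4 * ((hfin.toFinset.card : ℝ) + 1)))) :=
    isOpen_biUnion (fun τ _ => isOpen_Ioo)
  generalize hρ : s / (4 * ((hfin.toFinset.card : ℝ) + 1)) = ρ at hρpos hUo
  generalize hU : (⋃ τ ∈ hfin.toFinset, Set.Ioo (τ - ρ) (τ + ρ)) = U at hUo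
  have hJc : IsCompact (Set.Icc s (2 * s) \ U) := isCompact_Icc.diff hUo
  have hUvol : volume U ≤ ENNReal.ofReal (s / 2) := by
    rw [← hU]
    calc volume (⋃ τ ∈ hfin.toFinset, Set.Ioo (τ - ρ) (τ + ρ))
        ≤ ∑ τ ∈ hfin.toFinset, volume (Set.Ioo (τ - ρ) (τ + ρ)) :=
          measure_biUnion_finset_le _ _
      _ = ∑ τ ∈ hfin.toFinset, ENNReal.ofReal (2 * ρ) := by
          refine Finset.sum_congr rfl (fun τ _ => ?_)
          rw [Real.volume_Ioo]
          congr 1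
          ring
      _ = (hfin.toFinset.card : ENNReal) * ENNReal.ofReal (2 * ρ) := by
          rw [Finset.sum_const, nsmul_eq_mul]
      _ = ENNReal.ofReal ((hfin.toFinset.card : ℝ) * (2 * ρ)) := by
          rw [ENNReal.ofReal_mul (Nat.cast_nonneg _), ENNReal.ofReal_natCast]
      _ ≤ ENNReal.ofReal (s / 2) := by
          apply ENNReal.ofReal_le_ofReal
          rw [← hρ]
          have h5 : (hfin.toFinset.card : ℝ) * (2 * (s / (4 * ((hfin.toFinset.card : ℝ) + 1)))) =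
              s / 2 * ((hfin.toFinset.card : ℝ) / ((hfin.toFinset.card : ℝ) + 1)) := by
            field_simp
            ring
          rw [h5]
          have h1 : (hfin.toFinset.card : ℝ) / ((hfin.toFinset.card : ℝ) + 1) ≤ 1 := by
            rw [div_le_one (by positivity)]
            linarith
          nlinarith
  have hJvol : ENNReal.ofReal (s / 2) ≤ volume (Set.Icc s (2 * s) \ U) := by
    have h1 : volume (Set.Icc s (2 * s)) ≤ volume (Set.Icc s (2 * s) \ U) + volume U := by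
      calc volume (Set.Icc s (2 * s)) ≤ volume ((Set.Icc s (2 * s) \ U) ∪ U) :=
            measure_mono (by rw [Set.sdiff_union_self]; exact Set.subset_union_left)
        _ ≤ volume (Set.Icc s (2 * s) \ U) + volume U := measure_union_le _ _
    rw [Real.volume_Icc] at h1
    have h2 : ENNReal.ofReal (2 * s - s) = ENNReal.ofReal (s / 2) + ENNReal.ofReal (s / 2) := by
      rw [← ENNReal.ofReal_add (by positivity) (by positivity)]
      congr 1
      ring
    rw [h2] at h1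
    have h3 : ENNReal.ofReal (s / 2) + ENNReal.ofReal (s / 2) ≤
        volume (Set.Icc s (2 * s) \ U) + ENNReal.ofReal (s / 2) :=
      h1.trans (by gcongr)
    exact (ENNReal.add_le_add_iff_right ENNReal.ofReal_ne_top).mp h3
  have hJdom : ∀ t₀ ∈ Set.Icc s (2 * s) \ U, 0 < t₀ ∧ p₀ ∈ T.Dom t₀ := by
    intro t₀ ht₀
    have h1 : s ≤ t₀ := ht₀.1.1
    have h2 : t₀ ≤ 2 * s := ht₀.1.2
    refine ⟨by linarith, ?_⟩
    by_contra hnd
    apply ht₀.2
    have hmem : t₀ ∈ hfin.toFinset := by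
      rw [Set.Finite.mem_toFinset]
      exact ⟨by linarith, by linarith, hnd⟩
    rw [← hU]
    exact Set.mem_biUnion hmem ⟨by linarith, by linarith⟩
  have hchart : ∀ t₀ : ℝ, ∃ (g : ℂ → ℂ) (γ : Dir → Dir) (ε : ℝ),
      t₀ ∈ Set.Icc s (2 * s) \ U → (Unf g γ ∧ 0 < ε ∧
        ∀ (p' : ℂ × Dir) (t' : ℝ), dist p' p₀ < ε → |t' - t₀| < ε →
          p'.1 ∈ T.table ∧ T.Reach t' p' (g (p'.1 + (t' : ℂ) * dirVec p'.2), γ p'.2) ∧
          g (p'.1 + (t' : ℂ) * dirVec p'.2) ∈ T.table) := by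
    intro t₀
    by_cases ht₀ : t₀ ∈ Set.Icc s (2 * s) \ U
    · obtain ⟨g, γ, ε, hUnf, -, hε, hch⟩ := T.exists_chart (hJdom t₀ ht₀).1 (hJdom t₀ ht₀).2
      exact ⟨g, γ, ε, fun _ => ⟨hUnf, hε, hch⟩⟩
    · exact ⟨id, id, 1, fun h => absurd h ht₀⟩
  choose g γ ε hgγε using hchart
  obtain ⟨F, hFJ, hFcov⟩ := hJc.elim_nhds_subcover (fun t₀ => Metric.ball t₀ (ε t₀))
    (fun t₀ ht₀ => Metric.ball_mem_nhds t₀ (hgγε t₀ ht₀).2.1)
  obtain ⟨e, he, hele⟩ := cert_exists_pos_le F ε (fun t₀ ht₀ => (hgγε t₀ (hFJ t₀ ht₀)).2.1)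
  refine ⟨e / 2, min 1 (e / 8), Set.Icc s (2 * s) \ U, by positivity,
    lt_min one_pos (by positivity), hJc.measurableSet, Set.sdiff_subset, hJvol, ?_⟩
  intro p hp t ht h hh
  obtain ⟨tj, htj, htball⟩ := Set.mem_iUnion₂.mp (hFcov ht)
  have htjJ := hFJ tj htj
  obtain ⟨hUnf, hεj, hch⟩ := hgγε tj htjJ
  have hεle := hele tj htj
  have ht1 : 1 ≤ t := hs.trans ht.1.1
  have ht0 : 0 < t := by linarith
  have hh1 : |h| < 1 := lt_of_lt_of_le hh (min_le_left _ _)
  have hh8 : |h| < e / 8 := lt_of_lt_of_le hh (min_le_right _ _)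
  have hq : |h / t| ≤ |h| := by
    rw [abs_div, abs_of_pos ht0]
    exact div_le_self (abs_nonneg h) ht1
  have hδ1 : |Real.arcsin (h / t)| ≤ 2 * |h / t| := cert_abs_arcsin_le (hq.trans hh1.le)
  have hδ2 : |Real.arcsin (h / t)| ≤ 2 * |h| := hδ1.trans (by linarith)
  have hδ3 : t * |Real.arcsin (h / t)| ≤ 2 * |h| := by
    have h5 : t * |h / t| = |h| := by
      rw [abs_div, abs_of_pos ht0]
      field_simp
    calc t * |Real.arcsin (h / t)| ≤ t * (2 * |h / t|) := by gcongr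
      _ = 2 * (t * |h / t|) := by ring
      _ = 2 * |h| := by rw [h5]
  have htt : |t - tj| < ε tj := by
    rw [← Real.dist_eq]
    exact Metric.mem_ball.mp htball
  have hd1 : dist (rotD (Real.arcsin (h / t)) p) p₀ < ε tj := by
    calc dist (rotD (Real.arcsin (h / t)) p) p₀
        ≤ dist (rotD (Real.arcsin (h / t)) p) p + dist p p₀ := dist_triangle _ _ _
      _ < |Real.arcsin (h / t)| + e / 2 :=
          add_lt_add_of_le_of_lt (cert_dist_rotD _ p) hp
      _ ≤ ε tj := by linarith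
  have hd2 : dist (shr t (Real.arcsin (h / t)) p) p₀ < ε tj := by
    calc dist (shr t (Real.arcsin (h / t)) p) p₀
        ≤ dist (shr t (Real.arcsin (h / t)) p) p + dist p p₀ := dist_triangle _ _ _
      _ < t * |Real.arcsin (h / t)| + e / 2 :=
          add_lt_add_of_le_of_lt (cert_dist_shr t _ ht0.le p) hp
      _ ≤ ε tj := by linarith
  obtain ⟨a1, a2, a3⟩ := hch (rotD (Real.arcsin (h / t)) p) t hd1 htt
  obtain ⟨b1, b2, b3⟩ := hch (shr t (Real.arcsin (h / t)) p) t hd2 htt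
  have heq : (shr t (Real.arcsin (h / t)) p).1 +
      (t : ℂ) * dirVec (shr t (Real.arcsin (h / t)) p).2 =
      p.1 + (t : ℂ) * dirVec (p.2 + ((Real.arcsin (h / t) : ℝ) : Dir)) := by
    change p.1 + (t : ℂ) * (dirVec (p.2 + ((Real.arcsin (h / t) : ℝ) : Dir)) - dirVec p.2) +
      (t : ℂ) * dirVec p.2 = _
    ring
  rw [heq] at b2
  exact ⟨g tj, γ tj, hUnf, a1, b1, a3, a2, b2⟩

/-- Gluing of the local families of times along a finite cover by balls. -/
private lemma cert_glue (r : ℂ × Dir → ℝ) (J : ℂ × Dir → Set ℝ) (c : ENNReal)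
    (l : List (ℂ × Dir)) (hJ : ∀ p₀ ∈ l, MeasurableSet (J p₀))
    (hc : ∀ p₀ ∈ l, c ≤ volume (J p₀)) :
    ∃ C : Set ((ℂ × Dir) × ℝ), MeasurableSet C ∧
      (∀ z ∈ C, ∃ p₀ ∈ l, z.1 ∈ Metric.ball p₀ (r p₀) ∧ z.2 ∈ J p₀) ∧
      ∀ p : ℂ × Dir, (∃ p₀ ∈ l, p ∈ Metric.ball p₀ (r p₀)) →
        c ≤ volume {t : ℝ | (p, t) ∈ C} := by
  induction l with
  | nil => exact ⟨∅, MeasurableSet.empty, by simp, by simp⟩
  | cons a l ih =>
    obtain ⟨C', hm, h2, h3⟩ := ih (fun p₀ hp => hJ p₀ (List.mem_cons_of_mem a hp))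
      (fun p₀ hp => hc p₀ (List.mem_cons_of_mem a hp))
    refine ⟨(Metric.ball a (r a) ×ˢ J a) ∪ (C' ∩ (Prod.fst ⁻¹' (Metric.ball a (r a))ᶜ)),
      ?_, ?_, ?_⟩
    · exact (Metric.isOpen_ball.measurableSet.prod (hJ a List.mem_cons_self)).union
        (hm.inter (measurable_fst Metric.isOpen_ball.measurableSet.compl))
    · rintro z (hz | hz)
      · exact ⟨a, List.mem_cons_self, hz.1, hz.2⟩
      · obtain ⟨p₀, hp₀, h⟩ := h2 z hz.1
        exact ⟨p₀, List.mem_cons_of_mem a hp₀, h⟩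
    · intro p hp
      by_cases hpa : p ∈ Metric.ball a (r a)
      · refine (hc a List.mem_cons_self).trans (measure_mono ?_)
        intro t ht
        exact Or.inl ⟨hpa, ht⟩
      · obtain ⟨p₀, hp₀, hpb⟩ := hp
        rcases List.mem_cons.mp hp₀ with rfl | hp₀l
        · exact absurd hpb hpa
        · refine (h3 p ⟨p₀, hp₀l, hpb⟩).trans (measure_mono ?_)
          intro t ht
          exact Or.inr ⟨ht, hpa⟩

namespace Triangle

/-- Let `K` be a compact set of phase points whose trajectories are defined beyond the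
time `2 s`.  There are `h₀ > 0` and a measurable set `𝒞` of pairs (phase point of `K`,
time in `[s, 2 s]`) whose sections above the points of `K` have measure at least `s / 2`,
such that for `|h| < h₀` every pair `(p, t)` of `𝒞` is certified for the time `t` and the
angle `arcsin (h / t)`, with `trv h p` in the table. -/
theorem exists_cert_family (T : Triangle) (s : ℝ) (hs : 1 ≤ s) (K : Set (ℂ × Dir))
    (hK : IsCompact K)
    (hKW : ∀ p ∈ K, p.1 ∈ T.table ∧ ∃ t : ℝ, 2 * s < t ∧ p ∈ T.Dom t) :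
    ∃ (h₀ : ℝ) (𝒞 : Set ((ℂ × Dir) × ℝ)), 0 < h₀ ∧ h₀ ≤ 1 ∧ MeasurableSet 𝒞 ∧
      (∀ p ∈ K, ENNReal.ofReal (s / 2) ≤ volume {t : ℝ | (p, t) ∈ 𝒞}) ∧
      (∀ z ∈ 𝒞, z.1 ∈ K ∧ s ≤ z.2 ∧ z.2 ≤ 2 * s) ∧
      ∀ h : ℝ, |h| < h₀ → ∀ z ∈ 𝒞,
        T.Cert z.2 (Real.arcsin (h / z.2)) z.1 ∧ (trv h z.1).1 ∈ T.table := by
  classical
  have hloc : ∀ p₀ : ℂ × Dir, ∃ (r η : ℝ) (J : Set ℝ), p₀ ∈ K →
      (0 < r ∧ 0 < η ∧ MeasurableSet J ∧ J ⊆ Set.Icc s (2 * s) ∧
        ENNReal.ofReal (s / 2) ≤ volume J ∧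
        ∀ p : ℂ × Dir, dist p p₀ < r → ∀ t ∈ J, ∀ h : ℝ, |h| < η →
          T.Cert t (Real.arcsin (h / t)) p) := by
    intro p₀
    by_cases hp : p₀ ∈ K
    · obtain ⟨r, η, J, h⟩ := cert_local T s hs p₀ (hKW p₀ hp).2
      exact ⟨r, η, J, fun _ => h⟩
    · exact ⟨1, 1, ∅, fun h => absurd h hp⟩
  choose r η J hloc using hloc
  have hopen : IsOpen (Prod.fst ⁻¹' T.table : Set (ℂ × Dir)) :=
    T.isOpen_table.preimage continuous_fst
  have hKsub : K ⊆ Prod.fst ⁻¹' T.table := fun p hp => (hKW p hp).1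
  obtain ⟨ρ₀, hρ₀, hthick⟩ := hK.exists_thickening_subset_open hopen hKsub
  obtain ⟨F, hFK, hFcov⟩ := hK.elim_nhds_subcover (fun p₀ => Metric.ball p₀ (r p₀))
    (fun p₀ hp₀ => Metric.ball_mem_nhds p₀ (hloc p₀ hp₀).1)
  obtain ⟨e, he, hele⟩ := cert_exists_pos_le F η (fun p₀ hp₀ => (hloc p₀ (hFK p₀ hp₀)).2.1)
  obtain ⟨C, hCm, hC2, hC3⟩ := cert_glue r J (ENNReal.ofReal (s / 2)) F.toList
    (fun p₀ hp₀ => (hloc p₀ (hFK p₀ (Finset.mem_toList.mp hp₀))).2.2.1)
    (fun p₀ hp₀ => (hloc p₀ (hFK p₀ (Finset.mem_toList.mp hp₀))).2.2.2.2.1)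
  refine ⟨min 1 (min ρ₀ e), C ∩ (Prod.fst ⁻¹' K), lt_min one_pos (lt_min hρ₀ he),
    min_le_left _ _, hCm.inter (measurable_fst hK.measurableSet), ?_, ?_, ?_⟩
  · intro p hp
    obtain ⟨p₀, hp₀, hpb⟩ := Set.mem_iUnion₂.mp (hFcov hp)
    refine (hC3 p ⟨p₀, Finset.mem_toList.mpr hp₀, hpb⟩).trans (measure_mono ?_)
    intro t ht
    exact ⟨ht, hp⟩
  · intro z hz
    obtain ⟨p₀, hp₀, hzb, hzJ⟩ := hC2 z hz.1
    have hsub := (hloc p₀ (hFK p₀ (Finset.mem_toList.mp hp₀))).2.2.2.1 hzJ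
    exact ⟨hz.2, hsub.1, hsub.2⟩
  · intro h hh z hz
    obtain ⟨p₀, hp₀, hzb, hzJ⟩ := hC2 z hz.1
    have hp₀F := Finset.mem_toList.mp hp₀
    have hh1 : |h| < η p₀ :=
      lt_of_lt_of_le hh ((min_le_right _ _).trans ((min_le_right _ _).trans (hele p₀ hp₀F)))
    have hh2 : |h| < ρ₀ := lt_of_lt_of_le hh ((min_le_right _ _).trans (min_le_left _ _))
    refine ⟨(hloc p₀ (hFK p₀ hp₀F)).2.2.2.2.2 z.1 (Metric.mem_ball.mp hzb) z.2 hzJ h hh1, ?_⟩
    have hmem : trv h z.1 ∈ Metric.thickening ρ₀ K := by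
      rw [Metric.mem_thickening_iff]
      refine ⟨z.1, hz.2, ?_⟩
      rw [Prod.dist_eq]
      refine max_lt ?_ ?_
      · change dist (z.1.1 + (h : ℂ) * nrm z.1.2) z.1.1 < ρ₀
        rw [dist_eq_norm, add_sub_cancel_left, norm_mul, Complex.norm_real, Real.norm_eq_abs]
        have h5 : ‖nrm z.1.2‖ = 1 := by
          unfold nrm
          rw [norm_mul, Complex.norm_I, one_mul, norm_dirVec]
        rw [h5, mul_one]
        exact hh2
      · change dist z.1.2 z.1.2 < ρ₀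
        rw [dist_self]
        exact hρ₀
    exact hthick hmem

end Triangle

end Vale.Agent.Lib.P099
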