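import Vale.Agent.Lib.P099.Unfold

/-!
# Billiards in a triangle: time reversal of trajectories

If the billiard trajectory issued from a phase point `p` of the table reaches the phase
point `q` of the table after time `t`, then the trajectory issued from the reversed phase
point `reverse q` reaches `reverse p` after the same time `t`.
-/

namespace Vale.Agent.Lib.P099

open Set

namespace Triangle

variable {T : Triangle}

/-- The unit vector of the opposite direction. -/
lemma dirVec_add_pi (θ : Dir) : dirVec (θ + ((Real.pi : ℝ) : Dir)) = -dirVec θ := by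
  rw [dirVec_add, dirVec_coe, Complex.exp_pi_mul_I]
  ring

/-- The half turn is an involution of the circle of directions. -/
lemma pi_add_pi : ((Real.pi : ℝ) : Dir) + ((Real.pi : ℝ) : Dir) = 0 := by
  rw [← AddCircle.coe_add, ← two_mul]
  exact AddCircle.coe_period _

/-- Reflecting the opposite of a reflected direction gives the opposite direction. -/
lemma reflect_reflect_add_pi (i : Fin 3) (θ : Dir) :
    T.reflect i (T.reflect i θ + ((Real.pi : ℝ) : Dir)) = θ + ((Real.pi : ℝ) : Dir) := by
  have hneg : -((Real.pi : ℝ) : Dir) = ((Real.pi : ℝ) : Dir) := by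
    rw [neg_eq_iff_add_eq_zero]
    exact pi_add_pi
  have habc : ∀ a b c : Dir, a - (a - b + c) = b + -c := fun a b c => by abel
  unfold reflect
  rw [habc, hneg]

/-- The point reached after time `s` on the way back from `x + τ * dirVec θ`. -/
lemma back_point (x : ℂ) (θ : Dir) (τ s : ℝ) :
    x + (τ : ℂ) * dirVec θ + (s : ℂ) * dirVec (θ + ((Real.pi : ℝ) : Dir))
      = x + ((τ - s : ℝ) : ℂ) * dirVec θ := by
  rw [dirVec_add_pi]
  push_cast
  ring

/-- The end point of the way back from `x + τ * dirVec θ` is `x`. -/
lemma back_end (x : ℂ) (θ : Dir) (τ : ℝ) :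
    x + (τ : ℂ) * dirVec θ + (τ : ℂ) * dirVec (θ + ((Real.pi : ℝ) : Dir)) = x := by
  rw [dirVec_add_pi]
  ring

/-- The reversed flight from `x + τ * dirVec θ` back to `x`, followed by a trajectory
issued from `x` (in the opposite direction if `x` is in the table, in the reflected
opposite direction if `x` is on an open side). -/
lemma reach_back {x : ℂ} {θ θ' : Dir} {τ t' : ℝ} {r : ℂ × Dir} (hτ : 0 ≤ τ)
    (hfree : ∀ s : ℝ, 0 < s → s < τ → x + (s : ℂ) * dirVec θ ∈ T.table)
    (hpos : 0 < τ ∨ x ∈ T.table)
    (hx : (x ∈ T.table ∧ θ' = θ + ((Real.pi : ℝ) : Dir)) ∨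
      (∃ i, x ∈ T.side i ∧ θ' = T.reflect i (θ + ((Real.pi : ℝ) : Dir))))
    (hc : T.Reach t' (x, θ') r) :
    T.Reach (τ + t') (x + (τ : ℂ) * dirVec θ, θ + ((Real.pi : ℝ) : Dir)) r := by
  rcases hx with ⟨hxt, rfl⟩ | ⟨i, hxi, rfl⟩
  · have h1 : T.Reach τ (x + (τ : ℂ) * dirVec θ, θ + ((Real.pi : ℝ) : Dir))
        (x + (τ : ℂ) * dirVec θ + (τ : ℂ) * dirVec (θ + ((Real.pi : ℝ) : Dir)),
          θ + ((Real.pi : ℝ) : Dir)) := by
      refine Reach.free _ _ τ hτ ?_
      intro s hs hst
      rw [back_point]
      rcases hst.lt_or_eq with hlt | heq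
      · exact hfree (τ - s) (by linarith) (by linarith)
      · subst heq
        simpa using hxt
    rw [back_end] at h1
    exact T.reach_trans h1 hc
  · have hτ' : 0 < τ := by
      rcases hpos with h | h
      · exact h
      · exact absurd h (T.side_disjoint_table hxi)
    refine Reach.bounce _ _ τ t' i r hτ' ?_ ?_ ?_
    · intro s hs hst
      rw [back_point]
      exact hfree (τ - s) (by linarith) (by linarith)
    · rw [back_end]
      exact hxi
    · rw [back_end]
      exact hc

/-- Time reversal, in a form suitable for an induction on the trajectory: the reversed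
trajectory from `reverse q` comes back to the initial position, where it can be continued
by any trajectory issued from there in the opposite direction (reflected if the initial
position is on an open side). -/
lemma reach_reverse_aux {t : ℝ} {p q : ℂ × Dir} (h : T.Reach t p q) (hq : q.1 ∈ T.table) :
    ∀ (θ' : Dir) (t' : ℝ) (r : ℂ × Dir),
      ((p.1 ∈ T.table ∧ θ' = p.2 + ((Real.pi : ℝ) : Dir)) ∨
        (∃ i, p.1 ∈ T.side i ∧ θ' = T.reflect i (p.2 + ((Real.pi : ℝ) : Dir)))) →
      T.Reach t' (p.1, θ') r → T.Reach (t + t') (reverse q) r := by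
  induction h with
  | free x θ t ht hfree =>
    intro θ' t' r hx hc
    have hpos : 0 < t ∨ x ∈ T.table := by
      rcases ht.lt_or_eq with hlt | heq
      · exact Or.inl hlt
      · right
        subst heq
        simpa using hq
    exact reach_back ht (fun s hs hst => hfree s hs hst.le) hpos hx hc
  | bounce x θ τ t i q hτ hfree hhit hrest ih =>
    intro θ' t' r hx hc
    have hb := reach_back hτ.le hfree (Or.inl hτ) hx hc
    have h2 := ih hq (θ + ((Real.pi : ℝ) : Dir)) (τ + t') r
      (Or.inr ⟨i, hhit, (reflect_reflect_add_pi i θ).symm⟩) hb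
    have e : τ + t + t' = t + (τ + t') := by ring
    rw [e]
    exact h2

/-- **Time reversal of billiard trajectories.**  If the trajectory issued from the phase
point `p` of the table reaches the phase point `q` of the table after time `t`, then the
trajectory issued from `reverse q` reaches `reverse p` after time `t`. -/
theorem reach_reverse {t : ℝ} {p q : ℂ × Dir} (h : T.Reach t p q) (hp : p.1 ∈ T.table)
    (hq : q.1 ∈ T.table) : T.Reach t (reverse q) (reverse p) := by
  have h0 : T.Reach 0 (p.1, p.2 + ((Real.pi : ℝ) : Dir))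
      (p.1 + ((0 : ℝ) : ℂ) * dirVec (p.2 + ((Real.pi : ℝ) : Dir)),
        p.2 + ((Real.pi : ℝ) : Dir)) :=
    Reach.free _ _ 0 le_rfl (fun s hs hs' => absurd hs (not_lt.mpr hs'))
  have e : p.1 + ((0 : ℝ) : ℂ) * dirVec (p.2 + ((Real.pi : ℝ) : Dir)) = p.1 := by simp
  rw [e] at h0
  have h1 := reach_reverse_aux h hq (p.2 + ((Real.pi : ℝ) : Dir)) 0 (reverse p)
    (Or.inl ⟨hp, rfl⟩) h0
  rwa [add_zero] at h1

end Triangle

end Vale.Agent.Lib.P099
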