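import Vale.Agent.Lib.P099.Geometry

/-!
# Functions on the phase space invariant under two reflections through a common point
-/

namespace Vale.Agent.Lib.P099

open MeasureTheory Set Filter Topology

lemma continuous_dirVec : Continuous dirVec := by unfold dirVec; fun_prop

lemma dirVec_injective : Function.Injective dirVec := by
  intro a b h
  unfold dirVec at h
  exact AddCircle.injective_toCircle Real.two_pi_pos.ne' (Circle.coe_injective h)

lemma dirVec_pi : dirVec ((Real.pi : ℝ) : Dir) = -1 := by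
  rw [dirVec_coe, Complex.exp_pi_mul_I]

lemma volume_dir_singleton (a : Dir) : (volume : Measure Dir) {a} = 0 := by
  have h := AddCircle.volume_closedBall (2 * Real.pi) (x := a) 0
  rw [Metric.closedBall_zero] at h
  rw [h]
  simp

lemma mirrorDir_measurePreserving (d : ℂ) :
    MeasurePreserving (mirrorDir d) (volume : Measure Dir) volume :=
  Measure.measurePreserving_sub_left volume _

lemma mirrorDir_neg {d : ℂ} (hd : d ≠ 0) : mirrorDir (-d) = mirrorDir d := by
  funext θ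
  unfold mirrorDir
  have h : ((Complex.arg (-d) : ℝ) : Dir) = ((Complex.arg d : ℝ) : Dir) + ((Real.pi : ℝ) : Dir) :=
    Complex.arg_neg_coe_angle hd
  rw [h, nsmul_add]
  have h2 : (2 : ℕ) • ((Real.pi : ℝ) : Dir) = 0 := by
    rw [← AddCircle.coe_nsmul, nsmul_eq_mul]
    push_cast
    exact AddCircle.coe_period _
  rw [h2, add_zero]

/-- The composition of two reflections of directions is a rotation. -/
lemma mirrorDir_comp (d₁ d₂ : ℂ) (θ : Dir) :
    mirrorDir d₁ (mirrorDir d₂ θ)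
      = ((2 : ℕ) • ((Complex.arg d₁ : ℝ) : Dir) - (2 : ℕ) • ((Complex.arg d₂ : ℝ) : Dir)) + θ := by
  unfold mirrorDir; abel

/-- The composition of two reflections in lines through `A` is the corresponding
rotation about `A`. -/
lemma mirror_comp {d₁ d₂ : ℂ} (hd₁ : d₁ ≠ 0) (hd₂ : d₂ ≠ 0) (A z : ℂ) (θ : Dir) :
    mirror A d₁ (mirror A d₂ (A + dirVec θ * z))
      = A + dirVec (mirrorDir d₁ (mirrorDir d₂ θ)) * z := by
  rw [dirVec_mirrorDir hd₁, dirVec_mirrorDir hd₂]
  have hc₁ : (starRingEnd ℂ) d₁ ≠ 0 := by simpa using hd₁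
  have hc₂ : (starRingEnd ℂ) d₂ ≠ 0 := by simpa using hd₂
  simp only [mirror, add_sub_cancel_left, map_mul, map_div₀, Complex.conj_conj]
  ring

/-- Invariance under two reflections through `A` gives invariance under a rotation
about `A`, in the frame attached to the direction. -/
lemma rot_invariant {F : ℂ × Dir → ℂ} {A d₁ d₂ : ℂ} (hd₁ : d₁ ≠ 0) (hd₂ : d₂ ≠ 0)
    (h₁ : ∀ᵐ θ ∂(volume : Measure Dir), ∀ y : ℂ, F (mirror A d₁ y, mirrorDir d₁ θ) = F (y, θ))
    (h₂ : ∀ᵐ θ ∂(volume : Measure Dir), ∀ y : ℂ, F (mirror A d₂ y, mirrorDir d₂ θ) = F (y, θ)) :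
    ∀ᵐ θ ∂(volume : Measure Dir), ∀ z : ℂ,
      F (A + dirVec (((2 : ℕ) • ((Complex.arg d₁ : ℝ) : Dir)
          - (2 : ℕ) • ((Complex.arg d₂ : ℝ) : Dir)) + θ) * z,
        ((2 : ℕ) • ((Complex.arg d₁ : ℝ) : Dir) - (2 : ℕ) • ((Complex.arg d₂ : ℝ) : Dir)) + θ)
      = F (A + dirVec θ * z, θ) := by
  have h₁' := (mirrorDir_measurePreserving d₂).quasiMeasurePreserving.ae h₁
  filter_upwards [h₁', h₂] with θ hθ₁ hθ₂ z
  rw [← mirrorDir_comp, ← mirror_comp hd₁ hd₂, hθ₁, hθ₂]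

/-- If the rotation is irrational, the function only depends on the position in the
frame attached to the direction. -/
lemma exists_profile {F : ℂ × Dir → ℂ} (hFm : Measurable F)
    (hFa : ∀ θ : Dir, AnalyticOnNhd ℝ (fun x : ℂ => F (x, θ)) Set.univ) {A : ℂ} {rho : Dir}
    (hrho : addOrderOf rho = 0)
    (h : ∀ᵐ θ ∂(volume : Measure Dir), ∀ z : ℂ,
      F (A + dirVec (rho + θ) * z, rho + θ) = F (A + dirVec θ * z, θ)) :
    ∃ g : ℂ → ℂ, Continuous g ∧
      ∀ᵐ θ ∂(volume : Measure Dir), ∀ z : ℂ, F (A + dirVec θ * z, θ) = g z := by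
  have herg : Ergodic (fun θ : Dir => rho + θ) volume := AddCircle.ergodic_add_left.mpr hrho
  have hcont : ∀ θ : Dir, Continuous fun z : ℂ => F (A + dirVec θ * z, θ) := by
    intro θ
    have h1 : Continuous fun x : ℂ => F (x, θ) :=
      continuousOn_univ.mp (hFa θ).continuousOn
    exact h1.comp (by fun_prop)
  have hG : ∀ z : ℂ, ∃ c : ℂ, (fun θ : Dir => F (A + dirVec θ * z, θ))
      =ᵐ[volume] Function.const Dir c := by
    intro z
    have hmeas : Measurable fun θ : Dir => F (A + dirVec θ * z, θ) := by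
      have hd : Measurable dirVec := continuous_dirVec.measurable
      exact hFm.comp (by fun_prop)
    apply herg.ae_eq_const_of_ae_eq_comp₀ hmeas.nullMeasurable
    filter_upwards [h] with θ hθ using hθ z
  choose c hc using hG
  obtain ⟨D, hDc, hDd⟩ := TopologicalSpace.exists_countable_dense ℂ
  have hall : ∀ᵐ θ ∂(volume : Measure Dir), ∀ z ∈ D, F (A + dirVec θ * z, θ) = c z :=
    (ae_ball_iff hDc).mpr (fun z _ => hc z)
  obtain ⟨θ₁, hθ₁⟩ := hall.exists
  refine ⟨fun z => F (A + dirVec θ₁ * z, θ₁), hcont θ₁, ?_⟩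
  filter_upwards [hall] with θ hθ z
  exact congrFun (Continuous.ext_on hDd (hcont θ) (hcont θ₁)
    (fun z hz => by rw [hθ z hz, hθ₁ z hz])) z

/-- Two unit vectors with a prescribed difference of norm at most `2`. -/
lemma exists_units_sub {σ : ℂ} (hσ : ‖σ‖ ≤ 2) :
    ∃ u u' : ℂ, ‖u‖ = 1 ∧ ‖u'‖ = 1 ∧ u - u' = σ := by
  by_cases h0 : σ = 0
  · exact ⟨1, 1, by simp, by simp, by simp [h0]⟩
  have hn : 0 < ‖σ‖ := norm_pos_iff.mpr h0
  have hnc : (‖σ‖ : ℂ) ≠ 0 := by exact_mod_cast hn.ne'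
  have hr : 0 ≤ 1 - ‖σ‖ ^ 2 / 4 := by nlinarith
  set r : ℝ := Real.sqrt (1 - ‖σ‖ ^ 2 / 4) with hr_def
  have hr2 : r ^ 2 = 1 - ‖σ‖ ^ 2 / 4 := Real.sq_sqrt hr
  have hunit : ‖σ / (‖σ‖ : ℂ)‖ = 1 := by
    rw [norm_div, Complex.norm_real, Real.norm_eq_abs, abs_of_pos hn, div_self hn.ne']
  refine ⟨σ / (‖σ‖ : ℂ) * (((‖σ‖ / 2 : ℝ) : ℂ) + (r : ℂ) * Complex.I),
    σ / (‖σ‖ : ℂ) * (((-(‖σ‖ / 2) : ℝ) : ℂ) + (r : ℂ) * Complex.I), ?_, ?_, ?_⟩
  · rw [norm_mul, hunit, one_mul, Complex.norm_add_mul_I]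
    rw [show (‖σ‖ / 2) ^ 2 + r ^ 2 = 1 by rw [hr2]; ring]
    exact Real.sqrt_one
  · rw [norm_mul, hunit, one_mul, Complex.norm_add_mul_I]
    rw [show (-(‖σ‖ / 2)) ^ 2 + r ^ 2 = 1 by rw [hr2]; ring]
    exact Real.sqrt_one
  · push_cast
    field_simp
    ring

/-- A function invariant under all small translations is constant. -/
lemma const_of_small_translations {g : ℂ → ℂ} {R : ℝ} (hR : 0 < R)
    (h : ∀ z τ : ℂ, ‖τ‖ ≤ R → g (z + τ) = g z) : ∀ z : ℂ, g z = g 0 := by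
  intro z
  obtain ⟨n, hn⟩ := exists_nat_gt (‖z‖ / R)
  have hn0 : (0 : ℝ) < n := lt_of_le_of_lt (div_nonneg (norm_nonneg z) hR.le) hn
  have hnc : (n : ℂ) ≠ 0 := by exact_mod_cast hn0.ne'
  have hτ : ‖z / (n : ℂ)‖ ≤ R := by
    rw [norm_div, Complex.norm_natCast, div_le_iff₀ hn0]
    rw [div_lt_iff₀ hR] at hn
    linarith
  have hk : ∀ k : ℕ, g ((k : ℂ) * (z / (n : ℂ))) = g 0 := by
    intro k
    induction k with
    | zero => simp
    | succ k ih =>
      rw [← ih, ← h ((k : ℂ) * (z / (n : ℂ))) (z / (n : ℂ)) hτ]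
      congr 1
      push_cast
      ring
  have := hk n
  rwa [mul_div_cancel₀ z hnc] at this

/-- A function with the rotational normal form at two distinct base points is constant. -/
lemma const_of_two_profiles {F : ℂ × Dir → ℂ} {A B : ℂ} (hAB : A ≠ B) {gA gB : ℂ → ℂ}
    (hgB : Continuous gB)
    (hA : ∀ᵐ θ ∂(volume : Measure Dir), ∀ z : ℂ, F (A + dirVec θ * z, θ) = gA z)
    (hB : ∀ᵐ θ ∂(volume : Measure Dir), ∀ z : ℂ, F (B + dirVec θ * z, θ) = gB z) :
    ∃ c : ℂ, ∀ᵐ θ ∂(volume : Measure Dir), ∀ y : ℂ, F (y, θ) = c := by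
  set w : ℂ := A - B with hw_def
  have hw : w ≠ 0 := sub_ne_zero.mpr hAB
  have hwn : 0 < ‖w‖ := norm_pos_iff.mpr hw
  have h1 : ∀ᵐ θ ∂(volume : Measure Dir), ∀ z : ℂ,
      gA z = gB (z + (starRingEnd ℂ) (dirVec θ) * w) := by
    filter_upwards [hA, hB] with θ ha hb z
    rw [← ha z, ← hb]
    congr 1
    have he := dirVec_mul_conj θ
    rw [Prod.mk.injEq]
    refine ⟨?_, rfl⟩
    calc A + dirVec θ * z = B + dirVec θ * z + 1 * w := by rw [hw_def]; ring
      _ = B + dirVec θ * z + (dirVec θ * (starRingEnd ℂ) (dirVec θ)) * w := by rw [he]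
      _ = B + dirVec θ * (z + (starRingEnd ℂ) (dirVec θ) * w) := by ring
  have hdense := Measure.dense_of_ae h1
  have h2 : ∀ (θ : Dir) (z : ℂ), gA z = gB (z + (starRingEnd ℂ) (dirVec θ) * w) := by
    intro θ z
    have hc1 : Continuous (fun _ : Dir => gA z) := continuous_const
    have hc2 : Continuous (fun θ : Dir => gB (z + (starRingEnd ℂ) (dirVec θ) * w)) := by
      have hd := continuous_dirVec
      exact hgB.comp (by fun_prop)
    exact congrFun (Continuous.ext_on hdense hc1 hc2 (fun θ hθ => hθ z)) θ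
  have h3 : ∀ (z u : ℂ), ‖u‖ = 1 → gA z = gB (z + u * w) := by
    intro z u hu
    have hu0 : u ≠ 0 := by
      intro h; rw [h, norm_zero] at hu; exact zero_ne_one hu
    have := h2 (-((Complex.arg u : ℝ) : Dir)) z
    rwa [dirVec_neg, Complex.conj_conj, dirVec_arg hu0, hu, Complex.ofReal_one, div_one] at this
  have h4 : ∀ z τ : ℂ, ‖τ‖ ≤ 2 * ‖w‖ → gB (z + τ) = gB z := by
    intro z τ hτ
    have hσ : ‖τ / w‖ ≤ 2 := by
      rw [norm_div, div_le_iff₀ hwn]; exact hτ
    obtain ⟨u, u', hu, hu', huu⟩ := exists_units_sub hσ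
    have e1 := h3 (z - u' * w) u hu
    have e2 := h3 (z - u' * w) u' hu'
    have e3 : z - u' * w + u * w = z + τ := by
      have : (u - u') * w = τ := by rw [huu]; field_simp
      rw [← this]; ring
    rw [e3] at e1
    rw [sub_add_cancel] at e2
    rw [← e1, e2]
  have h5 := const_of_small_translations (by positivity : 0 < 2 * ‖w‖) h4
  refine ⟨gB 0, ?_⟩
  filter_upwards [hB] with θ hb y
  have h6 := hb ((starRingEnd ℂ) (dirVec θ) * (y - B))
  have he := dirVec_mul_conj θ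
  have h7 : B + dirVec θ * ((starRingEnd ℂ) (dirVec θ) * (y - B)) = y := by
    calc B + dirVec θ * ((starRingEnd ℂ) (dirVec θ) * (y - B))
        = B + (dirVec θ * (starRingEnd ℂ) (dirVec θ)) * (y - B) := by ring
      _ = y := by rw [he]; ring
  rw [h7] at h6
  rw [h6, h5]

end Vale.Agent.Lib.P099
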