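import Vale.Agent.Lib.P099.Flow

/-!
# Billiards in a triangle: unfolding of trajectories

Concatenation of trajectories, the elementary step from one boundary point to the next,
and pairs `(g, γ)` of an isometry of the plane and the induced map of directions obtained
by composing reflections in the sides (`Unf`).
-/

namespace Vale.Agent.Lib.P099

open Set

namespace Triangle

variable (T : Triangle)

/-- Trajectories can be concatenated. -/
lemma reach_trans {t t' : ℝ} {p q r : ℂ × Dir} (h : T.Reach t p q) (h' : T.Reach t' q r) :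
    T.Reach (t + t') p r := by
  induction h with
  | free x θ t ht hfree =>
    generalize hq : (x + (t : ℂ) * dirVec θ, θ) = q0 at h'
    cases h' with
    | free x' θ' t' ht' hfree' =>
      obtain ⟨rfl, rfl⟩ := Prod.mk.inj hq
      have he : x + (t : ℂ) * dirVec θ + (t' : ℂ) * dirVec θ
          = x + ((t + t' : ℝ) : ℂ) * dirVec θ := by push_cast; ring
      rw [he]
      refine Reach.free x θ (t + t') (by linarith) ?_
      intro s hs hst
      rcases le_or_gt s t with hle | hgt
      · exact hfree s hs hle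
      · have h1 := hfree' (s - t) (by linarith) (by linarith)
        have he2 : x + (t : ℂ) * dirVec θ + ((s - t : ℝ) : ℂ) * dirVec θ
            = x + (s : ℂ) * dirVec θ := by push_cast; ring
        rwa [he2] at h1
    | bounce x' θ' τ t₂ i r' hτ hfree' hhit hrest =>
      obtain ⟨rfl, rfl⟩ := Prod.mk.inj hq
      have he : t + (τ + t₂) = (t + τ) + t₂ := by ring
      rw [he]
      refine Reach.bounce x θ (t + τ) t₂ i _ (by linarith) ?_ ?_ ?_
      · intro s hs hst
        rcases le_or_gt s t with hle | hgt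
        · exact hfree s hs hle
        · have h1 := hfree' (s - t) (by linarith) (by linarith)
          have he2 : x + (t : ℂ) * dirVec θ + ((s - t : ℝ) : ℂ) * dirVec θ
              = x + (s : ℂ) * dirVec θ := by push_cast; ring
          rwa [he2] at h1
      · have he2 : x + ((t + τ : ℝ) : ℂ) * dirVec θ
            = x + (t : ℂ) * dirVec θ + (τ : ℂ) * dirVec θ := by push_cast; ring
        rw [he2]; exact hhit
      · have he2 : x + ((t + τ : ℝ) : ℂ) * dirVec θ
            = x + (t : ℂ) * dirVec θ + (τ : ℂ) * dirVec θ := by push_cast; ring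
        rw [he2]; exact hrest
  | bounce x θ τ t₁ i q hτ hfree hhit hrest ih =>
    have he : τ + t₁ + t' = τ + (t₁ + t') := by ring
    rw [he]
    exact Reach.bounce x θ τ (t₁ + t') i r hτ hfree hhit (ih h')

/-- The elementary step: a free flight ending on the open side `k`, followed by the
reflection. -/
lemma reach_step {z : ℂ} {θ : Dir} {τ : ℝ} (k : Fin 3) (hτ : 0 < τ)
    (hfree : ∀ s : ℝ, 0 < s → s < τ → z + (s : ℂ) * dirVec θ ∈ T.table)
    (hhit : z + (τ : ℂ) * dirVec θ ∈ T.side k) :
    T.Reach τ (z, θ) (z + (τ : ℂ) * dirVec θ, T.reflect k θ) := by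
  have h0 : T.Reach 0 (z + (τ : ℂ) * dirVec θ, T.reflect k θ)
      (z + (τ : ℂ) * dirVec θ + ((0 : ℝ) : ℂ) * dirVec (T.reflect k θ), T.reflect k θ) :=
    Reach.free _ _ 0 le_rfl (fun s hs hs' => absurd hs (not_lt.mpr hs'))
  have h1 := Reach.bounce z θ τ 0 k _ hτ hfree hhit h0
  simpa using h1

/-- A free flight. -/
lemma reach_free {z : ℂ} {θ : Dir} {τ : ℝ} (hτ : 0 ≤ τ)
    (hfree : ∀ s : ℝ, 0 < s → s ≤ τ → z + (s : ℂ) * dirVec θ ∈ T.table) :
    T.Reach τ (z, θ) (z + (τ : ℂ) * dirVec θ, θ) :=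
  Reach.free z θ τ hτ hfree

/-- If two points have nonnegative barycentric coordinates and each coordinate is
positive at one of them, the open segment between them lies in the table. -/
lemma seg_mem_table {X Y : ℂ} (hX : ∀ i, 0 ≤ T.bc i X) (hY : ∀ i, 0 ≤ T.bc i Y)
    (hXY : ∀ i, 0 < T.bc i X ∨ 0 < T.bc i Y) {lam : ℝ} (h0 : 0 < lam) (h1 : lam < 1) :
    X + (lam : ℂ) * (Y - X) ∈ T.table := by
  rw [T.mem_table]
  intro i
  have hsm : ((lam : ℂ) * (Y - X)) = lam • (Y - X) := by simp
  rw [hsm, bc_add, map_smul, bc_lin_sub, smul_eq_mul]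
  have e : T.bc i X + lam * (T.bc i Y - T.bc i X) = (1 - lam) * T.bc i X + lam * T.bc i Y := by
    ring
  rw [e]
  rcases hXY i with h | h
  · have := mul_pos (by linarith : (0:ℝ) < 1 - lam) h
    have := mul_nonneg h0.le (hY i)
    linarith
  · have := mul_pos h0 h
    have := mul_nonneg (by linarith : (0:ℝ) ≤ 1 - lam) (hX i)
    linarith

end Triangle

/-- A pair `(g, γ)`: a map of the plane and a map of directions such that `g` carries the
ray issued from `z` in the direction `θ` isometrically onto the ray issued from `g z` in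
the direction `γ θ`. -/
structure Unf (g : ℂ → ℂ) (γ : Dir → Dir) : Prop where
  ray : ∀ (z : ℂ) (θ : Dir) (t : ℝ), g (z + (t : ℂ) * dirVec θ) = g z + (t : ℂ) * dirVec (γ θ)

lemma Unf.id : Unf (fun z => z) (fun θ => θ) := ⟨fun _ _ _ => rfl⟩

namespace Triangle

variable (T : Triangle)

lemma sideMirror_ray (k : Fin 3) (z : ℂ) (θ : Dir) (t : ℝ) :
    T.sideMirror k (z + (t : ℂ) * dirVec θ)
      = T.sideMirror k z + (t : ℂ) * dirVec (T.reflect k θ) := by
  have hd := T.sideVec_ne_zero k
  rw [sideMirror, mirror_add, T.reflect_eq, dirVec_mirrorDir hd, map_mul, Complex.conj_ofReal]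
  ring

lemma Unf.mirror {g : ℂ → ℂ} {γ : Dir → Dir} (h : Unf g γ) (k : Fin 3) :
    Unf (fun z => T.sideMirror k (g z)) (fun θ => T.reflect k (γ θ)) :=
  ⟨fun z θ t => by rw [h.ray, T.sideMirror_ray]⟩

lemma sideMirror_fix {k : Fin 3} {z : ℂ} (hz : z ∈ T.side k) : T.sideMirror k z = z := by
  obtain ⟨s, -, -, rfl⟩ := T.mem_side_iff.mp hz
  exact mirror_fix (T.sideVec_ne_zero k) _ s

end Triangle

lemma dirVec_dirTo {w : ℂ} (hw : w ≠ 0) :
    (‖w‖ : ℂ) * dirVec ((Complex.arg w : ℝ) : Dir) = w := by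
  rw [dirVec_arg hw]
  have hn : (‖w‖ : ℂ) ≠ 0 := by simpa using hw
  field_simp

lemma Unf.norm_sub {g : ℂ → ℂ} {γ : Dir → Dir} (h : Unf g γ) (z z' : ℂ) :
    ‖g z' - g z‖ = ‖z' - z‖ := by
  by_cases hzz : z' - z = 0
  · have : z' = z := sub_eq_zero.mp hzz
    rw [this]; simp
  · have h1 := h.ray z ((Complex.arg (z' - z) : ℝ) : Dir) ‖z' - z‖
    rw [dirVec_dirTo hzz] at h1
    have h2 : z + (z' - z) = z' := by ring
    rw [h2] at h1
    rw [h1, add_sub_cancel_left, norm_mul, norm_dirVec, mul_one, Complex.norm_real,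
      Real.norm_eq_abs, abs_of_nonneg (norm_nonneg _)]

lemma Unf.continuous {g : ℂ → ℂ} {γ : Dir → Dir} (h : Unf g γ) : Continuous g := by
  have hi : Isometry g := by
    apply Isometry.of_dist_eq
    intro z z'
    rw [dist_eq_norm, dist_eq_norm, h.norm_sub]
  exact hi.continuous

lemma Unf.dirVec_eq {g : ℂ → ℂ} {γ : Dir → Dir} (h : Unf g γ) (θ : Dir) :
    dirVec (γ θ) = g (dirVec θ) - g 0 := by
  have h1 := h.ray 0 θ 1
  simp only [zero_add, Complex.ofReal_one, one_mul] at h1
  rw [h1]; ring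

end Vale.Agent.Lib.P099
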