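import Vale.Agent.Lib.P099.Core
import Vale.Agent.Lib.P099.Rotation
import Vale.Agent.Lib.P099.Unfold

/-!
# Billiards in a triangle: stability of finite trajectory segments

A finite piece of trajectory between two points of the open table depends continuously
on the initial phase point: the nearby trajectories have the same unfolding.  As a
consequence, a relation between a continuous function and its composition with the flow
which holds almost everywhere holds along every such piece of trajectory.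
-/

namespace Vale.Agent.Lib.P099

open MeasureTheory Set Filter Topology

namespace Triangle

variable (T : Triangle)

/-- Admissible perturbation of a starting position: a point of the table is moved inside
the table, a point of an open side is moved inside the same side. -/
def Adm (x x' : ℂ) : Prop :=
  (x ∈ T.table → x' ∈ T.table) ∧ ∀ i, x ∈ T.side i → x' ∈ T.side i

lemma continuous_reflect (i : Fin 3) : Continuous (T.reflect i) := by
  unfold reflect
  fun_prop

lemma bc_nonneg_of_mem_side {i : Fin 3} {x : ℂ} (hx : x ∈ T.side i) (k : Fin 3) :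
    0 ≤ T.bc k x := by
  obtain ⟨h0, h1, h2⟩ := T.bc_of_mem_side hx
  rcases fin3_cases i k with rfl | rfl | rfl
  · rw [h0]
  · exact h1.le
  · exact h2.le

lemma bc_nonneg_of_adm {x x' : ℂ} (hx : x ∈ T.table ∨ ∃ i, x ∈ T.side i) (h : T.Adm x x')
    (k : Fin 3) : 0 ≤ T.bc k x' := by
  rcases hx with hx | ⟨i, hx⟩
  · exact ((T.mem_table.mp (h.1 hx)) k).le
  · exact T.bc_nonneg_of_mem_side (h.2 i hx) k

/-- A segment issued from a point of the closed triangle, whose end point is in the closed
triangle, and such that every barycentric coordinate is positive at one of the two ends,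
runs in the table. -/
lemma free_of_bc {X : ℂ} {θ : Dir} {t : ℝ} (hX : ∀ i, 0 ≤ T.bc i X)
    (hY : ∀ i, 0 ≤ T.bc i (X + (t : ℂ) * dirVec θ))
    (hXY : ∀ i, 0 < T.bc i X ∨ 0 < T.bc i (X + (t : ℂ) * dirVec θ))
    {s : ℝ} (hs : 0 < s) (hst : s < t) : X + (s : ℂ) * dirVec θ ∈ T.table := by
  have ht : 0 < t := lt_trans hs hst
  have hlam : X + (s : ℂ) * dirVec θ
      = X + ((s / t : ℝ) : ℂ) * ((X + (t : ℂ) * dirVec θ) - X) := by
    rw [add_sub_cancel_left]
    have hne : (t : ℂ) ≠ 0 := by exact_mod_cast ht.ne'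
    rw [Complex.ofReal_div]
    field_simp
  rw [hlam]
  apply T.seg_mem_table hX hY hXY
  · exact div_pos hs ht
  · rw [div_lt_one ht]; exact hst

lemma reach_zero {t : ℝ} {p q : ℂ × Dir} (h : T.Reach t p q) (ht : t = 0) : q = p := by
  cases h with
  | free x θ t ht' hfree => rw [ht]; simp
  | bounce x θ τ t₁ i q hτ hfree hhit hrest =>
    exfalso
    have := T.reach_nonneg hrest
    linarith

/-- Stability of a piece of trajectory ending in the open table, under perturbations of
the initial position, of the initial direction and of the time. -/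
lemma reach_stable_aux {t : ℝ} {p q : ℂ × Dir} (h : T.Reach t p q) :
    (p.1 ∈ T.table ∨ ∃ i, p.1 ∈ T.side i) → q.1 ∈ T.table →
    ∃ (g : ℂ → ℂ) (γ : Dir → Dir), Unf g γ ∧ Continuous γ ∧
      q = (g (p.1 + (t : ℂ) * dirVec p.2), γ p.2) ∧
      ∀ᶠ z : (ℂ × Dir) × ℝ in 𝓝 (p, t), T.Adm p.1 z.1.1 → 0 ≤ z.2 →
        T.Reach z.2 z.1 (g (z.1.1 + (z.2 : ℂ) * dirVec z.1.2), γ z.1.2) ∧
        g (z.1.1 + (z.2 : ℂ) * dirVec z.1.2) ∈ T.table := by
  induction h with
  | free x θ t ht hfree =>
    intro hp hq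
    refine ⟨fun z => z, fun θ => θ, Unf.id, continuous_id, rfl, ?_⟩
    have hc : Continuous (fun z : (ℂ × Dir) × ℝ => z.1.1 + (z.2 : ℂ) * dirVec z.1.2) := by
      have h1 : Continuous (fun z : (ℂ × Dir) × ℝ => dirVec z.1.2) :=
        continuous_dirVec.comp (continuous_snd.comp continuous_fst)
      have h2 : Continuous (fun z : (ℂ × Dir) × ℝ => (z.2 : ℂ)) :=
        Complex.continuous_ofReal.comp continuous_snd
      exact (continuous_fst.comp continuous_fst).add (h2.mul h1)
    have hev : ∀ᶠ z : (ℂ × Dir) × ℝ in 𝓝 ((x, θ), t),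
        z.1.1 + (z.2 : ℂ) * dirVec z.1.2 ∈ T.table :=
      hc.continuousAt.eventually (T.isOpen_table.mem_nhds hq)
    filter_upwards [hev] with z hz hadm ht'
    obtain ⟨⟨x', θ'⟩, t'⟩ := z
    simp only at hz hadm ht' ⊢
    refine ⟨?_, hz⟩
    apply Reach.free x' θ' t' ht'
    intro s hs hst
    rcases hst.lt_or_eq with hlt | heq
    · exact T.free_of_bc (T.bc_nonneg_of_adm hp hadm) (fun i => ((T.mem_table.mp hz) i).le)
        (fun i => Or.inr ((T.mem_table.mp hz) i)) hs hlt
    · rw [heq]; exact hz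
  | bounce x θ τ t₁ i q hτ hfree hhit hrest ih =>
    intro hp hq
    have ht₁ : 0 < t₁ := by
      rcases (T.reach_nonneg hrest).lt_or_eq with h | h
      · exact h
      · exfalso
        have hqe := T.reach_zero hrest h.symm
        rw [hqe] at hq
        exact T.side_disjoint_table hhit hq
    obtain ⟨g₁, γ₁, hU, hγ, hqeq, hev⟩ := ih (Or.inr ⟨i, hhit⟩) hq
    set l := (T.bc i).linear (dirVec θ) with hl
    obtain ⟨hb0, hb1, hb2⟩ := T.bc_of_mem_side hhit
    have hzero : T.bc i x + τ * l = 0 := by rw [hl, ← T.bc_add_smul]; exact hb0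
    have hhalf : 0 < T.bc i x + (τ / 2) * l := by
      have := (T.mem_table.mp (hfree (τ / 2) (by linarith) (by linarith))) i
      rwa [T.bc_add_smul] at this
    have hlneg : l < 0 := by nlinarith
    have hbx : 0 < T.bc i x := by nlinarith
    -- the time of the first reflection, as a function of the initial data
    set τf : (ℂ × Dir) × ℝ → ℝ :=
      fun z => T.bc i z.1.1 / (-(T.bc i).linear (dirVec z.1.2)) with hτf
    have hnum : Continuous (fun z : (ℂ × Dir) × ℝ => T.bc i z.1.1) :=
      (T.bc_continuous i).comp (continuous_fst.comp continuous_fst)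
    have hdv : Continuous (fun z : (ℂ × Dir) × ℝ => dirVec z.1.2) :=
      continuous_dirVec.comp (continuous_snd.comp continuous_fst)
    have hden : Continuous (fun z : (ℂ × Dir) × ℝ => (T.bc i).linear (dirVec z.1.2)) :=
      (T.bc_lin_continuous i).comp hdv
    have hτc : ContinuousAt τf ((x, θ), τ + t₁) := by
      apply ContinuousAt.div hnum.continuousAt hden.neg.continuousAt
      have hne : -l ≠ 0 := (neg_pos.mpr hlneg).ne'
      exact hne
    have hτ0 : τf ((x, θ), τ + t₁) = τ := by
      simp only [hτf]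
      rw [← hl, div_eq_iff (by linarith)]
      linarith
    -- the point of the first reflection
    set yf : (ℂ × Dir) × ℝ → ℂ := fun z => z.1.1 + (τf z : ℂ) * dirVec z.1.2 with hyf
    have hyc : ContinuousAt yf ((x, θ), τ + t₁) := by
      apply ContinuousAt.add (continuous_fst.comp continuous_fst).continuousAt
      exact (Complex.continuous_ofReal.continuousAt.comp hτc).mul hdv.continuousAt
    have hy0 : yf ((x, θ), τ + t₁) = x + (τ : ℂ) * dirVec θ := by
      simp only [hyf]; rw [hτ0]
    set Φ : (ℂ × Dir) × ℝ → (ℂ × Dir) × ℝ :=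
      fun z => ((yf z, T.reflect i z.1.2), z.2 - τf z) with hΦ
    have hΦc : ContinuousAt Φ ((x, θ), τ + t₁) := by
      apply ContinuousAt.prodMk
      · apply ContinuousAt.prodMk hyc
        exact ((T.continuous_reflect i).comp (continuous_snd.comp continuous_fst)).continuousAt
      · exact continuous_snd.continuousAt.sub hτc
    have hΦ0 : Φ ((x, θ), τ + t₁) = ((x + (τ : ℂ) * dirVec θ, T.reflect i θ), t₁) := by
      simp only [hΦ]
      rw [hy0, hτ0]
      simp
    have e1 : ∀ᶠ z in 𝓝 ((x, θ), τ + t₁), 0 < τf z := by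
      have h0 : 0 < τf ((x, θ), τ + t₁) := by rw [hτ0]; exact hτ
      exact hτc.eventually (lt_mem_nhds h0)
    have e2 : ∀ᶠ z : (ℂ × Dir) × ℝ in 𝓝 ((x, θ), τ + t₁), 0 < T.bc i z.1.1 :=
      hnum.continuousAt.eventually (lt_mem_nhds hbx)
    have e3 : ∀ᶠ z : (ℂ × Dir) × ℝ in 𝓝 ((x, θ), τ + t₁),
        (T.bc i).linear (dirVec z.1.2) < 0 :=
      hden.continuousAt.eventually (gt_mem_nhds (by simpa [hl] using hlneg))
    have e4 : ∀ᶠ z in 𝓝 ((x, θ), τ + t₁), 0 < T.bc (i + 1) (yf z) := by
      have hc : ContinuousAt (fun z => T.bc (i + 1) (yf z)) ((x, θ), τ + t₁) :=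
        (T.bc_continuous (i + 1)).continuousAt.comp hyc
      have h0 : 0 < T.bc (i + 1) (yf ((x, θ), τ + t₁)) := by rw [hy0]; exact hb1
      exact hc.eventually (lt_mem_nhds h0)
    have e5 : ∀ᶠ z in 𝓝 ((x, θ), τ + t₁), 0 < T.bc (i + 2) (yf z) := by
      have hc : ContinuousAt (fun z => T.bc (i + 2) (yf z)) ((x, θ), τ + t₁) :=
        (T.bc_continuous (i + 2)).continuousAt.comp hyc
      have h0 : 0 < T.bc (i + 2) (yf ((x, θ), τ + t₁)) := by rw [hy0]; exact hb2
      exact hc.eventually (lt_mem_nhds h0)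
    have e6 : ∀ᶠ z : (ℂ × Dir) × ℝ in 𝓝 ((x, θ), τ + t₁), 0 < z.2 - τf z := by
      have hc : ContinuousAt (fun z : (ℂ × Dir) × ℝ => z.2 - τf z) ((x, θ), τ + t₁) :=
        continuous_snd.continuousAt.sub hτc
      have h0 : 0 < τ + t₁ - τf ((x, θ), τ + t₁) := by rw [hτ0]; simpa using ht₁
      exact hc.eventually (lt_mem_nhds h0)
    have e7 := hΦc.eventually (by rw [hΦ0]; exact hev)
    refine ⟨fun z => g₁ (T.sideMirror i z), fun θ => γ₁ (T.reflect i θ),
      ⟨fun z θ t => by rw [T.sideMirror_ray, hU.ray]⟩, hγ.comp (T.continuous_reflect i), ?_, ?_⟩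
    · rw [hqeq]
      congr 2
      have e : x + ((τ + t₁ : ℝ) : ℂ) * dirVec θ
          = x + (τ : ℂ) * dirVec θ + (t₁ : ℂ) * dirVec θ := by push_cast; ring
      rw [e, T.sideMirror_ray, T.sideMirror_fix hhit]
    · filter_upwards [e1, e2, e3, e4, e5, e6, e7] with z h1 h2 h3 h4 h5 h6 h7 hadm ht'
      obtain ⟨⟨x', θ'⟩, t'⟩ := z
      simp only [hΦ] at h7
      simp only at h1 h2 h3 h4 h5 h6 hadm ht' ⊢
      set τ' := τf ((x', θ'), t') with hτ'
      set y' := yf ((x', θ'), t') with hy'
      have hy'eq : y' = x' + (τ' : ℂ) * dirVec θ' := rfl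
      have hbi : T.bc i y' = 0 := by
        rw [hy'eq, T.bc_add_smul]
        have : τ' = T.bc i x' / (-(T.bc i).linear (dirVec θ')) := rfl
        have hL : (T.bc i).linear (dirVec θ') ≠ 0 := h3.ne
        rw [this]
        field_simp
        ring
      have hy'side : y' ∈ T.side i := T.mem_side_of_bc hbi h4 h5
      have hadm' : T.Adm (x + (τ : ℂ) * dirVec θ) y' := by
        refine ⟨fun h => absurd h (T.side_disjoint_table hhit), ?_⟩
        intro j hj
        rw [T.side_index_unique hj hhit]
        exact hy'side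
      obtain ⟨hR, hmem⟩ := h7 hadm' h6.le
      have hfree' : ∀ s : ℝ, 0 < s → s < τ' → x' + (s : ℂ) * dirVec θ' ∈ T.table := by
        intro s hs hsτ
        apply T.free_of_bc (T.bc_nonneg_of_adm hp hadm) _ _ hs hsτ
        · intro k
          rw [← hy'eq]
          exact T.bc_nonneg_of_mem_side hy'side k
        · intro k
          rcases fin3_cases i k with rfl | rfl | rfl
          · exact Or.inl h2
          · right; rw [← hy'eq]; exact h4
          · right; rw [← hy'eq]; exact h5
      have hB := Reach.bounce x' θ' τ' (t' - τ') i _ h1 hfree' hy'side hR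
      have e : τ' + (t' - τ') = t' := by ring
      rw [e] at hB
      have hend : T.sideMirror i (x' + (t' : ℂ) * dirVec θ')
          = y' + ((t' - τ' : ℝ) : ℂ) * dirVec (T.reflect i θ') := by
        have e2 : x' + (t' : ℂ) * dirVec θ' = y' + ((t' - τ' : ℝ) : ℂ) * dirVec θ' := by
          rw [hy'eq]; push_cast; ring
        rw [e2, T.sideMirror_ray, T.sideMirror_fix hy'side]
      rw [hend]
      exact ⟨hB, hmem⟩

/-- Stability of a piece of trajectory between two points of the open table: the nearby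
phase points have, for the same time, the same unfolding. -/
theorem reach_stable {t : ℝ} {p q : ℂ × Dir} (h : T.Reach t p q) (hp : p.1 ∈ T.table)
    (hq : q.1 ∈ T.table) :
    ∃ (g : ℂ → ℂ) (γ : Dir → Dir), Unf g γ ∧ Continuous γ ∧
      q = (g (p.1 + (t : ℂ) * dirVec p.2), γ p.2) ∧
      ∀ᶠ p' : ℂ × Dir in 𝓝 p, p'.1 ∈ T.table ∧
        T.Reach t p' (g (p'.1 + (t : ℂ) * dirVec p'.2), γ p'.2) ∧
        g (p'.1 + (t : ℂ) * dirVec p'.2) ∈ T.table := by
  obtain ⟨g, γ, hU, hγ, hqeq, hev⟩ := T.reach_stable_aux h (Or.inl hp) hq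
  refine ⟨g, γ, hU, hγ, hqeq, ?_⟩
  have hι : Continuous (fun p' : ℂ × Dir => (p', t)) := continuous_id.prodMk continuous_const
  have h1 := hι.continuousAt.eventually hev
  have h2 : ∀ᶠ p' : ℂ × Dir in 𝓝 p, p'.1 ∈ T.table :=
    continuous_fst.continuousAt.eventually (T.isOpen_table.mem_nhds hp)
  filter_upwards [h1, h2] with p' h1' h2'
  have hadm : T.Adm p.1 p'.1 :=
    ⟨fun _ => h2', fun i hi => absurd hp (T.side_disjoint_table hi)⟩
  exact ⟨h2', h1' hadm (T.reach_nonneg h)⟩

lemma leb_eq : T.leb = ((volume : Measure ℂ).prod (volume : Measure Dir)).restrict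
    (T.table ×ˢ (univ : Set Dir)) := by
  unfold leb
  rw [← Measure.prod_restrict, Measure.restrict_univ]

/-- A relation `F ∘ Φ_t = exp (i lam t) F` which holds almost everywhere, for a function
continuous on the phase space, holds along every piece of trajectory joining two points
of the open table. -/
theorem reach_eq_of_ae {Fn : ℂ × Dir → ℂ} (hFc : ContinuousOn Fn (T.table ×ˢ univ)) (lam : ℝ)
    (hae : ∀ t : ℝ, (fun p => Fn (T.flow t p)) =ᵐ[T.mu]
      fun p => Complex.exp (lam * t * Complex.I) * Fn p)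
    {t : ℝ} {p q : ℂ × Dir} (hR : T.Reach t p q) (hp : p.1 ∈ T.table) (hq : q.1 ∈ T.table) :
    Fn q = Complex.exp (lam * t * Complex.I) * Fn p := by
  obtain ⟨g, γ, hU, hγ, hqeq, hev⟩ := T.reach_stable hR hp hq
  obtain ⟨U, hUsub, hUopen, hpU⟩ := eventually_nhds_iff.mp hev
  set Ψ : ℂ × Dir → ℂ × Dir := fun p' => (g (p'.1 + (t : ℂ) * dirVec p'.2), γ p'.2) with hΨ
  have hΨc : Continuous Ψ := by
    apply Continuous.prodMk
    · exact hU.continuous.comp
        (continuous_fst.add (continuous_const.mul (continuous_dirVec.comp continuous_snd)))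
    · exact hγ.comp continuous_snd
  have hUtab : U ⊆ T.table ×ˢ (univ : Set Dir) := fun p' hp' => ⟨(hUsub p' hp').1, mem_univ _⟩
  have hc₁ : ContinuousOn (fun p' => Fn (Ψ p')) U :=
    hFc.comp hΨc.continuousOn (fun p' hp' => ⟨(hUsub p' hp').2.2, mem_univ _⟩)
  have hc₂ : ContinuousOn (fun p' => Complex.exp (lam * t * Complex.I) * Fn p') U :=
    continuousOn_const.mul (hFc.mono hUtab)
  have hae' : (fun p' => Fn (Ψ p'))
      =ᵐ[((volume : Measure ℂ).prod (volume : Measure Dir)).restrict U]
      (fun p' => Complex.exp (lam * t * Complex.I) * Fn p') := by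
    have h := hae t
    rw [Filter.EventuallyEq, T.ae_mu, T.leb_eq] at h
    have h3 := ae_restrict_of_ae_restrict_of_subset hUtab h
    filter_upwards [h3, ae_restrict_mem hUopen.measurableSet] with p' hp' hp'U
    rw [← hp']
    congr 1
    exact (T.flow_eq_of_reach (hUsub p' hp'U).2.1 (hUsub p' hp'U).2.2).symm
  have heq := Measure.eqOn_open_of_ae_eq hae' hUopen hc₁ hc₂
  have := heq hpU
  simp only [hΨ] at this
  rw [hqeq]
  exact this

end Triangle

end Vale.Agent.Lib.P099
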