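import Vale.Agent.Lib.P099.Singular
import Vale.Agent.Lib.P099.Stable
import Vale.Agent.Lib.P099.Reverse
import Vale.Agent.Lib.P099.Core

/-!
# Billiards in a triangle: rotation of the directions and transversal translations

Definitions used in the study of invariant functions of bounded variation in the direction:
the rotation `rotD δ` of all directions by the angle `δ`, the unit normal `nrm θ` to the
direction `θ`, the transversal translation `trv h`, the shear `shr t δ` and the set
`T.Dom t` of the phase points whose trajectory is defined up to the time `t`.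
-/

namespace Vale.Agent.Lib.P099

open MeasureTheory

/-- Rotation of the direction by the angle `δ`. -/
noncomputable def rotD (δ : ℝ) (p : ℂ × Dir) : ℂ × Dir := (p.1, p.2 + (δ : Dir))

/-- The unit normal to the direction `θ`. -/
noncomputable def nrm (θ : Dir) : ℂ := Complex.I * dirVec θ

/-- Translation of the position by `h` in the direction normal to the direction of the
phase point. -/
noncomputable def trv (h : ℝ) (p : ℂ × Dir) : ℂ × Dir := (p.1 + (h : ℂ) * nrm p.2, p.2)

/-- The shear: the point from which the straight line of direction `p.2` meets, at time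
`t`, the straight line issued from `p.1` in the direction `p.2 + δ` at its time `t`. -/
noncomputable def shr (t δ : ℝ) (p : ℂ × Dir) : ℂ × Dir :=
  (p.1 + (t : ℂ) * (dirVec (p.2 + (δ : Dir)) - dirVec p.2), p.2)

namespace Triangle

/-- The phase points of the table whose trajectory is defined up to the time `t` and is
in the open table at the time `t`. -/
def Dom (T : Triangle) (t : ℝ) : Set (ℂ × Dir) :=
  {p | p.1 ∈ T.table ∧ ∃ q : ℂ × Dir, T.Reach t p q ∧ q.1 ∈ T.table}

/-- The phase point `p` is certified for the time `t` and the angle `δ`: the trajectories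
issued from `rotD δ p` and from `shr t δ p` have, up to the time `t`, the same unfolding;
hence they are at the time `t` at the same point, with directions which differ by the
rotation of angle `δ` or `-δ`. -/
def Cert (T : Triangle) (t δ : ℝ) (p : ℂ × Dir) : Prop :=
  ∃ (g : ℂ → ℂ) (γ : Dir → Dir), Unf g γ ∧ p.1 ∈ T.table ∧ (shr t δ p).1 ∈ T.table ∧
    g (p.1 + (t : ℂ) * dirVec (p.2 + (δ : Dir))) ∈ T.table ∧
    T.Reach t (rotD δ p) (g (p.1 + (t : ℂ) * dirVec (p.2 + (δ : Dir))), γ (p.2 + (δ : Dir))) ∧
    T.Reach t (shr t δ p) (g (p.1 + (t : ℂ) * dirVec (p.2 + (δ : Dir))), γ p.2)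

end Triangle

end Vale.Agent.Lib.P099
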