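import Vale.Agent.Lib.P099.BVDefs
import Vale.Agent.Lib.P099.BVChart
import Vale.Agent.Lib.P099.Quasi

/-!
# Billiards in a triangle: the flow does not increase integrals

On the set of the phase points whose trajectory is defined up to the time `t`, the time
`t` map of the billiard flow is injective and preserves the Lebesgue measure.
-/

namespace Vale.Agent.Lib.P099

open MeasureTheory

/-- The map of directions induced by a composition of reflections in the sides (the head of
the list is applied first). -/
private noncomputable def dirL (T : Triangle) : List (Fin 3) → Dir → Dir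
  | [] => fun θ => θ
  | i :: L => fun θ => dirL T L (T.reflect i θ)

private lemma unf_dirL (T : Triangle) (L : List (Fin 3)) :
    Unf (mirrorList T L) (dirL T L) := by
  induction L with
  | nil => exact Unf.id
  | cons i L ih =>
    refine ⟨fun z θ t => ?_⟩
    show mirrorList T L (T.sideMirror i (z + (t : ℂ) * dirVec θ))
      = mirrorList T L (T.sideMirror i z) + (t : ℂ) * dirVec (dirL T L (T.reflect i θ))
    rw [T.sideMirror_ray, ih.ray]

private lemma unf_uniq {g : ℂ → ℂ} {γ γ' : Dir → Dir} (h : Unf g γ) (h' : Unf g γ') :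
    γ = γ' := by
  funext θ
  have h1 := h.ray 0 θ 1
  have h2 := h'.ray 0 θ 1
  rw [h1] at h2
  apply dirVec_injective
  simpa using h2

/-- A reflection of the plane in a line preserves the Lebesgue measure. -/
private lemma mirror_mp (P : ℂ) {d : ℂ} (hd : d ≠ 0) :
    MeasurePreserving (mirror P d) (volume : Measure ℂ) volume := by
  have hd' : (starRingEnd ℂ) d ≠ 0 := (map_ne_zero _).mpr hd
  have h1 : MeasurePreserving (fun x : ℂ => x - P) volume volume :=
    measurePreserving_sub_right volume P
  have h2 : MeasurePreserving (Complex.conjLIE : ℂ → ℂ) volume volume :=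
    Complex.conjLIE.measurePreserving
  have h3 : MeasurePreserving
      (rotation (Circle.ofConjDivSelf ((starRingEnd ℂ) d) hd') : ℂ → ℂ) volume volume :=
    (rotation _).measurePreserving
  have h4 : MeasurePreserving (fun x : ℂ => P + x) volume volume :=
    measurePreserving_add_left volume P
  have h := h4.comp (h3.comp (h2.comp h1))
  have he : mirror P d = (fun x : ℂ => P + x) ∘
      (rotation (Circle.ofConjDivSelf ((starRingEnd ℂ) d) hd')) ∘ Complex.conjLIE ∘
        (fun x : ℂ => x - P) := by
    funext x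
    simp only [Function.comp_apply, rotation_apply, Complex.conjLIE_apply,
      Circle.ofConjDivSelf_coe, mirror, Complex.conj_conj]
  rw [he]
  exact h

private lemma mirrorList_mp (T : Triangle) (L : List (Fin 3)) :
    MeasurePreserving (mirrorList T L) (volume : Measure ℂ) volume := by
  induction L with
  | nil => exact MeasurePreserving.id volume
  | cons i L ih =>
    have h1 : MeasurePreserving (T.sideMirror i) (volume : Measure ℂ) volume :=
      mirror_mp _ (T.sideVec_ne_zero i)
    exact ih.comp h1

private lemma dirL_mp (T : Triangle) (L : List (Fin 3)) :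
    MeasurePreserving (dirL T L) (volume : Measure Dir) volume := by
  induction L with
  | nil => exact MeasurePreserving.id volume
  | cons i L ih =>
    have h1 : MeasurePreserving (T.reflect i) (volume : Measure Dir) volume :=
      mirrorDir_measurePreserving (T.sideVec i)
    exact ih.comp h1

/-- The free motion for a time `t` preserves the Lebesgue measure of the phase space. -/
private lemma shear_mp (t : ℝ) :
    MeasurePreserving (fun p : ℂ × Dir => (p.1 + (t : ℂ) * dirVec p.2, p.2))
      ((volume : Measure ℂ).prod (volume : Measure Dir))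
      ((volume : Measure ℂ).prod (volume : Measure Dir)) := by
  have hm : Measurable (Function.uncurry fun (θ : Dir) (x : ℂ) => x + (t : ℂ) * dirVec θ) :=
    (continuous_snd.add
      (continuous_const.mul (continuous_dirVec.comp continuous_fst))).measurable
  have hsk : MeasurePreserving (fun p : Dir × ℂ => (id p.1, p.2 + (t : ℂ) * dirVec p.1))
      ((volume : Measure Dir).prod (volume : Measure ℂ))
      ((volume : Measure Dir).prod (volume : Measure ℂ)) :=
    MeasurePreserving.skew_product (MeasurePreserving.id volume) hm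
      (Filter.Eventually.of_forall fun θ => (measurePreserving_add_right volume _).map_eq)
  have hs1 : MeasurePreserving (Prod.swap : ℂ × Dir → Dir × ℂ)
      ((volume : Measure ℂ).prod (volume : Measure Dir))
      ((volume : Measure Dir).prod (volume : Measure ℂ)) := Measure.measurePreserving_swap
  have hs2 : MeasurePreserving (Prod.swap : Dir × ℂ → ℂ × Dir)
      ((volume : Measure Dir).prod (volume : Measure ℂ))
      ((volume : Measure ℂ).prod (volume : Measure Dir)) := Measure.measurePreserving_swap
  exact hs2.comp (hsk.comp hs1)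

/-- The unfolded motion for a time `t`, for the list `L` of sides. -/
private noncomputable def psiL (T : Triangle) (t : ℝ) (L : List (Fin 3)) (p : ℂ × Dir) :
    ℂ × Dir :=
  (mirrorList T L (p.1 + (t : ℂ) * dirVec p.2), dirL T L p.2)

/-- The unfolded motion for a time `t` preserves the Lebesgue measure of the phase space. -/
private lemma psiL_mp (T : Triangle) (t : ℝ) (L : List (Fin 3)) :
    MeasurePreserving (psiL T t L)
      ((volume : Measure ℂ).prod (volume : Measure Dir))
      ((volume : Measure ℂ).prod (volume : Measure Dir)) :=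
  ((mirrorList_mp T L).prod (dirL_mp T L)).comp (shear_mp t)

private lemma psiL_injective (T : Triangle) (t : ℝ) (L : List (Fin 3)) :
    Function.Injective (psiL T t L) := by
  intro p p' h
  unfold psiL at h
  have h1 : mirrorList T L (p.1 + (t : ℂ) * dirVec p.2)
      = mirrorList T L (p'.1 + (t : ℂ) * dirVec p'.2) := congrArg Prod.fst h
  have h2 : dirL T L p.2 = dirL T L p'.2 := congrArg Prod.snd h
  have hU := unf_dirL T L
  have h3 : mirrorList T L (dirVec p.2) = mirrorList T L (dirVec p'.2) := by
    have e1 := hU.dirVec_eq p.2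
    have e2 := hU.dirVec_eq p'.2
    rw [h2] at e1
    rw [e1] at e2
    exact sub_left_injective e2
  have h4 : p.2 = p'.2 := dirVec_injective (T.mirrorList_injective L h3)
  have h5 := T.mirrorList_injective L h1
  rw [h4] at h5
  exact Prod.ext (add_right_cancel h5) h4

private lemma psiL_emb (T : Triangle) (t : ℝ) (L : List (Fin 3)) :
    MeasurableEmbedding (psiL T t L) :=
  (psiL_mp T t L).measurable.measurableEmbedding (psiL_injective T t L)

namespace Triangle

private lemma dom_flow (T : Triangle) {t : ℝ} {p : ℂ × Dir} (hp : p ∈ T.Dom t) :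
    T.Reach t p (T.flow t p) ∧ (T.flow t p).1 ∈ T.table := by
  obtain ⟨-, q, hR, hq⟩ := hp
  rw [T.flow_eq_of_reach hR hq]
  exact ⟨hR, hq⟩

private lemma flow_injOn (T : Triangle) (t : ℝ) : Set.InjOn (T.flow t) (T.Dom t) := by
  intro p hp p' hp' h
  have h1 := dom_flow T hp
  have h2 := dom_flow T hp'
  have r1 := Triangle.reach_reverse h1.1 hp.1 h1.2
  have r2 := Triangle.reach_reverse h2.1 hp'.1 h2.2
  rw [← h] at r2
  have h3 := T.reach_unique r1 r2
  unfold Triangle.reverse at h3
  have h4 := Prod.mk.inj h3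
  exact Prod.ext h4.1 (add_right_cancel h4.2)

private lemma dom_flow_psi (T : Triangle) {t : ℝ} {p : ℂ × Dir} (hp : p ∈ T.Dom t) :
    ∃ L : List (Fin 3), T.flow t p = psiL T t L p := by
  obtain ⟨-, q, hR, hq⟩ := hp
  obtain ⟨L, γ, hU, h1, h2⟩ := Triangle.reach_mirrorList hR
  refine ⟨L, ?_⟩
  have hγ : γ = dirL T L := unf_uniq hU (unf_dirL T L)
  rw [hγ] at h2
  rw [T.flow_eq_of_reach hR hq]
  exact Prod.ext h1 h2

private lemma dom_open (T : Triangle) {t : ℝ} (ht : 0 < t) : IsOpen (T.Dom t) := by
  rw [Metric.isOpen_iff]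
  intro p hp
  obtain ⟨g, γ, ε, -, -, hε, h⟩ := T.exists_chart ht hp
  refine ⟨ε, hε, fun p' hp' => ?_⟩
  have h' := h p' t (Metric.mem_ball.mp hp') (by simpa using hε)
  exact ⟨h'.1, _, h'.2.1, h'.2.2⟩

private lemma flow_continuousOn (T : Triangle) {t : ℝ} (ht : 0 < t) :
    ContinuousOn (T.flow t) (T.Dom t) := by
  intro p hp
  obtain ⟨g, γ, ε, hU, hγ, hε, h⟩ := T.exists_chart ht hp
  have hc : Continuous (fun p' : ℂ × Dir => (g (p'.1 + (t : ℂ) * dirVec p'.2), γ p'.2)) := by
    apply Continuous.prodMk
    · exact hU.continuous.comp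
        (continuous_fst.add (continuous_const.mul (continuous_dirVec.comp continuous_snd)))
    · exact hγ.comp continuous_snd
  have hev : (fun p' : ℂ × Dir => (g (p'.1 + (t : ℂ) * dirVec p'.2), γ p'.2))
      =ᶠ[nhds p] T.flow t := by
    filter_upwards [Metric.ball_mem_nhds p hε] with p' hp'
    have h' := h p' t (Metric.mem_ball.mp hp') (by simpa using hε)
    exact (T.flow_eq_of_reach h'.2.1 h'.2.2).symm
  exact (hc.continuousAt.congr hev).continuousWithinAt

open Classical in
private lemma meas_piece (T : Triangle) {t : ℝ} (ht : 0 < t) (L : List (Fin 3))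
    {A : Set (ℂ × Dir)} (hA : MeasurableSet A) (hAD : A ⊆ T.Dom t) :
    MeasurableSet {p | p ∈ A ∧ T.flow t p = psiL T t L p} := by
  have hF : Measurable ((T.Dom t).piecewise (T.flow t) (fun p => p)) :=
    (flow_continuousOn T ht).measurable_piecewise continuousOn_id
      (dom_open T ht).measurableSet
  have hm := measurableSet_eq_fun hF (psiL_mp T t L).measurable
  have he : {p | p ∈ A ∧ T.flow t p = psiL T t L p}
      = A ∩ {p | (T.Dom t).piecewise (T.flow t) (fun p => p) p = psiL T t L p} := by
    ext p
    constructor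
    · rintro ⟨hpA, hp⟩
      refine ⟨hpA, ?_⟩
      show (T.Dom t).piecewise (T.flow t) (fun p => p) p = psiL T t L p
      rw [Set.piecewise_eq_of_mem _ _ _ (hAD hpA)]
      exact hp
    · rintro ⟨hpA, hp⟩
      refine ⟨hpA, ?_⟩
      have hp' : (T.Dom t).piecewise (T.flow t) (fun p => p) p = psiL T t L p := hp
      rw [Set.piecewise_eq_of_mem _ _ _ (hAD hpA)] at hp'
      exact hp'
  rw [he]
  exact hA.inter hm

private lemma lintegral_flow_le_pos (T : Triangle) {t : ℝ} (ht : 0 < t) (A : Set (ℂ × Dir))
    (hA : MeasurableSet A) (hAD : A ⊆ T.Dom t) (f : ℂ × Dir → ENNReal) :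
    ∫⁻ p in A, f (T.flow t p) ∂T.leb ≤ ∫⁻ p, f p ∂T.leb := by
  obtain ⟨e, he⟩ := exists_surjective_nat (List (Fin 3))
  set S : ℕ → Set (ℂ × Dir) := fun n => {p | p ∈ A ∧ T.flow t p = psiL T t (e n) p} with hS
  have hSm : ∀ n, MeasurableSet (S n) := fun n => meas_piece T ht (e n) hA hAD
  have hSA : ∀ n, S n ⊆ A := fun n p hp => hp.1
  have hSU : ⋃ n, S n = A := by
    apply Set.Subset.antisymm
    · exact Set.iUnion_subset hSA
    · intro p hp
      obtain ⟨L, hL⟩ := dom_flow_psi T (hAD hp)
      obtain ⟨n, rfl⟩ := he L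
      exact Set.mem_iUnion.mpr ⟨n, hp, hL⟩
  set D : ℕ → Set (ℂ × Dir) := disjointed S with hD
  have hDm : ∀ n, MeasurableSet (D n) := fun n => MeasurableSet.disjointed hSm n
  have hDS : ∀ n, D n ⊆ S n := fun n => disjointed_subset S n
  have hDd : Pairwise (Function.onFun Disjoint D) := disjoint_disjointed S
  have hDU : ⋃ n, D n = A := by rw [hD, iUnion_disjointed, hSU]
  set μ : Measure (ℂ × Dir) := (volume : Measure ℂ).prod (volume : Measure Dir) with hμ
  have hAt : A ⊆ T.table ×ˢ (Set.univ : Set Dir) := fun p hp => ⟨(hAD hp).1, Set.mem_univ _⟩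
  have himg : ∀ n, psiL T t (e n) '' D n ⊆ T.table ×ˢ (Set.univ : Set Dir) := by
    rintro n q ⟨p, hp, rfl⟩
    have hpS := hDS n hp
    rw [← hpS.2]
    exact ⟨(dom_flow T (hAD hpS.1)).2, Set.mem_univ _⟩
  have himgm : ∀ n, MeasurableSet (psiL T t (e n) '' D n) := fun n =>
    (psiL_emb T t (e n)).measurableSet_image' (hDm n)
  have himgd : Pairwise (Function.onFun Disjoint fun n => psiL T t (e n) '' D n) := by
    intro n m hnm
    rw [Function.onFun, Set.disjoint_left]
    rintro q ⟨p, hp, rfl⟩ ⟨p', hp', hpp'⟩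
    have hpS := hDS n hp
    have hpS' := hDS m hp'
    have hfl : T.flow t p' = T.flow t p := by rw [hpS.2, hpS'.2, hpp']
    have hpp : p' = p := flow_injOn T t (hAD hpS'.1) (hAD hpS.1) hfl
    rw [hpp] at hp'
    exact Set.disjoint_left.mp (hDd hnm) hp hp'
  have step : ∀ n, ∫⁻ p in D n, f (T.flow t p) ∂μ = ∫⁻ q in psiL T t (e n) '' D n, f q ∂μ := by
    intro n
    rw [← (psiL_mp T t (e n)).setLIntegral_comp_emb (psiL_emb T t (e n)) f (D n)]
    exact setLIntegral_congr_fun (hDm n) (fun p hp => by rw [(hDS n hp).2])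
  rw [T.leb_eq, Measure.restrict_restrict hA, Set.inter_eq_left.mpr hAt]
  calc ∫⁻ p in A, f (T.flow t p) ∂μ
      = ∫⁻ p in ⋃ n, D n, f (T.flow t p) ∂μ := by rw [hDU]
    _ = ∑' n, ∫⁻ p in D n, f (T.flow t p) ∂μ := lintegral_iUnion hDm hDd _
    _ = ∑' n, ∫⁻ q in psiL T t (e n) '' D n, f q ∂μ := tsum_congr step
    _ = ∫⁻ q in ⋃ n, psiL T t (e n) '' D n, f q ∂μ := (lintegral_iUnion himgm himgd _).symm
    _ ≤ ∫⁻ q in T.table ×ˢ (Set.univ : Set Dir), f q ∂μ :=
        lintegral_mono_set (Set.iUnion_subset himg)

/-- For a measurable set `A` of phase points whose trajectory is defined up to the time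
`t`, and a measurable function `f ≥ 0`, the integral over `A` of `f ∘ Φ_t` is at most the
integral of `f` over the phase space. -/
theorem lintegral_flow_le (T : Triangle) (t : ℝ) (A : Set (ℂ × Dir)) (hA : MeasurableSet A)
    (hAD : A ⊆ T.Dom t) (f : ℂ × Dir → ENNReal) (hf : Measurable f) :
    ∫⁻ p in A, f (T.flow t p) ∂T.leb ≤ ∫⁻ p, f p ∂T.leb := by
  have _h := hf
  rcases lt_trichotomy t 0 with ht | ht | ht
  · have hAe : A = ∅ := by
      apply Set.eq_empty_of_forall_notMem
      intro p hp
      obtain ⟨-, q, hR, -⟩ := hAD hp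
      exact absurd (T.reach_nonneg hR) (not_le.mpr ht)
    rw [hAe, Measure.restrict_empty, lintegral_zero_measure]
    exact zero_le
  · have hfl : ∀ p ∈ A, f (T.flow t p) = f p := by
      intro p hp
      have hp1 : p.1 ∈ T.table := (hAD hp).1
      have h0 : T.Reach 0 (p.1, p.2) (p.1 + ((0 : ℝ) : ℂ) * dirVec p.2, p.2) :=
        Reach.free _ _ 0 le_rfl (fun s hs hs' => absurd hs (not_lt.mpr hs'))
      have e : p.1 + ((0 : ℝ) : ℂ) * dirVec p.2 = p.1 := by simp
      rw [e] at h0
      rw [ht, T.flow_eq_of_reach h0 hp1]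
    calc ∫⁻ p in A, f (T.flow t p) ∂T.leb = ∫⁻ p in A, f p ∂T.leb :=
          setLIntegral_congr_fun hA hfl
      _ ≤ ∫⁻ p, f p ∂T.leb := setLIntegral_le_lintegral _ _
  · exact lintegral_flow_le_pos T ht A hA hAD f

end Triangle

end Vale.Agent.Lib.P099
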