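import Vale.Agent.Lib.P099.BVCert
import Vale.Agent.Lib.P099.BVAverage

/-!
# Billiards in a triangle: the transversal estimate on compact sets, forward version
-/

namespace Vale.Agent.Lib.P099

open MeasureTheory

namespace Triangle

/-- Let `F` be an eigenfunction of the billiard flow whose variation under the rotation
of the directions by `δ` is at most `C |δ|` in mean.  On a compact set `K` of phase points
whose trajectories are defined beyond the time `2 s`, the variation of `F` under the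
transversal translation `trv h` is, for small `h`, at most a constant times `|h| / s`. -/
theorem local_bound_fwd (T : Triangle) (F : ℂ × Dir → ℂ) (hF : Measurable F) (lam C : ℝ)
    (hinv : ∀ t : ℝ, (fun p => F (T.flow t p)) =ᵐ[T.leb]
      fun p => Complex.exp (lam * t * Complex.I) * F p)
    (hBV : ∀ δ : ℝ, ∫⁻ p, ‖F (rotD δ p) - F p‖ₑ ∂T.leb ≤ ENNReal.ofReal (C * |δ|))
    (s : ℝ) (hs : 1 ≤ s) (K : Set (ℂ × Dir)) (hK : IsCompact K)
    (hKW : ∀ p ∈ K, p.1 ∈ T.table ∧ ∃ t : ℝ, 2 * s < t ∧ p ∈ T.Dom t) :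
    ∃ h₀ : ℝ, 0 < h₀ ∧ ∀ h : ℝ, |h| < h₀ →
      ∫⁻ p in K, ‖F (trv h p) - F p‖ₑ ∂T.leb
        ≤ ENNReal.ofReal (|h| / s) * (ENNReal.ofReal (20 * C)
          + ENNReal.ofReal (20 * |lam|) * ∫⁻ p, ‖F p‖ₑ ∂T.leb) := by
  obtain ⟨h₀, 𝒞, hh₀, hh₀1, h𝒞, hsec, hsub, hcert⟩ := T.exists_cert_family s hs K hK hKW
  refine ⟨h₀, hh₀, fun h hh => ?_⟩
  exact T.averaged_bound F hF lam C hinv hBV s hs K hK.measurableSet 𝒞 h𝒞 hsec hsub h
    (by linarith) (hcert h hh)

end Triangle

end Vale.Agent.Lib.P099
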