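import Vale.Agent.Lib.P099.BVSet

/-!
# Billiards in an irrational triangle: invariant sets whose boundary has finite content
-/

namespace Vale.Agent.Lib.P099

open MeasureTheory
open scoped symmDiff

/-- The norm of the class of a real number in the circle of directions is at most its
absolute value. -/
private theorem minkowski_norm_coe_le (u : ℝ) : ‖((u : ℝ) : Dir)‖ ≤ |u| := by
  have h : ‖((u : ℝ) : Dir)‖ ≤ ‖u‖ := QuotientAddGroup.norm_mk_le_norm
  rwa [Real.norm_eq_abs] at h

/-- A point and its rotation by `δ` lying on different sides of `S` are within `|δ|` of the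
topological boundary of `S`. -/
private theorem minkowski_subset (S : Set (ℂ × Dir)) (δ : ℝ) :
    ((fun p : ℂ × Dir => (p.1, p.2 + (δ : Dir))) ⁻¹' S) ∆ S ⊆
      Metric.cthickening |δ| (frontier S) := by
  intro p hp
  obtain ⟨c, hc⟩ : ∃ c : ℝ → ℂ × Dir, c = fun u => (p.1, p.2 + ((u : ℝ) : Dir)) := ⟨_, rfl⟩
  have hcont : Continuous c := by
    rw [hc]
    exact continuous_const.prodMk (continuous_const.add (AddCircle.continuous_mk' _))
  have hconn : IsPreconnected (c '' Set.uIcc 0 δ) :=
    isPreconnected_uIcc.image c hcont.continuousOn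
  have hc0 : c 0 = p := by
    rw [hc]
    simp
  have hcδ : c δ = (p.1, p.2 + (δ : Dir)) := by rw [hc]
  have hex : ∃ u ∈ Set.uIcc 0 δ, c u ∈ frontier S := by
    by_contra hno
    push Not at hno
    have hsub : c '' Set.uIcc 0 δ ⊆ interior S ∪ (closure S)ᶜ := by
      rintro _ ⟨u, hu, rfl⟩
      have h1 := hno u hu
      by_cases h2 : c u ∈ closure S
      · left
        by_contra h3
        exact h1 ⟨h2, h3⟩
      · right
        exact h2
    have hdisj : Disjoint (interior S) ((closure S)ᶜ) := by
      apply Set.disjoint_left.mpr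
      intro x hx hx'
      exact hx' (subset_closure (interior_subset hx))
    rcases hconn.subset_or_subset isOpen_interior isClosed_closure.isOpen_compl hdisj hsub
      with h | h
    · have h0 : c 0 ∈ S := interior_subset (h ⟨0, Set.left_mem_uIcc, rfl⟩)
      have hd : c δ ∈ S := interior_subset (h ⟨δ, Set.right_mem_uIcc, rfl⟩)
      rw [hc0] at h0
      rw [hcδ] at hd
      rcases hp with ⟨_, hp2⟩ | ⟨_, hp2⟩
      · exact hp2 h0
      · exact hp2 hd
    · have h0 : c 0 ∉ S := fun hh => h ⟨0, Set.left_mem_uIcc, rfl⟩ (subset_closure hh)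
      have hd : c δ ∉ S := fun hh => h ⟨δ, Set.right_mem_uIcc, rfl⟩ (subset_closure hh)
      rw [hc0] at h0
      rw [hcδ] at hd
      rcases hp with ⟨hp1, _⟩ | ⟨hp1, _⟩
      · exact hd hp1
      · exact h0 hp1
  obtain ⟨u, hu, hfr⟩ := hex
  apply Metric.mem_cthickening_of_dist_le p (c u) |δ| (frontier S) hfr
  have h1 : dist p (c u) = ‖((u : ℝ) : Dir)‖ := by
    rw [hc, Prod.dist_eq]
    simp [dist_eq_norm]
  have h3 : |u| ≤ |δ| := by
    rcases Set.mem_uIcc.mp hu with ⟨h4, h5⟩ | ⟨h4, h5⟩
    · rw [abs_of_nonneg h4, abs_of_nonneg (h4.trans h5)]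
      exact h5
    · rw [abs_of_nonpos h5, abs_of_nonpos (h4.trans h5)]
      linarith
  rw [h1]
  exact (minkowski_norm_coe_le u).trans h3

/-- In an irrational triangle, an invariant measurable set `S` of the phase space such
that the measure of the closed `δ`-neighbourhood of the topological boundary of `S` is at
most `C δ` for every `δ > 0` (finite upper Minkowski content of the boundary) has measure
`0` or `1`. -/
theorem Triangle.minkowski_set_trivial (T : Triangle) (hT : T.IsIrrational)
    (S : Set (ℂ × Dir)) (hS : MeasurableSet S) (C : ℝ)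
    (hM : ∀ δ : ℝ, 0 < δ → T.mu (Metric.cthickening δ (frontier S)) ≤ ENNReal.ofReal (C * δ))
    (hinv : ∀ t : ℝ, T.mu ((T.flow t ⁻¹' S) ∆ S) = 0) :
    T.mu S = 0 ∨ T.mu S = 1 := by
  refine T.bv_set hT S hS C ?_ hinv
  intro δ
  by_cases hδ : δ = 0
  · subst hδ
    have h1 : (fun p : ℂ × Dir => (p.1, p.2 + (((0 : ℝ) : ℝ) : Dir))) = id := by
      funext p
      simp
    rw [h1]
    simp
  · have hpos : 0 < |δ| := abs_pos.mpr hδ
    exact le_trans (measure_mono (minkowski_subset S δ)) (hM |δ| hpos)

end Vale.Agent.Lib.P099
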