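import Vale.Agent.Lib.P099.BV
import Vale.Agent.Lib.P099.Sets

/-!
# Billiards in an irrational triangle: invariant sets of finite angular perimeter
-/

namespace Vale.Agent.Lib.P099

open MeasureTheory
open scoped symmDiff

/-- In an irrational triangle, an invariant measurable set `S` of the phase space such
that the measure of the symmetric difference of `S` and of its image under the rotation of
all directions by `δ` is at most `C |δ|` has measure `0` or `1`. -/
theorem Triangle.bv_set (T : Triangle) (hT : T.IsIrrational) (S : Set (ℂ × Dir))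
    (hS : MeasurableSet S) (C : ℝ)
    (hBV : ∀ δ : ℝ, T.mu (((fun p : ℂ × Dir => (p.1, p.2 + (δ : Dir))) ⁻¹' S) ∆ S)
      ≤ ENNReal.ofReal (C * |δ|))
    (hinv : ∀ t : ℝ, T.mu ((T.flow t ⁻¹' S) ∆ S) = 0) :
    T.mu S = 0 ∨ T.mu S = 1 := by
  classical
  set F : ℂ × Dir → ℂ := S.indicator (fun _ => (1 : ℂ)) with hF
  have hFm : Measurable F := measurable_const.indicator hS
  have hprob : IsProbabilityMeasure T.mu := ⟨T.mu_univ⟩
  have hFi : Integrable F T.mu := (integrable_const (1 : ℂ)).indicator hS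
  have hBV' : ∀ δ : ℝ, ∫⁻ p, ‖F (p.1, p.2 + (δ : Dir)) - F p‖ₑ ∂T.mu
      ≤ ENNReal.ofReal (C * |δ|) := by
    intro δ
    have hr : Measurable (fun p : ℂ × Dir => (p.1, p.2 + (δ : Dir))) :=
      measurable_fst.prodMk (measurable_snd.add_const _)
    have hms : MeasurableSet (((fun p : ℂ × Dir => (p.1, p.2 + (δ : Dir))) ⁻¹' S) ∆ S) :=
      (hr hS).symmDiff hS
    have heq : (fun p : ℂ × Dir => ‖F (p.1, p.2 + (δ : Dir)) - F p‖ₑ)
        = (((fun p : ℂ × Dir => (p.1, p.2 + (δ : Dir))) ⁻¹' S) ∆ S).indicator 1 := by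
      funext p
      by_cases h1 : (p.1, p.2 + (δ : Dir)) ∈ S <;> by_cases h2 : p ∈ S <;>
        simp [hF, Set.indicator, Set.mem_symmDiff, h1, h2]
    rw [heq, lintegral_indicator_one hms]
    exact hBV δ
  have hFinv : ∀ t : ℝ, (fun p => F (T.flow t p)) =ᵐ[T.mu]
      fun p => Complex.exp ((0 : ℝ) * t * Complex.I) * F p := by
    intro t
    have h1 : ∀ᵐ p ∂T.mu, p ∉ (T.flow t ⁻¹' S) ∆ S :=
      measure_eq_zero_iff_ae_notMem.mp (hinv t)
    filter_upwards [h1] with p hp
    have hiff : T.flow t p ∈ S ↔ p ∈ S := by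
      constructor
      · intro h
        by_contra hn
        exact hp (Or.inl ⟨h, hn⟩)
      · intro h
        by_contra hn
        exact hp (Or.inr ⟨h, hn⟩)
    simp only [Complex.ofReal_zero, zero_mul, Complex.exp_zero, one_mul, hF]
    by_cases h : p ∈ S
    · rw [Set.indicator_of_mem h, Set.indicator_of_mem (hiff.mpr h)]
    · rw [Set.indicator_of_notMem h, Set.indicator_of_notMem (fun hc => h (hiff.mp hc))]
  obtain ⟨c, hc, -⟩ := T.bv_eigen hT F hFm hFi 0 C hBV' hFinv
  by_cases h1 : c = 1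
  · right
    have hmem : ∀ᵐ p ∂T.mu, p ∈ S := by
      filter_upwards [hc] with p hp
      by_contra hn
      simp only [hF, Set.indicator_of_notMem hn, h1] at hp
      exact zero_ne_one hp
    have heq : S =ᵐ[T.mu] Set.univ := Filter.eventuallyEq_univ.mpr hmem
    rw [measure_congr heq, T.mu_univ]
  · left
    rw [measure_eq_zero_iff_ae_notMem]
    filter_upwards [hc] with p hp hmem
    simp only [hF, Set.indicator_of_mem hmem] at hp
    exact h1 hp.symm

end Vale.Agent.Lib.P099
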