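import Vale.Agent.Lib.P099.BVDefs

/-!
# Unfolding maps act on the directions by a rotation or by a reflection
-/

namespace Vale.Agent.Lib.P099

/-- An unfolding preserves the real inner product of the direction vectors. -/
private lemma bvunf_inner {g : ℂ → ℂ} {γ : Dir → Dir} (h : Unf g γ) (θ θ' : Dir) :
    (dirVec (γ θ)).re * (dirVec (γ θ')).re + (dirVec (γ θ)).im * (dirVec (γ θ')).im
      = (dirVec θ).re * (dirVec θ').re + (dirVec θ).im * (dirVec θ').im := by
  have h1 : ‖dirVec (γ θ) - dirVec (γ θ')‖ = ‖dirVec θ - dirVec θ'‖ := by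
    rw [h.dirVec_eq θ, h.dirVec_eq θ']
    have e : g (dirVec θ) - g 0 - (g (dirVec θ') - g 0) = g (dirVec θ) - g (dirVec θ') := by
      ring
    rw [e]
    exact h.norm_sub _ _
  have sq : ∀ z : ℂ, ‖z‖ ^ 2 = z.re ^ 2 + z.im ^ 2 := by
    intro z
    rw [Complex.sq_norm, Complex.normSq_apply]
    ring
  have h1' : ‖dirVec (γ θ) - dirVec (γ θ')‖ ^ 2 = ‖dirVec θ - dirVec θ'‖ ^ 2 := by rw [h1]
  rw [sq, sq, Complex.sub_re, Complex.sub_im, Complex.sub_re, Complex.sub_im] at h1'
  have m1 := sq (dirVec (γ θ))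
  have m2 := sq (dirVec (γ θ'))
  have m3 := sq (dirVec θ)
  have m4 := sq (dirVec θ')
  rw [norm_dirVec] at m1 m2 m3 m4
  linarith

private lemma bvunf_dirVec_zero : dirVec (0 : Dir) = 1 := by
  have h := dirVec_coe 0
  have e : ((0 : ℝ) : Dir) = 0 := rfl
  rw [e] at h
  rw [h]
  simp

private lemma bvunf_dirVec_half_pi : dirVec (((Real.pi / 2 : ℝ)) : Dir) = Complex.I := by
  rw [dirVec_coe, Complex.exp_mul_I, ← Complex.ofReal_cos, ← Complex.ofReal_sin,
    Real.cos_pi_div_two, Real.sin_pi_div_two]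
  simp

private lemma bvunf_norm (θ : Dir) : (dirVec θ).re ^ 2 + (dirVec θ).im ^ 2 = 1 := by
  have h := norm_dirVec θ
  have h2 : ‖dirVec θ‖ ^ 2 = (dirVec θ).re ^ 2 + (dirVec θ).im ^ 2 := by
    rw [Complex.sq_norm, Complex.normSq_apply]
    ring
  rw [h] at h2
  linarith

/-- The map of directions of an unfolding commutes with the rotations of the directions,
or conjugates every rotation into the opposite rotation. -/
theorem Unf.add_or_sub {g : ℂ → ℂ} {γ : Dir → Dir} (h : Unf g γ) :
    (∀ θ δ : Dir, γ (θ + δ) = γ θ + δ) ∨ (∀ θ δ : Dir, γ (θ + δ) = γ θ - δ) := by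
  obtain ⟨a, ha⟩ : ∃ a : ℂ, a = dirVec (γ 0) := ⟨_, rfl⟩
  obtain ⟨b, hb⟩ : ∃ b : ℂ, b = dirVec (γ ((Real.pi / 2 : ℝ) : Dir)) := ⟨_, rfl⟩
  have hab : a.re * b.re + a.im * b.im = 0 := by
    have h1 := bvunf_inner h 0 ((Real.pi / 2 : ℝ) : Dir)
    rw [bvunf_dirVec_zero, bvunf_dirVec_half_pi, ← ha, ← hb] at h1
    simpa using h1
  have hna : a.re ^ 2 + a.im ^ 2 = 1 := by
    rw [ha]
    exact bvunf_norm _
  have hnb : b.re ^ 2 + b.im ^ 2 = 1 := by
    rw [hb]
    exact bvunf_norm _
  have hA : ∀ θ, (dirVec (γ θ)).re * a.re + (dirVec (γ θ)).im * a.im = (dirVec θ).re := by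
    intro θ
    have h1 := bvunf_inner h θ 0
    rw [bvunf_dirVec_zero, ← ha] at h1
    simpa using h1
  have hB : ∀ θ, (dirVec (γ θ)).re * b.re + (dirVec (γ θ)).im * b.im = (dirVec θ).im := by
    intro θ
    have h1 := bvunf_inner h θ ((Real.pi / 2 : ℝ) : Dir)
    rw [bvunf_dirVec_half_pi, ← hb] at h1
    simpa using h1
  have hlam : (a.re * b.im - a.im * b.re - 1) * (a.re * b.im - a.im * b.re + 1) = 0 := by
    have e : (a.re * b.im - a.im * b.re) ^ 2 + (a.re * b.re + a.im * b.im) ^ 2
        = (a.re ^ 2 + a.im ^ 2) * (b.re ^ 2 + b.im ^ 2) := by ring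
    rw [hab, hna, hnb] at e
    linear_combination e
  rcases mul_eq_zero.mp hlam with h1 | h1
  · left
    have hb1 : b.re = - a.im := by
      linear_combination a.re * hab - b.re * hna - a.im * h1
    have hb2 : b.im = a.re := by
      linear_combination a.im * hab - b.im * hna + a.re * h1
    have hu : ∀ θ, dirVec (γ θ) = a * dirVec θ := by
      intro θ
      have hA' := hA θ
      have hB' := hB θ
      rw [hb1, hb2] at hB'
      apply Complex.ext
      · rw [Complex.mul_re]
        linear_combination a.re * hA' - a.im * hB' - (dirVec (γ θ)).re * hna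
      · rw [Complex.mul_im]
        linear_combination a.im * hA' + a.re * hB' - (dirVec (γ θ)).im * hna
    intro θ δ
    apply dirVec_injective
    rw [hu, dirVec_add, dirVec_add, hu θ]
    ring
  · right
    have hb1 : b.re = a.im := by
      linear_combination a.re * hab - b.re * hna - a.im * h1
    have hb2 : b.im = - a.re := by
      linear_combination a.im * hab - b.im * hna + a.re * h1
    have hu : ∀ θ, dirVec (γ θ) = a * (starRingEnd ℂ) (dirVec θ) := by
      intro θ
      have hA' := hA θ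
      have hB' := hB θ
      rw [hb1, hb2] at hB'
      apply Complex.ext
      · rw [Complex.mul_re, Complex.conj_re, Complex.conj_im]
        linear_combination a.re * hA' + a.im * hB' - (dirVec (γ θ)).re * hna
      · rw [Complex.mul_im, Complex.conj_re, Complex.conj_im]
        linear_combination a.im * hA' - a.re * hB' - (dirVec (γ θ)).im * hna
    intro θ δ
    apply dirVec_injective
    rw [sub_eq_add_neg, dirVec_add (γ θ), dirVec_neg, hu (θ + δ), dirVec_add, map_mul, hu θ]
    ring

end Vale.Agent.Lib.P099
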