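import Vale.Agent.Lib.P099.BVDefs
import Vale.Agent.Lib.P099.BVUnf
import Vale.Agent.Lib.P099.BVFlowMP

/-!
# Billiards in a triangle: the shear estimate

For an eigenfunction `F` of the billiard flow whose variation under the rotation of the
directions by `δ` is at most `C |δ|` in mean, the variation of `F` under the shear
`shr t δ` is at most `3 C |δ|` in mean, on every set of certified phase points.
-/

namespace Vale.Agent.Lib.P099

open MeasureTheory

/-- The rotation of the directions preserves the Lebesgue measure of `ℂ × Dir`. -/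
private lemma bvShear_rotD_mp (δ : ℝ) :
    MeasurePreserving (rotD δ) ((volume : Measure ℂ).prod (volume : Measure Dir))
      ((volume : Measure ℂ).prod (volume : Measure Dir)) := by
  have h := (MeasurePreserving.id (volume : Measure ℂ)).prod
    (measurePreserving_add_right (volume : Measure Dir) (δ : Dir))
  exact h

/-- The rotation of the directions preserves the Lebesgue measure of the phase space. -/
private lemma bvShear_rotD_leb (T : Triangle) (δ : ℝ) :
    MeasurePreserving (rotD δ) T.leb T.leb := by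
  rw [T.leb_eq]
  have hm : MeasurableSet (T.table ×ˢ (Set.univ : Set Dir)) :=
    T.isOpen_table.measurableSet.prod MeasurableSet.univ
  have h := (bvShear_rotD_mp δ).restrict_preimage hm
  have hpre : rotD δ ⁻¹' (T.table ×ˢ (Set.univ : Set Dir))
      = T.table ×ˢ (Set.univ : Set Dir) := by
    ext p
    simp [rotD]
  rw [hpre] at h
  exact h

/-- The shear preserves the Lebesgue measure of `ℂ × Dir`. -/
private lemma bvShear_shr_mp (t δ : ℝ) :
    MeasurePreserving (shr t δ) ((volume : Measure ℂ).prod (volume : Measure Dir))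
      ((volume : Measure ℂ).prod (volume : Measure Dir)) := by
  have hm : Measurable (Function.uncurry fun (θ : Dir) (x : ℂ) =>
      x + (t : ℂ) * (dirVec (θ + (δ : Dir)) - dirVec θ)) :=
    (continuous_snd.add (continuous_const.mul
      ((continuous_dirVec.comp (continuous_fst.add continuous_const)).sub
        (continuous_dirVec.comp continuous_fst)))).measurable
  have hsk : MeasurePreserving (fun p : Dir × ℂ =>
      (id p.1, p.2 + (t : ℂ) * (dirVec (p.1 + (δ : Dir)) - dirVec p.1)))
      ((volume : Measure Dir).prod (volume : Measure ℂ))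
      ((volume : Measure Dir).prod (volume : Measure ℂ)) :=
    MeasurePreserving.skew_product (MeasurePreserving.id volume) hm
      (Filter.Eventually.of_forall fun θ => (measurePreserving_add_right volume _).map_eq)
  have hs1 : MeasurePreserving (Prod.swap : ℂ × Dir → Dir × ℂ)
      ((volume : Measure ℂ).prod (volume : Measure Dir))
      ((volume : Measure Dir).prod (volume : Measure ℂ)) := Measure.measurePreserving_swap
  have hs2 : MeasurePreserving (Prod.swap : Dir × ℂ → ℂ × Dir)
      ((volume : Measure Dir).prod (volume : Measure ℂ))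
      ((volume : Measure ℂ).prod (volume : Measure Dir)) := Measure.measurePreserving_swap
  exact hs2.comp (hsk.comp hs1)

/-- The shear as a measurable equivalence. -/
private noncomputable def bvShear_equiv (t δ : ℝ) : (ℂ × Dir) ≃ᵐ (ℂ × Dir) where
  toFun := shr t δ
  invFun := fun p => (p.1 - (t : ℂ) * (dirVec (p.2 + (δ : Dir)) - dirVec p.2), p.2)
  left_inv := by
    intro p
    refine Prod.ext ?_ rfl
    change p.1 + (t : ℂ) * (dirVec (p.2 + (δ : Dir)) - dirVec p.2)
      - (t : ℂ) * (dirVec (p.2 + (δ : Dir)) - dirVec p.2) = p.1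
    ring
  right_inv := by
    intro p
    refine Prod.ext ?_ rfl
    change p.1 - (t : ℂ) * (dirVec (p.2 + (δ : Dir)) - dirVec p.2)
      + (t : ℂ) * (dirVec (p.2 + (δ : Dir)) - dirVec p.2) = p.1
    ring
  measurable_toFun := (bvShear_shr_mp t δ).measurable
  measurable_invFun :=
    ((continuous_fst.sub (continuous_const.mul
      ((continuous_dirVec.comp (continuous_snd.add continuous_const)).sub
        (continuous_dirVec.comp continuous_snd)))).prodMk continuous_snd).measurable

namespace Triangle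

theorem shear_estimate (T : Triangle) (F : ℂ × Dir → ℂ) (hF : Measurable F) (lam C : ℝ)
    (hinv : ∀ t : ℝ, (fun p => F (T.flow t p)) =ᵐ[T.leb]
      fun p => Complex.exp (lam * t * Complex.I) * F p)
    (hBV : ∀ δ : ℝ, ∫⁻ p, ‖F (rotD δ p) - F p‖ₑ ∂T.leb ≤ ENNReal.ofReal (C * |δ|))
    (t δ : ℝ) (A : Set (ℂ × Dir)) (hA : MeasurableSet A) (hcert : ∀ p ∈ A, T.Cert t δ p) :
    ∫⁻ p in A, ‖F (shr t δ p) - F p‖ₑ ∂T.leb ≤ ENNReal.ofReal (3 * C * |δ|) := by
  have hSm : MeasurableSet (T.table ×ˢ (Set.univ : Set Dir)) :=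
    T.isOpen_table.measurableSet.prod MeasurableSet.univ
  have hleb := T.leb_eq
  have he1 : ‖Complex.exp (lam * t * Complex.I)‖ₑ = 1 := by
    have h1 : (lam : ℂ) * t * Complex.I = ((lam * t : ℝ) : ℂ) * Complex.I := by
      push_cast
      ring
    rw [h1, ← ofReal_norm, Complex.norm_exp_ofReal_mul_I, ENNReal.ofReal_one]
  -- the eigenfunction relation at the rotated point and at the sheared point
  have hP : ∀ᵐ q ∂T.leb, F (T.flow t q) = Complex.exp (lam * t * Complex.I) * F q := hinv t
  have hP1 : ∀ᵐ p ∂T.leb, F (T.flow t (rotD δ p))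
      = Complex.exp (lam * t * Complex.I) * F (rotD δ p) :=
    (bvShear_rotD_leb T δ).quasiMeasurePreserving.ae hP
  have hP2 : ∀ᵐ p ∂T.leb, (shr t δ p).1 ∈ T.table → F (T.flow t (shr t δ p))
      = Complex.exp (lam * t * Complex.I) * F (shr t δ p) := by
    have h1 : ∀ᵐ q ∂((volume : Measure ℂ).prod (volume : Measure Dir)),
        q ∈ T.table ×ˢ (Set.univ : Set Dir) →
          F (T.flow t q) = Complex.exp (lam * t * Complex.I) * F q := by
      rw [hleb] at hP
      exact (ae_restrict_iff' hSm).1 hP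
    have h2 : ∀ᵐ p ∂((volume : Measure ℂ).prod (volume : Measure Dir)),
        shr t δ p ∈ T.table ×ˢ (Set.univ : Set Dir) →
          F (T.flow t (shr t δ p)) = Complex.exp (lam * t * Complex.I) * F (shr t δ p) :=
      (bvShear_shr_mp t δ).quasiMeasurePreserving.ae h1
    rw [hleb]
    refine ae_restrict_of_ae ?_
    filter_upwards [h2] with p hp hmem
    exact hp ⟨hmem, Set.mem_univ _⟩
  have hrotm : ∀ δ' : ℝ, Measurable (rotD δ') := fun δ' => (bvShear_rotD_mp δ').measurable
  have ham : ∀ δ' : ℝ, Measurable (fun p => ‖F (rotD δ' p) - F p‖ₑ) :=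
    fun δ' => ((hF.comp (hrotm δ')).sub hF).enorm
  obtain ⟨f, hfdef⟩ : ∃ f : ℂ × Dir → ENNReal,
      f = fun q => ‖F (rotD δ q) - F q‖ₑ + ‖F (rotD (-δ) q) - F q‖ₑ := ⟨_, rfl⟩
  have hfm : Measurable f := by
    rw [hfdef]
    exact (ham δ).add (ham (-δ))
  -- the pointwise estimate
  have hpt : ∀ᵐ p ∂T.leb, p ∈ A → ‖F (shr t δ p) - F p‖ₑ
      ≤ ‖F (rotD δ p) - F p‖ₑ + f (T.flow t (shr t δ p)) := by
    filter_upwards [hP1, hP2] with p h1 h2 hpA
    obtain ⟨g, γ, hU, hp1, hs1, hgz, hR1, hR2⟩ := hcert p hpA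
    have hfl1 := T.flow_eq_of_reach hR1 hgz
    have hfl2 := T.flow_eq_of_reach hR2 hgz
    have h2' := h2 hs1
    have hkey : ‖F (shr t δ p) - F (rotD δ p)‖ₑ ≤ f (T.flow t (shr t δ p)) := by
      have hmul : ‖F (shr t δ p) - F (rotD δ p)‖ₑ
          = ‖F (T.flow t (shr t δ p)) - F (T.flow t (rotD δ p))‖ₑ := by
        rw [h1, h2', ← mul_sub, enorm_mul, he1, one_mul]
      rw [hmul, hfdef]
      rcases hU.add_or_sub with h | h
      · have hrot : T.flow t (rotD δ p) = rotD δ (T.flow t (shr t δ p)) := by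
          rw [hfl1, hfl2]
          unfold rotD
          rw [h]
        rw [hrot, enorm_sub_rev]
        exact le_self_add
      · have hrot : T.flow t (rotD δ p) = rotD (-δ) (T.flow t (shr t δ p)) := by
          rw [hfl1, hfl2]
          unfold rotD
          rw [h, AddCircle.coe_neg, sub_eq_add_neg]
        rw [hrot, enorm_sub_rev]
        exact le_add_self
    calc ‖F (shr t δ p) - F p‖ₑ
        = ‖(F (rotD δ p) - F p) + (F (shr t δ p) - F (rotD δ p))‖ₑ := by
          congr 1
          ring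
      _ ≤ ‖F (rotD δ p) - F p‖ₑ + ‖F (shr t δ p) - F (rotD δ p)‖ₑ := enorm_add_le _ _
      _ ≤ ‖F (rotD δ p) - F p‖ₑ + f (T.flow t (shr t δ p)) := add_le_add le_rfl hkey
  -- the set of the sheared points
  have hAS : A ⊆ T.table ×ˢ (Set.univ : Set Dir) := by
    intro p hp
    obtain ⟨g, γ, hU, hp1, _⟩ := hcert p hp
    exact ⟨hp1, Set.mem_univ _⟩
  have hBm : MeasurableSet (shr t δ '' A) := (bvShear_equiv t δ).measurableSet_image.2 hA
  have hBS : shr t δ '' A ⊆ T.table ×ˢ (Set.univ : Set Dir) := by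
    rintro q ⟨p, hp, rfl⟩
    obtain ⟨g, γ, hU, hp1, hs1, _⟩ := hcert p hp
    exact ⟨hs1, Set.mem_univ _⟩
  have hBD : shr t δ '' A ⊆ T.Dom t := by
    rintro q ⟨p, hp, rfl⟩
    obtain ⟨g, γ, hU, hp1, hs1, hgz, hR1, hR2⟩ := hcert p hp
    exact ⟨hs1, _, hR2, hgz⟩
  have hresA : T.leb.restrict A
      = ((volume : Measure ℂ).prod (volume : Measure Dir)).restrict A := by
    rw [hleb, Measure.restrict_restrict hA, Set.inter_eq_left.2 hAS]
  have hresB : T.leb.restrict (shr t δ '' A)
      = ((volume : Measure ℂ).prod (volume : Measure Dir)).restrict (shr t δ '' A) := by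
    rw [hleb, Measure.restrict_restrict hBm, Set.inter_eq_left.2 hBS]
  have hcv : ∫⁻ p in A, f (T.flow t (shr t δ p)) ∂T.leb
      = ∫⁻ q in shr t δ '' A, f (T.flow t q) ∂T.leb := by
    rw [hresA, hresB]
    exact (bvShear_shr_mp t δ).setLIntegral_comp_emb (bvShear_equiv t δ).measurableEmbedding
      (fun q => f (T.flow t q)) A
  have hsecond : ∫⁻ p in A, f (T.flow t (shr t δ p)) ∂T.leb
      ≤ ENNReal.ofReal (C * |δ|) + ENNReal.ofReal (C * |δ|) := by
    rw [hcv]
    refine (T.lintegral_flow_le t (shr t δ '' A) hBm hBD f hfm).trans ?_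
    have hsplit : ∫⁻ q, f q ∂T.leb = ∫⁻ q, ‖F (rotD δ q) - F q‖ₑ ∂T.leb
        + ∫⁻ q, ‖F (rotD (-δ) q) - F q‖ₑ ∂T.leb := by
      rw [hfdef]
      exact lintegral_add_left (ham δ) _
    rw [hsplit]
    have h3 := hBV (-δ)
    rw [abs_neg] at h3
    exact add_le_add (hBV δ) h3
  calc ∫⁻ p in A, ‖F (shr t δ p) - F p‖ₑ ∂T.leb
      ≤ ∫⁻ p in A, (‖F (rotD δ p) - F p‖ₑ + f (T.flow t (shr t δ p))) ∂T.leb :=
        lintegral_mono_ae ((ae_restrict_iff' hA).2 hpt)
    _ = ∫⁻ p in A, ‖F (rotD δ p) - F p‖ₑ ∂T.leb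
          + ∫⁻ p in A, f (T.flow t (shr t δ p)) ∂T.leb := lintegral_add_left (ham δ) _
    _ ≤ ENNReal.ofReal (C * |δ|) + (ENNReal.ofReal (C * |δ|) + ENNReal.ofReal (C * |δ|)) :=
        add_le_add ((setLIntegral_le_lintegral _ _).trans (hBV δ)) hsecond
    _ = ENNReal.ofReal (3 * C * |δ|) := by
        have h3 : (3 : ℝ) * C * |δ| = 3 * (C * |δ|) := by ring
        rw [h3, ENNReal.ofReal_mul (by norm_num : (0 : ℝ) ≤ 3), ENNReal.ofReal_ofNat]
        ring

end Triangle

end Vale.Agent.Lib.P099
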