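import Vale.Agent.Lib.P099.BVShear

/-!
# Billiards in a triangle: from the shear to the transversal translation
-/

namespace Vale.Agent.Lib.P099

open MeasureTheory

private lemma trvaux_measurable_shr (t δ : ℝ) : Measurable (shr t δ) := by
  have hc : Continuous (fun p : ℂ × Dir =>
      (p.1 + (t : ℂ) * (dirVec (p.2 + (δ : Dir)) - dirVec p.2), p.2)) := by
    refine Continuous.prodMk ?_ continuous_snd
    exact continuous_fst.add (continuous_const.mul
      ((continuous_dirVec.comp (continuous_snd.add continuous_const)).sub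
        (continuous_dirVec.comp continuous_snd)))
  exact hc.measurable

/-- The shear preserves the Lebesgue measure of the phase space. -/
private lemma trvaux_shr_mp (t δ : ℝ) :
    MeasurePreserving (shr t δ) ((volume : Measure ℂ).prod (volume : Measure Dir))
      ((volume : Measure ℂ).prod (volume : Measure Dir)) := by
  have hm : Measurable (Function.uncurry fun (θ : Dir) (x : ℂ) =>
      x + (t : ℂ) * (dirVec (θ + (δ : Dir)) - dirVec θ)) :=
    (continuous_snd.add (continuous_const.mul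
      ((continuous_dirVec.comp (continuous_fst.add continuous_const)).sub
        (continuous_dirVec.comp continuous_fst)))).measurable
  have hsk : MeasurePreserving
      (fun p : Dir × ℂ => (id p.1, p.2 + (t : ℂ) * (dirVec (p.1 + (δ : Dir)) - dirVec p.1)))
      ((volume : Measure Dir).prod (volume : Measure ℂ))
      ((volume : Measure Dir).prod (volume : Measure ℂ)) :=
    MeasurePreserving.skew_product (MeasurePreserving.id volume) hm
      (Filter.Eventually.of_forall fun θ => (measurePreserving_add_right volume _).map_eq)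
  have hs1 : MeasurePreserving (Prod.swap : ℂ × Dir → Dir × ℂ)
      ((volume : Measure ℂ).prod (volume : Measure Dir))
      ((volume : Measure Dir).prod (volume : Measure ℂ)) := Measure.measurePreserving_swap
  have hs2 : MeasurePreserving (Prod.swap : Dir × ℂ → ℂ × Dir)
      ((volume : Measure Dir).prod (volume : Measure ℂ))
      ((volume : Measure ℂ).prod (volume : Measure Dir)) := Measure.measurePreserving_swap
  exact hs2.comp (hsk.comp hs1)

namespace Triangle

/-- A relation which holds almost everywhere holds almost everywhere at the image of the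
shear, where this image is in the table. -/
private lemma trvaux_ae_shr (T : Triangle) (t δ : ℝ) {P : ℂ × Dir → Prop}
    (h : ∀ᵐ q ∂T.leb, P q) :
    ∀ᵐ p ∂T.leb, (shr t δ p).1 ∈ T.table → P (shr t δ p) := by
  have hS : MeasurableSet (T.table ×ˢ (Set.univ : Set Dir)) :=
    T.isOpen_table.measurableSet.prod MeasurableSet.univ
  rw [T.leb_eq, ae_restrict_iff' hS] at h
  have h2 := (trvaux_shr_mp t δ).quasiMeasurePreserving.ae h
  rw [T.leb_eq]
  refine ae_restrict_of_ae ?_
  filter_upwards [h2] with p hp hmem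
  exact hp ⟨hmem, Set.mem_univ _⟩

/-- Change of variables along the shear, as an inequality. -/
private lemma trvaux_lintegral_shr_le (T : Triangle) (t δ : ℝ) (A : Set (ℂ × Dir))
    (hA : MeasurableSet A) (hAs : ∀ p ∈ A, (shr t δ p).1 ∈ T.table)
    (f : ℂ × Dir → ENNReal) (hf : Measurable f) :
    ∫⁻ p in A, f (shr t δ p) ∂T.leb ≤ ∫⁻ q, f q ∂T.leb := by
  have hS : MeasurableSet (T.table ×ˢ (Set.univ : Set Dir)) :=
    T.isOpen_table.measurableSet.prod MeasurableSet.univ
  have h1 : ∫⁻ p in A, f (shr t δ p) ∂T.leb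
      ≤ ∫⁻ p in A, (T.table ×ˢ (Set.univ : Set Dir)).indicator f (shr t δ p) ∂T.leb := by
    refine setLIntegral_mono' hA (fun p hp => ?_)
    have hmem : shr t δ p ∈ T.table ×ˢ (Set.univ : Set Dir) := ⟨hAs p hp, Set.mem_univ _⟩
    rw [Set.indicator_of_mem hmem]
  have h2 : ∫⁻ p in A, (T.table ×ˢ (Set.univ : Set Dir)).indicator f (shr t δ p) ∂T.leb
      ≤ ∫⁻ p, (T.table ×ˢ (Set.univ : Set Dir)).indicator f (shr t δ p) ∂T.leb :=
    setLIntegral_le_lintegral A _
  have h3 : ∫⁻ p, (T.table ×ˢ (Set.univ : Set Dir)).indicator f (shr t δ p) ∂T.leb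
      ≤ ∫⁻ p, (T.table ×ˢ (Set.univ : Set Dir)).indicator f (shr t δ p)
          ∂((volume : Measure ℂ).prod (volume : Measure Dir)) := by
    rw [T.leb_eq]
    exact lintegral_mono' Measure.restrict_le_self le_rfl
  have h4 : ∫⁻ p, (T.table ×ˢ (Set.univ : Set Dir)).indicator f (shr t δ p)
        ∂((volume : Measure ℂ).prod (volume : Measure Dir))
      = ∫⁻ q, (T.table ×ˢ (Set.univ : Set Dir)).indicator f q
        ∂((volume : Measure ℂ).prod (volume : Measure Dir)) :=
    (trvaux_shr_mp t δ).lintegral_comp (hf.indicator hS)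
  have h5 : ∫⁻ q, (T.table ×ˢ (Set.univ : Set Dir)).indicator f q
        ∂((volume : Measure ℂ).prod (volume : Measure Dir))
      = ∫⁻ q, f q ∂T.leb := by
    rw [lintegral_indicator hS, T.leb_eq]
  calc ∫⁻ p in A, f (shr t δ p) ∂T.leb
      ≤ ∫⁻ p in A, (T.table ×ˢ (Set.univ : Set Dir)).indicator f (shr t δ p) ∂T.leb := h1
    _ ≤ ∫⁻ p, (T.table ×ˢ (Set.univ : Set Dir)).indicator f (shr t δ p) ∂T.leb := h2
    _ ≤ ∫⁻ p, (T.table ×ˢ (Set.univ : Set Dir)).indicator f (shr t δ p)
          ∂((volume : Measure ℂ).prod (volume : Measure Dir)) := h3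
    _ = ∫⁻ q, (T.table ×ˢ (Set.univ : Set Dir)).indicator f q
          ∂((volume : Measure ℂ).prod (volume : Measure Dir)) := h4
    _ = ∫⁻ q, f q ∂T.leb := h5

/-- From the image of the shear, the free flight of length `t (1 - cos δ)` leads to the
image of the transversal translation. -/
private lemma trvaux_flow (T : Triangle) (t δ : ℝ) (ht : 0 ≤ t) (p : ℂ × Dir)
    (h1 : (shr t δ p).1 ∈ T.table) (h2 : (trv (t * Real.sin δ) p).1 ∈ T.table) :
    T.flow (t * (1 - Real.cos δ)) (shr t δ p) = trv (t * Real.sin δ) p := by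
  obtain ⟨x, θ⟩ := p
  have ha : 0 ≤ t * (1 - Real.cos δ) := mul_nonneg ht (by linarith [Real.cos_le_one δ])
  have hexp : dirVec (θ + (δ : Dir))
      = dirVec θ * ((Real.cos δ : ℂ) + (Real.sin δ : ℂ) * Complex.I) := by
    rw [dirVec_add, dirVec_coe, Complex.exp_mul_I, ← Complex.ofReal_cos, ← Complex.ofReal_sin]
  have hend : (shr t δ (x, θ)).1 + ((t * (1 - Real.cos δ) : ℝ) : ℂ) * dirVec θ
      = (trv (t * Real.sin δ) (x, θ)).1 := by
    simp only [shr, trv, nrm]
    rw [hexp]
    push_cast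
    ring
  have hconv : Convex ℝ T.table := (convex_convexHull ℝ _).interior
  have hseg : ∀ s : ℝ, 0 ≤ s → s ≤ t * (1 - Real.cos δ) →
      (shr t δ (x, θ)).1 + (s : ℂ) * dirVec θ ∈ T.table := by
    intro s hs hsa
    rcases ha.lt_or_eq with hapos | ha0
    · obtain ⟨a, hadef⟩ : ∃ a : ℝ, a = t * (1 - Real.cos δ) := ⟨_, rfl⟩
      rw [← hadef] at hend hsa hapos
      have hmem := hconv.add_smul_sub_mem h1 h2 (t := s / a)
        ⟨by positivity, by rw [div_le_one hapos]; exact hsa⟩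
      have hne : (a : ℂ) ≠ 0 := by
        exact_mod_cast hapos.ne'
      have e : (shr t δ (x, θ)).1 + (s / a) •
            ((trv (t * Real.sin δ) (x, θ)).1 - (shr t δ (x, θ)).1)
          = (shr t δ (x, θ)).1 + (s : ℂ) * dirVec θ := by
        rw [← hend, add_sub_cancel_left, Complex.real_smul, Complex.ofReal_div]
        field_simp
      rw [e] at hmem
      exact hmem
    · have hs0 : s = 0 := by linarith
      rw [hs0]
      simpa using h1
  have hfl := T.flow_free (x := (shr t δ (x, θ)).1) (θ := θ) ha hseg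
  have hshr : shr t δ (x, θ) = ((shr t δ (x, θ)).1, θ) := rfl
  rw [hshr, hfl, hend]
  rfl

theorem trv_estimate (T : Triangle) (F : ℂ × Dir → ℂ) (hF : Measurable F) (lam C : ℝ)
    (hinv : ∀ t : ℝ, (fun p => F (T.flow t p)) =ᵐ[T.leb]
      fun p => Complex.exp (lam * t * Complex.I) * F p)
    (hBV : ∀ δ : ℝ, ∫⁻ p, ‖F (rotD δ p) - F p‖ₑ ∂T.leb ≤ ENNReal.ofReal (C * |δ|))
    (t δ : ℝ) (ht : 0 ≤ t) (A : Set (ℂ × Dir)) (hA : MeasurableSet A)
    (hcert : ∀ p ∈ A, T.Cert t δ p)
    (htrv : ∀ p ∈ A, (trv (t * Real.sin δ) p).1 ∈ T.table) :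
    ∫⁻ p in A, ‖F (trv (t * Real.sin δ) p) - F p‖ₑ ∂T.leb
      ≤ ENNReal.ofReal (3 * C * |δ|)
        + ENNReal.ofReal (|lam| * t * δ ^ 2) * ∫⁻ p, ‖F p‖ₑ ∂T.leb := by
  obtain ⟨a, hadef⟩ : ∃ a : ℝ, a = t * (1 - Real.cos δ) := ⟨_, rfl⟩
  have ha0 : 0 ≤ a := by
    rw [hadef]
    exact mul_nonneg ht (by linarith [Real.cos_le_one δ])
  have hale : a ≤ t * δ ^ 2 := by
    rw [hadef]
    have h1 := Real.one_sub_sq_div_two_le_cos (x := δ)
    have h2 : 1 - Real.cos δ ≤ δ ^ 2 := by nlinarith [sq_nonneg δ]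
    exact mul_le_mul_of_nonneg_left h2 ht
  have hAs : ∀ p ∈ A, (shr t δ p).1 ∈ T.table := by
    intro p hp
    obtain ⟨g, γ, -, -, h3, -⟩ := hcert p hp
    exact h3
  obtain ⟨e, hedef⟩ : ∃ e : ℂ, e = Complex.exp (lam * a * Complex.I) := ⟨_, rfl⟩
  have hnorm : ‖e - 1‖ ≤ |lam| * t * δ ^ 2 := by
    have h := Real.norm_exp_I_mul_ofReal_sub_one_le (x := lam * a)
    have e' : Complex.I * ((lam * a : ℝ) : ℂ) = (lam : ℂ) * (a : ℂ) * Complex.I := by
      push_cast
      ring
    rw [e', Real.norm_eq_abs, abs_mul, abs_of_nonneg ha0] at h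
    rw [hedef]
    calc ‖Complex.exp (lam * a * Complex.I) - 1‖ ≤ |lam| * a := h
      _ ≤ |lam| * (t * δ ^ 2) := mul_le_mul_of_nonneg_left hale (abs_nonneg _)
      _ = |lam| * t * δ ^ 2 := by ring
  have hae : ∀ᵐ p ∂T.leb, p ∈ A → F (trv (t * Real.sin δ) p) = e * F (shr t δ p) := by
    have h := T.trvaux_ae_shr t δ (hinv a)
    filter_upwards [h] with p hp hpA
    have h1 := hp (hAs p hpA)
    have h2 := T.trvaux_flow t δ ht p (hAs p hpA) (htrv p hpA)
    rw [← hadef] at h2
    rw [h2] at h1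
    rw [hedef]
    exact h1
  have hpt : ∀ᵐ p ∂(T.leb.restrict A), ‖F (trv (t * Real.sin δ) p) - F p‖ₑ
      ≤ ‖F (shr t δ p) - F p‖ₑ
        + ENNReal.ofReal (|lam| * t * δ ^ 2) * ‖F (shr t δ p)‖ₑ := by
    rw [ae_restrict_iff' hA]
    filter_upwards [hae] with p hp hpA
    rw [hp hpA]
    have e1 : e * F (shr t δ p) - F p
        = (F (shr t δ p) - F p) + (e - 1) * F (shr t δ p) := by ring
    rw [e1]
    refine (enorm_add_le _ _).trans ?_
    refine add_le_add le_rfl ?_
    rw [enorm_mul]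
    refine mul_le_mul' ?_ le_rfl
    rw [← ofReal_norm]
    exact ENNReal.ofReal_le_ofReal hnorm
  have hm1 : Measurable (fun p => ‖F (shr t δ p) - F p‖ₑ) :=
    ((hF.comp (trvaux_measurable_shr t δ)).sub hF).enorm
  have hm2 : Measurable (fun p => ‖F (shr t δ p)‖ₑ) :=
    (hF.comp (trvaux_measurable_shr t δ)).enorm
  calc ∫⁻ p in A, ‖F (trv (t * Real.sin δ) p) - F p‖ₑ ∂T.leb
      ≤ ∫⁻ p in A, (‖F (shr t δ p) - F p‖ₑ
          + ENNReal.ofReal (|lam| * t * δ ^ 2) * ‖F (shr t δ p)‖ₑ) ∂T.leb :=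
        lintegral_mono_ae hpt
    _ = ∫⁻ p in A, ‖F (shr t δ p) - F p‖ₑ ∂T.leb
          + ENNReal.ofReal (|lam| * t * δ ^ 2) * ∫⁻ p in A, ‖F (shr t δ p)‖ₑ ∂T.leb := by
        rw [lintegral_add_left hm1, lintegral_const_mul _ hm2]
    _ ≤ ENNReal.ofReal (3 * C * |δ|)
          + ENNReal.ofReal (|lam| * t * δ ^ 2) * ∫⁻ p, ‖F p‖ₑ ∂T.leb := by
        refine add_le_add ?_ (mul_le_mul' le_rfl ?_)
        · exact T.shear_estimate F hF lam C hinv hBV t δ A hA hcert
        · exact T.trvaux_lintegral_shr_le t δ A hA hAs (fun q => ‖F q‖ₑ) hF.enorm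

end Triangle

end Vale.Agent.Lib.P099
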