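import Vale.Agent.Lib.P099.Singular

/-!
# Billiards in a triangle: a trajectory from a prescribed sequence of sides

Given a sequence of sides `J 1, J 2, …`, the successive reflections define unfolding
maps `unfG J n`; a straight line which crosses, in the unfolded picture, the images of
these sides at interior points is the unfolding of a billiard trajectory.
-/

namespace Vale.Agent.Lib.P099

open Set

namespace Triangle

variable (T : Triangle)

/-- The composition of the reflections in the sides `J 1, …, J n` (the last one applied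
last). -/
noncomputable def unfG (J : ℕ → Fin 3) : ℕ → ℂ → ℂ
  | 0 => fun z => z
  | (n + 1) => fun z => T.sideMirror (J (n + 1)) (unfG J n z)

/-- The action on directions of `unfG`. -/
noncomputable def unfD (J : ℕ → Fin 3) : ℕ → Dir → Dir
  | 0 => fun θ => θ
  | (n + 1) => fun θ => T.reflect (J (n + 1)) (unfD J n θ)

lemma unf_unfG (J : ℕ → Fin 3) (n : ℕ) : Unf (T.unfG J n) (T.unfD J n) := by
  induction n with
  | zero => exact Unf.id
  | succ n ih => exact Triangle.Unf.mirror T ih (J (n + 1))

variable {T}

/-- A straight line crossing the unfolded sides `J 1, …, J N` at the times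
`τ 1 < … < τ N` is the unfolding of a billiard trajectory. -/
lemma reach_chain (J : ℕ → Fin 3) (N : ℕ) {x : ℂ} (θ : Dir) (τ : ℕ → ℝ) (hτ0 : τ 0 = 0)
    (hx : x ∈ T.table) (hmono : ∀ m, m ≤ N → τ m < τ (m + 1))
    (hside : ∀ m, m < N → T.unfG J m (x + (τ (m + 1) : ℂ) * dirVec θ) ∈ T.side (J (m + 1)))
    (hJ : ∀ m, 1 ≤ m → m < N → J m ≠ J (m + 1))
    (hend : T.unfG J N (x + (τ (N + 1) : ℂ) * dirVec θ) ∈ T.table) :
    T.Reach (τ (N + 1)) (x, θ)
      (T.unfG J N (x + (τ (N + 1) : ℂ) * dirVec θ), T.unfD J N θ) := by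
  -- the state after the `m`-th reflection
  have hstate : ∀ m, m ≤ N →
      T.Reach (τ m) (x, θ) (T.unfG J m (x + (τ m : ℂ) * dirVec θ), T.unfD J m θ) ∧
      (∀ i, 0 ≤ T.bc i (T.unfG J m (x + (τ m : ℂ) * dirVec θ))) ∧
      (∀ i, (1 ≤ m → i ≠ J m) → 0 < T.bc i (T.unfG J m (x + (τ m : ℂ) * dirVec θ))) := by
    intro m
    induction m with
    | zero =>
      intro _
      have e : x + ((τ 0 : ℝ) : ℂ) * dirVec θ = x := by rw [hτ0]; simp
      refine ⟨?_, ?_, ?_⟩
      · rw [hτ0]
        exact Reach.free x θ 0 le_rfl (fun r hr hr' => absurd hr (not_lt.mpr hr'))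
      · intro i
        change 0 ≤ T.bc i (x + ((τ 0 : ℝ) : ℂ) * dirVec θ)
        rw [e]; exact ((T.mem_table.mp hx) i).le
      · intro i _
        change 0 < T.bc i (x + ((τ 0 : ℝ) : ℂ) * dirVec θ)
        rw [e]; exact (T.mem_table.mp hx) i
    | succ m ih =>
      intro hm
      obtain ⟨hR, hX0, hXpos⟩ := ih (by omega)
      have hU := T.unf_unfG J m
      have hY := hside m (by omega)
      obtain ⟨hY0, hY1, hY2⟩ := T.bc_of_mem_side hY
      have hτm := hmono m (by omega)
      set X := T.unfG J m (x + (τ m : ℂ) * dirVec θ) with hXdef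
      set Y := T.unfG J m (x + (τ (m + 1) : ℂ) * dirVec θ) with hYdef
      have hYX : Y = X + ((τ (m + 1) - τ m : ℝ) : ℂ) * dirVec (T.unfD J m θ) := by
        have e : τ (m + 1) = τ m + (τ (m + 1) - τ m) := by ring
        rw [hYdef, hXdef]
        conv_lhs => rw [e]
        exact unf_shift hU _ _ _ _
      have hYnn : ∀ i, 0 ≤ T.bc i Y := by
        intro i
        rcases fin3_cases (J (m + 1)) i with rfl | rfl | rfl
        · rw [hY0]
        · exact hY1.le
        · exact hY2.le
      have hXY : ∀ i, 0 < T.bc i X ∨ 0 < T.bc i Y := by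
        intro i
        by_cases hi : 1 ≤ m → i ≠ J m
        · exact Or.inl (hXpos i hi)
        · right
          have hi' : 1 ≤ m ∧ i = J m := by
            by_contra hcon
            apply hi
            intro h1 h2
            exact hcon ⟨h1, h2⟩
          obtain ⟨h1, rfl⟩ := hi'
          have hne := hJ m h1 (by omega)
          rcases fin3_cases (J (m + 1)) (J m) with h | h | h
          · exact absurd h hne
          · rw [h]; exact hY1
          · rw [h]; exact hY2
      have hstep : T.Reach (τ (m + 1) - τ m) (X, T.unfD J m θ)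
          (X + ((τ (m + 1) - τ m : ℝ) : ℂ) * dirVec (T.unfD J m θ),
            T.reflect (J (m + 1)) (T.unfD J m θ)) := by
        apply T.reach_step (J (m + 1)) (by linarith)
        · intro s hs hs'
          have hlam : X + (s : ℂ) * dirVec (T.unfD J m θ)
              = X + ((s / (τ (m + 1) - τ m) : ℝ) : ℂ) * (Y - X) := by
            rw [hYX, add_sub_cancel_left]
            have hne : ((τ (m + 1) - τ m : ℝ) : ℂ) ≠ 0 := by
              exact_mod_cast (by linarith : τ (m + 1) - τ m ≠ 0)
            rw [Complex.ofReal_div]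
            field_simp
          rw [hlam]
          apply T.seg_mem_table hX0 hYnn hXY
          · exact div_pos hs (by linarith)
          · rw [div_lt_one (by linarith)]; exact hs'
        · rw [← hYX]; exact hY
      have hR' := T.reach_trans hR hstep
      rw [← hYX] at hR'
      have e : τ m + (τ (m + 1) - τ m) = τ (m + 1) := by ring
      rw [e] at hR'
      have hfix : T.unfG J (m + 1) (x + (τ (m + 1) : ℂ) * dirVec θ) = Y := by
        change T.sideMirror (J (m + 1)) Y = Y
        exact T.sideMirror_fix hY
      refine ⟨?_, ?_, ?_⟩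
      · rw [hfix]
        exact hR'
      · rw [hfix]; exact hYnn
      · rw [hfix]
        intro i hi
        have hi' := hi (by omega)
        rcases fin3_cases (J (m + 1)) i with rfl | rfl | rfl
        · exact absurd rfl hi'
        · exact hY1
        · exact hY2
  obtain ⟨hR, hX0, hXpos⟩ := hstate N le_rfl
  have hU := T.unf_unfG J N
  have hτN := hmono N le_rfl
  set X := T.unfG J N (x + (τ N : ℂ) * dirVec θ) with hXdef
  set Y := T.unfG J N (x + (τ (N + 1) : ℂ) * dirVec θ) with hYdef
  have hYX : Y = X + ((τ (N + 1) - τ N : ℝ) : ℂ) * dirVec (T.unfD J N θ) := by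
    have e : τ (N + 1) = τ N + (τ (N + 1) - τ N) := by ring
    rw [hYdef, hXdef]
    conv_lhs => rw [e]
    exact unf_shift hU _ _ _ _
  have hfree : T.Reach (τ (N + 1) - τ N) (X, T.unfD J N θ)
      (X + ((τ (N + 1) - τ N : ℝ) : ℂ) * dirVec (T.unfD J N θ), T.unfD J N θ) := by
    apply T.reach_free (by linarith)
    intro s hs hs'
    rcases hs'.lt_or_eq with hlt | heq
    · have hlam : X + (s : ℂ) * dirVec (T.unfD J N θ)
          = X + ((s / (τ (N + 1) - τ N) : ℝ) : ℂ) * (Y - X) := by
        rw [hYX, add_sub_cancel_left]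
        have hne : ((τ (N + 1) - τ N : ℝ) : ℂ) ≠ 0 := by
          exact_mod_cast (by linarith : τ (N + 1) - τ N ≠ 0)
        rw [Complex.ofReal_div]
        field_simp
      rw [hlam]
      apply T.seg_mem_table hX0 (fun i => ((T.mem_table.mp hend) i).le)
        (fun i => Or.inr ((T.mem_table.mp hend) i))
      · exact div_pos hs (by linarith)
      · rw [div_lt_one (by linarith)]; exact hlt
    · rw [heq, ← hYX]; exact hend
  have hR' := T.reach_trans hR hfree
  rw [← hYX] at hR'
  have e : τ N + (τ (N + 1) - τ N) = τ (N + 1) := by ring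
  rw [e] at hR'
  exact hR'

end Triangle

end Vale.Agent.Lib.P099
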