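import Vale.Agent.Lib.P099.Vertex

/-!
# Billiards in a triangle with three irrational angles: continuous invariant functions
are constant
-/

namespace Vale.Agent.Lib.P099

open Set Filter Topology

namespace Triangle

variable {T : Triangle}

lemma isPreconnected_phase : IsPreconnected (T.table ×ˢ (univ : Set Dir)) := by
  have h1 : IsPreconnected T.table :=
    ((convex_convexHull ℝ (Set.range T.vertex)).interior).isPreconnected
  exact h1.prod isPreconnected_univ

/-- If all three angles of the triangle are irrational multiples of `π`, every continuous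
function on the phase space which is invariant along the billiard trajectories is
constant. -/
theorem continuous_invariant_const_reach
    (hT : ∀ i, Irrational (T.interiorAngle i / Real.pi))
    {Fn : ℂ × Dir → ℂ} (hFc : ContinuousOn Fn (T.table ×ˢ univ))
    (hinv : ∀ (t : ℝ) (p q : ℂ × Dir), T.Reach t p q → p.1 ∈ T.table → q.1 ∈ T.table →
      Fn q = Fn p) :
    ∃ c : ℂ, ∀ p ∈ T.table ×ˢ (univ : Set Dir), Fn p = c := by
  choose c hc using fun i => vertex_const hFc hinv i (hT i)
  have hsing : ∀ (i : Fin 3) (p : ℂ × Dir), p ∈ T.Sing i → p.1 ∈ T.table → Fn p = c i := by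
    intro i p hp hp1
    obtain ⟨t, q, hR, hq, s, hs, hsv⟩ := hp
    rw [← hinv t p q hR hp1 hq]
    exact hc i q.1 hq q.2 ⟨s, hs, hsv⟩
  set K : Set ℂ := {c 0, c 1, c 2} with hK
  have hKfin : K.Finite := by rw [hK]; exact Set.toFinite _
  have hKmem : ∀ i, c i ∈ K := by
    intro i
    fin_cases i <;> simp [hK]
  have hval : ∀ p ∈ T.table ×ˢ (univ : Set Dir), Fn p ∈ K := by
    rintro ⟨x, θ₀⟩ ⟨hx, -⟩
    by_contra hnot
    have hx' : x ∈ T.table := hx
    have hopen : IsOpen (T.table ×ˢ (univ : Set Dir)) := T.isOpen_table.prod isOpen_univ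
    have hca : ContinuousAt Fn (x, θ₀) := hFc.continuousAt (hopen.mem_nhds ⟨hx', mem_univ _⟩)
    have hmap : Continuous (fun s : ℝ => (x, θ₀ + (s : Dir))) :=
      continuous_const.prodMk (continuous_const.add (AddCircle.continuous_mk' _))
    have h0 : (fun s : ℝ => (x, θ₀ + (s : Dir))) 0 = (x, θ₀) := by simp
    have hcg : ContinuousAt (fun s : ℝ => Fn (x, θ₀ + (s : Dir))) 0 := by
      have h1 : ContinuousAt Fn ((fun s : ℝ => (x, θ₀ + (s : Dir))) 0) := by rw [h0]; exact hca
      exact ContinuousAt.comp (f := fun s : ℝ => (x, θ₀ + (s : Dir))) h1 hmap.continuousAt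
    have hKc : IsOpen Kᶜ := hKfin.isClosed.isOpen_compl
    have hmem : (fun s : ℝ => Fn (x, θ₀ + (s : Dir))) 0 ∈ Kᶜ := by
      simp only [AddCircle.coe_zero, add_zero]
      exact hnot
    have hev : ∀ᶠ s : ℝ in 𝓝 (0 : ℝ), Fn (x, θ₀ + (s : Dir)) ∈ Kᶜ :=
      hcg.eventually (hKc.mem_nhds hmem)
    obtain ⟨δ, hδ, hball⟩ := Metric.eventually_nhds_iff.mp hev
    obtain ⟨s, hs, i, hi⟩ := exists_sing_dir hx' θ₀ (half_pos hδ)
    have hsd : dist s 0 < δ := by
      rw [Real.dist_eq, sub_zero, abs_of_nonneg hs.1]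
      linarith [hs.2]
    exact hball hsd (by rw [hsing i _ hi hx']; exact hKmem i)
  obtain ⟨x₀, hx₀⟩ := T.table_nonempty
  refine ⟨Fn (x₀, 0), ?_⟩
  intro p hp
  have himg : IsPreconnected (Fn '' (T.table ×ˢ (univ : Set Dir))) :=
    isPreconnected_phase.image Fn hFc
  have hsub : Fn '' (T.table ×ˢ (univ : Set Dir)) ⊆ K := by
    rintro _ ⟨q, hq, rfl⟩
    exact hval q hq
  have htd : IsTotallyDisconnected K := hKfin.countable.isTotallyDisconnected
  exact htd _ hsub himg ⟨p, hp, rfl⟩ ⟨(x₀, 0), ⟨hx₀, mem_univ _⟩, rfl⟩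

/-- The same statement in terms of the billiard flow. -/
theorem continuous_invariant_const
    (hT : ∀ i, Irrational (T.interiorAngle i / Real.pi))
    {Fn : ℂ × Dir → ℂ} (hFc : ContinuousOn Fn (T.table ×ˢ univ))
    (hinv : ∀ t : ℝ, ∀ p ∈ T.table ×ˢ (univ : Set Dir), Fn (T.flow t p) = Fn p) :
    ∃ c : ℂ, ∀ p ∈ T.table ×ˢ (univ : Set Dir), Fn p = c := by
  apply continuous_invariant_const_reach hT hFc
  intro t p q hR hp hq
  rw [← T.flow_eq_of_reach hR hq]
  exact hinv t p ⟨hp, mem_univ _⟩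

end Triangle

end Vale.Agent.Lib.P099
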