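import Vale.Agent.Lib.P099.Sets

/-!
# Billiards in a triangle: eigenfunctions analytic in the position on a neighbourhood
of the closed triangle.  Local steps.
-/

namespace Vale.Agent.Lib.P099

open MeasureTheory Set Filter Topology

lemma mirror_convex_comb (P d x y : ℂ) {a b : ℝ} (hab : a + b = 1) :
    mirror P d (a • x + b • y) = a • mirror P d x + b • mirror P d y := by
  obtain rfl : b = 1 - a := by linarith
  simp only [mirror, Complex.real_smul, map_add, map_sub, map_mul, Complex.conj_ofReal]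
  push_cast
  ring

lemma convex_shift_preimage {Ω : Set ℂ} (hΩ : Convex ℝ Ω) (c : ℂ) :
    Convex ℝ {x : ℂ | x ∈ Ω ∧ x + c ∈ Ω} := by
  intro x hx y hy a b ha hb hab
  refine ⟨hΩ hx.1 hy.1 ha hb hab, ?_⟩
  have h := hΩ hx.2 hy.2 ha hb hab
  have hc : a • (x + c) + b • (y + c) = a • x + b • y + c := by
    rw [smul_add, smul_add, add_add_add_comm, ← add_smul, hab, one_smul]
  rwa [hc] at h

lemma convex_mirror_preimage {Ω : Set ℂ} (hΩ : Convex ℝ Ω) (P d c : ℂ) :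
    Convex ℝ {x : ℂ | x ∈ Ω ∧ mirror P d (x + c) ∈ Ω} := by
  intro x hx y hy a b ha hb hab
  refine ⟨hΩ hx.1 hy.1 ha hb hab, ?_⟩
  have h := hΩ hx.2 hy.2 ha hb hab
  have hc : a • x + b • y + c = a • (x + c) + b • (y + c) := by
    rw [smul_add, smul_add, add_add_add_comm, ← add_smul, hab, one_smul]
  change mirror P d (a • x + b • y + c) ∈ Ω
  rw [hc, mirror_convex_comb P d _ _ hab]
  exact h

lemma analytic_shift_on {F : ℂ × Dir → ℂ} {Ω : Set ℂ}
    (hFa : ∀ θ : Dir, AnalyticOnNhd ℝ (fun x : ℂ => F (x, θ)) Ω) (c : ℂ) (θ : Dir) :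
    AnalyticOnNhd ℝ (fun x : ℂ => F (x + c, θ)) {x : ℂ | x ∈ Ω ∧ x + c ∈ Ω} := by
  have h1 : AnalyticOnNhd ℝ (fun x : ℂ => x + c) {x : ℂ | x ∈ Ω ∧ x + c ∈ Ω} :=
    analyticOnNhd_id.add analyticOnNhd_const
  exact (hFa θ).comp h1 (fun x hx => hx.2)

lemma analytic_mirror_on {F : ℂ × Dir → ℂ} {Ω : Set ℂ}
    (hFa : ∀ θ : Dir, AnalyticOnNhd ℝ (fun x : ℂ => F (x, θ)) Ω) (P d c : ℂ) (θ : Dir) :
    AnalyticOnNhd ℝ (fun x : ℂ => F (mirror P d (x + c), θ))
      {x : ℂ | x ∈ Ω ∧ mirror P d (x + c) ∈ Ω} := by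
  have h0 : AnalyticOnNhd ℝ (fun x : ℂ => (starRingEnd ℂ) x) univ :=
    Complex.conjCLE.analyticOnNhd _
  have h1 : AnalyticOnNhd ℝ (fun x : ℂ => x + c - P) univ :=
    (analyticOnNhd_id.add analyticOnNhd_const).sub analyticOnNhd_const
  have h2 : AnalyticOnNhd ℝ (fun x : ℂ => (starRingEnd ℂ) (x + c - P)) univ :=
    h0.comp h1 (mapsTo_univ _ _)
  have h3 : AnalyticOnNhd ℝ (fun x : ℂ => mirror P d (x + c)) univ := by
    unfold mirror
    exact analyticOnNhd_const.add (analyticOnNhd_const.mul h2)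
  exact (hFa θ).comp (h3.mono (subset_univ _)) (fun x hx => hx.2)

lemma analytic_const_mul_on {F : ℂ × Dir → ℂ} {Ω W : Set ℂ} (hW : W ⊆ Ω)
    (hFa : ∀ θ : Dir, AnalyticOnNhd ℝ (fun x : ℂ => F (x, θ)) Ω) (a : ℂ) (θ : Dir) :
    AnalyticOnNhd ℝ (fun x : ℂ => a * F (x, θ)) W :=
  analyticOnNhd_const.mul ((hFa θ).mono hW)

lemma dist_mirror {d : ℂ} (hd : d ≠ 0) (P x : ℂ) : dist (mirror P d x) P = dist x P := by
  have hc : (starRingEnd ℂ) d ≠ 0 := by simpa using hd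
  rw [dist_eq_norm, dist_eq_norm, mirror, add_sub_cancel_left, norm_mul, norm_div,
    RCLike.norm_conj, RCLike.norm_conj, div_self (norm_ne_zero_iff.mpr hd), one_mul]

namespace Triangle

variable (T : Triangle)

/-- A convex open set containing the closed triangle with a uniform margin `ε`. -/
structure Nhd (Ω : Set ℂ) (ε : ℝ) : Prop where
  convex : Convex ℝ Ω
  pos : 0 < ε
  ball_sub : ∀ p ∈ convexHull ℝ (Set.range T.vertex), Metric.ball p ε ⊆ Ω

variable {T}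

lemma Nhd.table_sub {Ω : Set ℂ} {ε : ℝ} (h : T.Nhd Ω ε) : T.table ⊆ Ω := by
  intro x hx
  exact h.ball_sub x (interior_subset hx) (Metric.mem_ball_self h.pos)

lemma Nhd.vertex_ball {Ω : Set ℂ} {ε : ℝ} (h : T.Nhd Ω ε) (i : Fin 3) :
    Metric.ball (T.vertex i) ε ⊆ Ω :=
  h.ball_sub _ (subset_convexHull ℝ _ (Set.mem_range_self i))

lemma Nhd.sideMid_ball {Ω : Set ℂ} {ε : ℝ} (h : T.Nhd Ω ε) (i : Fin 3) :
    Metric.ball (T.sideMid i) ε ⊆ Ω := by
  apply h.ball_sub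
  have h1 : T.sideMid i ∈ T.side i := T.sideMid_mem_side i
  have h2 : T.side i ⊆ convexHull ℝ (Set.range T.vertex) :=
    (openSegment_subset_segment ℝ _ _).trans
      (segment_subset_convexHull (Set.mem_range_self _) (Set.mem_range_self _))
  exact h2 h1

variable (T)

/-- Fubini and the identity principle on a connected domain. -/
lemma ae_slice_identity_on {V : Set (ℂ × Dir)}
    (hVopen : ∀ θ : Dir, IsOpen {x : ℂ | (x, θ) ∈ V})
    (hVsub : ∀ (x : ℂ) (θ : Dir), (x, θ) ∈ V → x ∈ T.table) {W : Dir → Set ℂ}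
    (hWpre : ∀ θ : Dir, IsPreconnected (W θ))
    (hVW : ∀ (x : ℂ) (θ : Dir), (x, θ) ∈ V → x ∈ W θ) {g h : ℂ → Dir → ℂ}
    (hg : ∀ θ : Dir, AnalyticOnNhd ℝ (fun x : ℂ => g x θ) (W θ))
    (hh : ∀ θ : Dir, AnalyticOnNhd ℝ (fun x : ℂ => h x θ) (W θ))
    (hae : ∀ᵐ p ∂T.leb, p ∈ V → g p.1 p.2 = h p.1 p.2) :
    ∀ᵐ θ ∂(volume : Measure Dir), (∃ x : ℂ, (x, θ) ∈ V) → ∀ x ∈ W θ, g x θ = h x θ := by
  have hsw : MeasurePreserving Prod.swap
      ((volume : Measure Dir).prod (volume.restrict T.table)) T.leb :=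
    Measure.measurePreserving_swap
  have h1 := hsw.quasiMeasurePreserving.ae hae
  have h2 := Measure.ae_ae_of_ae_prod h1
  filter_upwards [h2] with θ hθ
  rintro ⟨x₀, hx₀⟩
  have hU : IsOpen {x : ℂ | (x, θ) ∈ V} := hVopen θ
  have hsub : {x : ℂ | (x, θ) ∈ V} ⊆ T.table := fun x hx => hVsub x θ hx
  have hsubW : {x : ℂ | (x, θ) ∈ V} ⊆ W θ := fun x hx => hVW x θ hx
  have hae' : (fun x : ℂ => g x θ) =ᵐ[volume.restrict {x : ℂ | (x, θ) ∈ V}]
      (fun x : ℂ => h x θ) := by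
    have h3 := ae_restrict_of_ae_restrict_of_subset hsub hθ
    filter_upwards [h3, ae_restrict_mem hU.measurableSet] with x hx hxU
    exact hx hxU
  have heq : EqOn (fun x : ℂ => g x θ) (fun x : ℂ => h x θ) {x : ℂ | (x, θ) ∈ V} :=
    Measure.eqOn_open_of_ae_eq hae' hU ((hg θ).continuousOn.mono hsubW)
      ((hh θ).continuousOn.mono hsubW)
  have hev : (fun x : ℂ => g x θ) =ᶠ[𝓝 x₀] (fun x : ℂ => h x θ) :=
    heq.eventuallyEq_of_mem (hU.mem_nhds hx₀)
  exact (hg θ).eqOn_of_preconnected_of_eventuallyEq (hh θ) (hWpre θ) (hsubW hx₀) hev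

section steps

variable {T} {F : ℂ × Dir → ℂ} {lam : ℝ} {Ω : Set ℂ} {ε : ℝ}

/-- Step 1 (free flight) on the domain `Ω`. -/
lemma step_free_on (hΩ : T.Nhd Ω ε)
    (hFa : ∀ θ : Dir, AnalyticOnNhd ℝ (fun x : ℂ => F (x, θ)) Ω)
    (hinv : ∀ t : ℝ, (fun p => F (T.flow t p)) =ᵐ[T.mu]
      fun p => Complex.exp (lam * t * Complex.I) * F p)
    {c : ℂ} {δ : ℝ} (hball : Metric.ball c (2 * δ) ⊆ T.table) (hδ : 0 < δ)
    {t : ℝ} (ht : 0 ≤ t) (htδ : t < δ) :
    ∀ᵐ θ ∂(volume : Measure Dir), ∀ x : ℂ, x ∈ Ω → x + (t : ℂ) * dirVec θ ∈ Ω →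
      F (x + (t : ℂ) * dirVec θ, θ) = Complex.exp (lam * t * Complex.I) * F (x, θ) := by
  have hae : ∀ᵐ p ∂T.leb, p ∈ (Metric.ball c δ ×ˢ (univ : Set Dir)) →
      F (p.1 + (t : ℂ) * dirVec p.2, p.2) = Complex.exp (lam * t * Complex.I) * F p := by
    have h := hinv t
    rw [Filter.EventuallyEq, T.ae_mu] at h
    filter_upwards [h] with p hp hpV
    rw [← hp]
    congr 1
    obtain ⟨x, θ⟩ := p
    exact (T.flow_free_ball hball ht htδ hpV.1 θ).symm
  have hsl : ∀ θ : Dir, {x : ℂ | (x, θ) ∈ Metric.ball c δ ×ˢ (univ : Set Dir)}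
      = Metric.ball c δ := by
    intro θ; ext x; simp
  have hxb : ∀ x : ℂ, x ∈ Metric.ball c δ → ∀ θ : Dir,
      x + (t : ℂ) * dirVec θ ∈ Metric.ball c (2 * δ) := by
    intro x hx θ
    rw [Metric.mem_ball, dist_eq_norm] at hx ⊢
    calc ‖x + (t : ℂ) * dirVec θ - c‖ = ‖(x - c) + (t : ℂ) * dirVec θ‖ := by ring_nf
      _ ≤ ‖x - c‖ + ‖(t : ℂ) * dirVec θ‖ := norm_add_le _ _
      _ = ‖x - c‖ + |t| := by rw [norm_ofReal_mul_dirVec]
      _ < 2 * δ := by rw [abs_of_nonneg ht]; linarith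
  have key := T.ae_slice_identity_on (V := Metric.ball c δ ×ˢ (univ : Set Dir))
    (W := fun θ => {x : ℂ | x ∈ Ω ∧ x + (t : ℂ) * dirVec θ ∈ Ω})
    (g := fun x θ => F (x + (t : ℂ) * dirVec θ, θ))
    (h := fun x θ => Complex.exp (lam * t * Complex.I) * F (x, θ))
    (fun θ => by rw [hsl θ]; exact Metric.isOpen_ball)
    (fun x θ hx => hball (Metric.ball_subset_ball (by linarith) hx.1))
    (fun θ => (convex_shift_preimage hΩ.convex _).isPreconnected)
    (fun x θ hx => ⟨hΩ.table_sub (hball (Metric.ball_subset_ball (by linarith) hx.1)),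
      hΩ.table_sub (hball (hxb x hx.1 θ))⟩)
    (fun θ => analytic_shift_on hFa ((t : ℂ) * dirVec θ) θ)
    (fun θ => analytic_const_mul_on (fun x hx => hx.1) hFa
      (Complex.exp (lam * t * Complex.I)) θ) hae
  filter_upwards [key] with θ hθ x hx hx'
  exact hθ ⟨c, by simp [hδ]⟩ x ⟨hx, hx'⟩

/-- Step 2 (one reflection) on the domain `Ω`. -/
lemma step_bounce_on (hΩ : T.Nhd Ω ε) (hΩo : IsOpen Ω)
    (hFa : ∀ θ : Dir, AnalyticOnNhd ℝ (fun x : ℂ => F (x, θ)) Ω)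
    (hinv : ∀ t : ℝ, (fun p => F (T.flow t p)) =ᵐ[T.mu]
      fun p => Complex.exp (lam * t * Complex.I) * F p) (i : Fin 3) :
    ∀ᵐ θ ∂(volume : Measure Dir), (T.bc i).linear (dirVec θ) < 0 →
      ∀ y : ℂ, y ∈ Ω → T.sideMirror i y ∈ Ω →
        F (T.sideMirror i y, T.reflect i θ) = F (y, θ) := by
  obtain ⟨c, δ, hδ, hfree⟩ := T.exists_free_ball
  obtain ⟨ε₁, hε₁, hside⟩ := T.exists_side_ball i
  have hε := hΩ.pos
  set t : ℝ := min (min δ ε₁) ε / 2 with ht_def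
  have hmin : 0 < min (min δ ε₁) ε := lt_min (lt_min hδ hε₁) hε
  have ht : 0 < t := by rw [ht_def]; linarith
  have hm1 : min (min δ ε₁) ε ≤ δ := (min_le_left _ _).trans (min_le_left _ _)
  have hm2 : min (min δ ε₁) ε ≤ ε₁ := (min_le_left _ _).trans (min_le_right _ _)
  have hm3 : min (min δ ε₁) ε ≤ ε := min_le_right _ _
  have htδ : t < δ := by rw [ht_def]; linarith
  have htε₁ : 3 * t < 2 * ε₁ := by rw [ht_def]; linarith
  have htε : t < ε := by rw [ht_def]; linarith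
  set V : Set (ℂ × Dir) := {p | dist p.1 (T.sideMid i) < ε₁ - t ∧ 0 < T.bc i p.1 ∧
    T.bc i p.1 + t * (T.bc i).linear (dirVec p.2) < 0} with hV
  have hflow : ∀ (x : ℂ) (θ : Dir), (x, θ) ∈ V →
      T.flow t (x, θ) = (T.sideMirror i (x + (t : ℂ) * dirVec θ), T.reflect i θ) :=
    fun x θ hx => T.flow_bounce_ball i hside ht hx.1 hx.2.1 hx.2.2
  have hae : ∀ᵐ p ∂T.leb, p ∈ V →
      F (T.sideMirror i (p.1 + (t : ℂ) * dirVec p.2), T.reflect i p.2)
        = Complex.exp (lam * t * Complex.I) * F p := by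
    have h := hinv t
    rw [Filter.EventuallyEq, T.ae_mu] at h
    filter_upwards [h] with p hp hpV
    rw [← hp]
    congr 1
    obtain ⟨x, θ⟩ := p
    exact (hflow x θ hpV).symm
  have hopen : ∀ θ : Dir, IsOpen {x : ℂ | (x, θ) ∈ V} := by
    intro θ
    have h1 : IsOpen {x : ℂ | dist x (T.sideMid i) < ε₁ - t} :=
      isOpen_lt (continuous_id.dist continuous_const) continuous_const
    have h2 : IsOpen {x : ℂ | 0 < T.bc i x} := isOpen_lt continuous_const (T.bc_continuous i)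
    have h3 : IsOpen {x : ℂ | T.bc i x + t * (T.bc i).linear (dirVec θ) < 0} :=
      isOpen_lt ((T.bc_continuous i).add continuous_const) continuous_const
    exact h1.inter (h2.inter h3)
  have hsub : ∀ (x : ℂ) (θ : Dir), (x, θ) ∈ V → x ∈ T.table := by
    intro x θ hx
    have hxb : x ∈ Metric.ball (T.sideMid i) ε₁ := by
      rw [Metric.mem_ball]; have := hx.1; simp only at this; linarith
    rw [T.mem_table]
    intro j
    rcases fin3_cases i j with rfl | rfl | rfl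
    · exact hx.2.1
    · exact (hside x hxb).1
    · exact (hside x hxb).2
  have hVW : ∀ (x : ℂ) (θ : Dir), (x, θ) ∈ V →
      x ∈ {x : ℂ | x ∈ Ω ∧ mirror (T.vertex (i + 1)) (T.sideVec i) (x + (t : ℂ) * dirVec θ) ∈ Ω} := by
    intro x θ hx
    refine ⟨hΩ.table_sub (hsub x θ hx), ?_⟩
    have h1 := T.flow_fst_mem (t := t) (p := (x, θ)) (hsub x θ hx)
    rw [hflow x θ hx] at h1
    exact hΩ.table_sub h1
  have key := T.ae_slice_identity_on (V := V)
    (W := fun θ => {x : ℂ | x ∈ Ω ∧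
      mirror (T.vertex (i + 1)) (T.sideVec i) (x + (t : ℂ) * dirVec θ) ∈ Ω})
    (g := fun x θ => F (T.sideMirror i (x + (t : ℂ) * dirVec θ), T.reflect i θ))
    (h := fun x θ => Complex.exp (lam * t * Complex.I) * F (x, θ))
    hopen hsub
    (fun θ => (convex_mirror_preimage hΩ.convex _ _ _).isPreconnected)
    hVW
    (fun θ => analytic_mirror_on hFa (T.vertex (i + 1)) (T.sideVec i) ((t : ℂ) * dirVec θ)
      (T.reflect i θ))
    (fun θ => analytic_const_mul_on (fun x hx => hx.1) hFa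
      (Complex.exp (lam * t * Complex.I)) θ) hae
  have hfr := step_free_on hΩ hFa hinv hfree hδ ht.le htδ
  filter_upwards [key, hfr] with θ hθ hθ' hl
  have hne : ∃ x : ℂ, (x, θ) ∈ V := by
    refine ⟨T.sideMid i + ((-(t / 2) : ℝ) : ℂ) * dirVec θ, ?_, ?_, ?_⟩
    · simp only
      rw [dist_eq_norm, add_sub_cancel_left, norm_ofReal_mul_dirVec, abs_neg,
        abs_of_pos (by linarith)]
      linarith
    · simp only
      rw [T.bc_add_smul, (T.bc_of_mem_side (T.sideMid_mem_side i)).1]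
      nlinarith
    · simp only
      rw [T.bc_add_smul, (T.bc_of_mem_side (T.sideMid_mem_side i)).1]
      nlinarith
  have h1 := hθ hne
  -- the identity for points `y` with `y - t e ∈ Ω`
  have hA : ∀ y : ℂ, y ∈ Ω → y - (t : ℂ) * dirVec θ ∈ Ω → T.sideMirror i y ∈ Ω →
      F (T.sideMirror i y, T.reflect i θ) = F (y, θ) := by
    intro y hy hy' hmy
    have e1 := h1 (y - (t : ℂ) * dirVec θ) ⟨hy', by simpa [sideMirror] using hmy⟩
    have e2 := hθ' (y - (t : ℂ) * dirVec θ) hy' (by simpa using hy)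
    simp only [sub_add_cancel] at e1 e2
    rw [e1, e2]
  -- extension by the identity principle
  have hd := T.sideVec_ne_zero i
  have hcm : Continuous (mirror (T.vertex (i + 1)) (T.sideVec i)) := by
    unfold mirror
    exact continuous_const.add (continuous_const.mul
      (Complex.continuous_conj.comp (continuous_id.sub continuous_const)))
  have hW' : IsPreconnected {y : ℂ | y ∈ Ω ∧
      mirror (T.vertex (i + 1)) (T.sideVec i) (y + 0) ∈ Ω} :=
    (convex_mirror_preimage hΩ.convex _ _ _).isPreconnected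
  have ha1 : AnalyticOnNhd ℝ
      (fun y : ℂ => F (mirror (T.vertex (i + 1)) (T.sideVec i) (y + 0), T.reflect i θ))
      {y : ℂ | y ∈ Ω ∧ mirror (T.vertex (i + 1)) (T.sideVec i) (y + 0) ∈ Ω} :=
    analytic_mirror_on hFa _ _ 0 _
  have ha2 : AnalyticOnNhd ℝ (fun y : ℂ => F (y, θ))
      {y : ℂ | y ∈ Ω ∧ mirror (T.vertex (i + 1)) (T.sideVec i) (y + 0) ∈ Ω} :=
    (hFa θ).mono (fun y hy => hy.1)
  have hmid_fix : mirror (T.vertex (i + 1)) (T.sideVec i) (T.sideMid i) = T.sideMid i :=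
    mirror_fix hd _ _
  have hmidΩ : T.sideMid i ∈ Ω := hΩ.sideMid_ball i (Metric.mem_ball_self hε)
  have hmid_mem : T.sideMid i ∈ {y : ℂ | y ∈ Ω ∧
      mirror (T.vertex (i + 1)) (T.sideVec i) (y + 0) ∈ Ω} := by
    refine ⟨hmidΩ, ?_⟩
    rw [add_zero, hmid_fix]; exact hmidΩ
  have hNopen : IsOpen {y : ℂ | y ∈ Ω ∧ y - (t : ℂ) * dirVec θ ∈ Ω ∧
      mirror (T.vertex (i + 1)) (T.sideVec i) y ∈ Ω} :=
    hΩo.inter ((hΩo.preimage (continuous_id.sub continuous_const)).inter (hΩo.preimage hcm))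
  have hNmem : T.sideMid i ∈ {y : ℂ | y ∈ Ω ∧ y - (t : ℂ) * dirVec θ ∈ Ω ∧
      mirror (T.vertex (i + 1)) (T.sideVec i) y ∈ Ω} := by
    refine ⟨hmidΩ, ?_, ?_⟩
    · apply hΩ.sideMid_ball i
      rw [Metric.mem_ball, dist_eq_norm, sub_sub_cancel_left, norm_neg, norm_ofReal_mul_dirVec,
        abs_of_pos ht]
      exact htε
    · rw [hmid_fix]; exact hmidΩ
  have hev : (fun y : ℂ => F (mirror (T.vertex (i + 1)) (T.sideVec i) (y + 0), T.reflect i θ))
      =ᶠ[𝓝 (T.sideMid i)] (fun y : ℂ => F (y, θ)) := by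
    apply Filter.eventuallyEq_of_mem (hNopen.mem_nhds hNmem)
    intro y hy
    have := hA y hy.1 hy.2.1 hy.2.2
    simpa [sideMirror] using this
  have hEq := ha1.eqOn_of_preconnected_of_eventuallyEq ha2 hW' hmid_mem hev
  intro y hy hmy
  have := hEq ⟨hy, by simpa [sideMirror] using hmy⟩
  simpa [sideMirror] using this

/-- For almost every direction, invariance under the reflection in the side `i`, on the
part of `Ω` that is mapped into `Ω`. -/
lemma star_side_on (hΩ : T.Nhd Ω ε) (hΩo : IsOpen Ω)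
    (hFa : ∀ θ : Dir, AnalyticOnNhd ℝ (fun x : ℂ => F (x, θ)) Ω)
    (hinv : ∀ t : ℝ, (fun p => F (T.flow t p)) =ᵐ[T.mu]
      fun p => Complex.exp (lam * t * Complex.I) * F p) (i : Fin 3) :
    ∀ᵐ θ ∂(volume : Measure Dir), ∀ y : ℂ, y ∈ Ω →
      mirror (T.vertex (i + 1)) (T.sideVec i) y ∈ Ω →
      F (mirror (T.vertex (i + 1)) (T.sideVec i) y, mirrorDir (T.sideVec i) θ) = F (y, θ) := by
  have h1 := step_bounce_on hΩ hΩo hFa hinv i
  have h2 := (mirrorDir_measurePreserving (T.sideVec i)).quasiMeasurePreserving.ae h1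
  filter_upwards [h1, h2, T.ae_not_parallel i] with θ hθ1 hθ2 hθ3 y hy hmy
  rcases lt_or_gt_of_ne hθ3 with hneg | hpos
  · exact hθ1 hneg y hy hmy
  · have hl : (T.bc i).linear (dirVec (mirrorDir (T.sideVec i) θ)) < 0 := by
      have := T.bc_lin_dirVec_reflect i θ
      rw [T.reflect_eq] at this
      rw [this]; linarith
    have hmm : mirror (T.vertex (i + 1)) (T.sideVec i)
        (mirror (T.vertex (i + 1)) (T.sideVec i) y) = y := mirror_mirror (T.sideVec_ne_zero i) _ _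
    have h3 := hθ2 hl (mirror (T.vertex (i + 1)) (T.sideVec i) y) hmy
      (by rw [sideMirror, hmm]; exact hy)
    rw [T.reflect_eq, sideMirror, hmm, mirrorDir_mirrorDir] at h3
    exact h3.symm

end steps

end Triangle

end Vale.Agent.Lib.P099
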