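import Mathlib

/-!
# Billiards in a triangle: definitions

The Euclidean plane is modelled by `ℂ` (with its usual real inner product and
Lebesgue measure).  Directions are angles modulo `2π`.
-/

namespace Vale.Agent.Lib.P099

open MeasureTheory

/-- `0 < 2π`, needed for the Lebesgue (Haar) measure on `ℝ / 2πℤ`. -/
instance factTwoPiPos : Fact ((0 : ℝ) < 2 * Real.pi) := ⟨Real.two_pi_pos⟩

/-- The circle of directions: angles modulo `2π`. -/
abbrev Dir : Type := AddCircle (2 * Real.pi)

/-- The unit vector `exp (i θ)` of the direction `θ`. -/
noncomputable def dirVec (θ : Dir) : ℂ := (AddCircle.toCircle θ : ℂ)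

/-- A nondegenerate triangle in the plane `ℂ`, given by its three vertices. -/
structure Triangle where
  /-- the three vertices -/
  vertex : Fin 3 → ℂ
  /-- the vertices are not collinear -/
  nondegenerate : AffineIndependent ℝ vertex

namespace Triangle

/-- The billiard table `Q`: the interior of the triangle. -/
def table (T : Triangle) : Set ℂ := interior (convexHull ℝ (Set.range T.vertex))

/-- The open side opposite to the vertex `i` (its two end points removed). -/
def side (T : Triangle) (i : Fin 3) : Set ℂ :=
  openSegment ℝ (T.vertex (i + 1)) (T.vertex (i + 2))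

/-- The interior angle of the triangle at the vertex `i`. -/
noncomputable def interiorAngle (T : Triangle) (i : Fin 3) : ℝ :=
  EuclideanGeometry.angle (T.vertex (i + 1)) (T.vertex i) (T.vertex (i + 2))

/-- The triangle is irrational: not all three angles are rational multiples of `π`. -/
def IsIrrational (T : Triangle) : Prop := ∃ i : Fin 3, Irrational (T.interiorAngle i / Real.pi)

/-- Specular reflection of a direction in the side `i`: if `φ` is the direction of
the side, the direction `θ` becomes `2φ - θ` (tangential component kept, normal
component reversed). -/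
noncomputable def reflect (T : Triangle) (i : Fin 3) (θ : Dir) : Dir :=
  (2 : ℕ) • ((Complex.arg (T.vertex (i + 2) - T.vertex (i + 1)) : ℝ) : Dir) - θ

/-- `T.Reach t p q`: the billiard trajectory issued from the phase point `p = (x, θ)`
(position, direction) reaches the phase point `q` after time `t ≥ 0` at unit speed,
moving in straight lines inside the table and being reflected specularly at finitely
many points of the open sides; it never meets a vertex. -/
inductive Reach (T : Triangle) : ℝ → ℂ × Dir → ℂ × Dir → Prop
  | free (x : ℂ) (θ : Dir) (t : ℝ) (ht : 0 ≤ t)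
      (hfree : ∀ s : ℝ, 0 < s → s ≤ t → x + (s : ℂ) * dirVec θ ∈ T.table) :
      Reach T t (x, θ) (x + (t : ℂ) * dirVec θ, θ)
  | bounce (x : ℂ) (θ : Dir) (τ t : ℝ) (i : Fin 3) (q : ℂ × Dir) (hτ : 0 < τ)
      (hfree : ∀ s : ℝ, 0 < s → s < τ → x + (s : ℂ) * dirVec θ ∈ T.table)
      (hhit : x + (τ : ℂ) * dirVec θ ∈ T.side i)
      (hrest : Reach T t (x + (τ : ℂ) * dirVec θ, T.reflect i θ) q) :
      Reach T (τ + t) (x, θ) q

open Classical in
/-- The billiard flow for a time `t ≥ 0`.  On the (null) set of phase points whose
trajectory is not defined up to time `t` (it meets a vertex), or is on the boundary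
exactly at time `t`, the map is set to be the identity. -/
noncomputable def flowFwd (T : Triangle) (t : ℝ) (p : ℂ × Dir) : ℂ × Dir :=
  if h : ∃ q : ℂ × Dir, T.Reach t p q ∧ q.1 ∈ T.table then h.choose else p

/-- Reversal of the direction of a phase point. -/
noncomputable def reverse (p : ℂ × Dir) : ℂ × Dir := (p.1, p.2 + ((Real.pi : ℝ) : Dir))

/-- The billiard flow `Φ_t` on the phase space, for all real times: for negative
times it is the forward flow conjugated by the reversal of directions. -/
noncomputable def flow (T : Triangle) (t : ℝ) (p : ℂ × Dir) : ℂ × Dir :=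
  if 0 ≤ t then T.flowFwd t p else reverse (T.flowFwd (-t) (reverse p))

/-- The invariant probability measure `dμ = dA dθ / (2π Area(Q))` on the phase
space `Q × (ℝ / 2πℤ)`, viewed as a measure on `ℂ × Dir` carried by `Q × Dir`. -/
noncomputable def mu (T : Triangle) : Measure (ℂ × Dir) :=
  (ENNReal.ofReal (2 * Real.pi) * volume T.table)⁻¹ •
    ((volume.restrict T.table).prod (volume : Measure Dir))

end Triangle

end Vale.Agent.Lib.P099
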