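import Vale.Agent.Lib.P099.EigenMain

/-!
# Billiards in a triangle: continuous invariant functions and density of the
trajectories running into the vertices with an irrational angle

If the phase points whose trajectory runs into a vertex with an irrational angle are dense
in the phase space, every continuous invariant function is constant.
-/

namespace Vale.Agent.Lib.P099

open Set Filter Topology

namespace Triangle

variable {T : Triangle}

/-- The general principle: `P` is a set of vertices with irrational angles such that the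
phase points whose trajectory runs into one of them are dense. -/
theorem invariant_const_of_dense (P : Fin 3 → Prop)
    (hirr : ∀ i, P i → Irrational (T.interiorAngle i / Real.pi))
    (hdense : ∀ p ∈ T.table ×ˢ (univ : Set Dir), ∀ U ∈ 𝓝 p,
      ∃ p' ∈ U, p'.1 ∈ T.table ∧ ∃ i, P i ∧ p' ∈ T.Sing i)
    {Fn : ℂ × Dir → ℂ} (hFc : ContinuousOn Fn (T.table ×ˢ univ))
    (hinv : ∀ (t : ℝ) (p q : ℂ × Dir), T.Reach t p q → p.1 ∈ T.table → q.1 ∈ T.table →
      Fn q = Fn p) :
    ∃ c : ℂ, ∀ p ∈ T.table ×ˢ (univ : Set Dir), Fn p = c := by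
  have hex : ∀ i : Fin 3, ∃ c : ℂ, P i → ∀ y ∈ T.table, ∀ θ : Dir,
      (∃ s : ℝ, 0 < s ∧ y + (s : ℂ) * dirVec θ = T.vertex i) → Fn (y, θ) = c := by
    intro i
    by_cases hP : P i
    · obtain ⟨c, hc⟩ := vertex_const hFc hinv i (hirr i hP)
      exact ⟨c, fun _ => hc⟩
    · exact ⟨0, fun h => absurd h hP⟩
  choose c hc using hex
  have hsing : ∀ (i : Fin 3) (p : ℂ × Dir), P i → p ∈ T.Sing i → p.1 ∈ T.table →
      Fn p = c i := by
    intro i p hP hp hp1
    obtain ⟨t, q, hR, hq, s, hs, hsv⟩ := hp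
    rw [← hinv t p q hR hp1 hq]
    exact hc i hP q.1 hq q.2 ⟨s, hs, hsv⟩
  set K : Set ℂ := {c 0, c 1, c 2} with hK
  have hKfin : K.Finite := by rw [hK]; exact Set.toFinite _
  have hKmem : ∀ i, c i ∈ K := by
    intro i
    fin_cases i <;> simp [hK]
  have hopen : IsOpen (T.table ×ˢ (univ : Set Dir)) := T.isOpen_table.prod isOpen_univ
  have hval : ∀ p ∈ T.table ×ˢ (univ : Set Dir), Fn p ∈ K := by
    intro p hp
    by_contra hnot
    have hca : ContinuousAt Fn p := hFc.continuousAt (hopen.mem_nhds hp)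
    have hKc : IsOpen Kᶜ := hKfin.isClosed.isOpen_compl
    have hU : Fn ⁻¹' Kᶜ ∈ 𝓝 p := hca (hKc.mem_nhds hnot)
    obtain ⟨p', hp'U, hp'1, i, hPi, hp'S⟩ := hdense p hp _ hU
    exact hp'U (by rw [hsing i p' hPi hp'S hp'1]; exact hKmem i)
  obtain ⟨x₀, hx₀⟩ := T.table_nonempty
  refine ⟨Fn (x₀, 0), ?_⟩
  intro p hp
  have himg : IsPreconnected (Fn '' (T.table ×ˢ (univ : Set Dir))) :=
    isPreconnected_phase.image Fn hFc
  have hsub : Fn '' (T.table ×ˢ (univ : Set Dir)) ⊆ K := by
    rintro _ ⟨q, hq, rfl⟩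
    exact hval q hq
  have htd : IsTotallyDisconnected K := hKfin.countable.isTotallyDisconnected
  exact htd _ hsub himg ⟨p, hp, rfl⟩ ⟨(x₀, 0), ⟨hx₀, mem_univ _⟩, rfl⟩

end Triangle

end Vale.Agent.Lib.P099
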