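import Vale.Agent.Lib.P099.Frame

/-!
# Billiards in a right triangle: the isosceles triangle obtained by doubling

If the angle at the vertex `k` is a right angle, the union of the triangle and of its
mirror image in the side joining the vertices `k` and `k + 2` is the triangle with
vertices `v (k + 2)`, `v (k + 1)` and `2 v k - v (k + 1)`.
-/

namespace Vale.Agent.Lib.P099

open Set

lemma fin3_sum_complex (i : Fin 3) (f : Fin 3 → ℂ) : ∑ j, f j = f i + f (i + 1) + f (i + 2) := by
  fin_cases i <;> simp [Fin.sum_univ_three] <;> ring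

lemma fin3_succ_ne (k : Fin 3) : k + 1 ≠ k := by revert k; decide
lemma fin3_succ_succ_ne (k : Fin 3) : k + 2 ≠ k := by revert k; decide
lemma fin3_succ_succ_ne_succ (k : Fin 3) : k + 2 ≠ k + 1 := by revert k; decide

lemma mirror_smul_dir (P d : ℂ) {c : ℝ} (hc : c ≠ 0) : mirror P ((c : ℂ) * d) = mirror P d := by
  funext x
  have hc' : (c : ℂ) ≠ 0 := by exact_mod_cast hc
  simp only [mirror, map_mul, Complex.conj_ofReal]
  by_cases hd : d = 0
  · simp [hd]
  · have hcd : (starRingEnd ℂ) d ≠ 0 := by simpa using hd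
    congr 2
    field_simp

lemma mirror_self (P d : ℂ) : mirror P d P = P := by
  simp [mirror]

namespace Triangle

variable (T : Triangle) (k : Fin 3)

/-- The angle at the vertex `k` is a right angle. -/
def RightAt : Prop := T.interiorAngle k = Real.pi / 2

/-- The triangle obtained from `T` by replacing the vertex `k` by the point symmetric to
the vertex `k + 1` with respect to the vertex `k`. -/
noncomputable def double : Triangle where
  vertex := Function.update T.vertex k (2 * T.vertex k - T.vertex (k + 1))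
  nondegenerate := by
    rw [affineIndependent_iff_of_fintype]
    intro w hw hz
    rw [Finset.univ.weightedVSub_eq_linear_combination hw] at hz
    rw [fin3_sum_complex k] at hz
    rw [fin3_sum k] at hw
    simp only [Function.update_self, Function.update_of_ne (fin3_succ_ne k),
      Function.update_of_ne (fin3_succ_succ_ne k)] at hz
    set w' : Fin 3 → ℝ := fun m => if m = k then 2 * w k else if m = k + 1 then w (k + 1) - w k
      else w m with hw'
    have e0 : w' k = 2 * w k := by simp [hw']
    have e1 : w' (k + 1) = w (k + 1) - w k := by simp [hw', fin3_succ_ne k]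
    have e2 : w' (k + 2) = w (k + 2) := by
      simp [hw', fin3_succ_succ_ne k, fin3_succ_succ_ne_succ k]
    have hT := (affineIndependent_iff_of_fintype ℝ T.vertex).mp T.nondegenerate w' (by
      rw [fin3_sum k, e0, e1, e2]; linarith) (by
      have hs : ∑ i, w' i = 0 := by rw [fin3_sum k, e0, e1, e2]; linarith
      rw [Finset.univ.weightedVSub_eq_linear_combination hs, fin3_sum_complex k, e0, e1, e2]
      rw [← hz]
      simp only [Complex.real_smul]
      push_cast
      ring)
    have h0 := hT k
    have h1 := hT (k + 1)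
    have h2 := hT (k + 2)
    rw [e0] at h0
    rw [e1] at h1
    rw [e2] at h2
    intro m
    rcases fin3_cases k m with rfl | rfl | rfl
    · linarith
    · linarith
    · exact h2

lemma double_vertex_self : (T.double k).vertex k = 2 * T.vertex k - T.vertex (k + 1) := by
  simp [double]

lemma double_vertex_one : (T.double k).vertex (k + 1) = T.vertex (k + 1) := by
  simp [double, fin3_succ_ne k]

lemma double_vertex_two : (T.double k).vertex (k + 2) = T.vertex (k + 2) := by
  simp [double, fin3_succ_succ_ne k]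

/-- The barycentric coordinates of `T` in terms of those of the doubled triangle. -/
lemma bc_double (z : ℂ) :
    T.bc k z = 2 * (T.double k).bc k z ∧
    T.bc (k + 1) z = (T.double k).bc (k + 1) z - (T.double k).bc k z ∧
    T.bc (k + 2) z = (T.double k).bc (k + 2) z := by
  have h20 : k + 2 ≠ k := fin3_succ_succ_ne k
  have h21 : k + 2 ≠ k + 1 := fin3_succ_succ_ne_succ k
  have h10 : k + 1 ≠ k := fin3_succ_ne k
  have hz := (T.double k).eq_comb h21 h20 h10 z
  rw [T.double_vertex_self, T.double_vertex_one, T.double_vertex_two] at hz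
  set cj := (T.double k).bc (k + 1) z with hcj
  set ck := (T.double k).bc k z with hck
  have hz' : z = T.vertex (k + 2) + ((cj - ck : ℝ) : ℂ) * (T.vertex (k + 1) - T.vertex (k + 2))
      + ((2 * ck : ℝ) : ℂ) * (T.vertex k - T.vertex (k + 2)) := by
    conv_lhs => rw [hz]
    push_cast
    ring
  obtain ⟨b2, b1, b0⟩ := T.bc_comb h21 h20 h10 (cj - ck) (2 * ck)
  rw [← hz'] at b2 b1 b0
  have hs := (T.double k).sum_bc k z
  refine ⟨b0, b1, ?_⟩
  rw [b2]
  linarith

lemma mem_double_table {z : ℂ} :
    z ∈ (T.double k).table ↔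
      0 < T.bc k z ∧ 0 < T.bc (k + 2) z ∧ 0 < T.bc (k + 1) z + T.bc k z / 2 := by
  obtain ⟨h0, h1, h2⟩ := T.bc_double k z
  rw [(T.double k).mem_table]
  constructor
  · intro h
    have a0 := h k
    have a1 := h (k + 1)
    have a2 := h (k + 2)
    refine ⟨by linarith, by linarith, by linarith⟩
  · rintro ⟨a0, a2, a1⟩ m
    rcases fin3_cases k m with rfl | rfl | rfl
    · linarith
    · linarith
    · linarith

lemma mem_table_of_double {z : ℂ} (hz : z ∈ (T.double k).table) (hb : 0 < T.bc (k + 1) z) :
    z ∈ T.table := by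
  obtain ⟨a0, a2, -⟩ := (T.mem_double_table k).mp hz
  rw [T.mem_table]
  intro m
  rcases fin3_cases k m with rfl | rfl | rfl
  · exact a0
  · exact hb
  · exact a2

lemma table_subset_double {z : ℂ} (hz : z ∈ T.table) : z ∈ (T.double k).table := by
  rw [T.mem_double_table]
  have h := T.mem_table.mp hz
  have a0 := h k
  have a1 := h (k + 1)
  have a2 := h (k + 2)
  refine ⟨a0, a2, by linarith⟩

/-! ### The reflection in the side joining `k` and `k + 2` -/

lemma sideMirror_succ_eq :
    T.sideMirror (k + 1) = mirror (T.vertex k) (T.vertex (k + 2) - T.vertex k) :=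
  T.sideMirror_of_distinct (fin3_succ_succ_ne k).symm (fin3_succ_ne k).symm
    (fin3_succ_succ_ne_succ k)

lemma leg_ne_zero : T.vertex (k + 2) - T.vertex k ≠ 0 :=
  sub_ne_zero.mpr (T.vertex_ne' (fin3_succ_succ_ne k))

lemma leg_ne_zero' : T.vertex (k + 1) - T.vertex k ≠ 0 :=
  sub_ne_zero.mpr (T.vertex_ne' (fin3_succ_ne k))

variable {T k}

/-- The two legs are perpendicular. -/
lemma RightAt.perp (h : T.RightAt k) :
    (T.vertex (k + 2) - T.vertex k) * (starRingEnd ℂ) (T.vertex (k + 1) - T.vertex k)
      = -((T.vertex (k + 1) - T.vertex k) * (starRingEnd ℂ) (T.vertex (k + 2) - T.vertex k)) := by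
  have h1 : inner ℝ (T.vertex (k + 1) - T.vertex k) (T.vertex (k + 2) - T.vertex k) = 0 := by
    rw [InnerProductGeometry.inner_eq_zero_iff_angle_eq_pi_div_two]
    exact h
  rw [Complex.inner] at h1
  set U := T.vertex (k + 1) - T.vertex k with hU
  set D := T.vertex (k + 2) - T.vertex k with hD
  apply Complex.ext
  · simp only [Complex.mul_re, Complex.neg_re, Complex.conj_re, Complex.conj_im] at h1 ⊢
    linarith
  · simp only [Complex.mul_im, Complex.neg_im, Complex.conj_re, Complex.conj_im]
    ring

/-- The mirror image of the vertex `k + 1` in the opposite leg. -/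
lemma RightAt.mirror_vertex (h : T.RightAt k) :
    T.sideMirror (k + 1) (T.vertex (k + 1)) = 2 * T.vertex k - T.vertex (k + 1) := by
  rw [T.sideMirror_succ_eq k, mirror]
  have hp := h.perp
  set U := T.vertex (k + 1) - T.vertex k with hU
  set D := T.vertex (k + 2) - T.vertex k with hD
  have hD0 : D ≠ 0 := T.leg_ne_zero k
  have hc : (starRingEnd ℂ) D ≠ 0 := by simpa using hD0
  have e : D / (starRingEnd ℂ) D * (starRingEnd ℂ) U = -U := by
    rw [div_mul_eq_mul_div, hp, neg_div, mul_div_assoc, div_self hc, mul_one]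
  rw [e, hU]
  ring

/-- The action of the reflection on the barycentric coordinates. -/
lemma RightAt.bc_mirror (h : T.RightAt k) (z : ℂ) :
    T.bc k (T.sideMirror (k + 1) z) = T.bc k z + 2 * T.bc (k + 1) z ∧
    T.bc (k + 1) (T.sideMirror (k + 1) z) = - T.bc (k + 1) z ∧
    T.bc (k + 2) (T.sideMirror (k + 1) z) = T.bc (k + 2) z := by
  have h01 : k ≠ k + 1 := (fin3_succ_ne k).symm
  have h02 : k ≠ k + 2 := (fin3_succ_succ_ne k).symm
  have h12 : k + 1 ≠ k + 2 := (fin3_succ_succ_ne_succ k).symm
  have hz := T.eq_comb h01 h02 h12 z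
  have hp := h.perp
  set U := T.vertex (k + 1) - T.vertex k with hU
  set D := T.vertex (k + 2) - T.vertex k with hD
  have hD0 : D ≠ 0 := T.leg_ne_zero k
  have hc : (starRingEnd ℂ) D ≠ 0 := by simpa using hD0
  have e : D / (starRingEnd ℂ) D * (starRingEnd ℂ) U = -U := by
    rw [div_mul_eq_mul_div, hp, neg_div, mul_div_assoc, div_self hc, mul_one]
  have hσ : T.sideMirror (k + 1) z = T.vertex k + ((-T.bc (k + 1) z : ℝ) : ℂ) * U
      + ((T.bc (k + 2) z : ℝ) : ℂ) * D := by
    conv_lhs => rw [hz]
    rw [T.sideMirror_succ_eq k, add_assoc, mirror_add, mirror_self, map_add, map_mul, map_mul,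
      Complex.conj_ofReal, Complex.conj_ofReal, mul_add]
    have e1 : D / (starRingEnd ℂ) D * ((T.bc (k + 1) z : ℂ) * (starRingEnd ℂ) U)
        = (T.bc (k + 1) z : ℂ) * (D / (starRingEnd ℂ) D * (starRingEnd ℂ) U) := by ring
    have e2 : D / (starRingEnd ℂ) D * ((T.bc (k + 2) z : ℂ) * (starRingEnd ℂ) D)
        = (T.bc (k + 2) z : ℂ) * D := by
      field_simp
    rw [e1, e2, e]
    push_cast
    ring
  obtain ⟨b0, b1, b2⟩ := T.bc_comb h01 h02 h12 (-T.bc (k + 1) z) (T.bc (k + 2) z)
  rw [← hσ] at b0 b1 b2
  have hs := T.sum_bc k z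
  refine ⟨?_, b1, b2⟩
  rw [b0]
  linarith

lemma RightAt.mirror_mirror (_h : T.RightAt k) (z : ℂ) :
    T.sideMirror (k + 1) (T.sideMirror (k + 1) z) = z := by
  rw [T.sideMirror_succ_eq k]
  exact Vale.Agent.Lib.P099.mirror_mirror (T.leg_ne_zero k) _ _

/-- A point of the doubled table beyond the leg is the mirror image of a point of the
table. -/
lemma RightAt.mirror_mem_table (h : T.RightAt k) {z : ℂ} (hz : z ∈ (T.double k).table)
    (hb : T.bc (k + 1) z < 0) : T.sideMirror (k + 1) z ∈ T.table := by
  obtain ⟨a0, a2, a1⟩ := (T.mem_double_table k).mp hz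
  obtain ⟨b0, b1, b2⟩ := h.bc_mirror z
  rw [T.mem_table]
  intro m
  rcases fin3_cases k m with rfl | rfl | rfl
  · rw [b0]; linarith
  · rw [b1]; linarith
  · rw [b2]; exact a2

/-- A point of the doubled table on the line of the leg is on the open leg. -/
lemma mem_side_of_double {z : ℂ} (hz : z ∈ (T.double k).table) (hb : T.bc (k + 1) z = 0) :
    z ∈ T.side (k + 1) := by
  obtain ⟨a0, a2, -⟩ := (T.mem_double_table k).mp hz
  apply T.mem_side_of_bc hb
  · rw [fin3_add_one_add_one]; exact a2
  · rw [fin3_add_one_add_two]; exact a0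

end Triangle

end Vale.Agent.Lib.P099
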