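import Vale.Agent.Lib.P099.Double

/-!
# Billiards in a right triangle: reflections of the doubled triangle

`T` has a right angle at the vertex `k`; `T.double k` is the union of `T` and of its
mirror image in the leg joining `k` and `k + 2` (the side `k + 1` of `T`).  The
reflections in the sides of the doubled triangle are expressed through those of `T`.
-/

namespace Vale.Agent.Lib.P099

open Set

/-- Three reflections in lines through a common point. -/
private lemma mirror_three (A X Y z : ℂ) (hX : X ≠ 0) (hY : Y ≠ 0) :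
    mirror A (X / (starRingEnd ℂ) X * (starRingEnd ℂ) Y) z
      = mirror A X (mirror A Y (mirror A X z)) := by
  have hcX : (starRingEnd ℂ) X ≠ 0 := by simpa using hX
  have hcY : (starRingEnd ℂ) Y ≠ 0 := by simpa using hY
  simp only [mirror, add_sub_cancel_left, map_mul, map_div₀, Complex.conj_conj, map_sub]
  field_simp

/-- The same identity for the linear parts. -/
private lemma mirror_three_dir (X Y w : ℂ) (hX : X ≠ 0) (hY : Y ≠ 0) :
    (X / (starRingEnd ℂ) X * (starRingEnd ℂ) Y)
        / (starRingEnd ℂ) (X / (starRingEnd ℂ) X * (starRingEnd ℂ) Y) * (starRingEnd ℂ) w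
      = X / (starRingEnd ℂ) X * (starRingEnd ℂ) (Y / (starRingEnd ℂ) Y
          * (starRingEnd ℂ) (X / (starRingEnd ℂ) X * (starRingEnd ℂ) w)) := by
  have hcX : (starRingEnd ℂ) X ≠ 0 := by simpa using hX
  have hcY : (starRingEnd ℂ) Y ≠ 0 := by simpa using hY
  simp only [map_mul, map_div₀, Complex.conj_conj]
  field_simp

namespace Triangle

variable (T : Triangle) (k : Fin 3)

lemma reflect_reflect (i : Fin 3) (θ : Dir) : T.reflect i (T.reflect i θ) = θ := by
  rw [T.reflect_eq, T.reflect_eq, mirrorDir_mirrorDir]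

lemma sideMirror_sideMirror (i : Fin 3) (z : ℂ) : T.sideMirror i (T.sideMirror i z) = z := by
  unfold sideMirror
  exact mirror_mirror (T.sideVec_ne_zero i) _ z

/-- The hypotenuse is a side of both triangles. -/
lemma double_sideMirror_self : (T.double k).sideMirror k = T.sideMirror k := by
  unfold sideMirror sideVec
  rw [T.double_vertex_one, T.double_vertex_two]

lemma double_reflect_self (θ : Dir) : (T.double k).reflect k θ = T.reflect k θ := by
  unfold reflect
  rw [T.double_vertex_one, T.double_vertex_two]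

/-- The doubled leg lies on the line of the leg joining `k` and `k + 1`. -/
lemma double_sideMirror_two : (T.double k).sideMirror (k + 2) = T.sideMirror (k + 2) := by
  unfold sideMirror sideVec
  rw [fin3_add_two_add_one, fin3_add_two_add_two, T.double_vertex_self, T.double_vertex_one]
  have hd : T.vertex (k + 1) - T.vertex k ≠ 0 := T.leg_ne_zero' k
  have e1 : T.vertex (k + 1) - (2 * T.vertex k - T.vertex (k + 1))
      = ((2 : ℝ) : ℂ) * (T.vertex (k + 1) - T.vertex k) := by
    push_cast
    ring
  have e2 : 2 * T.vertex k - T.vertex (k + 1)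
      = T.vertex k + ((-1 : ℝ) : ℂ) * (T.vertex (k + 1) - T.vertex k) := by
    push_cast
    ring
  rw [e1, mirror_smul_dir _ _ (by norm_num : (2 : ℝ) ≠ 0), e2, mirror_base hd]

lemma double_reflect_two (θ : Dir) : (T.double k).reflect (k + 2) θ = T.reflect (k + 2) θ := by
  unfold reflect
  rw [fin3_add_two_add_one, fin3_add_two_add_two, T.double_vertex_self, T.double_vertex_one]
  have e1 : T.vertex (k + 1) - (2 * T.vertex k - T.vertex (k + 1))
      = ((2 : ℝ) : ℂ) * (T.vertex (k + 1) - T.vertex k) := by
    push_cast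
    ring
  rw [e1, Complex.arg_real_mul _ (by norm_num : (0 : ℝ) < 2)]

/-- The vertex `k + 2` is on the mirror line. -/
lemma sideMirror_succ_vertex : T.sideMirror (k + 1) (T.vertex (k + 2)) = T.vertex (k + 2) := by
  unfold sideMirror
  rw [fin3_add_one_add_one]
  exact mirror_self _ _

variable {T k}

/-- The third side of the doubled triangle, seen from the vertex `k + 2`. -/
private lemma RightAt.double_leg (h : T.RightAt k) :
    2 * T.vertex k - T.vertex (k + 1) - T.vertex (k + 2)
      = (T.vertex k - T.vertex (k + 2)) / (starRingEnd ℂ) (T.vertex k - T.vertex (k + 2))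
        * (starRingEnd ℂ) (T.vertex (k + 1) - T.vertex (k + 2)) := by
  have h20 : k + 2 ≠ k := fin3_succ_succ_ne k
  have h21 : k + 2 ≠ k + 1 := fin3_succ_succ_ne_succ k
  have h10 : k + 1 ≠ k := fin3_succ_ne k
  have e1 : T.sideMirror (k + 1) = mirror (T.vertex (k + 2)) (T.vertex k - T.vertex (k + 2)) :=
    T.sideMirror_of_distinct h20 h21 h10.symm
  have hv := h.mirror_vertex
  rw [e1] at hv
  rw [← hv]
  simp [mirror]

/-- The mirror image of the hypotenuse is the third side of the doubled triangle. -/
lemma RightAt.double_sideMirror_one (h : T.RightAt k) (z : ℂ) :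
    (T.double k).sideMirror (k + 1) z
      = T.sideMirror (k + 1) (T.sideMirror k (T.sideMirror (k + 1) z)) := by
  have h20 : k + 2 ≠ k := fin3_succ_succ_ne k
  have h21 : k + 2 ≠ k + 1 := fin3_succ_succ_ne_succ k
  have h10 : k + 1 ≠ k := fin3_succ_ne k
  have e1 : T.sideMirror (k + 1) = mirror (T.vertex (k + 2)) (T.vertex k - T.vertex (k + 2)) :=
    T.sideMirror_of_distinct h20 h21 h10.symm
  have e2 : T.sideMirror k = mirror (T.vertex (k + 2)) (T.vertex (k + 1) - T.vertex (k + 2)) :=
    T.sideMirror_of_distinct h21 h20 h10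
  have e3 : (T.double k).sideMirror (k + 1)
      = mirror (T.vertex (k + 2)) (2 * T.vertex k - T.vertex (k + 1) - T.vertex (k + 2)) := by
    rw [(T.double k).sideMirror_of_distinct h20 h21 h10.symm, T.double_vertex_two,
      T.double_vertex_self]
  have hX : T.vertex k - T.vertex (k + 2) ≠ 0 := sub_ne_zero.mpr (T.vertex_ne' h20.symm)
  have hY : T.vertex (k + 1) - T.vertex (k + 2) ≠ 0 := sub_ne_zero.mpr (T.vertex_ne' h21.symm)
  rw [e3, e1, e2, h.double_leg]
  exact mirror_three _ _ _ z hX hY

lemma RightAt.double_reflect_one (h : T.RightAt k) (θ : Dir) :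
    (T.double k).reflect (k + 1) θ = T.reflect (k + 1) (T.reflect k (T.reflect (k + 1) θ)) := by
  have h20 : k + 2 ≠ k := fin3_succ_succ_ne k
  have h21 : k + 2 ≠ k + 1 := fin3_succ_succ_ne_succ k
  have h10 : k + 1 ≠ k := fin3_succ_ne k
  have hX : T.vertex k - T.vertex (k + 2) ≠ 0 := sub_ne_zero.mpr (T.vertex_ne' h20.symm)
  have hY : T.vertex (k + 1) - T.vertex (k + 2) ≠ 0 := sub_ne_zero.mpr (T.vertex_ne' h21.symm)
  apply dirVec_injective
  rw [(T.double k).dirVec_reflect_of_distinct h20 h21 h10.symm, T.double_vertex_two,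
    T.double_vertex_self, T.dirVec_reflect_of_distinct h20 h21 h10.symm,
    T.dirVec_reflect_of_distinct h21 h20 h10, T.dirVec_reflect_of_distinct h20 h21 h10.symm,
    h.double_leg]
  exact mirror_three_dir _ _ _ hX hY

/-- The reflections in the two legs commute. -/
lemma RightAt.reflect_comm (h : T.RightAt k) (θ : Dir) :
    T.reflect (k + 2) (T.reflect (k + 1) θ) = T.reflect (k + 1) (T.reflect (k + 2) θ) := by
  have h02 : k ≠ k + 2 := (fin3_succ_succ_ne k).symm
  have h01 : k ≠ k + 1 := (fin3_succ_ne k).symm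
  have h12 : k + 1 ≠ k + 2 := (fin3_succ_succ_ne_succ k).symm
  have hp := h.perp
  have hd1 : T.vertex (k + 2) - T.vertex k ≠ 0 := T.leg_ne_zero k
  have hd2 : T.vertex (k + 1) - T.vertex k ≠ 0 := T.leg_ne_zero' k
  apply dirVec_injective
  rw [T.dirVec_reflect_of_distinct h01 h02 h12, T.dirVec_reflect_of_distinct h02 h01 h12.symm,
    T.dirVec_reflect_of_distinct h02 h01 h12.symm, T.dirVec_reflect_of_distinct h01 h02 h12]
  generalize T.vertex (k + 2) - T.vertex k = d₁ at hp hd1 ⊢
  generalize T.vertex (k + 1) - T.vertex k = d₂ at hp hd2 ⊢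
  generalize dirVec θ = w
  have hc1 : (starRingEnd ℂ) d₁ ≠ 0 := by simpa using hd1
  have hc2 : (starRingEnd ℂ) d₂ ≠ 0 := by simpa using hd2
  simp only [map_mul, map_div₀, Complex.conj_conj]
  field_simp
  linear_combination (-(w * (d₁ * (starRingEnd ℂ) d₂ - d₂ * (starRingEnd ℂ) d₁))) * hp

lemma RightAt.mirror_vertex' (h : T.RightAt k) :
    T.sideMirror (k + 1) (2 * T.vertex k - T.vertex (k + 1)) = T.vertex (k + 1) := by
  rw [← h.mirror_vertex, h.mirror_mirror]

end Triangle

end Vale.Agent.Lib.P099
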