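import Vale.Agent.Lib.P099.Double2

/-!
# Billiards in a right triangle: sides of the doubled triangle and the folding map

The sides of the doubled triangle `T.double k` are expressed through those of `T`, and
the folding map sends a phase point of the doubled table to the corresponding phase point
of `T`.
-/

namespace Vale.Agent.Lib.P099

open Set

namespace Triangle

variable (T : Triangle) (k : Fin 3)

lemma double_side_self {Y : ℂ} (hY : Y ∈ (T.double k).side k) :
    Y ∈ T.side k ∧ 0 < T.bc (k + 1) Y := by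
  obtain ⟨c0, c1, c2⟩ := (T.double k).bc_of_mem_side hY
  obtain ⟨b0, b1, b2⟩ := T.bc_double k Y
  have h0 : T.bc k Y = 0 := by rw [b0, c0, mul_zero]
  have h1 : 0 < T.bc (k + 1) Y := by rw [b1, c0, sub_zero]; exact c1
  have h2 : 0 < T.bc (k + 2) Y := by rw [b2]; exact c2
  exact ⟨T.mem_side_of_bc h0 h1 h2, h1⟩

lemma double_side_two {Y : ℂ} (hY : Y ∈ (T.double k).side (k + 2)) :
    (0 < T.bc (k + 1) Y → Y ∈ T.side (k + 2)) ∧ (T.bc (k + 1) Y = 0 → Y = T.vertex k) := by
  obtain ⟨c2, c0, c1⟩ := (T.double k).bc_of_mem_side hY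
  rw [fin3_add_two_add_one] at c0
  rw [fin3_add_two_add_two] at c1
  obtain ⟨b0, b1, b2⟩ := T.bc_double k Y
  have h2 : T.bc (k + 2) Y = 0 := by rw [b2, c2]
  have h0 : 0 < T.bc k Y := by rw [b0]; linarith
  constructor
  · intro h1
    apply T.mem_side_of_bc h2
    · rw [fin3_add_two_add_one]; exact h0
    · rw [fin3_add_two_add_two]; exact h1
  · intro h1
    exact T.eq_vertex_of_bc h1 h2

/-- The folding map: a phase point of the doubled table beyond the leg is replaced by its
mirror image. -/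
noncomputable def fold (p : ℂ × Dir) : ℂ × Dir :=
  if 0 ≤ T.bc (k + 1) p.1 then p else (T.sideMirror (k + 1) p.1, T.reflect (k + 1) p.2)

lemma fold_of_nonneg {p : ℂ × Dir} (h : 0 ≤ T.bc (k + 1) p.1) : T.fold k p = p := by
  unfold fold
  rw [if_pos h]

lemma fold_of_neg {p : ℂ × Dir} (h : T.bc (k + 1) p.1 < 0) :
    T.fold k p = (T.sideMirror (k + 1) p.1, T.reflect (k + 1) p.2) := by
  unfold fold
  rw [if_neg (not_le.mpr h)]

variable {T k}

lemma RightAt.double_side_one (h : T.RightAt k) {Y : ℂ} (hY : Y ∈ (T.double k).side (k + 1)) :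
    T.bc (k + 1) Y < 0 ∧ T.sideMirror (k + 1) Y ∈ T.side k := by
  obtain ⟨c1, c2, c0⟩ := (T.double k).bc_of_mem_side hY
  rw [fin3_add_one_add_one] at c2
  rw [fin3_add_one_add_two] at c0
  obtain ⟨b0, b1, b2⟩ := T.bc_double k Y
  obtain ⟨m0, m1, m2⟩ := h.bc_mirror Y
  have hb : T.bc (k + 1) Y < 0 := by rw [b1, c1]; linarith
  refine ⟨hb, ?_⟩
  apply T.mem_side_of_bc
  · rw [m0, b0, b1, c1]; ring
  · rw [m1]; linarith
  · rw [m2, b2]; exact c2

lemma RightAt.double_side_two_neg (h : T.RightAt k) {Y : ℂ} (hY : Y ∈ (T.double k).side (k + 2))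
    (hb : T.bc (k + 1) Y < 0) : T.sideMirror (k + 1) Y ∈ T.side (k + 2) := by
  obtain ⟨c2, c0, c1⟩ := (T.double k).bc_of_mem_side hY
  rw [fin3_add_two_add_one] at c0
  rw [fin3_add_two_add_two] at c1
  obtain ⟨b0, b1, b2⟩ := T.bc_double k Y
  obtain ⟨m0, m1, m2⟩ := h.bc_mirror Y
  apply T.mem_side_of_bc
  · rw [m2, b2, c2]
  · rw [fin3_add_two_add_one, m0, b0, b1]; linarith
  · rw [fin3_add_two_add_two, m1]; linarith

/-- A point of a side of the doubled triangle which is on the mirror line is the vertex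
`k`. -/
lemma RightAt.double_side_zero (h : T.RightAt k) {i' : Fin 3} {Y : ℂ}
    (hY : Y ∈ (T.double k).side i') (hb : T.bc (k + 1) Y = 0) : Y = T.vertex k := by
  rcases fin3_cases k i' with rfl | rfl | rfl
  · have h1 := (T.double_side_self i' hY).2
    rw [hb] at h1
    exact absurd h1 (lt_irrefl 0)
  · have h1 := (h.double_side_one hY).1
    rw [hb] at h1
    exact absurd h1 (lt_irrefl 0)
  · exact (T.double_side_two k hY).2 hb

/-- Folding a reflection of the doubled triangle: the folded point lies on a side of `T`,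
and the folded reflected direction is the reflection of the folded direction. -/
lemma RightAt.fold_bounce (h : T.RightAt k) {i' : Fin 3} {Y : ℂ}
    (hY : Y ∈ (T.double k).side i') (hb : T.bc (k + 1) Y ≠ 0) (θ : Dir) :
    ∃ iT : Fin 3, (T.fold k (Y, θ)).1 ∈ T.side iT ∧
      T.fold k (Y, (T.double k).reflect i' θ)
        = ((T.fold k (Y, θ)).1, T.reflect iT (T.fold k (Y, θ)).2) := by
  rcases fin3_cases k i' with rfl | rfl | rfl
  · obtain ⟨hs, hpos⟩ := T.double_side_self i' hY
    have e1 : T.fold i' (Y, θ) = (Y, θ) := T.fold_of_nonneg i' (p := (Y, θ)) hpos.le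
    have e2 : T.fold i' (Y, (T.double i').reflect i' θ) = (Y, (T.double i').reflect i' θ) :=
      T.fold_of_nonneg i' (p := (Y, (T.double i').reflect i' θ)) hpos.le
    refine ⟨i', ?_, ?_⟩
    · rw [e1]; exact hs
    · rw [e1, e2, T.double_reflect_self]
  · obtain ⟨hneg, hs⟩ := h.double_side_one hY
    have e1 : T.fold k (Y, θ) = (T.sideMirror (k + 1) Y, T.reflect (k + 1) θ) :=
      T.fold_of_neg k (p := (Y, θ)) hneg
    have e2 : T.fold k (Y, (T.double k).reflect (k + 1) θ)
        = (T.sideMirror (k + 1) Y, T.reflect (k + 1) ((T.double k).reflect (k + 1) θ)) :=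
      T.fold_of_neg k (p := (Y, (T.double k).reflect (k + 1) θ)) hneg
    refine ⟨k, ?_, ?_⟩
    · rw [e1]; exact hs
    · rw [e1, e2, h.double_reflect_one, T.reflect_reflect]
  · rcases lt_or_gt_of_ne hb with hneg | hpos
    · have hs := h.double_side_two_neg hY hneg
      have e1 : T.fold k (Y, θ) = (T.sideMirror (k + 1) Y, T.reflect (k + 1) θ) :=
        T.fold_of_neg k (p := (Y, θ)) hneg
      have e2 : T.fold k (Y, (T.double k).reflect (k + 2) θ)
          = (T.sideMirror (k + 1) Y, T.reflect (k + 1) ((T.double k).reflect (k + 2) θ)) :=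
        T.fold_of_neg k (p := (Y, (T.double k).reflect (k + 2) θ)) hneg
      refine ⟨k + 2, ?_, ?_⟩
      · rw [e1]; exact hs
      · rw [e1, e2, T.double_reflect_two, h.reflect_comm]
    · have hs := (T.double_side_two k hY).1 hpos
      have e1 : T.fold k (Y, θ) = (Y, θ) := T.fold_of_nonneg k (p := (Y, θ)) hpos.le
      have e2 : T.fold k (Y, (T.double k).reflect (k + 2) θ)
          = (Y, (T.double k).reflect (k + 2) θ) :=
        T.fold_of_nonneg k (p := (Y, (T.double k).reflect (k + 2) θ)) hpos.le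
      refine ⟨k + 2, ?_, ?_⟩
      · rw [e1]; exact hs
      · rw [e1, e2, T.double_reflect_two]

end Triangle

end Vale.Agent.Lib.P099
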