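import Vale.Agent.Lib.P099.Continuous
import Vale.Agent.Lib.P099.Stable

/-!
# Billiards in a triangle with three irrational angles: continuous eigenfunctions

A continuous function `Fn` on the phase space with `Fn ∘ Φ_t = exp (i lam t) Fn` is, on
the rays leaving a vertex, equal to `c exp (i lam s)` (`s` the distance to the vertex), and
on the rays entering it equal to `c exp (-i lam s)`, with one constant `c` per vertex.
Following a ray which leaves a vertex almost along a side relates the constants of the two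
ends of this side.
-/

namespace Vale.Agent.Lib.P099

open Set Filter Topology

lemma norm_exp_lam (lam t : ℝ) : ‖Complex.exp (lam * t * Complex.I)‖ = 1 := by
  have e : ((lam : ℂ) * t * Complex.I) = ((lam * t : ℝ) : ℂ) * Complex.I := by push_cast; ring
  rw [e]
  exact Complex.norm_exp_ofReal_mul_I _

namespace Frame

variable {T : Triangle} {i j k : Fin 3} (F : Frame T i j k)

/-- The relation between the values of a continuous eigenfunction on the ray entering the
vertex at the polar angle `φ` and on the ray leaving it after the passage on the side of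
the increasing polar angles. -/
lemma passage_eigen {Fn : ℂ × Dir → ℂ} {lam : ℝ} (hFc : ContinuousOn Fn (T.table ×ˢ univ))
    (hinv : ∀ (t : ℝ) (p q : ℂ × Dir), T.Reach t p q → p.1 ∈ T.table → q.1 ∈ T.table →
      Fn q = Complex.exp (lam * t * Complex.I) * Fn p)
    {φ : ℝ} (hφ0 : 0 < φ) (hφα : φ < F.α) (N : ℕ) (hN1 : N * F.α < φ + Real.pi)
    (hN2 : φ + Real.pi < (N + 1) * F.α) {s₀ s₁ : ℝ} (hs₀ : 0 < s₀) (hs₀' : s₀ < F.r₀)
    (hs₁ : 0 < s₁) (hs₁' : s₁ < F.r₀) :
    Fn (T.vertex i + (s₁ : ℂ) * F.E (F.fN N (φ + Real.pi)), F.dE (F.fN N (φ + Real.pi)))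
      = Complex.exp (lam * ((s₀ + s₁ : ℝ) : ℂ) * Complex.I)
        * Fn (T.vertex i + (s₀ : ℂ) * F.E φ, F.dE (φ + Real.pi)) := by
  set θ := F.dE (φ + Real.pi) with hθ
  have hu : dirVec θ = -F.E φ := by rw [hθ, F.dirVec_dE, F.E_add_pi]
  set X : ℝ → ℂ := fun ε => F.xε φ s₀ ε with hX
  set Y : ℝ → ℂ := fun ε => T.unfG F.J N (X ε + ((s₀ + s₁ : ℝ) : ℂ) * dirVec θ) with hY
  have hXc : Continuous X := by
    simp only [hX, xε]
    fun_prop
  have hYc : Continuous Y :=
    (T.unf_unfG F.J N).continuous.comp (hXc.add continuous_const)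
  have hX0 : X 0 = T.vertex i + (s₀ : ℂ) * F.E φ := by
    simp [hX, xε]
  have hψ : 0 < F.fN N (φ + Real.pi) ∧ F.fN N (φ + Real.pi) < F.α := by
    unfold fN
    split_ifs
    · constructor <;> linarith
    · constructor <;> linarith
  have hY0 : Y 0 = T.vertex i + (s₁ : ℂ) * F.E (F.fN N (φ + Real.pi)) := by
    have e : X 0 + ((s₀ + s₁ : ℝ) : ℂ) * dirVec θ = T.vertex i + (s₁ : ℂ) * F.E (φ + Real.pi) := by
      rw [hX0, hu, F.E_add_pi]; push_cast; ring
    simp only [hY]
    rw [e, F.unfG_E]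
  have hX0mem : X 0 ∈ T.table := by rw [hX0]; exact F.mem_table hs₀ hs₀' hφ0 hφα
  have hY0mem : Y 0 ∈ T.table := by rw [hY0]; exact F.mem_table hs₁ hs₁' hψ.1 hψ.2
  have hlb : (𝓝[>] (0 : ℝ)) ≤ 𝓝 0 := nhdsWithin_le_nhds
  have e1 : ∀ᶠ ε in 𝓝[>] (0 : ℝ), X ε ∈ T.table :=
    hlb (hXc.continuousAt.eventually (T.isOpen_table.mem_nhds hX0mem))
  have e2 : ∀ᶠ ε in 𝓝[>] (0 : ℝ), Y ε ∈ T.table :=
    hlb (hYc.continuousAt.eventually (T.isOpen_table.mem_nhds hY0mem))
  have e3 : ∀ᶠ ε in 𝓝[>] (0 : ℝ), 0 < ε := self_mem_nhdsWithin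
  have hmin : 0 < min F.la F.lb := lt_min F.hla F.hlb
  have e4 : ∀ᶠ ε in 𝓝[>] (0 : ℝ), ∀ m ∈ Finset.Icc 1 N,
      ε / Real.sin (m * F.α - φ) < min F.la F.lb := by
    rw [Filter.eventually_all_finset]
    intro m _
    apply hlb
    have hc : Continuous (fun ε : ℝ => ε / Real.sin (m * F.α - φ)) := by fun_prop
    have h0 : (fun ε : ℝ => ε / Real.sin (m * F.α - φ)) 0 < min F.la F.lb := by
      simp only [zero_div]; exact hmin
    exact hc.continuousAt.eventually (gt_mem_nhds h0)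
  have e5 : ∀ᶠ ε in 𝓝[>] (0 : ℝ), 0 < s₀ + ε * F.cN φ 1 := by
    apply hlb
    have hc : Continuous (fun ε : ℝ => s₀ + ε * F.cN φ 1) := by fun_prop
    have h0 : 0 < (fun ε : ℝ => s₀ + ε * F.cN φ 1) 0 := by simpa using hs₀
    exact hc.continuousAt.eventually (lt_mem_nhds h0)
  have e6 : ∀ᶠ ε in 𝓝[>] (0 : ℝ), ε * F.cN φ N < s₁ := by
    apply hlb
    have hc : Continuous (fun ε : ℝ => ε * F.cN φ N) := by fun_prop
    have h0 : (fun ε : ℝ => ε * F.cN φ N) 0 < s₁ := by simpa using hs₁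
    exact hc.continuousAt.eventually (gt_mem_nhds h0)
  have hev : ∀ᶠ ε in 𝓝[>] (0 : ℝ), Fn (Y ε, F.dE (F.fN N (φ + Real.pi)))
      = Complex.exp (lam * ((s₀ + s₁ : ℝ) : ℂ) * Complex.I) * Fn (X ε, θ) := by
    filter_upwards [e1, e2, e3, e4, e5, e6] with ε h1 h2 h3 h4 h5 h6
    have hR := F.reach_passage hφα N hN1 (add_pos hs₀ hs₁) h3 h1 h2
      (fun m hm1 hmN => h4 m (Finset.mem_Icc.mpr ⟨hm1, hmN⟩)) (fun _ => h5) (fun _ => h6)
    exact hinv _ _ _ hR h1 h2
  have hopen : IsOpen (T.table ×ˢ (univ : Set Dir)) := T.isOpen_table.prod isOpen_univ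
  have hcX : Tendsto (fun ε => Fn (X ε, θ)) (𝓝[>] (0 : ℝ)) (𝓝 (Fn (X 0, θ))) := by
    have hca : ContinuousAt Fn (X 0, θ) :=
      hFc.continuousAt (hopen.mem_nhds ⟨hX0mem, mem_univ _⟩)
    have hcm : Continuous (fun ε => (X ε, θ)) := hXc.prodMk continuous_const
    exact (hca.tendsto.comp hcm.continuousAt.tendsto).mono_left hlb
  have hcY : Tendsto (fun ε => Fn (Y ε, F.dE (F.fN N (φ + Real.pi)))) (𝓝[>] (0 : ℝ))
      (𝓝 (Fn (Y 0, F.dE (F.fN N (φ + Real.pi))))) := by
    have hca : ContinuousAt Fn (Y 0, F.dE (F.fN N (φ + Real.pi))) :=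
      hFc.continuousAt (hopen.mem_nhds ⟨hY0mem, mem_univ _⟩)
    have hcm : Continuous (fun ε => (Y ε, F.dE (F.fN N (φ + Real.pi)))) :=
      hYc.prodMk continuous_const
    exact (hca.tendsto.comp hcm.continuousAt.tendsto).mono_left hlb
  have hlim := tendsto_nhds_unique (hcY.congr' hev)
    (hcX.const_mul (Complex.exp (lam * ((s₀ + s₁ : ℝ) : ℂ) * Complex.I)))
  rw [hX0, hY0] at hlim
  exact hlim

/-- The starting point, at the distance `s` from the vertex `j`, of the line issued from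
the vertex `j` which makes the angle `ψ` with the side joining `j` to `i`. -/
lemma xε_neg (ψ s : ℝ) :
    F.xε (-ψ) (F.la * Real.cos ψ - s) (F.la * Real.sin ψ)
      = T.vertex j + (s : ℂ) * F.E (Real.pi - ψ) := by
  unfold xε
  rw [F.vtx_j]
  have h1 : F.E (Real.pi - ψ) = -F.E (-ψ) := by
    have := F.E_add_pi (-ψ)
    rw [← this]; congr 1; ring
  have h2 : F.a = F.E (-ψ) * Complex.exp ((F.sg * ψ : ℝ) * Complex.I) := by
    rw [← F.E_add]
    have : -ψ + ψ = 0 := by ring
    rw [this, F.E_zero]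
  rw [h1]
  conv_rhs => rw [h2]
  rw [F.exp_sg]
  push_cast
  ring

lemma continuous_fN (N : ℕ) : Continuous (F.fN N) := by
  unfold fN
  split_ifs <;> fun_prop

lemma la_eq : F.la = dist (T.vertex i) (T.vertex j) := by
  rw [F.vtx_j, dist_eq_norm]
  have : T.vertex i - (T.vertex i + (F.la : ℂ) * F.a) = -((F.la : ℂ) * F.a) := by ring
  rw [this, norm_neg, norm_mul, F.norm_a, mul_one, Complex.norm_real, Real.norm_eq_abs,
    abs_of_pos F.hla]

/-- Barycentric coordinates of a point close to the side joining `i` to `j`, seen from the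
vertex `j`. -/
lemma bc_from_j (s ψ : ℝ) :
    T.bc k (T.vertex j + (s : ℂ) * F.E (Real.pi - ψ))
      = s * Real.sin ψ / (F.lb * Real.sin F.α) := by
  obtain ⟨-, -, h3⟩ := F.bc_point s (Real.pi - ψ)
  have h0 : T.bc k (T.vertex i) = 0 := T.bc_vertex_ne F.hik.symm
  have h0' : T.bc k (T.vertex j) = 0 := T.bc_vertex_ne F.hjk.symm
  rw [T.bc_add_smul] at h3 ⊢
  rw [h0] at h3
  rw [h0', zero_add]
  rw [zero_add] at h3
  rw [h3, Real.sin_pi_sub]

/-- Following the rays which leave the vertex `j` almost along the side joining `j` to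
`i`: they pass close to the vertex `i` and leave it close to a definite ray.  If the
function is `c exp (i lam s)` on the rays leaving `j`, its value on this ray is obtained. -/
lemma side_passage {Fn : ℂ × Dir → ℂ} {lam : ℝ} (hFc : ContinuousOn Fn (T.table ×ˢ univ))
    (hinv : ∀ (t : ℝ) (p q : ℂ × Dir), T.Reach t p q → p.1 ∈ T.table → q.1 ∈ T.table →
      Fn q = Complex.exp (lam * t * Complex.I) * Fn p)
    (N : ℕ) (hN1 : N * F.α < Real.pi) (hN2 : Real.pi < (N + 1) * F.α) {c : ℂ} {s s₁ : ℝ}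
    (hs : 0 < s) (hs' : s < F.la) (hs₁ : 0 < s₁) (hs₁' : s₁ < F.r₀)
    (hc : ∀ ψ : ℝ, 0 < ψ → T.vertex j + (s : ℂ) * F.E (Real.pi - ψ) ∈ T.table →
      Fn (T.vertex j + (s : ℂ) * F.E (Real.pi - ψ), F.dE (Real.pi - ψ))
        = c * Complex.exp (lam * s * Complex.I)) :
    Fn (T.vertex i + (s₁ : ℂ) * F.E (F.fN N Real.pi), F.dE (F.fN N Real.pi))
      = c * Complex.exp (lam * ((F.la + s₁ : ℝ) : ℂ) * Complex.I) := by
  have hπ := Real.pi_pos
  have hα := F.hα0
  have hsα := F.sin_α_pos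
  have hla := F.hla
  have hlb' := F.hlb
  set X : ℝ → ℂ := fun ψ => T.vertex j + (s : ℂ) * F.E (Real.pi - ψ) with hX
  set Y : ℝ → ℂ := fun ψ => T.unfG F.J N (X ψ
    + ((F.la * Real.cos ψ - s + s₁ : ℝ) : ℂ) * dirVec (F.dE (-ψ + Real.pi))) with hY
  have hXc : Continuous X := by
    simp only [hX]
    exact continuous_const.add (continuous_const.mul
      (F.continuous_E.comp (continuous_const.sub continuous_id)))
  have hYc : Continuous Y := by
    apply (T.unf_unfG F.J N).continuous.comp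
    apply hXc.add
    apply Continuous.mul
    · exact Complex.continuous_ofReal.comp (by fun_prop)
    · simp only [F.dirVec_dE]
      exact F.continuous_E.comp (by fun_prop)
  have hψ : 0 < F.fN N Real.pi ∧ F.fN N Real.pi < F.α := by
    unfold fN
    split_ifs
    · constructor <;> linarith
    · constructor <;> linarith
  have hY0 : Y 0 = T.vertex i + (s₁ : ℂ) * F.E (F.fN N Real.pi) := by
    have e : X 0 + ((F.la * Real.cos 0 - s + s₁ : ℝ) : ℂ) * dirVec (F.dE (-0 + Real.pi))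
        = T.vertex i + (s₁ : ℂ) * F.E Real.pi := by
      simp only [hX]
      rw [F.dirVec_dE, F.vtx_j, Real.cos_zero, neg_zero, zero_add, sub_zero]
      have hE : F.E Real.pi = -F.a := by
        have := F.E_add_pi 0
        rw [zero_add, F.E_zero] at this
        exact this
      rw [hE]
      push_cast
      ring
    simp only [hY]
    rw [e, F.unfG_E]
  have hY0mem : Y 0 ∈ T.table := by rw [hY0]; exact F.mem_table hs₁ hs₁' hψ.1 hψ.2
  have hX0 : X 0 = T.vertex i + ((F.la - s : ℝ) : ℂ) * F.E 0 := by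
    simp only [hX]
    rw [F.vtx_j, sub_zero, F.E_zero]
    have hE : F.E Real.pi = -F.a := by
      have := F.E_add_pi 0
      rw [zero_add, F.E_zero] at this
      exact this
    rw [hE]
    push_cast
    ring
  have hlb : (𝓝[>] (0 : ℝ)) ≤ 𝓝 0 := nhdsWithin_le_nhds
  have e0 : ∀ᶠ ψ in 𝓝[>] (0 : ℝ), 0 < ψ := self_mem_nhdsWithin
  have ea : ∀ᶠ ψ in 𝓝[>] (0 : ℝ), ψ < Real.pi - N * F.α :=
    hlb (gt_mem_nhds (by linarith))
  -- the starting point is in the table
  have ebi : ∀ᶠ ψ in 𝓝[>] (0 : ℝ), 0 < T.bc i (X ψ) := by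
    apply hlb
    have hcc : Continuous (fun ψ => T.bc i (X ψ)) := (T.bc_continuous i).comp hXc
    have h0 : 0 < T.bc i (X 0) := by
      rw [hX0]
      obtain ⟨h1, -, -⟩ := F.bc_point (F.la - s) 0
      rw [h1]
      simp only [sub_zero, Real.sin_zero, mul_zero, zero_div]
      have e : (F.la - s) * Real.sin F.α / (F.la * Real.sin F.α) = (F.la - s) / F.la := by
        field_simp
      rw [e]
      have : (F.la - s) / F.la < 1 := by rw [div_lt_one hla]; linarith
      linarith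
    exact hcc.continuousAt.eventually (lt_mem_nhds h0)
  have ebj : ∀ᶠ ψ in 𝓝[>] (0 : ℝ), 0 < T.bc j (X ψ) := by
    apply hlb
    have hcc : Continuous (fun ψ => T.bc j (X ψ)) := (T.bc_continuous j).comp hXc
    have h0 : 0 < T.bc j (X 0) := by
      rw [hX0]
      obtain ⟨-, h2, -⟩ := F.bc_point (F.la - s) 0
      rw [h2]
      simp only [sub_zero]
      have : 0 < F.la - s := by linarith
      positivity
    exact hcc.continuousAt.eventually (lt_mem_nhds h0)
  have e1 : ∀ᶠ ψ in 𝓝[>] (0 : ℝ), X ψ ∈ T.table := by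
    filter_upwards [e0, ea, ebi, ebj] with ψ h0 ha hi hj
    apply T.mem_table_of_distinct F.hij F.hik F.hjk hi hj
    simp only [hX]
    rw [F.bc_from_j]
    have hN0 : (0 : ℝ) ≤ N * F.α := by positivity
    have : 0 < Real.sin ψ := Real.sin_pos_of_pos_of_lt_pi h0 (by linarith)
    positivity
  have e2 : ∀ᶠ ψ in 𝓝[>] (0 : ℝ), Y ψ ∈ T.table :=
    hlb (hYc.continuousAt.eventually (T.isOpen_table.mem_nhds hY0mem))
  have e3 : ∀ᶠ ψ in 𝓝[>] (0 : ℝ), 0 < F.la * Real.cos ψ - s := by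
    apply hlb
    have hcc : Continuous (fun ψ : ℝ => F.la * Real.cos ψ - s) := by fun_prop
    have h0 : 0 < (fun ψ : ℝ => F.la * Real.cos ψ - s) 0 := by
      simp only [Real.cos_zero, mul_one]; linarith
    exact hcc.continuousAt.eventually (lt_mem_nhds h0)
  have hmin : 0 < min F.la F.lb := lt_min F.hla F.hlb
  have hsinm : ∀ m : ℕ, 1 ≤ m → m ≤ N → 0 < Real.sin (m * F.α) := by
    intro m hm1 hmN
    have h1 : (1 : ℝ) ≤ m := by exact_mod_cast hm1
    have h2 : (m : ℝ) ≤ N := by exact_mod_cast hmN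
    apply Real.sin_pos_of_pos_of_lt_pi
    · nlinarith
    · nlinarith
  have e4 : ∀ᶠ ψ in 𝓝[>] (0 : ℝ), ∀ m ∈ Finset.Icc 1 N,
      F.la * Real.sin ψ / Real.sin (m * F.α - -ψ) < min F.la F.lb := by
    rw [Filter.eventually_all_finset]
    intro m hm
    obtain ⟨hm1, hmN⟩ := Finset.mem_Icc.mp hm
    apply hlb
    have hca : ContinuousAt (fun ψ : ℝ => F.la * Real.sin ψ / Real.sin (m * F.α - -ψ)) 0 := by
      apply ContinuousAt.div (by fun_prop) (by fun_prop)
      simp only [neg_zero, sub_zero]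
      exact (hsinm m hm1 hmN).ne'
    have h0 : (fun ψ : ℝ => F.la * Real.sin ψ / Real.sin (m * F.α - -ψ)) 0 < min F.la F.lb := by
      simp only [Real.sin_zero, mul_zero, zero_div]; exact hmin
    exact hca.eventually (gt_mem_nhds h0)
  have e5 : ∀ᶠ ψ in 𝓝[>] (0 : ℝ),
      0 < F.la * Real.cos ψ - s + F.la * Real.sin ψ * F.cN (-ψ) 1 := by
    apply hlb
    have hca : ContinuousAt
        (fun ψ : ℝ => F.la * Real.cos ψ - s + F.la * Real.sin ψ * F.cN (-ψ) 1) 0 := by
      unfold cN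
      apply ContinuousAt.add (by fun_prop)
      apply ContinuousAt.mul (by fun_prop)
      apply ContinuousAt.div (by fun_prop) (by fun_prop)
      simp only [neg_zero, sub_zero, Nat.cast_one, one_mul]
      exact hsα.ne'
    have h0 : 0 < (fun ψ : ℝ => F.la * Real.cos ψ - s + F.la * Real.sin ψ * F.cN (-ψ) 1) 0 := by
      simp only [Real.cos_zero, Real.sin_zero, mul_one, mul_zero, zero_mul, add_zero]
      linarith
    exact hca.eventually (lt_mem_nhds h0)
  have e6 : ∀ᶠ ψ in 𝓝[>] (0 : ℝ), 1 ≤ N → F.la * Real.sin ψ * F.cN (-ψ) N < s₁ := by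
    by_cases hN : 1 ≤ N
    · apply hlb
      have hca : ContinuousAt (fun ψ : ℝ => F.la * Real.sin ψ * F.cN (-ψ) N) 0 := by
        unfold cN
        apply ContinuousAt.mul (by fun_prop)
        apply ContinuousAt.div (by fun_prop) (by fun_prop)
        simp only [neg_zero, sub_zero]
        exact (hsinm N hN le_rfl).ne'
      have h0 : (fun ψ : ℝ => F.la * Real.sin ψ * F.cN (-ψ) N) 0 < s₁ := by
        simp only [Real.sin_zero, mul_zero, zero_mul]
        exact hs₁
      filter_upwards [hca.eventually (gt_mem_nhds h0)] with ψ hψ' _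
      exact hψ'
    · exact Filter.Eventually.of_forall (fun ψ h => absurd h hN)
  have hev : ∀ᶠ ψ in 𝓝[>] (0 : ℝ), Fn (Y ψ, F.dE (F.fN N (-ψ + Real.pi)))
      = c * Complex.exp (lam * ((F.la * Real.cos ψ + s₁ : ℝ) : ℂ) * Complex.I) := by
    filter_upwards [e0, ea, e1, e2, e3, e4, e5, e6] with ψ h0 ha h1 h2 h3 h4 h5 h6
    have hN0 : (0 : ℝ) ≤ N * F.α := by positivity
    have hε : 0 < F.la * Real.sin ψ := by
      have : 0 < Real.sin ψ := Real.sin_pos_of_pos_of_lt_pi h0 (by linarith)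
      positivity
    have hx : F.xε (-ψ) (F.la * Real.cos ψ - s) (F.la * Real.sin ψ) ∈ T.table := by
      rw [F.xε_neg]; exact h1
    have hy : T.unfG F.J N (F.xε (-ψ) (F.la * Real.cos ψ - s) (F.la * Real.sin ψ)
        + ((F.la * Real.cos ψ - s + s₁ : ℝ) : ℂ) * dirVec (F.dE (-ψ + Real.pi))) ∈ T.table := by
      rw [F.xε_neg]; exact h2
    have hR := F.reach_passage (φ := -ψ) (by linarith) N (by linarith) (add_pos h3 hs₁) hε hx hy
      (fun m hm1 hmN => h4 m (Finset.mem_Icc.mpr ⟨hm1, hmN⟩)) (fun _ => h5) h6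
    have hI := hinv _ _ _ hR hx hy
    rw [F.xε_neg] at hI
    have hdir : F.dE (-ψ + Real.pi) = F.dE (Real.pi - ψ) := by
      congr 1; ring
    have hcψ := hc ψ h0 h1
    rw [← hdir] at hcψ
    simp only [hY, hX]
    rw [hI, hcψ]
    have e : (lam : ℂ) * ((F.la * Real.cos ψ + s₁ : ℝ) : ℂ) * Complex.I
        = (lam : ℂ) * ((F.la * Real.cos ψ - s + s₁ : ℝ) : ℂ) * Complex.I
          + (lam : ℂ) * (s : ℂ) * Complex.I := by
      push_cast; ring
    rw [e, Complex.exp_add]
    ring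
  have hopen : IsOpen (T.table ×ˢ (univ : Set Dir)) := T.isOpen_table.prod isOpen_univ
  have hcY : Tendsto (fun ψ => Fn (Y ψ, F.dE (F.fN N (-ψ + Real.pi)))) (𝓝[>] (0 : ℝ))
      (𝓝 (Fn (Y 0, F.dE (F.fN N Real.pi)))) := by
    have hca : ContinuousAt Fn (Y 0, F.dE (F.fN N Real.pi)) :=
      hFc.continuousAt (hopen.mem_nhds ⟨hY0mem, mem_univ _⟩)
    have hcm : Continuous (fun ψ : ℝ => (Y ψ, F.dE (F.fN N (-ψ + Real.pi)))) :=
      hYc.prodMk (F.continuous_dE.comp ((F.continuous_fN N).comp (by fun_prop)))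
    have h00 : (fun ψ : ℝ => (Y ψ, F.dE (F.fN N (-ψ + Real.pi)))) 0
        = (Y 0, F.dE (F.fN N Real.pi)) := by
      simp
    have hca' : ContinuousAt Fn ((fun ψ : ℝ => (Y ψ, F.dE (F.fN N (-ψ + Real.pi)))) 0) := by
      rw [h00]; exact hca
    exact (hca'.tendsto.comp hcm.continuousAt.tendsto).mono_left hlb |>.trans (by rw [h00])
  have hcR : Tendsto (fun ψ : ℝ =>
      c * Complex.exp (lam * ((F.la * Real.cos ψ + s₁ : ℝ) : ℂ) * Complex.I)) (𝓝[>] (0 : ℝ))
      (𝓝 (c * Complex.exp (lam * ((F.la + s₁ : ℝ) : ℂ) * Complex.I))) := by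
    have hcc : Continuous (fun ψ : ℝ =>
        c * Complex.exp (lam * ((F.la * Real.cos ψ + s₁ : ℝ) : ℂ) * Complex.I)) := by
      apply continuous_const.mul
      apply Complex.continuous_exp.comp
      apply Continuous.mul _ continuous_const
      apply continuous_const.mul
      exact Complex.continuous_ofReal.comp (by fun_prop)
    have h := hcc.continuousAt (x := 0)
    rw [ContinuousAt] at h
    simp only [Real.cos_zero, mul_one] at h
    exact h.mono_left hlb
  have hlim := tendsto_nhds_unique (hcY.congr' hev) hcR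
  rw [hY0] at hlim
  exact hlim

end Frame

end Vale.Agent.Lib.P099
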