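import Vale.Agent.Lib.P099.Eigen

/-!
# Billiards in a triangle with three irrational angles: continuous eigenfunctions
(main statements)
-/

namespace Vale.Agent.Lib.P099

open Set Filter Topology

/-- The phase factor `exp (i lam t)`. -/
noncomputable def ph (lam t : ℝ) : ℂ := Complex.exp (lam * t * Complex.I)

lemma ph_ne_zero (lam t : ℝ) : ph lam t ≠ 0 := Complex.exp_ne_zero _

lemma ph_add (lam a b : ℝ) : ph lam (a + b) = ph lam a * ph lam b := by
  unfold ph
  rw [← Complex.exp_add]
  congr 1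
  push_cast; ring

lemma ph_sub (lam a b : ℝ) : ph lam (a - b) = ph lam a / ph lam b := by
  rw [eq_div_iff (ph_ne_zero lam b), ← ph_add]
  congr 1
  ring

lemma ph_neg_exp (lam t : ℝ) : Complex.exp (-(lam * t * Complex.I)) = (ph lam t)⁻¹ := by
  rw [Complex.exp_neg]
  rfl

lemma ph_zero (lam : ℝ) : ph lam 0 = 1 := by
  unfold ph
  simp

namespace Triangle

variable {T : Triangle}

lemma interiorAngle_bounds (i : Fin 3) (hirr : Irrational (T.interiorAngle i / Real.pi)) :
    0 < T.interiorAngle i ∧ T.interiorAngle i < Real.pi := by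
  have hπ := Real.pi_pos
  constructor
  · rcases (EuclideanGeometry.angle_nonneg (T.vertex (i + 1)) (T.vertex i)
      (T.vertex (i + 2))).lt_or_eq with h | h
    · exact h
    · exfalso
      apply hirr.ne_rational 0 1
      unfold interiorAngle
      rw [← h]; simp
  · rcases (EuclideanGeometry.angle_le_pi (T.vertex (i + 1)) (T.vertex i)
      (T.vertex (i + 2))).lt_or_eq with h | h
    · exact h
    · exfalso
      apply hirr.ne_rational 1 1
      unfold interiorAngle
      rw [h]; simp [hπ.ne']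

lemma angle_of_distinct {a b k : Fin 3} (hab : a ≠ b) (hak : a ≠ k) (hbk : b ≠ k) :
    EuclideanGeometry.angle (T.vertex b) (T.vertex a) (T.vertex k) = T.interiorAngle a := by
  rcases fin3_distinct_succ hbk hab.symm hak.symm with ⟨h1, h2⟩ | ⟨h1, h2⟩
  · unfold interiorAngle; rw [h1, h2]
  · unfold interiorAngle; rw [h1, h2]; exact EuclideanGeometry.angle_comm _ _ _

/-- A continuous eigenfunction is, on the rays entering a vertex with an irrational angle,
equal to `c exp (-i lam s)`, and on the rays leaving it equal to `c exp (i lam s)`, where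
`s` is the distance to the vertex. -/
theorem vertex_eigen {Fn : ℂ × Dir → ℂ} {lam : ℝ} (hFc : ContinuousOn Fn (T.table ×ˢ univ))
    (hinv : ∀ (t : ℝ) (p q : ℂ × Dir), T.Reach t p q → p.1 ∈ T.table → q.1 ∈ T.table →
      Fn q = Complex.exp (lam * t * Complex.I) * Fn p)
    (i : Fin 3) (hirr : Irrational (T.interiorAngle i / Real.pi)) :
    ∃ c : ℂ, ∀ y ∈ T.table, ∀ θ : Dir, ∀ s : ℝ, 0 < s →
      (y + (s : ℂ) * dirVec θ = T.vertex i →
        Fn (y, θ) = c * Complex.exp (-(lam * s * Complex.I))) ∧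
      (y = T.vertex i + (s : ℂ) * dirVec θ →
        Fn (y, θ) = c * Complex.exp (lam * s * Complex.I)) := by
  have hπ := Real.pi_pos
  obtain ⟨hα0, hαπ⟩ := interiorAngle_bounds i hirr
  obtain ⟨F, hFα⟩ := T.exists_frame (fin3_ne_add_one i) (fin3_ne_add_two i)
    (fin3_add_one_ne_add_two i) hα0 hαπ
  have hFα' : F.α = T.interiorAngle i := hFα
  set v := T.vertex i with hv
  set s₀ := F.r₀ / 2 with hs₀
  have hs₀pos : 0 < s₀ := by have := F.r₀_pos; rw [hs₀]; linarith
  have hs₀lt : s₀ < F.r₀ := by have := F.r₀_pos; rw [hs₀]; linarith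
  set H : ℝ → ℂ := fun φ => Complex.exp (lam * s₀ * Complex.I)
    * Fn (v + (s₀ : ℂ) * F.E φ, F.dE (φ + Real.pi)) with hH
  set G : ℝ → ℂ := fun ψ => Complex.exp (-(lam * s₀ * Complex.I))
    * Fn (v + (s₀ : ℂ) * F.E ψ, F.dE ψ) with hG
  have hGc : ContinuousOn G (Ioo 0 F.α) := by
    have hmap : Continuous (fun ψ : ℝ => (v + (s₀ : ℂ) * F.E ψ, F.dE ψ)) :=
      (continuous_const.add (continuous_const.mul F.continuous_E)).prodMk F.continuous_dE
    apply continuousOn_const.mul
    apply hFc.comp hmap.continuousOn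
    intro ψ hψ
    exact ⟨F.mem_table hs₀pos hs₀lt hψ.1 hψ.2, mem_univ _⟩
  have hexp : Complex.exp (-(lam * s₀ * Complex.I))
      * Complex.exp (lam * ((s₀ + s₀ : ℝ) : ℂ) * Complex.I)
      = Complex.exp (lam * s₀ * Complex.I) := by
    rw [← Complex.exp_add]
    congr 1
    push_cast; ring
  have hL : ∀ φ, 0 < φ → φ < F.α → (∀ n : ℤ, φ + Real.pi ≠ n * F.α) →
      H φ = G (fold F.α (φ + Real.pi)) := by
    intro φ hφ0 hφα hlat
    obtain ⟨N, hN1, hN2⟩ := F.exists_nat_between (by linarith) hlat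
    rw [F.fold_eq_fN hN1 hN2]
    have hp := F.passage_eigen hFc hinv hφ0 hφα N hN1 hN2 hs₀pos hs₀lt hs₀pos hs₀lt
    simp only [hH, hG]
    rw [hp, ← mul_assoc, hexp]
  have hR : ∀ φ, 0 < φ → φ < F.α → (∀ n : ℤ, φ - Real.pi ≠ n * F.α) →
      H φ = G (fold F.α (φ - Real.pi)) := by
    intro φ hφ0 hφα hlat
    have hlat' : ∀ n : ℤ, (F.α - φ) + Real.pi ≠ n * F.flip.α := by
      intro n h
      apply hlat (1 - n)
      rw [F.flip_α] at h
      push_cast; linarith
    obtain ⟨N, hN1, hN2⟩ := F.flip.exists_nat_between (by linarith [F.hα0]) hlat'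
    have hp := F.flip.passage_eigen hFc hinv (φ := F.α - φ) (by linarith)
      (by rw [F.flip_α]; linarith)
      N hN1 hN2 (s₀ := s₀) (s₁ := s₀) hs₀pos (by rw [F.flip_r₀]; exact hs₀lt) hs₀pos
      (by rw [F.flip_r₀]; exact hs₀lt)
    rw [F.flip_E, F.flip_dE, F.flip_E, F.flip_dE] at hp
    have e1 : F.α - (F.α - φ) = φ := by ring
    have e2 : F.α - (F.α - φ + Real.pi) = (φ - Real.pi) := by ring
    rw [e1, e2] at hp
    have e3 : F.dE (φ - Real.pi) = F.dE (φ + Real.pi) := by
      have := F.dE_add_two_pi (φ - Real.pi)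
      rw [← this]; congr 1; ring
    rw [e3] at hp
    have hfold : fold F.α (φ - Real.pi) = F.α - F.flip.fN N (F.α - φ + Real.pi) := by
      rw [F.flip_α] at hN1 hN2
      have h := fold_of_mem F.hα0 (x := φ - Real.pi) (n := -(N : ℤ)) (by push_cast; linarith)
        (by push_cast; linarith)
      rw [h, Frame.fN, F.flip_α]
      by_cases hN : N % 2 = 0
      · have he : Even (-(N : ℤ)) := by
          rw [even_neg]; exact (Int.even_coe_nat N).mpr (Nat.even_iff.mpr hN)
        rw [if_pos he, if_pos hN]; push_cast; ring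
      · have he : ¬ Even (-(N : ℤ)) := by
          rw [even_neg]
          exact fun h => hN (Nat.even_iff.mp ((Int.even_coe_nat N).mp h))
        rw [if_neg he, if_neg hN]; push_cast; ring
    rw [hfold]
    simp only [hH, hG]
    rw [hp, ← mul_assoc, hexp]
  have hirr' : Irrational (F.α / Real.pi) := by rw [hFα']; exact hirr
  obtain ⟨c, hcH, hcG⟩ := const_of_passages_both F.hα0 hirr' hGc hL hR
  refine ⟨c, ?_⟩
  intro y hy θ s hs
  obtain ⟨r, ψ, hr, hψ0, hψα, hyr⟩ := F.exists_polar hy
  have hP : v + (s₀ : ℂ) * F.E ψ ∈ T.table := F.mem_table hs₀pos hs₀lt hψ0 hψα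
  have hA := ph_ne_zero lam s₀
  have hB := ph_ne_zero lam r
  constructor
  · intro hys
    have hdir : (s : ℂ) * dirVec θ = (r : ℂ) * F.E (ψ + Real.pi) := by
      rw [F.E_add_pi]
      have : (s : ℂ) * dirVec θ = v - y := by rw [← hys]; ring
      rw [this, hyr]; ring
    have hsr : s = r := by
      have h1 := congrArg norm hdir
      rw [norm_mul, norm_mul, norm_dirVec, F.norm_E, Complex.norm_real, Complex.norm_real,
        Real.norm_eq_abs, Real.norm_eq_abs, abs_of_pos hs, abs_of_pos hr] at h1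
      linarith
    have hθ' : θ = F.dE (ψ + Real.pi) := by
      apply dirVec_injective
      rw [F.dirVec_dE]
      have hr' : (r : ℂ) ≠ 0 := by exact_mod_cast hr.ne'
      rw [hsr] at hdir
      exact mul_left_cancel₀ hr' hdir
    have hu : dirVec θ = -F.E ψ := by rw [hθ', F.dirVec_dE, F.E_add_pi]
    have hHψ : ph lam s₀ * Fn (v + (s₀ : ℂ) * F.E ψ, θ) = c := by
      have := hcH ψ hψ0 hψα
      simp only [hH] at this
      rw [← hθ'] at this
      exact this
    rw [hsr, ph_neg_exp]
    rcases le_total s₀ r with hle | hle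
    · have hR := T.reach_segment hy hP (θ := θ) (d := r - s₀) (by linarith)
        (by rw [hu, hyr]; push_cast; ring)
      have hI : Fn (v + (s₀ : ℂ) * F.E ψ, θ) = ph lam (r - s₀) * Fn (y, θ) :=
        hinv _ _ _ hR hy hP
      rw [← hHψ, hI, ph_sub]
      field_simp
    · have hR := T.reach_segment hP hy (θ := θ) (d := s₀ - r) (by linarith)
        (by rw [hu, hyr]; push_cast; ring)
      have hI : Fn (y, θ) = ph lam (s₀ - r) * Fn (v + (s₀ : ℂ) * F.E ψ, θ) :=
        hinv _ _ _ hR hP hy
      rw [← hHψ, hI, ph_sub]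
      field_simp
  · intro hys
    have hdir : (s : ℂ) * dirVec θ = (r : ℂ) * F.E ψ := by
      have : (s : ℂ) * dirVec θ = y - v := by rw [hys]; ring
      rw [this, hyr]; ring
    have hsr : s = r := by
      have h1 := congrArg norm hdir
      rw [norm_mul, norm_mul, norm_dirVec, F.norm_E, Complex.norm_real, Complex.norm_real,
        Real.norm_eq_abs, Real.norm_eq_abs, abs_of_pos hs, abs_of_pos hr] at h1
      linarith
    have hθ' : θ = F.dE ψ := by
      apply dirVec_injective
      rw [F.dirVec_dE]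
      have hr' : (r : ℂ) ≠ 0 := by exact_mod_cast hr.ne'
      rw [hsr] at hdir
      exact mul_left_cancel₀ hr' hdir
    have hu : dirVec θ = F.E ψ := by rw [hθ', F.dirVec_dE]
    have hGψ : (ph lam s₀)⁻¹ * Fn (v + (s₀ : ℂ) * F.E ψ, θ) = c := by
      have := hcG ψ hψ0 hψα
      simp only [hG] at this
      rw [ph_neg_exp, ← hθ'] at this
      exact this
    rw [hsr]
    change Fn (y, θ) = c * ph lam r
    rcases le_total s₀ r with hle | hle
    · have hR := T.reach_segment hP hy (θ := θ) (d := r - s₀) (by linarith)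
        (by rw [hu, hyr]; push_cast; ring)
      have hI : Fn (y, θ) = ph lam (r - s₀) * Fn (v + (s₀ : ℂ) * F.E ψ, θ) :=
        hinv _ _ _ hR hP hy
      rw [← hGψ, hI, ph_sub]
      field_simp
    · have hR := T.reach_segment hy hP (θ := θ) (d := s₀ - r) (by linarith)
        (by rw [hu, hyr]; push_cast; ring)
      have hI : Fn (v + (s₀ : ℂ) * F.E ψ, θ) = ph lam (s₀ - r) * Fn (y, θ) :=
        hinv _ _ _ hR hy hP
      rw [← hGψ, hI, ph_sub]
      field_simp

/-- For a triangle with three irrational angles, a continuous eigenfunction either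
vanishes identically or its frequency `lam` satisfies `lam * l ∈ π ℤ` for the length `l`
of each side. -/
theorem eigen_reach (hT : ∀ i, Irrational (T.interiorAngle i / Real.pi))
    {Fn : ℂ × Dir → ℂ} {lam : ℝ} (hFc : ContinuousOn Fn (T.table ×ˢ univ))
    (hinv : ∀ (t : ℝ) (p q : ℂ × Dir), T.Reach t p q → p.1 ∈ T.table → q.1 ∈ T.table →
      Fn q = Complex.exp (lam * t * Complex.I) * Fn p) :
    (∀ p ∈ T.table ×ˢ (univ : Set Dir), Fn p = 0) ∨
      ((∀ a b : Fin 3, a ≠ b → ∃ n : ℤ, lam * dist (T.vertex a) (T.vertex b) = n * Real.pi) ∧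
        ∃ m : ℤ, lam * (dist (T.vertex 0) (T.vertex 1) + dist (T.vertex 1) (T.vertex 2)
          + dist (T.vertex 2) (T.vertex 0)) = 2 * m * Real.pi) := by
  have hπ := Real.pi_pos
  -- the modulus is a continuous invariant function, hence constant
  have hnc : ContinuousOn (fun p => ((‖Fn p‖ : ℝ) : ℂ)) (T.table ×ˢ (univ : Set Dir)) :=
    Complex.continuous_ofReal.comp_continuousOn hFc.norm
  have hninv : ∀ (t : ℝ) (p q : ℂ × Dir), T.Reach t p q → p.1 ∈ T.table → q.1 ∈ T.table →
      ((‖Fn q‖ : ℝ) : ℂ) = ((‖Fn p‖ : ℝ) : ℂ) := by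
    intro t p q hR hp hq
    rw [hinv t p q hR hp hq, norm_mul, norm_exp_lam, one_mul]
  obtain ⟨κ, hκ⟩ := continuous_invariant_const_reach hT hnc hninv
  choose c hc using fun i => vertex_eigen hFc hinv i (hT i)
  by_cases hzero : ∀ p ∈ T.table ×ˢ (univ : Set Dir), Fn p = 0
  · exact Or.inl hzero
  right
  have hκ0 : κ ≠ 0 := by
    intro h0
    apply hzero
    intro p hp
    have h1 := hκ p hp
    rw [h0] at h1
    have h2 : ‖Fn p‖ = 0 := by exact_mod_cast h1
    exact norm_eq_zero.mp h2
  have key : ∀ a b : Fin 3, a ≠ b →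
      c a = c b * ph lam (dist (T.vertex a) (T.vertex b)) ∧ c a ≠ 0 := by
    intro a b hab
    obtain ⟨k, hak, hbk⟩ : ∃ k : Fin 3, a ≠ k ∧ b ≠ k := by
      revert a b; decide
    obtain ⟨hα0, hαπ⟩ := interiorAngle_bounds a (hT a)
    have hang := angle_of_distinct (T := T) hab hak hbk
    obtain ⟨F, hFα⟩ := T.exists_frame hab hak hbk (by rw [hang]; exact hα0)
      (by rw [hang]; exact hαπ)
    have hFα' : F.α = T.interiorAngle a := by rw [hFα, hang]
    have hlat : ∀ n : ℤ, Real.pi ≠ n * F.α := by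
      intro n hn
      have hn0 : (n : ℝ) ≠ 0 := by
        intro h0
        rw [h0, zero_mul] at hn
        exact hπ.ne' hn
      apply (hT a).ne_rational 1 n
      rw [← hFα', hn]
      have := F.hα0.ne'
      push_cast
      field_simp
    obtain ⟨N, hN1, hN2⟩ := F.exists_nat_between hπ hlat
    set s := F.la / 2 with hs
    set s₁ := F.r₀ / 2 with hs₁
    have hspos : 0 < s := by have := F.hla; rw [hs]; linarith
    have hslt : s < F.la := by have := F.hla; rw [hs]; linarith
    have hs₁pos : 0 < s₁ := by have := F.r₀_pos; rw [hs₁]; linarith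
    have hs₁lt : s₁ < F.r₀ := by have := F.r₀_pos; rw [hs₁]; linarith
    have hψ : 0 < F.fN N Real.pi ∧ F.fN N Real.pi < F.α := by
      unfold Frame.fN
      split_ifs
      · constructor <;> linarith
      · constructor <;> linarith
    have hsp := F.side_passage hFc hinv N hN1 hN2 (c := c b) hspos hslt hs₁pos hs₁lt
      (fun ψ _ hmem => (hc b _ hmem (F.dE (Real.pi - ψ)) s hspos).2 (by rw [F.dirVec_dE]))
    have hmem : T.vertex a + (s₁ : ℂ) * F.E (F.fN N Real.pi) ∈ T.table :=
      F.mem_table hs₁pos hs₁lt hψ.1 hψ.2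
    have hout0 := (hc a _ hmem (F.dE (F.fN N Real.pi)) s₁ hs₁pos).2 (by rw [F.dirVec_dE])
    have hout := hout0
    rw [hsp] at hout
    have hout' : c b * ph lam (F.la + s₁) = c a * ph lam s₁ := hout
    rw [ph_add, ← F.la_eq] at *
    have hB := ph_ne_zero lam s₁
    constructor
    · have : c b * ph lam F.la * ph lam s₁ = c a * ph lam s₁ := by rw [← hout']; ring
      exact (mul_right_cancel₀ hB this).symm
    · intro hca
      have hval : Fn (T.vertex a + (s₁ : ℂ) * F.E (F.fN N Real.pi), F.dE (F.fN N Real.pi)) = 0 := by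
        rw [hout0, hca, zero_mul]
      have h1 := hκ (T.vertex a + (s₁ : ℂ) * F.E (F.fN N Real.pi), F.dE (F.fN N Real.pi))
        ⟨hmem, mem_univ _⟩
      simp only [hval, norm_zero, Complex.ofReal_zero] at h1
      exact hκ0 h1.symm
  have hI : Complex.I ≠ 0 := Complex.I_ne_zero
  constructor
  · intro a b hab
    obtain ⟨h1, ha0⟩ := key a b hab
    obtain ⟨h2, -⟩ := key b a hab.symm
    rw [dist_comm] at h2
    set d := dist (T.vertex a) (T.vertex b) with hd
    have hE : ph lam d * ph lam d = 1 := by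
      have : c a * (ph lam d * ph lam d) = c a * 1 := by
        rw [mul_one]
        conv_rhs => rw [h1, h2]
        ring
      exact mul_left_cancel₀ ha0 this
    rw [← ph_add] at hE
    unfold ph at hE
    obtain ⟨n, hn⟩ := Complex.exp_eq_one_iff.mp hE
    refine ⟨n, ?_⟩
    have h3 : ((lam * d : ℝ) : ℂ) = ((n * Real.pi : ℝ) : ℂ) := by
      push_cast
      apply mul_right_cancel₀ hI
      push_cast at hn
      linear_combination hn / 2
    exact_mod_cast h3
  · obtain ⟨h01, h0⟩ := key 0 1 (by decide)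
    obtain ⟨h12, -⟩ := key 1 2 (by decide)
    obtain ⟨h20, -⟩ := key 2 0 (by decide)
    set d₁ := dist (T.vertex 0) (T.vertex 1) with hd₁
    set d₂ := dist (T.vertex 1) (T.vertex 2) with hd₂
    set d₃ := dist (T.vertex 2) (T.vertex 0) with hd₃
    have hE : ph lam (d₁ + d₂ + d₃) = 1 := by
      have : c 0 * ph lam (d₁ + d₂ + d₃) = c 0 * 1 := by
        rw [mul_one, ph_add, ph_add]
        conv_rhs => rw [h01, h12, h20]
        ring
      exact mul_left_cancel₀ h0 this
    unfold ph at hE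
    obtain ⟨m, hm⟩ := Complex.exp_eq_one_iff.mp hE
    refine ⟨m, ?_⟩
    have h3 : ((lam * (d₁ + d₂ + d₃) : ℝ) : ℂ) = ((2 * m * Real.pi : ℝ) : ℂ) := by
      push_cast
      apply mul_right_cancel₀ hI
      push_cast at hm
      linear_combination hm
    exact_mod_cast h3

/-- Triangles with three irrational angles: a continuous function on the phase space which
satisfies `Fn ∘ Φ_t = exp (i lam t) Fn` almost everywhere, for every `t`, is constant when
`lam = 0`; in general, it vanishes identically unless `lam * l ∈ π ℤ` for the length `l`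
of each of the three sides. -/
theorem continuous_eigen (hT : ∀ i, Irrational (T.interiorAngle i / Real.pi))
    {Fn : ℂ × Dir → ℂ} (hFc : ContinuousOn Fn (T.table ×ˢ univ)) (lam : ℝ)
    (hae : ∀ t : ℝ, (fun p => Fn (T.flow t p)) =ᵐ[T.mu]
      fun p => Complex.exp (lam * t * Complex.I) * Fn p) :
    (lam = 0 → ∃ c : ℂ, ∀ p ∈ T.table ×ˢ (univ : Set Dir), Fn p = c) ∧
    ((∀ p ∈ T.table ×ˢ (univ : Set Dir), Fn p = 0) ∨
      ((∀ i : Fin 3, ∃ n : ℤ, lam * dist (T.vertex (i + 1)) (T.vertex (i + 2)) = n * Real.pi) ∧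
        ∃ m : ℤ, lam * ∑ i : Fin 3, dist (T.vertex (i + 1)) (T.vertex (i + 2))
          = 2 * m * Real.pi)) := by
  have hinv : ∀ (t : ℝ) (p q : ℂ × Dir), T.Reach t p q → p.1 ∈ T.table → q.1 ∈ T.table →
      Fn q = Complex.exp (lam * t * Complex.I) * Fn p :=
    fun t p q hR hp hq => T.reach_eq_of_ae hFc lam hae hR hp hq
  constructor
  · intro h0
    apply continuous_invariant_const_reach hT hFc
    intro t p q hR hp hq
    have := hinv t p q hR hp hq
    rw [h0] at this
    simpa using this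
  · rcases eigen_reach hT hFc hinv with h | ⟨h, m, hm⟩
    · exact Or.inl h
    · refine Or.inr ⟨fun i => h (i + 1) (i + 2) (fin3_add_one_ne_add_two i), m, ?_⟩
      rw [← hm, Fin.sum_univ_three]
      have e1 : (0 : Fin 3) + 1 = 1 := by decide
      have e2 : (0 : Fin 3) + 2 = 2 := by decide
      have e3 : (1 : Fin 3) + 1 = 2 := by decide
      have e4 : (1 : Fin 3) + 2 = 0 := by decide
      have e5 : (2 : Fin 3) + 1 = 0 := by decide
      have e6 : (2 : Fin 3) + 2 = 1 := by decide
      rw [e1, e2, e3, e4, e5, e6]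
      ring

/-- The same statement, together with its consequence for triangles having two
incommensurable sides. -/
theorem continuous_eigen_full (hT : ∀ i, Irrational (T.interiorAngle i / Real.pi))
    {Fn : ℂ × Dir → ℂ} (hFc : ContinuousOn Fn (T.table ×ˢ univ)) (lam : ℝ)
    (hae : ∀ t : ℝ, (fun p => Fn (T.flow t p)) =ᵐ[T.mu]
      fun p => Complex.exp (lam * t * Complex.I) * Fn p) :
    (lam = 0 → ∃ c : ℂ, ∀ p ∈ T.table ×ˢ (univ : Set Dir), Fn p = c) ∧
    ((∀ p ∈ T.table ×ˢ (univ : Set Dir), Fn p = 0) ∨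
      ((∀ i : Fin 3, ∃ n : ℤ, lam * dist (T.vertex (i + 1)) (T.vertex (i + 2)) = n * Real.pi) ∧
        ∃ m : ℤ, lam * ∑ i : Fin 3, dist (T.vertex (i + 1)) (T.vertex (i + 2))
          = 2 * m * Real.pi)) ∧
    (lam ≠ 0 → (∃ i j : Fin 3, Irrational (dist (T.vertex (i + 1)) (T.vertex (i + 2))
        / dist (T.vertex (j + 1)) (T.vertex (j + 2)))) →
      ∀ p ∈ T.table ×ˢ (univ : Set Dir), Fn p = 0) := by
  obtain ⟨h1, h2⟩ := continuous_eigen hT hFc lam hae
  refine ⟨h1, h2, ?_⟩
  intro hlam ⟨i, j, hirr⟩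
  rcases h2 with h | ⟨h, -⟩
  · exact h
  · exfalso
    obtain ⟨ni, hni⟩ := h i
    obtain ⟨nj, hnj⟩ := h j
    have hπ := Real.pi_pos
    have hdj : 0 < dist (T.vertex (j + 1)) (T.vertex (j + 2)) :=
      dist_pos.mpr (T.vertex_ne' (fin3_add_one_ne_add_two j))
    have hnj0 : (nj : ℝ) ≠ 0 := by
      intro h0
      rw [h0, zero_mul] at hnj
      exact (mul_ne_zero hlam hdj.ne') hnj
    apply hirr.ne_rational ni nj
    rw [div_eq_div_iff hdj.ne' hnj0]
    have e1 : dist (T.vertex (i + 1)) (T.vertex (i + 2)) = ni * Real.pi / lam := by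
      rw [← hni]; field_simp
    have e2 : dist (T.vertex (j + 1)) (T.vertex (j + 2)) = nj * Real.pi / lam := by
      rw [← hnj]; field_simp
    rw [e1, e2]
    ring

end Triangle

end Vale.Agent.Lib.P099
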