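import Vale.Agent.Lib.P099.NoEigen
import Vale.Agent.Lib.P099.Sets

/-!
# Billiards in an irrational triangle: continuous eigenfunctions have zeros, and an
ergodic billiard flow has no continuous eigenfunction

In every irrational triangle two of the angles are irrational multiples of `π`.  The
winding argument at the two corresponding vertices shows that a continuous eigenfunction
with a nonzero frequency must vanish somewhere.  If the billiard flow is ergodic, the
modulus of a continuous eigenfunction is constant; hence an ergodic billiard flow in an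
irrational triangle has no continuous eigenfunction besides the constants.
-/

namespace Vale.Agent.Lib.P099

open Set MeasureTheory
open scoped symmDiff

namespace Triangle

variable {T : Triangle}

/-- Every irrational triangle: a continuous eigenfunction of the billiard flow with a
nonzero frequency has a zero (trajectory form). -/
theorem eigen_exists_zero_reach (hT : T.IsIrrational) {Fn : ℂ × Dir → ℂ} {lam : ℝ}
    (hFc : ContinuousOn Fn (T.table ×ˢ univ))
    (hinv : ∀ (t : ℝ) (p q : ℂ × Dir), T.Reach t p q → p.1 ∈ T.table → q.1 ∈ T.table →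
      Fn q = Complex.exp (lam * t * Complex.I) * Fn p)
    (hlam : lam ≠ 0) : ∃ p ∈ T.table ×ˢ (univ : Set Dir), Fn p = 0 := by
  by_contra hcon
  have hne : ∀ p ∈ T.table ×ˢ (univ : Set Dir), Fn p ≠ 0 := fun p hp h0 => hcon ⟨p, hp, h0⟩
  obtain ⟨i, j, hij, hi, hj⟩ := T.two_irrational hT
  obtain ⟨ci, hci⟩ := vertex_eigen hFc hinv i hi
  obtain ⟨cj, hcj⟩ := vertex_eigen hFc hinv j hj
  have hci' : RayForm T Fn lam i ci := hci
  have hcj' : RayForm T Fn lam j cj := hcj
  exact hlam (lam_eq_zero_of_uniform (i := i) (j := j) hij hFc hne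
    (rayForm_ne_zero hci' hne) (rayForm_ne_zero hcj' hne) hcj
    (fun ε' hε' => vertex_uniform hFc hinv i hi hci' hε')
    (fun ε' hε' => vertex_uniform hFc hinv j hj hcj' hε'))

/-- A nonempty open subset of the phase space has positive measure. -/
lemma mu_ne_zero_of_open (T : Triangle) {U : Set (ℂ × Dir)} (hU : IsOpen U)
    (hsub : U ⊆ T.table ×ˢ (univ : Set Dir)) (hne : U.Nonempty) : T.mu U ≠ 0 := by
  intro h0
  have h1 : T.leb U = 0 := by
    have hae : ∀ᵐ p ∂T.mu, p ∉ U := measure_eq_zero_iff_ae_notMem.mp h0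
    rw [T.ae_mu] at hae
    exact measure_eq_zero_iff_ae_notMem.mpr hae
  rw [T.leb_eq, Measure.restrict_apply hU.measurableSet,
    inter_eq_left.mpr hsub] at h1
  exact (hU.measure_pos _ hne).ne' h1

/-- If the billiard flow is ergodic, a continuous function whose modulus is invariant
almost everywhere has a constant modulus. -/
theorem norm_const_of_ergodic (T : Triangle)
    (herg : ∀ A : Set (ℂ × Dir), MeasurableSet A →
      (∀ t : ℝ, T.mu ((T.flow t ⁻¹' A) ∆ A) = 0) → T.mu A = 0 ∨ T.mu A = 1)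
    {G : ℂ × Dir → ℂ} (hGc : ContinuousOn G (T.table ×ˢ univ))
    (hae : ∀ t : ℝ, (fun p => ‖G (T.flow t p)‖) =ᵐ[T.mu] fun p => ‖G p‖) :
    ∀ p ∈ T.table ×ˢ (univ : Set Dir), ∀ q ∈ T.table ×ˢ (univ : Set Dir), ‖G p‖ ≤ ‖G q‖ := by
  intro p hp q hq
  by_contra hlt
  have hlt' : ‖G q‖ < ‖G p‖ := not_le.mp hlt
  set c : ℝ := (‖G q‖ + ‖G p‖) / 2 with hc
  have hXopen : IsOpen (T.table ×ˢ (univ : Set Dir)) := T.isOpen_table.prod isOpen_univ
  have hnc : ContinuousOn (fun z => ‖G z‖) (T.table ×ˢ (univ : Set Dir)) := hGc.norm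
  set A : Set (ℂ × Dir) := (T.table ×ˢ (univ : Set Dir)) ∩ (fun z => ‖G z‖) ⁻¹' Ioi c with hA
  set B : Set (ℂ × Dir) := (T.table ×ˢ (univ : Set Dir)) ∩ (fun z => ‖G z‖) ⁻¹' Iio c with hB
  have hAopen : IsOpen A := hnc.isOpen_inter_preimage hXopen isOpen_Ioi
  have hBopen : IsOpen B := hnc.isOpen_inter_preimage hXopen isOpen_Iio
  have hpA : p ∈ A := ⟨hp, by
    change c < ‖G p‖
    rw [hc]; linarith⟩
  have hqB : q ∈ B := ⟨hq, by
    change ‖G q‖ < c
    rw [hc]; linarith⟩
  have hAinv : ∀ t : ℝ, T.mu ((T.flow t ⁻¹' A) ∆ A) = 0 := by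
    intro t
    have h1 : ∀ᵐ z ∂T.mu, z ∉ (T.flow t ⁻¹' A) ∆ A := by
      filter_upwards [hae t, T.ae_mu_fst_mem] with z hz hz1
      have hfz : (T.flow t z).1 ∈ T.table := T.flow_fst_mem hz1
      intro hmem
      rcases hmem with ⟨h1, h2⟩ | ⟨h1, h2⟩
      · apply h2
        refine ⟨⟨hz1, mem_univ _⟩, ?_⟩
        have h3 : c < ‖G (T.flow t z)‖ := h1.2
        change c < ‖G z‖
        rw [← hz]
        exact h3
      · apply h2
        refine ⟨⟨hfz, mem_univ _⟩, ?_⟩
        have h3 : c < ‖G z‖ := h1.2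
        change c < ‖G (T.flow t z)‖
        rw [hz]
        exact h3
    exact measure_eq_zero_iff_ae_notMem.mpr h1
  have hAB : Disjoint A B := by
    rw [Set.disjoint_left]
    intro z hzA hzB
    have h1 : c < ‖G z‖ := hzA.2
    have h2 : ‖G z‖ < c := hzB.2
    linarith
  have hA0 : T.mu A ≠ 0 := T.mu_ne_zero_of_open hAopen inter_subset_left ⟨p, hpA⟩
  have hB0 : T.mu B ≠ 0 := T.mu_ne_zero_of_open hBopen inter_subset_left ⟨q, hqB⟩
  have hA1 : T.mu A = 1 := (herg A hAopen.measurableSet hAinv).resolve_left hA0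
  have hfin : IsFiniteMeasure T.mu := ⟨by rw [T.mu_univ]; exact ENNReal.one_lt_top⟩
  have hsum : T.mu (A ∪ B) = T.mu A + T.mu B := measure_union hAB hBopen.measurableSet
  have hle : T.mu (A ∪ B) ≤ 1 := by
    rw [← T.mu_univ]
    exact measure_mono (subset_univ _)
  rw [hsum, hA1] at hle
  have hB0' : T.mu B = 0 := by
    by_contra hBne
    have hpos : 0 < T.mu B := pos_iff_ne_zero.mpr hBne
    have : (1 : ENNReal) < 1 + T.mu B := ENNReal.lt_add_right ENNReal.one_ne_top hBne
    exact absurd hle (not_le.mpr this)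
  exact hB0 hB0'

/-- Every irrational triangle: a continuous eigenfunction of the billiard flow with a
nonzero frequency has a zero; and if the billiard flow is ergodic, its continuous
eigenfunctions are constant (frequency zero) or vanish identically (nonzero frequency). -/
theorem ergodic_no_continuous_eigen (hT : T.IsIrrational) {Fn : ℂ × Dir → ℂ}
    (hFc : ContinuousOn Fn (T.table ×ˢ univ)) (lam : ℝ)
    (hae : ∀ t : ℝ, (fun p => Fn (T.flow t p)) =ᵐ[T.mu]
      fun p => Complex.exp (lam * t * Complex.I) * Fn p) :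
    (lam ≠ 0 → ∃ p ∈ T.table ×ˢ (univ : Set Dir), Fn p = 0) ∧
    ((∀ A : Set (ℂ × Dir), MeasurableSet A →
        (∀ t : ℝ, T.mu ((T.flow t ⁻¹' A) ∆ A) = 0) → T.mu A = 0 ∨ T.mu A = 1) →
      (lam = 0 → ∃ c : ℂ, ∀ p ∈ T.table ×ˢ (univ : Set Dir), Fn p = c) ∧
      (lam ≠ 0 → ∀ p ∈ T.table ×ˢ (univ : Set Dir), Fn p = 0)) := by
  have hinv : ∀ (t : ℝ) (p q : ℂ × Dir), T.Reach t p q → p.1 ∈ T.table → q.1 ∈ T.table →
      Fn q = Complex.exp (lam * t * Complex.I) * Fn p :=
    fun t p q hR hp hq => T.reach_eq_of_ae hFc lam hae hR hp hq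
  have hzero : lam ≠ 0 → ∃ p ∈ T.table ×ˢ (univ : Set Dir), Fn p = 0 :=
    fun hlam => eigen_exists_zero_reach hT hFc hinv hlam
  refine ⟨hzero, fun herg => ⟨?_, ?_⟩⟩
  · intro h0
    obtain ⟨x₀, hx₀⟩ := T.table_nonempty
    refine ⟨Fn (x₀, 0), ?_⟩
    intro p hp
    have hGc : ContinuousOn (fun z => Fn z - Fn (x₀, 0)) (T.table ×ˢ (univ : Set Dir)) :=
      hFc.sub continuousOn_const
    have hGae : ∀ t : ℝ, (fun z => ‖Fn (T.flow t z) - Fn (x₀, 0)‖) =ᵐ[T.mu]
        fun z => ‖Fn z - Fn (x₀, 0)‖ := by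
      intro t
      filter_upwards [hae t] with z hz
      rw [hz, h0]
      simp
    have h1 := T.norm_const_of_ergodic herg hGc hGae p hp (x₀, 0) ⟨hx₀, mem_univ _⟩
    rw [sub_self, norm_zero] at h1
    exact sub_eq_zero.mp (norm_eq_zero.mp (le_antisymm h1 (norm_nonneg _)))
  · intro hlam
    obtain ⟨p₀, hp₀, hp₀z⟩ := hzero hlam
    have hGae : ∀ t : ℝ, (fun z => ‖Fn (T.flow t z)‖) =ᵐ[T.mu] fun z => ‖Fn z‖ := by
      intro t
      filter_upwards [hae t] with z hz
      rw [hz, norm_mul, norm_exp_lam, one_mul]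
    intro p hp
    have h1 := T.norm_const_of_ergodic herg hFc hGae p hp p₀ hp₀
    rw [hp₀z, norm_zero] at h1
    exact norm_eq_zero.mp (le_antisymm h1 (norm_nonneg _))

end Triangle

end Vale.Agent.Lib.P099
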