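import Vale.Agent.Lib.P099.Unfold

/-!
# Billiards in a triangle: where an unfolded ray leaves the table
-/

namespace Vale.Agent.Lib.P099

open Set

namespace Triangle

variable (T : Triangle)

lemma eq_vertex_of_bc {i : Fin 3} {x : ℂ} (h1 : T.bc (i + 1) x = 0) (h2 : T.bc (i + 2) x = 0) :
    x = T.vertex i := by
  have hsum := T.sum_bc i x
  apply T.basis.ext_elem
  intro j
  change T.bc j x = T.bc j (T.vertex i)
  rcases fin3_cases i j with rfl | rfl | rfl
  · rw [T.bc_vertex_self]; linarith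
  · rw [h1, T.bc_vertex_ne (fin3_ne_add_one i).symm]
  · rw [h2, T.bc_vertex_ne (fin3_ne_add_two i).symm]

lemma bc_unf {g : ℂ → ℂ} {γ : Dir → Dir} (h : Unf g γ) (k : Fin 3) (x : ℂ) (θ : Dir) (r : ℝ) :
    T.bc k (g (x + (r : ℂ) * dirVec θ))
      = T.bc k (g x) + r * (T.bc k).linear (dirVec (γ θ)) := by
  rw [h.ray]
  have hsm : ((r : ℂ) * dirVec (γ θ)) = r • dirVec (γ θ) := by simp
  rw [hsm, bc_add, map_smul, smul_eq_mul]

lemma sum_bc_lin (i : Fin 3) (w : ℂ) :
    (T.bc i).linear w + (T.bc (i + 1)).linear w + (T.bc (i + 2)).linear w = 0 := by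
  have h1 := T.sum_bc i (0 + w)
  have h2 := T.sum_bc i 0
  simp only [bc_add] at h1
  linarith

lemma bc_lin_all_zero {w : ℂ} (h : ∀ k, (T.bc k).linear w = 0) : w = 0 := by
  have : (0 : ℂ) + w = 0 := by
    apply T.basis.ext_elem
    intro j
    change T.bc j (0 + w) = T.bc j 0
    rw [bc_add, h j, add_zero]
  simpa using this

/-- An unfolded ray that has just entered the table leaves it again, either through an
open side (transversally) or through a vertex. -/
lemma exists_exit {g : ℂ → ℂ} {γ : Dir → Dir} (h : Unf g γ) (x : ℂ) (θ : Dir) (t : ℝ)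
    (hin : ∃ ε : ℝ, 0 < ε ∧ ∀ r : ℝ, t < r → r ≤ t + ε → g (x + (r : ℂ) * dirVec θ) ∈ T.table) :
    ∃ t' : ℝ, t < t' ∧ (∀ r : ℝ, t < r → r < t' → g (x + (r : ℂ) * dirVec θ) ∈ T.table) ∧
      ((∃ k : Fin 3, g (x + (t' : ℂ) * dirVec θ) ∈ T.side k ∧
          (T.bc k).linear (dirVec (γ θ)) < 0) ∨
        (∃ i : Fin 3, g (x + (t' : ℂ) * dirVec θ) = T.vertex i)) := by
  obtain ⟨ε, hε, hin⟩ := hin
  set m : Fin 3 → ℝ := fun k => (T.bc k).linear (dirVec (γ θ)) with hm
  set b : Fin 3 → ℝ := fun k => T.bc k (g x) with hb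
  have hβ : ∀ (k : Fin 3) (r : ℝ), T.bc k (g (x + (r : ℂ) * dirVec θ)) = b k + r * m k :=
    fun k r => T.bc_unf h k x θ r
  have hpos : ∀ (k : Fin 3) (r : ℝ), t < r → r ≤ t + ε → 0 < b k + r * m k := by
    intro k r h1 h2
    rw [← hβ]
    exact (T.mem_table.mp (hin r h1 h2)) k
  -- some slope is negative
  have hneg : ∃ k, m k < 0 := by
    by_contra hcon'
    have hcon : ∀ k, 0 ≤ m k := fun k => not_lt.mp (fun hk => hcon' ⟨k, hk⟩)
    have hsum := T.sum_bc_lin 0 (dirVec (γ θ))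
    have hall : ∀ k, m k = 0 := by
      intro k
      have h0 := hcon 0
      have h1 := hcon (0 + 1)
      have h2 := hcon (0 + 2)
      rcases fin3_cases 0 k with rfl | rfl | rfl
      · simp only [hm] at h0 h1 h2 ⊢; linarith
      · simp only [hm] at h0 h1 h2 ⊢; linarith
      · simp only [hm] at h0 h1 h2 ⊢; linarith
    exact dirVec_ne_zero (γ θ) (T.bc_lin_all_zero hall)
  set S : Finset (Fin 3) := Finset.univ.filter (fun k => m k < 0) with hS
  have hSne : S.Nonempty := by
    obtain ⟨k, hk⟩ := hneg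
    exact ⟨k, by simp [hS, hk]⟩
  obtain ⟨k₀, hk₀S, hk₀min⟩ := Finset.exists_min_image S (fun k => - b k / m k) hSne
  have hk₀ : m k₀ < 0 := by simpa [hS] using hk₀S
  set t' : ℝ := - b k₀ / m k₀ with ht'
  have hroot : ∀ k, m k < 0 → ∀ r : ℝ, b k + r * m k = m k * (r - (- b k / m k)) := by
    intro k hk r
    have hmk : m k ≠ 0 := hk.ne
    field_simp
    ring
  have hlt : ∀ k, m k < 0 → t + ε < - b k / m k := by
    intro k hk
    have h1 := hpos k (t + ε) (by linarith) le_rfl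
    rw [hroot k hk] at h1
    by_contra hcon'
    have hcon := not_lt.mp hcon'
    have : m k * (t + ε - -b k / m k) ≤ 0 :=
      mul_nonpos_of_nonpos_of_nonneg hk.le (by linarith)
    linarith
  have htt' : t < t' := by have := hlt k₀ hk₀; linarith
  have hge : ∀ k (r : ℝ), t < r → r ≤ t' → 0 ≤ b k + r * m k ∧ (r < t' → 0 < b k + r * m k) := by
    intro k r h1 h2
    rcases lt_or_ge (m k) 0 with hk | hk
    · have hkS : k ∈ S := by simp [hS, hk]
      have h3 : t' ≤ - b k / m k := hk₀min k hkS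
      rw [hroot k hk]
      constructor
      · exact mul_nonneg_of_nonpos_of_nonpos hk.le (by linarith)
      · intro h4
        exact mul_pos_of_neg_of_neg hk (by linarith)
    · have h3 := hpos k (min r (t + ε)) (lt_min h1 (by linarith)) (min_le_right _ _)
      have h4 : 0 ≤ (r - min r (t + ε)) * m k :=
        mul_nonneg (by linarith [min_le_left r (t + ε)]) hk
      have h5 : 0 < b k + r * m k := by nlinarith
      exact ⟨h5.le, fun _ => h5⟩
  refine ⟨t', htt', ?_, ?_⟩
  · intro r h1 h2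
    rw [T.mem_table]
    intro k
    rw [hβ]
    exact (hge k r h1 h2.le).2 h2
  · have h0 : T.bc k₀ (g (x + (t' : ℂ) * dirVec θ)) = 0 := by
      rw [hβ, hroot k₀ hk₀]
      simp [ht']
    have h1 : 0 ≤ T.bc (k₀ + 1) (g (x + (t' : ℂ) * dirVec θ)) := by
      rw [hβ]; exact (hge _ t' htt' le_rfl).1
    have h2 : 0 ≤ T.bc (k₀ + 2) (g (x + (t' : ℂ) * dirVec θ)) := by
      rw [hβ]; exact (hge _ t' htt' le_rfl).1
    rcases h1.lt_or_eq with h1' | h1'
    · rcases h2.lt_or_eq with h2' | h2'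
      · left
        exact ⟨k₀, T.mem_side_of_bc h0 h1' h2', hk₀⟩
      · right
        refine ⟨k₀ + 1, T.eq_vertex_of_bc ?_ ?_⟩
        · rw [fin3_add_one_add_one]; exact h2'.symm
        · rw [fin3_add_one_add_two]; exact h0
    · right
      refine ⟨k₀ + 2, T.eq_vertex_of_bc ?_ ?_⟩
      · rw [fin3_add_two_add_one]; exact h0
      · rw [fin3_add_two_add_two]; exact h1'.symm

end Triangle

end Vale.Agent.Lib.P099
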