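import Vale.Agent.Lib.P099.RidgeExp

/-!
# A twisted ridge function which is a sum of `d` twisted ridge functions in other directions
-/

namespace Vale.Agent.Lib.P099

open MeasureTheory

private lemma rsum_rdot_eq (w x : ℂ) : rdot w x = w.re * x.re + w.im * x.im := by
  simp [rdot, Complex.mul_re]

private lemma rsum_norm_one {z : ℂ} (hz : ‖z‖ = 1) : z.re * z.re + z.im * z.im = 1 := by
  have h := Complex.sq_norm z
  rw [hz, Complex.normSq_apply, one_pow] at h
  exact h.symm

/-- Two unit vectors which are not opposite have inner product different from `-1`. -/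
private lemma rsum_one_add_ne {a b : ℂ} (ha : ‖a‖ = 1) (hb : ‖b‖ = 1) (hab : a ≠ -b) :
    1 + (a.re * b.re + a.im * b.im) ≠ 0 := by
  intro h0
  apply hab
  have h1 := rsum_norm_one ha
  have h2 := rsum_norm_one hb
  have h3 : (a.re + b.re) * (a.re + b.re) + (a.im + b.im) * (a.im + b.im) = 0 := by
    linear_combination h1 + h2 + 2 * h0
  have h4 : a.re + b.re = 0 := by
    nlinarith [mul_self_nonneg (a.re + b.re), mul_self_nonneg (a.im + b.im)]
  have h5 : a.im + b.im = 0 := by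
    nlinarith [mul_self_nonneg (a.re + b.re), mul_self_nonneg (a.im + b.im)]
  apply Complex.ext
  · rw [Complex.neg_re]
    linarith
  · rw [Complex.neg_im]
    linarith

private lemma rsum_pole_re (a b : ℂ) :
    (pole a b).re = (1 + (a.re * b.re + a.im * b.im))⁻¹ * (a.re + b.re) := by
  unfold pole
  rw [rsum_rdot_eq, Complex.mul_re, Complex.ofReal_re, Complex.ofReal_im, Complex.add_re,
    zero_mul, sub_zero]

private lemma rsum_pole_im (a b : ℂ) :
    (pole a b).im = (1 + (a.re * b.re + a.im * b.im))⁻¹ * (a.im + b.im) := by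
  unfold pole
  rw [rsum_rdot_eq, Complex.mul_im, Complex.ofReal_re, Complex.ofReal_im, Complex.add_im,
    zero_mul, add_zero]

private lemma rsum_pole_left {a b : ℂ} (ha : ‖a‖ = 1) (hb : ‖b‖ = 1) (hab : a ≠ -b) :
    rdot (pole a b) a = 1 := by
  have hne := rsum_one_add_ne ha hb hab
  have h1 := rsum_norm_one ha
  rw [rsum_rdot_eq, rsum_pole_re, rsum_pole_im]
  have e : (a.re + b.re) * a.re + (a.im + b.im) * a.im = 1 + (a.re * b.re + a.im * b.im) := by
    linear_combination h1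
  calc (1 + (a.re * b.re + a.im * b.im))⁻¹ * (a.re + b.re) * a.re
        + (1 + (a.re * b.re + a.im * b.im))⁻¹ * (a.im + b.im) * a.im
      = (1 + (a.re * b.re + a.im * b.im))⁻¹
          * ((a.re + b.re) * a.re + (a.im + b.im) * a.im) := by ring
    _ = 1 := by rw [e, inv_mul_cancel₀ hne]

private lemma rsum_pole_right {a b : ℂ} (ha : ‖a‖ = 1) (hb : ‖b‖ = 1) (hab : a ≠ -b) :
    rdot (pole a b) b = 1 := by
  have hne := rsum_one_add_ne ha hb hab
  have h1 := rsum_norm_one hb
  rw [rsum_rdot_eq, rsum_pole_re, rsum_pole_im]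
  have e : (a.re + b.re) * b.re + (a.im + b.im) * b.im = 1 + (a.re * b.re + a.im * b.im) := by
    linear_combination h1
  calc (1 + (a.re * b.re + a.im * b.im))⁻¹ * (a.re + b.re) * b.re
        + (1 + (a.re * b.re + a.im * b.im))⁻¹ * (a.im + b.im) * b.im
      = (1 + (a.re * b.re + a.im * b.im))⁻¹
          * ((a.re + b.re) * b.re + (a.im + b.im) * b.im) := by ring
    _ = 1 := by rw [e, inv_mul_cancel₀ hne]

/-- A second point of the unit circle on the line `p x + q y = 1` is determined by the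
first one. -/
private lemma rsum_line_circle {p q x₀ y₀ a b : ℝ} (hl : p * x₀ + q * y₀ = 1)
    (h0 : x₀ * x₀ + y₀ * y₀ = 1) (hE1 : p * a + q * b = 0)
    (hE2 : (x₀ + a) * (x₀ + a) + (y₀ + b) * (y₀ + b) = 1) (hne : ¬ (a = 0 ∧ b = 0)) :
    q * a - p * b = -2 * (q * x₀ - p * y₀) := by
  have hN : 0 < p * p + q * q := by
    by_contra hcon
    have hp : p = 0 := by nlinarith [mul_self_nonneg p, mul_self_nonneg q]
    have hq : q = 0 := by nlinarith [mul_self_nonneg p, mul_self_nonneg q]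
    rw [hp, hq] at hl
    norm_num at hl
  have ha : (p * p + q * q) * a = (q * a - p * b) * q := by linear_combination p * hE1
  have hb : (p * p + q * q) * b = -((q * a - p * b) * p) := by linear_combination q * hE1
  have hs : (q * a - p * b) * (2 * (q * x₀ - p * y₀) + (q * a - p * b)) = 0 := by
    have h1 : 2 * x₀ * a + a * a + 2 * y₀ * b + b * b = 0 := by linear_combination hE2 - h0
    have h2 : (p * p + q * q)
        * ((q * a - p * b) * (2 * (q * x₀ - p * y₀) + (q * a - p * b))) = 0 := by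
      linear_combination (p * p + q * q) ^ 2 * h1
        - (2 * x₀ * (p * p + q * q) + (p * p + q * q) * a + (q * a - p * b) * q) * ha
        - (2 * y₀ * (p * p + q * q) + (p * p + q * q) * b - (q * a - p * b) * p) * hb
    rcases mul_eq_zero.mp h2 with h | h
    · linarith
    · exact h
  rcases mul_eq_zero.mp hs with h | h
  · exfalso
    apply hne
    rw [h, zero_mul] at ha
    rw [h, zero_mul, neg_zero] at hb
    constructor
    · rcases mul_eq_zero.mp ha with h' | h'
      · linarith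
      · exact h'
    · rcases mul_eq_zero.mp hb with h' | h'
      · linarith
      · exact h'
  · linarith

/-- A line meets the unit circle in at most two points. -/
private lemma rsum_two_points {w z₀ z₁ z₂ : ℂ} (h0 : ‖z₀‖ = 1) (h1 : ‖z₁‖ = 1) (h2 : ‖z₂‖ = 1)
    (e0 : rdot w z₀ = 1) (e1 : rdot w z₁ = 1) (e2 : rdot w z₂ = 1) (n1 : z₀ ≠ z₁)
    (n2 : z₀ ≠ z₂) : z₁ = z₂ := by
  rw [rsum_rdot_eq] at e0 e1 e2
  have c0 := rsum_norm_one h0
  have c1 := rsum_norm_one h1
  have c2 := rsum_norm_one h2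
  have k1 := rsum_line_circle (p := w.re) (q := w.im) (x₀ := z₀.re) (y₀ := z₀.im)
    (a := z₁.re - z₀.re) (b := z₁.im - z₀.im) e0 c0 (by linear_combination e1 - e0)
    (by linear_combination c1) (by
      rintro ⟨ha, hb⟩
      apply n1
      apply Complex.ext <;> linarith)
  have k2 := rsum_line_circle (p := w.re) (q := w.im) (x₀ := z₀.re) (y₀ := z₀.im)
    (a := z₂.re - z₀.re) (b := z₂.im - z₀.im) e0 c0 (by linear_combination e2 - e0)
    (by linear_combination c2) (by
      rintro ⟨ha, hb⟩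
      apply n2
      apply Complex.ext <;> linarith)
  have hN : 0 < w.re * w.re + w.im * w.im := by
    by_contra hcon
    have hp : w.re = 0 := by nlinarith [mul_self_nonneg w.re, mul_self_nonneg w.im]
    have hq : w.im = 0 := by nlinarith [mul_self_nonneg w.re, mul_self_nonneg w.im]
    rw [hp, hq] at e0
    norm_num at e0
  have d1 : w.im * (z₁.re - z₂.re) - w.re * (z₁.im - z₂.im) = 0 := by
    linear_combination k1 - k2
  have d2 : w.re * (z₁.re - z₂.re) + w.im * (z₁.im - z₂.im) = 0 := by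
    linear_combination e1 - e2
  have r1 : (w.re * w.re + w.im * w.im) * (z₁.re - z₂.re) = 0 := by
    linear_combination w.im * d1 + w.re * d2
  have r2 : (w.re * w.re + w.im * w.im) * (z₁.im - z₂.im) = 0 := by
    linear_combination w.im * d2 - w.re * d1
  apply Complex.ext
  · rcases mul_eq_zero.mp r1 with h | h
    · linarith
    · linarith
  · rcases mul_eq_zero.mp r2 with h | h
    · linarith
    · linarith

private lemma rsum_ae_translate {P : ℂ → Prop} (a : ℂ)
    (hP : ∀ᵐ x ∂(volume : Measure ℂ), P x) : ∀ᵐ x ∂(volume : Measure ℂ), P (x + a) :=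
  (measurePreserving_add_right volume a).quasiMeasurePreserving.ae hP

/-- The twisted difference of an invariant function is invariant on the smaller set. -/
private lemma rsum_twinv_diff {Q : Set ℂ} {z : ℂ} {lam : ℝ} {g : ℂ → ℂ}
    (hg : TwInv Q z lam g) (a E : ℂ) :
    TwInv (Q ∩ {x | x + a ∈ Q}) z lam (fun x => g (x + a) - E * g x) := by
  intro s hs
  have h1 := hg s hs
  have h2 := rsum_ae_translate a h1
  filter_upwards [h1, h2] with x hx1 hx2
  intro hxQ hxsQ
  have e : x + ((s : ℝ) : ℂ) * z + a = x + a + ((s : ℝ) : ℂ) * z := by ring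
  have i1 := hx1 hxQ.1 hxsQ.1
  have hmem : x + a + ((s : ℝ) : ℂ) * z ∈ Q := by
    rw [← e]
    exact hxsQ.2
  have i2 := hx2 hxQ.2 hmem
  show g (x + ((s : ℝ) : ℂ) * z + a) - E * g (x + ((s : ℝ) : ℂ) * z)
    = Complex.exp (lam * (s : ℝ) * Complex.I) * (g (x + a) - E * g x)
  rw [e, i2, i1]
  ring

private theorem rsum_main {lam : ℝ} (hlam : lam ≠ 0) {v₀ : ℂ} (hv₀ : ‖v₀‖ = 1) :
    ∀ (d : ℕ) {Q : Set ℂ} (_ : IsOpen Q) (_ : Convex ℝ Q) (v : Fin d → ℂ)
      (_ : ∀ j, ‖v j‖ = 1) (_ : Function.Injective v) (_ : ∀ j, v₀ ≠ v j)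
      (_ : ∀ j, v₀ ≠ -v j) (h₀ : ℂ → ℂ) (_ : Measurable h₀) (h : Fin d → ℂ → ℂ)
      (_ : ∀ j, Measurable (h j)) (_ : TwInv Q v₀ lam h₀) (_ : ∀ j, TwInv Q (v j) lam (h j))
      (_ : ∀ᵐ x ∂(volume : Measure ℂ), x ∈ Q → h₀ x = ∑ j, h j x),
      ∃ a : Fin d → ℂ, ∀ᵐ x ∂(volume : Measure ℂ), x ∈ Q →
        h₀ x = ∑ j, a j * Complex.exp (lam * (rdot (pole v₀ (v j)) x : ℝ) * Complex.I) := by
  intro d
  induction d with
  | zero =>
    intro Q hQo hQc v hv hinj hne hne' h₀ hh₀ h hh hinv₀ hinv hsum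
    refine ⟨fun _ => 0, ?_⟩
    filter_upwards [hsum] with x hx hxQ
    rw [hx hxQ]
    simp
  | succ d ih =>
    intro Q hQo hQc v hv hinj hne hne' h₀ hh₀ h hh hinv₀ hinv hsum
    obtain ⟨u, hu_def⟩ : ∃ u : ℂ, u = v (Fin.last d) := ⟨_, rfl⟩
    have hu : ‖u‖ = 1 := by
      rw [hu_def]
      exact hv _
    have hnu : v₀ ≠ u := by
      rw [hu_def]
      exact hne _
    have hnu' : v₀ ≠ -u := by
      rw [hu_def]
      exact hne' _
    have hw₀ : ∀ j : Fin d, rdot (pole v₀ (v (Fin.castSucc j))) v₀ = 1 :=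
      fun j => rsum_pole_left hv₀ (hv _) (hne' _)
    have hw₁ : ∀ j : Fin d, rdot (pole v₀ (v (Fin.castSucc j))) (v (Fin.castSucc j)) = 1 :=
      fun j => rsum_pole_right hv₀ (hv _) (hne' _)
    have hw : Function.Injective (fun j : Fin d => pole v₀ (v (Fin.castSucc j))) := by
      intro j j' hjj
      have hjj' : pole v₀ (v (Fin.castSucc j)) = pole v₀ (v (Fin.castSucc j')) := hjj
      have e2 : rdot (pole v₀ (v (Fin.castSucc j))) (v (Fin.castSucc j')) = 1 := by
        rw [hjj']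
        exact hw₁ j'
      have e3 := rsum_two_points hv₀ (hv _) (hv _) (hw₀ j) (hw₁ j) e2 (hne _) (hne _)
      exact Fin.castSucc_injective d (hinj e3)
    have hwu : ∀ j : Fin d, rdot (pole v₀ (v (Fin.castSucc j))) u ≠ 1 := by
      intro j e2
      have e3 := rsum_two_points hv₀ (hv _) hu (hw₀ j) (hw₁ j) e2 (hne _) hnu
      rw [hu_def] at e3
      exact Fin.castSucc_ne_last j (hinj e3)
    have hdiff : ∀ t : ℚ, 0 < t → ∃ a : Fin d → ℂ,
        ∀ᵐ x ∂(volume : Measure ℂ), x ∈ Q → x + ((t : ℝ) : ℂ) * u ∈ Q →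
          h₀ (x + ((t : ℝ) : ℂ) * u) - Complex.exp (lam * (t : ℝ) * Complex.I) * h₀ x =
            ∑ j, a j * Complex.exp
              (lam * (rdot (pole v₀ (v (Fin.castSucc j))) x : ℝ) * Complex.I) := by
      intro t ht
      have s3 := hinv (Fin.last d) t ht
      rw [← hu_def] at s3
      obtain ⟨a, ha⟩ : ∃ a : ℂ, a = ((t : ℝ) : ℂ) * u := ⟨_, rfl⟩
      obtain ⟨E, hE⟩ : ∃ E : ℂ, E = Complex.exp (lam * (t : ℝ) * Complex.I) := ⟨_, rfl⟩
      rw [← ha, ← hE] at s3 ⊢
      have hQ'o : IsOpen (Q ∩ {x | x + a ∈ Q}) :=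
        hQo.inter (hQo.preimage (continuous_id.add continuous_const))
      have hQ'c : Convex ℝ (Q ∩ {x | x + a ∈ Q}) :=
        hQc.inter (hQc.translate_preimage_left a)
      have hsum' : ∀ᵐ x ∂(volume : Measure ℂ), x ∈ Q ∩ {x | x + a ∈ Q} →
          (h₀ (x + a) - E * h₀ x)
            = ∑ j : Fin d, (h (Fin.castSucc j) (x + a) - E * h (Fin.castSucc j) x) := by
        have s2 := rsum_ae_translate a hsum
        filter_upwards [hsum, s2, s3] with x hx1 hx2 hx3
        intro hxQ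
        have i3 := hx3 hxQ.1 hxQ.2
        rw [hx1 hxQ.1, hx2 hxQ.2, Fin.sum_univ_castSucc, Fin.sum_univ_castSucc, i3,
          Finset.sum_sub_distrib, ← Finset.mul_sum]
        ring
      obtain ⟨c, hc⟩ := ih hQ'o hQ'c (fun j => v (Fin.castSucc j)) (fun j => hv _)
        (fun j j' e => Fin.castSucc_injective d (hinj e)) (fun j => hne _) (fun j => hne' _)
        (fun x => h₀ (x + a) - E * h₀ x)
        ((hh₀.comp (measurable_id.add_const a)).sub (measurable_const.mul hh₀))
        (fun j x => h (Fin.castSucc j) (x + a) - E * h (Fin.castSucc j) x)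
        (fun j => ((hh _).comp (measurable_id.add_const a)).sub (measurable_const.mul (hh _)))
        (rsum_twinv_diff hinv₀ a E) (fun j => rsum_twinv_diff (hinv _) a E) hsum'
      refine ⟨c, ?_⟩
      filter_upwards [hc] with x hx hxQ hxa
      exact hx ⟨hxQ, hxa⟩
    obtain ⟨c, c₀, hcc⟩ := exp_of_diff hQo hQc hlam hv₀ hu hnu hnu' d
      (fun j => pole v₀ (v (Fin.castSucc j))) hw hw₀ hwu h₀ hh₀ hinv₀ hdiff
    refine ⟨Fin.snoc (α := fun _ => ℂ) c c₀, ?_⟩
    filter_upwards [hcc] with x hx hxQ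
    rw [hx hxQ, Fin.sum_univ_castSucc]
    simp only [Fin.snoc_castSucc, Fin.snoc_last]
    rw [hu_def]

/-- Let `lam ≠ 0`.  If `h₀` is invariant with frequency `lam` along `v₀` and is almost
everywhere on `Q` the sum of `d` functions `h j`, each invariant with frequency `lam` along
a unit vector `v j`, the `v j` pairwise distinct and not parallel to `v₀`, then `h₀` is
almost everywhere on `Q` a linear combination of the exponentials
`exp (i lam (pole v₀ (v j) · x))`. -/
theorem ridge_sum_exp {Q : Set ℂ} (hQo : IsOpen Q) (hQc : Convex ℝ Q) {lam : ℝ} (hlam : lam ≠ 0)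
    {v₀ : ℂ} (hv₀ : ‖v₀‖ = 1) (d : ℕ) (v : Fin d → ℂ) (hv : ∀ j, ‖v j‖ = 1)
    (hinj : Function.Injective v) (hne : ∀ j, v₀ ≠ v j) (hne' : ∀ j, v₀ ≠ -v j)
    (h₀ : ℂ → ℂ) (hh₀ : Measurable h₀) (h : Fin d → ℂ → ℂ) (hh : ∀ j, Measurable (h j))
    (hinv₀ : TwInv Q v₀ lam h₀) (hinv : ∀ j, TwInv Q (v j) lam (h j))
    (hsum : ∀ᵐ x ∂(volume : Measure ℂ), x ∈ Q → h₀ x = ∑ j, h j x) :
    ∃ a : Fin d → ℂ, ∀ᵐ x ∂(volume : Measure ℂ), x ∈ Q →
      h₀ x = ∑ j, a j * Complex.exp (lam * (rdot (pole v₀ (v j)) x : ℝ) * Complex.I) :=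
  rsum_main hlam hv₀ d hQo hQc v hv hinj hne hne' h₀ hh₀ h hh hinv₀ hinv hsum

end Vale.Agent.Lib.P099
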