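import Vale.Agent.Lib.P099.RidgePoly

/-!
# A ridge function which is a sum of `d` ridge functions in other directions
-/

namespace Vale.Agent.Lib.P099

open MeasureTheory

/-- The difference `x ↦ f (x + a) - f x` of a function invariant along `w` on `Q` is
invariant along `w` on the set of the `x ∈ Q` with `x + a ∈ Q`. -/
private lemma ridgePolySum_twInv_diff {Q : Set ℂ} (w a : ℂ) (f : ℂ → ℂ)
    (hf : TwInv Q w 0 f) :
    TwInv (Q ∩ {x | x + a ∈ Q}) w 0 (fun x => f (x + a) - f x) := by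
  intro s hs
  have h1 := hf s hs
  have h2 := (measurePreserving_add_right (volume : Measure ℂ) a).quasiMeasurePreserving.ae h1
  filter_upwards [h1, h2] with x hx1 hx2 hxQ hxQ'
  obtain ⟨hxa, hxb⟩ := hxQ
  obtain ⟨hxc, hxd⟩ := hxQ'
  have e3 : x + ((s : ℝ) : ℂ) * w + a = x + a + ((s : ℝ) : ℂ) * w := by ring
  have hxd' : x + a + ((s : ℝ) : ℂ) * w ∈ Q := by
    rw [← e3]
    exact hxd
  have e1 := hx1 hxa hxc
  have e2 := hx2 hxb hxd'
  show f (x + ((s : ℝ) : ℂ) * w + a) - f (x + ((s : ℝ) : ℂ) * w) = _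
  rw [e3, e1, e2, mul_sub]

/-- If `h₀` is invariant along `v₀` and is almost everywhere on `Q` the sum of `d` functions
`h j`, each invariant along a unit vector `v j` not parallel to `v₀`, then `h₀` is almost
everywhere on `Q` a polynomial of degree `< d` in `rdot (i v₀) x`. -/
theorem ridge_sum_poly {Q : Set ℂ} (hQo : IsOpen Q) (hQc : Convex ℝ Q) {v₀ : ℂ}
    (hv₀ : ‖v₀‖ = 1) (d : ℕ) (v : Fin d → ℂ) (hv : ∀ j, ‖v j‖ = 1) (hne : ∀ j, v₀ ≠ v j)
    (hne' : ∀ j, v₀ ≠ -v j) (h₀ : ℂ → ℂ) (hh₀ : Measurable h₀) (h : Fin d → ℂ → ℂ)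
    (hh : ∀ j, Measurable (h j)) (hinv₀ : TwInv Q v₀ 0 h₀) (hinv : ∀ j, TwInv Q (v j) 0 (h j))
    (hsum : ∀ᵐ x ∂(volume : Measure ℂ), x ∈ Q → h₀ x = ∑ j, h j x) :
    ∃ p : Polynomial ℂ, p.degree < (d : WithBot ℕ) ∧
      ∀ᵐ x ∂(volume : Measure ℂ), x ∈ Q → h₀ x = p.eval ((rdot (Complex.I * v₀) x : ℝ) : ℂ) := by
  induction d generalizing Q h₀ with
  | zero =>
    refine ⟨0, ?_, ?_⟩
    · rw [Polynomial.degree_zero]
      exact WithBot.bot_lt_coe _
    · filter_upwards [hsum] with x hx hxQ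
      rw [hx hxQ]
      simp
  | succ d ih =>
    refine poly_of_diff hQo hQc hv₀ (hv (Fin.last d)) (hne (Fin.last d)) (hne' (Fin.last d))
      one_pos d h₀ hh₀ hinv₀ ?_
    intro t ht _
    obtain ⟨a, ha⟩ : ∃ a : ℂ, a = ((t : ℝ) : ℂ) * v (Fin.last d) := ⟨_, rfl⟩
    have hQo' : IsOpen (Q ∩ {x | x + a ∈ Q}) :=
      hQo.inter (hQo.preimage (continuous_id.add continuous_const))
    have hQc' : Convex ℝ (Q ∩ {x | x + a ∈ Q}) := hQc.inter (hQc.translate_preimage_left a)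
    have hk₀ : Measurable (fun x => h₀ (x + a) - h₀ x) :=
      (hh₀.comp (measurable_id.add_const a)).sub hh₀
    have hk : ∀ j : Fin d,
        Measurable (fun x => h (Fin.castSucc j) (x + a) - h (Fin.castSucc j) x) :=
      fun j => ((hh _).comp (measurable_id.add_const a)).sub (hh _)
    have hsum' : ∀ᵐ x ∂(volume : Measure ℂ), x ∈ Q ∩ {x | x + a ∈ Q} →
        h₀ (x + a) - h₀ x
          = ∑ j : Fin d, (h (Fin.castSucc j) (x + a) - h (Fin.castSucc j) x) := by
      have h2 :=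
        (measurePreserving_add_right (volume : Measure ℂ) a).quasiMeasurePreserving.ae hsum
      have h3 := hinv (Fin.last d) t ht
      filter_upwards [hsum, h2, h3] with x hx1 hx2 hx3 hxQ
      obtain ⟨hxa, hxb⟩ := hxQ
      have hxb' : x + ((t : ℝ) : ℂ) * v (Fin.last d) ∈ Q := by
        rw [← ha]
        exact hxb
      have e3 := hx3 hxa hxb'
      rw [← ha] at e3
      rw [hx1 hxa, hx2 hxb, Fin.sum_univ_castSucc, Fin.sum_univ_castSucc,
        Finset.sum_sub_distrib, e3]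
      simp
    obtain ⟨p, hp1, hp2⟩ := ih hQo' hQc' (fun j => v (Fin.castSucc j)) (fun j => hv _)
      (fun j => hne _) (fun j => hne' _) (fun x => h₀ (x + a) - h₀ x) hk₀
      (fun j x => h (Fin.castSucc j) (x + a) - h (Fin.castSucc j) x) hk
      (ridgePolySum_twInv_diff v₀ a h₀ hinv₀)
      (fun j => ridgePolySum_twInv_diff _ a _ (hinv _)) hsum'
    refine ⟨p, hp1, ?_⟩
    filter_upwards [hp2] with x hx hxQ hxQ'
    rw [← ha]
    refine hx ⟨hxQ, ?_⟩
    show x + a ∈ Q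
    rw [ha]
    exact hxQ'

end Vale.Agent.Lib.P099
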