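import Vale.Agent.Lib.P099.Sets
import Vale.Agent.Lib.P099.Reverse
import Vale.Agent.Lib.P099.RidgePolySum
import Vale.Agent.Lib.P099.RidgeExpSum

/-!
# Billiards in a triangle: slices of finite-rank eigenfunctions are real-analytic
-/

namespace Vale.Agent.Lib.P099

open MeasureTheory

/-- Invariance along a direction is preserved by multiplication by a constant. -/
private theorem fra_twInv_const_mul {Q : Set ℂ} {v : ℂ} {lam : ℝ} {h : ℂ → ℂ}
    (hh : TwInv Q v lam h) (c : ℂ) : TwInv Q v lam (fun x => c * h x) := by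
  intro t ht
  filter_upwards [hh t ht] with x hx h1 h2
  rw [hx h1 h2]
  ring

/-- Singletons of the circle of directions are null sets. -/
private theorem fra_volume_singleton (θ : Dir) : (volume : Measure Dir) {θ} = 0 := by
  have h := AddCircle.volume_closedBall (2 * Real.pi) (x := θ) 0
  rw [Metric.closedBall_zero] at h
  rw [h]
  simp

/-- The real inner product with a fixed point is real-analytic. -/
private theorem fra_analyticAt_rdot (w : ℂ) (x : ℂ) :
    AnalyticAt ℝ (fun x : ℂ => ((rdot w x : ℝ) : ℂ)) x := by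
  have h1 : AnalyticAt ℝ (fun x : ℂ => rdot w x) x := by
    have e : (fun x : ℂ => rdot w x)
        = fun x : ℂ => w.re * Complex.reCLM x + w.im * Complex.imCLM x := by
      funext x
      simp [rdot]
    rw [e]
    exact (analyticAt_const.mul (Complex.reCLM.analyticAt x)).add
      (analyticAt_const.mul (Complex.imCLM.analyticAt x))
  exact (Complex.ofRealCLM.analyticAt _).comp h1

/-- Finitely many good directions whose coefficient vectors span the coefficient vectors of
all good directions. -/
private theorem fra_family {N : ℕ} (g : Fin N → Dir → ℂ) (Good : Set Dir) :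
    ∃ (d : ℕ) (θs : Fin d → Dir), (∀ j, θs j ∈ Good) ∧ Function.Injective θs ∧
      ∀ θ ∈ Good, ∃ c : Fin d → ℂ, ∀ m, g m θ = ∑ j, c j * g m (θs j) := by
  classical
  have hfg : (Submodule.span ℂ ((fun (θ : Dir) (m : Fin N) => g m θ) '' Good)).FG :=
    IsNoetherian.noetherian _
  obtain ⟨s', hs's, hspan⟩ := (Submodule.fg_span_iff_fg_span_finset_subset _).mp hfg
  have hpre : ∀ w : s', ∃ θ, θ ∈ Good ∧ (fun m : Fin N => g m θ) = (w : Fin N → ℂ) := by
    intro w
    obtain ⟨θ, hθ, hθw⟩ := hs's (Finset.mem_coe.mpr w.2)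
    exact ⟨θ, hθ, hθw⟩
  choose pre hpre_good hpre_eq using hpre
  refine ⟨s'.card, fun j => pre (s'.equivFin.symm j), fun j => hpre_good _, ?_, ?_⟩
  · intro i j hij
    have hij' : pre (s'.equivFin.symm i) = pre (s'.equivFin.symm j) := hij
    have h1 : (fun m : Fin N => g m (pre (s'.equivFin.symm i)))
        = fun m : Fin N => g m (pre (s'.equivFin.symm j)) := by rw [hij']
    rw [hpre_eq, hpre_eq] at h1
    exact s'.equivFin.symm.injective (Subtype.ext h1)
  · intro θ hθ
    have hmem : (fun m : Fin N => g m θ) ∈ Submodule.span ℂ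
        (Set.range (fun j : Fin s'.card => fun m : Fin N => g m (pre (s'.equivFin.symm j)))) := by
      have h1 : (fun m : Fin N => g m θ)
          ∈ Submodule.span ℂ ((fun (θ : Dir) (m : Fin N) => g m θ) '' Good) :=
        Submodule.subset_span ⟨θ, hθ, rfl⟩
      rw [hspan] at h1
      refine Submodule.span_mono ?_ h1
      intro w hw
      refine ⟨s'.equivFin ⟨w, hw⟩, ?_⟩
      simp only [Equiv.symm_apply_apply]
      exact hpre_eq ⟨w, hw⟩
    obtain ⟨c, hc⟩ := (Submodule.mem_span_range_iff_exists_fun ℂ).mp hmem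
    refine ⟨c, fun m => ?_⟩
    have h2 := congrFun hc m
    simp only [Finset.sum_apply, Pi.smul_apply, smul_eq_mul] at h2
    exact h2.symm

/-- Let `F (x, θ) = ∑ m, f m x * g m θ` (a finite sum).  If for almost every direction `θ`
the slice `F (·, θ)` is invariant with frequency `lam` along `dirVec θ` on the table, then
for almost every `θ` the slice is almost everywhere on the table equal to a function which
is real-analytic on the whole plane. -/
theorem Triangle.ae_slice_analytic (T : Triangle) {N : ℕ} (f : Fin N → ℂ → ℂ)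
    (g : Fin N → Dir → ℂ) (hf : ∀ m, Measurable (f m)) (lam : ℝ)
    (hgood : ∀ᵐ θ ∂(volume : Measure Dir),
      TwInv T.table (dirVec θ) lam (fun x => ∑ m, f m x * g m θ)) :
    ∀ᵐ θ ∂(volume : Measure Dir), ∃ H : ℂ → ℂ, AnalyticOnNhd ℝ H Set.univ ∧
      ∀ᵐ x ∂(volume : Measure ℂ), x ∈ T.table → ∑ m, f m x * g m θ = H x := by
  classical
  obtain ⟨d, θs, hθs_good, hθs_inj, hspan⟩ := fra_family g
    {θ | TwInv T.table (dirVec θ) lam (fun x => ∑ m, f m x * g m θ)}
  have hθs_tw : ∀ j, TwInv T.table (dirVec (θs j)) lam (fun x => ∑ m, f m x * g m (θs j)) :=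
    hθs_good
  have hconv : Convex ℝ T.table := by
    unfold Triangle.table
    exact (convex_convexHull ℝ _).interior
  have hbad : ∀ᵐ θ ∂(volume : Measure Dir),
      ∀ j, dirVec θ ≠ dirVec (θs j) ∧ dirVec θ ≠ -dirVec (θs j) := by
    have hinst : NullSingletonClass (volume : Measure Dir) := ⟨fra_volume_singleton⟩
    have hfin : (Set.range θs ∪ Set.range (fun j => θs j + ((Real.pi : ℝ) : Dir))).Finite :=
      (Set.finite_range _).union (Set.finite_range _)
    have hnull := hfin.measure_zero (volume : Measure Dir)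
    filter_upwards [compl_mem_ae_iff.mpr hnull] with θ hθ j
    constructor
    · intro h
      apply hθ
      left
      exact ⟨j, (dirVec_injective h).symm⟩
    · intro h
      apply hθ
      right
      refine ⟨j, ?_⟩
      apply dirVec_injective
      rw [Triangle.dirVec_add_pi]
      exact h.symm
  filter_upwards [hgood, hbad] with θ hθ hθbad
  obtain ⟨c, hc⟩ := hspan θ hθ
  have hsum : ∀ x, (∑ m, f m x * g m θ) = ∑ j, c j * ∑ m, f m x * g m (θs j) := by
    intro x
    calc ∑ m, f m x * g m θ = ∑ m, ∑ j, c j * (f m x * g m (θs j)) := by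
          apply Finset.sum_congr rfl
          intro m _
          rw [hc m, Finset.mul_sum]
          apply Finset.sum_congr rfl
          intro j _
          ring
      _ = ∑ j, ∑ m, c j * (f m x * g m (θs j)) := Finset.sum_comm
      _ = ∑ j, c j * ∑ m, f m x * g m (θs j) := by
          apply Finset.sum_congr rfl
          intro j _
          rw [Finset.mul_sum]
  have hmeas0 : Measurable (fun x => ∑ m, f m x * g m θ) := by fun_prop
  have hmeas : ∀ j, Measurable (fun x => c j * ∑ m, f m x * g m (θs j)) := by
    intro j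
    fun_prop
  by_cases hlam : lam = 0
  · subst hlam
    obtain ⟨p, -, hp⟩ := ridge_sum_poly T.isOpen_table hconv (norm_dirVec θ) d
      (fun j => dirVec (θs j)) (fun j => norm_dirVec _) (fun j => (hθbad j).1)
      (fun j => (hθbad j).2) (fun x => ∑ m, f m x * g m θ) hmeas0
      (fun j x => c j * ∑ m, f m x * g m (θs j)) hmeas hθ
      (fun j => fra_twInv_const_mul (hθs_tw j) (c j))
      (Filter.Eventually.of_forall (fun x _ => hsum x))
    refine ⟨fun x => p.eval ((rdot (Complex.I * dirVec θ) x : ℝ) : ℂ), ?_, hp⟩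
    intro x _
    have h : AnalyticAt ℂ (fun z : ℂ => p.eval z)
        ((rdot (Complex.I * dirVec θ) x : ℝ) : ℂ) := p.differentiable.analyticAt _
    exact AnalyticAt.comp (g := fun z : ℂ => p.eval z)
      (f := fun x : ℂ => ((rdot (Complex.I * dirVec θ) x : ℝ) : ℂ))
      h.restrictScalars (fra_analyticAt_rdot _ x)
  · obtain ⟨a, ha⟩ := ridge_sum_exp T.isOpen_table hconv hlam (norm_dirVec θ) d
      (fun j => dirVec (θs j)) (fun j => norm_dirVec _) (dirVec_injective.comp hθs_inj)
      (fun j => (hθbad j).1) (fun j => (hθbad j).2) (fun x => ∑ m, f m x * g m θ) hmeas0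
      (fun j x => c j * ∑ m, f m x * g m (θs j)) hmeas hθ
      (fun j => fra_twInv_const_mul (hθs_tw j) (c j))
      (Filter.Eventually.of_forall (fun x _ => hsum x))
    refine ⟨fun x => ∑ j, a j * Complex.exp
      (lam * (rdot (pole (dirVec θ) (dirVec (θs j))) x : ℝ) * Complex.I), ?_, ha⟩
    intro x _
    apply Finset.analyticAt_fun_sum
    intro j _
    have h : AnalyticAt ℂ (fun z : ℂ => a j * Complex.exp (lam * z * Complex.I))
        ((rdot (pole (dirVec θ) (dirVec (θs j))) x : ℝ) : ℂ) := by
      apply Differentiable.analyticAt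
      fun_prop
    exact AnalyticAt.comp (g := fun z : ℂ => a j * Complex.exp (lam * z * Complex.I))
      (f := fun x : ℂ => ((rdot (pole (dirVec θ) (dirVec (θs j))) x : ℝ) : ℂ))
      h.restrictScalars (fra_analyticAt_rdot _ x)

end Vale.Agent.Lib.P099
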