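import Vale.Agent.Lib.P099.Sets

/-!
# Billiards in a triangle: a measurable representative with real-analytic slices
-/

namespace Vale.Agent.Lib.P099

open MeasureTheory

/-- The coefficient vectors `c` for which `∑ m, f m x * c m` is almost everywhere on the table
equal to a function which is real-analytic on the plane. -/
private def repSub (T : Triangle) {N : ℕ} (f : Fin N → ℂ → ℂ) : Submodule ℂ (Fin N → ℂ) where
  carrier := {c | ∃ P : ℂ → ℂ, AnalyticOnNhd ℝ P Set.univ ∧
    ∀ᵐ x ∂(volume : Measure ℂ), x ∈ T.table → ∑ m, f m x * c m = P x}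
  zero_mem' := ⟨fun _ => 0, analyticOnNhd_const, Filter.Eventually.of_forall fun x _ => by simp⟩
  add_mem' := by
    rintro a b ⟨P, hP, hPa⟩ ⟨P', hP', hPb⟩
    refine ⟨fun x => P x + P' x, hP.add hP', ?_⟩
    filter_upwards [hPa, hPb] with x h1 h2 hx
    rw [← h1 hx, ← h2 hx, ← Finset.sum_add_distrib]
    exact Finset.sum_congr rfl fun m _ => by rw [Pi.add_apply, mul_add]
  smul_mem' := by
    rintro a c ⟨P, hP, hPc⟩
    refine ⟨fun x => a * P x, analyticOnNhd_const.mul hP, ?_⟩
    filter_upwards [hPc] with x h1 hx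
    rw [← h1 hx, Finset.mul_sum]
    exact Finset.sum_congr rfl fun m _ => by rw [Pi.smul_apply, smul_eq_mul]; ring

/-- Let `F (x, θ) = ∑ m, f m x * g m θ` (a finite sum of products of measurable functions).
If for almost every direction `θ` the slice `F (·, θ)` is almost everywhere on the table
equal to a function which is real-analytic on the plane, then `F` is almost everywhere
(for the invariant measure) equal to a measurable function all of whose slices are
real-analytic on the plane. -/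
theorem Triangle.exists_analytic_rep (T : Triangle) {N : ℕ} (f : Fin N → ℂ → ℂ)
    (g : Fin N → Dir → ℂ) (hf : ∀ m, Measurable (f m)) (hg : ∀ m, Measurable (g m))
    (hslice : ∀ᵐ θ ∂(volume : Measure Dir), ∃ H : ℂ → ℂ, AnalyticOnNhd ℝ H Set.univ ∧
      ∀ᵐ x ∂(volume : Measure ℂ), x ∈ T.table → ∑ m, f m x * g m θ = H x) :
    ∃ G : ℂ × Dir → ℂ, Measurable G ∧
      (∀ θ : Dir, AnalyticOnNhd ℝ (fun x => G (x, θ)) Set.univ) ∧
      (G =ᵐ[T.mu] fun p => ∑ m, f m p.1 * g m p.2) := by
  classical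
  obtain ⟨K, hKdef⟩ : ∃ K : Submodule ℂ (Fin N → ℂ), K = repSub T f := ⟨_, rfl⟩
  have hKmem : ∀ c : Fin N → ℂ, c ∈ K ↔ ∃ P : ℂ → ℂ, AnalyticOnNhd ℝ P Set.univ ∧
      ∀ᵐ x ∂(volume : Measure ℂ), x ∈ T.table → ∑ m, f m x * c m = P x := by
    intro c
    rw [hKdef]
    rfl
  obtain ⟨π, hπ⟩ := K.subtype.exists_leftInverse_of_injective (Submodule.ker_subtype K)
  obtain ⟨bK, -⟩ : ∃ bK : Module.Basis (Fin (Module.finrank ℂ K)) ℂ K,
      bK = Module.finBasis ℂ K := ⟨_, rfl⟩
  have hP : ∀ l, ∃ P : ℂ → ℂ, AnalyticOnNhd ℝ P Set.univ ∧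
      ∀ᵐ x ∂(volume : Measure ℂ), x ∈ T.table →
        ∑ m, f m x * ((bK l : K) : Fin N → ℂ) m = P x :=
    fun l => (hKmem _).1 (bK l).2
  choose P hPan hPae using hP
  obtain ⟨φ, hφdef⟩ : ∃ φ : Fin (Module.finrank ℂ K) → (Fin N → ℂ) →ₗ[ℂ] ℂ,
      φ = fun l => (bK.coord l).comp π := ⟨_, rfl⟩
  have hφm : ∀ l, Measurable fun θ : Dir => φ l (fun m => g m θ) := by
    intro l
    exact (φ l).continuous_of_finiteDimensional.measurable.comp
      (measurable_pi_lambda _ fun m => hg m)
  have hPm : ∀ l, Measurable (P l) := fun l =>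
    (continuousOn_univ.1 (hPan l).continuousOn).measurable
  have hGm : Measurable fun p : ℂ × Dir => ∑ l, φ l (fun m => g m p.2) * P l p.1 :=
    Finset.measurable_sum _ fun l _ =>
      ((hφm l).comp measurable_snd).mul ((hPm l).comp measurable_fst)
  have hFm : Measurable fun p : ℂ × Dir => ∑ m, f m p.1 * g m p.2 :=
    Finset.measurable_sum _ fun m _ =>
      ((hf m).comp measurable_fst).mul ((hg m).comp measurable_snd)
  have hGan : ∀ θ : Dir,
      AnalyticOnNhd ℝ (fun x => ∑ l, φ l (fun m => g m θ) * P l x) Set.univ := by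
    intro θ
    exact Finset.analyticOnNhd_fun_sum _ fun l _ => analyticOnNhd_const.mul (hPan l)
  have hae1 : ∀ᵐ θ ∂(volume : Measure Dir), ∀ᵐ x ∂(volume.restrict T.table),
      ∑ l, φ l (fun m => g m θ) * P l x = ∑ m, f m x * g m θ := by
    filter_upwards [hslice] with θ hθ
    have hmem : (fun m => g m θ) ∈ K := (hKmem _).2 hθ
    obtain ⟨k, hk⟩ : ∃ k : K, (k : Fin N → ℂ) = fun m => g m θ := ⟨⟨_, hmem⟩, rfl⟩
    have hπk : π (fun m => g m θ) = k := by
      rw [← hk]
      exact LinearMap.congr_fun hπ k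
    have hφ : ∀ l, φ l (fun m => g m θ) = bK.repr k l := by
      intro l
      rw [hφdef]
      show bK.coord l (π (fun m => g m θ)) = _
      rw [hπk]
      rfl
    have hsum : (k : Fin N → ℂ) = ∑ l, bK.repr k l • ((bK l : K) : Fin N → ℂ) := by
      conv_lhs => rw [← bK.sum_repr k]
      rw [Submodule.coe_sum]
      rfl
    have hg' : ∀ m, g m θ = ∑ l, bK.repr k l * ((bK l : K) : Fin N → ℂ) m := by
      intro m
      have h2 := congrFun hsum m
      rw [hk] at h2
      simpa only [Finset.sum_apply, Pi.smul_apply, smul_eq_mul] using h2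
    have hall : ∀ᵐ x ∂(volume : Measure ℂ), ∀ l, x ∈ T.table →
        ∑ m, f m x * ((bK l : K) : Fin N → ℂ) m = P l x := ae_all_iff.2 hPae
    rw [ae_restrict_iff' T.isOpen_table.measurableSet]
    filter_upwards [hall] with x hx hxT
    calc ∑ l, φ l (fun m => g m θ) * P l x
        = ∑ l, bK.repr k l * ∑ m, f m x * ((bK l : K) : Fin N → ℂ) m := by
          refine Finset.sum_congr rfl fun l _ => ?_
          rw [hφ l, hx l hxT]
      _ = ∑ m, f m x * ∑ l, bK.repr k l * ((bK l : K) : Fin N → ℂ) m := by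
          simp only [Finset.mul_sum]
          rw [Finset.sum_comm]
          refine Finset.sum_congr rfl fun m _ => Finset.sum_congr rfl fun l _ => ?_
          ring
      _ = ∑ m, f m x * g m θ := by
          refine Finset.sum_congr rfl fun m _ => ?_
          rw [← hg' m]
  have hsw : MeasurePreserving Prod.swap T.leb
      ((volume : Measure Dir).prod (volume.restrict T.table)) :=
    Measure.measurePreserving_swap
  have hset : MeasurableSet {z : Dir × ℂ |
      ∑ l, φ l (fun m => g m z.1) * P l z.2 = ∑ m, f m z.2 * g m z.1} :=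
    measurableSet_eq_fun (hGm.comp measurable_swap) (hFm.comp measurable_swap)
  have hae2 : ∀ᵐ z ∂((volume : Measure Dir).prod (volume.restrict T.table)),
      ∑ l, φ l (fun m => g m z.1) * P l z.2 = ∑ m, f m z.2 * g m z.1 :=
    (Measure.ae_prod_iff_ae_ae hset).2 hae1
  have hae3 := hsw.quasiMeasurePreserving.ae hae2
  refine ⟨fun p : ℂ × Dir => ∑ l, φ l (fun m => g m p.2) * P l p.1, hGm, hGan, ?_⟩
  rw [Filter.EventuallyEq, T.ae_mu]
  exact hae3

end Vale.Agent.Lib.P099
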