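import Vale.Agent.Lib.P099.MainU
import Vale.Agent.Lib.P099.Quasi
import Vale.Agent.Lib.P099.FinRankSlice
import Vale.Agent.Lib.P099.FinRankAnalytic
import Vale.Agent.Lib.P099.FinRankRep

/-!
# Billiards in an irrational triangle: eigenfunctions of finite rank

A measurable function on the phase space of the form `F (x, θ) = ∑ m, f m x * g m θ`
(a finite sum of products of a function of the position and a function of the direction)
which is an eigenfunction of the billiard flow of an irrational triangle is almost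
everywhere constant, and zero unless the frequency is zero.
-/

namespace Vale.Agent.Lib.P099

open MeasureTheory

theorem Triangle.finite_rank_eigen (T : Triangle) (hT : T.IsIrrational) {N : ℕ}
    (f : Fin N → ℂ → ℂ) (g : Fin N → Dir → ℂ) (hf : ∀ m, Measurable (f m))
    (hg : ∀ m, Measurable (g m)) (lam : ℝ)
    (hinv : ∀ t : ℝ, (fun p => ∑ m, f m (T.flow t p).1 * g m (T.flow t p).2) =ᵐ[T.mu]
      fun p => Complex.exp (lam * t * Complex.I) * ∑ m, f m p.1 * g m p.2) :
    ∃ c : ℂ, ((fun p : ℂ × Dir => ∑ m, f m p.1 * g m p.2) =ᵐ[T.mu] fun _ => c) ∧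
      (lam ≠ 0 → c = 0) := by
  have hgood := T.ae_slice_twInv (fun p => ∑ m, f m p.1 * g m p.2) lam hinv
  have hslice := T.ae_slice_analytic f g hf lam hgood
  obtain ⟨G, hGm, hGa, hGF⟩ := T.exists_analytic_rep f g hf hg hslice
  have hGinv : ∀ t : ℝ, (fun p => G (T.flow t p)) =ᵐ[T.mu]
      fun p => Complex.exp (lam * t * Complex.I) * G p := by
    intro t
    have h1 := T.ae_flow_of_ae t hGF
    filter_upwards [h1, hinv t, hGF] with p hp1 hp2 hp3
    rw [hp1, hp3]
    exact hp2
  obtain ⟨c, hc, hc0⟩ := T.eigenfunction_const_nhd hT Set.univ isOpen_univ (Set.subset_univ _)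
    G hGm hGa lam hGinv
  refine ⟨c, ?_, hc0⟩
  filter_upwards [hGF, hc] with p hp1 hp2
  rw [← hp1]
  exact hp2

end Vale.Agent.Lib.P099
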