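import Vale.Agent.Lib.P099.Geometry

/-!
# Billiards in a triangle: the trajectory relation is deterministic; local evaluation
of the flow (free flight, one reflection)
-/

namespace Vale.Agent.Lib.P099

open MeasureTheory Set

namespace Triangle

variable (T : Triangle)

lemma reach_nonneg {t : ℝ} {p q : ℂ × Dir} (h : T.Reach t p q) : 0 ≤ t := by
  induction h with
  | free x θ t ht hfree => exact ht
  | bounce x θ τ t i q hτ hfree hhit hrest ih => linarith

lemma reach_unique_aux {t : ℝ} {p q : ℂ × Dir} (h : T.Reach t p q) :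
    ∀ (t' : ℝ) (q' : ℂ × Dir), T.Reach t' p q' → t = t' → q = q' := by
  induction h with
  | free x θ t ht hfree =>
    intro t' q' h' htt
    cases h' with
    | free _ _ _ ht' hfree' => rw [htt]
    | bounce _ _ τ' t₂ i' _ hτ' hfree' hhit' hrest' =>
      exfalso
      have h2 := T.reach_nonneg hrest'
      exact T.side_disjoint_table hhit' (hfree τ' hτ' (by linarith))
  | bounce x θ τ t₁ i q hτ hfree hhit hrest ih =>
    intro t' q' h' htt
    cases h' with
    | free _ _ _ ht' hfree' =>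
      exfalso
      have h2 := T.reach_nonneg hrest
      exact T.side_disjoint_table hhit (hfree' τ hτ (by linarith))
    | bounce _ _ τ' t₂ i' _ hτ' hfree' hhit' hrest' =>
      have hττ : τ = τ' := by
        rcases lt_trichotomy τ τ' with hlt | heq | hgt
        · exact absurd (hfree' τ hτ hlt) (T.side_disjoint_table hhit)
        · exact heq
        · exact absurd (hfree τ' hτ' hgt) (T.side_disjoint_table hhit')
      subst hττ
      have hii : i = i' := T.side_index_unique hhit hhit'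
      subst hii
      exact ih t₂ q' hrest' (by linarith)

lemma reach_unique {t : ℝ} {p q q' : ℂ × Dir} (h : T.Reach t p q) (h' : T.Reach t p q') :
    q = q' :=
  T.reach_unique_aux h t q' h' rfl

lemma flow_eq_of_reach {t : ℝ} {p q : ℂ × Dir} (h : T.Reach t p q) (hq : q.1 ∈ T.table) :
    T.flow t p = q := by
  have ht := T.reach_nonneg h
  have hex : ∃ q : ℂ × Dir, T.Reach t p q ∧ q.1 ∈ T.table := ⟨q, h, hq⟩
  unfold flow flowFwd
  rw [if_pos ht, dif_pos hex]
  exact T.reach_unique hex.choose_spec.1 h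

/-- Free flight: if the segment from `x` of length `t` in the direction `θ` stays in the
table, the flow is the translation along it. -/
lemma flow_free {t : ℝ} {x : ℂ} {θ : Dir} (ht : 0 ≤ t)
    (h : ∀ s : ℝ, 0 ≤ s → s ≤ t → x + (s : ℂ) * dirVec θ ∈ T.table) :
    T.flow t (x, θ) = (x + (t : ℂ) * dirVec θ, θ) := by
  apply T.flow_eq_of_reach (Reach.free x θ t ht (fun s hs hst => h s hs.le hst))
  exact h t ht le_rfl

/-- One reflection in the side `i`. -/
lemma flow_bounce {t τ : ℝ} {x : ℂ} {θ : Dir} (i : Fin 3) (hτ : 0 < τ) (hτt : τ < t)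
    (hfree : ∀ s : ℝ, 0 < s → s < τ → x + (s : ℂ) * dirVec θ ∈ T.table)
    (hhit : x + (τ : ℂ) * dirVec θ ∈ T.side i)
    (hfree' : ∀ s : ℝ, 0 < s → s ≤ t - τ →
      x + (τ : ℂ) * dirVec θ + (s : ℂ) * dirVec (T.reflect i θ) ∈ T.table) :
    T.flow t (x, θ) = (T.sideMirror i (x + (t : ℂ) * dirVec θ), T.reflect i θ) := by
  have hd := T.sideVec_ne_zero i
  have hfin : T.sideMirror i (x + (t : ℂ) * dirVec θ)
      = x + (τ : ℂ) * dirVec θ + ((t - τ : ℝ) : ℂ) * dirVec (T.reflect i θ) := by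
    obtain ⟨s, -, -, hs⟩ := T.mem_side_iff.mp hhit
    have h1 : x + (t : ℂ) * dirVec θ
        = (T.vertex (i + 1) + (s : ℂ) * T.sideVec i) + ((t - τ : ℝ) : ℂ) * dirVec θ := by
      rw [← hs]; push_cast; ring
    rw [sideMirror, h1, mirror_add, mirror_fix hd, ← hs, T.reflect_eq, dirVec_mirrorDir hd,
      map_mul, Complex.conj_ofReal]
    ring
  have hr : T.Reach (τ + (t - τ)) (x, θ)
      (x + (τ : ℂ) * dirVec θ + ((t - τ : ℝ) : ℂ) * dirVec (T.reflect i θ), T.reflect i θ) :=
    Reach.bounce x θ τ (t - τ) i _ hτ hfree hhit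
      (Reach.free _ _ (t - τ) (by linarith) hfree')
  rw [add_sub_cancel] at hr
  rw [hfin]
  exact T.flow_eq_of_reach hr (hfree' (t - τ) (by linarith) le_rfl)

/-! ### Regions on which the flow is explicit -/

lemma table_nonempty : T.table.Nonempty := by
  have h := T.basis.centroid_mem_interior_convexHull
  exact ⟨_, h⟩

lemma exists_free_ball : ∃ (c : ℂ) (δ : ℝ), 0 < δ ∧ Metric.ball c (2 * δ) ⊆ T.table := by
  obtain ⟨c, hc⟩ := T.table_nonempty
  obtain ⟨ε, hε, hball⟩ := Metric.isOpen_iff.mp T.isOpen_table c hc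
  exact ⟨c, ε / 2, by linarith, by simpa [mul_div_cancel₀] using hball⟩

lemma norm_ofReal_mul_dirVec (s : ℝ) (θ : Dir) : ‖(s : ℂ) * dirVec θ‖ = |s| := by
  rw [norm_mul, norm_dirVec, mul_one, Complex.norm_real, Real.norm_eq_abs]

lemma flow_free_ball {c : ℂ} {δ : ℝ} (hball : Metric.ball c (2 * δ) ⊆ T.table)
    {t : ℝ} (ht : 0 ≤ t) (htδ : t < δ) {x : ℂ} (hx : x ∈ Metric.ball c δ) (θ : Dir) :
    T.flow t (x, θ) = (x + (t : ℂ) * dirVec θ, θ) := by
  apply T.flow_free ht
  intro s hs hst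
  apply hball
  rw [Metric.mem_ball, dist_eq_norm] at hx ⊢
  calc ‖x + (s : ℂ) * dirVec θ - c‖ = ‖(x - c) + (s : ℂ) * dirVec θ‖ := by ring_nf
    _ ≤ ‖x - c‖ + ‖(s : ℂ) * dirVec θ‖ := norm_add_le _ _
    _ = ‖x - c‖ + |s| := by rw [norm_ofReal_mul_dirVec]
    _ < 2 * δ := by rw [abs_of_nonneg hs]; linarith

/-- The midpoint of the side `i`. -/
noncomputable def sideMid (i : Fin 3) : ℂ := T.vertex (i + 1) + ((1 / 2 : ℝ) : ℂ) * T.sideVec i

lemma sideMid_mem_side (i : Fin 3) : T.sideMid i ∈ T.side i :=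
  T.mem_side_iff.mpr ⟨1 / 2, by norm_num, by norm_num, rfl⟩

lemma exists_side_ball (i : Fin 3) : ∃ ε : ℝ, 0 < ε ∧
    ∀ x ∈ Metric.ball (T.sideMid i) ε, 0 < T.bc (i + 1) x ∧ 0 < T.bc (i + 2) x := by
  have hopen : IsOpen {x : ℂ | 0 < T.bc (i + 1) x ∧ 0 < T.bc (i + 2) x} :=
    (isOpen_lt continuous_const (T.bc_continuous _)).inter
      (isOpen_lt continuous_const (T.bc_continuous _))
  have hmem : T.sideMid i ∈ {x : ℂ | 0 < T.bc (i + 1) x ∧ 0 < T.bc (i + 2) x} :=
    (T.bc_of_mem_side (T.sideMid_mem_side i)).2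
  obtain ⟨ε, hε, hball⟩ := Metric.isOpen_iff.mp hopen _ hmem
  exact ⟨ε, hε, fun x hx => hball hx⟩

lemma bc_add_smul (i : Fin 3) (x : ℂ) (s : ℝ) (w : ℂ) :
    T.bc i (x + (s : ℂ) * w) = T.bc i x + s * (T.bc i).linear w := by
  have hsm : ((s : ℂ) * w) = s • w := by simp
  rw [hsm, bc_add, map_smul, smul_eq_mul]

lemma bc_lin_dirVec_reflect (i : Fin 3) (θ : Dir) :
    (T.bc i).linear (dirVec (T.reflect i θ)) = - (T.bc i).linear (dirVec θ) := by
  rw [T.reflect_eq, dirVec_mirrorDir (T.sideVec_ne_zero i), T.bc_lin_mirror]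

/-- The flow near the middle of the side `i`, for phase points that hit this side
before time `t`: one reflection. -/
lemma flow_bounce_ball (i : Fin 3) {ε : ℝ}
    (hball : ∀ x ∈ Metric.ball (T.sideMid i) ε, 0 < T.bc (i + 1) x ∧ 0 < T.bc (i + 2) x)
    {t : ℝ} (ht : 0 < t) {x : ℂ} {θ : Dir}
    (hx : dist x (T.sideMid i) < ε - t) (hx0 : 0 < T.bc i x)
    (hhit : T.bc i x + t * (T.bc i).linear (dirVec θ) < 0) :
    T.flow t (x, θ) = (T.sideMirror i (x + (t : ℂ) * dirVec θ), T.reflect i θ) := by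
  set l := (T.bc i).linear (dirVec θ) with hl
  have hlneg : l < 0 := by
    by_contra hcon
    have hcon' : 0 ≤ l := not_lt.mp hcon
    have : 0 ≤ t * l := mul_nonneg ht.le hcon'
    linarith
  have hτ : 0 < T.bc i x / (-l) := div_pos hx0 (by linarith)
  have hτt : T.bc i x / (-l) < t := by
    rw [div_lt_iff₀ (by linarith)]; nlinarith
  have hτl : T.bc i x / (-l) * l = - T.bc i x := by
    have hl0 : l ≠ 0 := hlneg.ne
    rw [div_neg, neg_mul, div_mul_cancel₀ _ hl0]
  have hin : ∀ y : ℂ, y ∈ Metric.ball (T.sideMid i) ε → 0 < T.bc i y → y ∈ T.table := by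
    intro y hy hy0
    rw [T.mem_table]
    intro j
    rcases fin3_cases i j with rfl | rfl | rfl
    · exact hy0
    · exact (hball y hy).1
    · exact (hball y hy).2
  have hdist : ∀ s : ℝ, 0 ≤ s → dist (x + (s : ℂ) * dirVec θ) (T.sideMid i) < ε - t + s := by
    intro s hs
    rw [dist_eq_norm] at hx ⊢
    calc ‖x + (s : ℂ) * dirVec θ - T.sideMid i‖
        = ‖(x - T.sideMid i) + (s : ℂ) * dirVec θ‖ := by ring_nf
      _ ≤ ‖x - T.sideMid i‖ + ‖(s : ℂ) * dirVec θ‖ := norm_add_le _ _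
      _ = ‖x - T.sideMid i‖ + |s| := by rw [norm_ofReal_mul_dirVec]
      _ < ε - t + s := by rw [abs_of_nonneg hs]; linarith
  apply T.flow_bounce i hτ hτt
  · intro s hs hsτ
    apply hin
    · rw [Metric.mem_ball]
      have := hdist s hs.le
      linarith
    · rw [T.bc_add_smul, ← hl]
      have h1 : s * (-l) < T.bc i x := by
        rw [lt_div_iff₀ (by linarith)] at hsτ; exact hsτ
      linarith
  · apply T.mem_side_of_bc
    · rw [T.bc_add_smul, ← hl, hτl]; ring
    · refine (hball _ ?_).1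
      rw [Metric.mem_ball]
      have := hdist _ hτ.le
      linarith
    · refine (hball _ ?_).2
      rw [Metric.mem_ball]
      have := hdist _ hτ.le
      linarith
  · intro s hs hst
    apply hin
    · rw [Metric.mem_ball]
      have h1 := hdist _ hτ.le
      rw [dist_eq_norm] at h1 ⊢
      calc ‖x + ((T.bc i x / (-l) : ℝ) : ℂ) * dirVec θ + (s : ℂ) * dirVec (T.reflect i θ)
              - T.sideMid i‖
          = ‖(x + ((T.bc i x / (-l) : ℝ) : ℂ) * dirVec θ - T.sideMid i)
              + (s : ℂ) * dirVec (T.reflect i θ)‖ := by ring_nf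
        _ ≤ ‖x + ((T.bc i x / (-l) : ℝ) : ℂ) * dirVec θ - T.sideMid i‖
              + ‖(s : ℂ) * dirVec (T.reflect i θ)‖ := norm_add_le _ _
        _ = ‖x + ((T.bc i x / (-l) : ℝ) : ℂ) * dirVec θ - T.sideMid i‖ + |s| := by
            rw [norm_ofReal_mul_dirVec]
        _ < ε := by rw [abs_of_pos hs]; linarith
    · rw [T.bc_add_smul, T.bc_add_smul, ← hl, hτl, T.bc_lin_dirVec_reflect, ← hl]
      have : 0 < s * (-l) := mul_pos hs (by linarith)
      linarith

end Triangle

end Vale.Agent.Lib.P099
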