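import Mathlib

/-!
# Folding the line onto an interval, and functions invariant under an irrational pair
of reflections

`fold α x` is the point of `[0, α]` obtained from `x` by the reflections in the points
of `α ℤ`.  The main lemma says that a pair of functions `H`, `G` on `(0, α)` related by
`H φ = G (fold α (φ + π)) = G (fold α (φ - π))` is constant when `α / π` is irrational.
-/

namespace Vale.Agent.Lib.P099

open Set

/-- The image of `x` in `[0, α]` under the group generated by the reflections in the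
points of `α ℤ`. -/
noncomputable def fold (α x : ℝ) : ℝ :=
  if Even ⌊x / α⌋ then x - ⌊x / α⌋ * α else (⌊x / α⌋ + 1) * α - x

section

variable {α : ℝ} (hα : 0 < α)
include hα

lemma floor_div_eq {x : ℝ} {n : ℤ} (h1 : n * α ≤ x) (h2 : x < (n + 1) * α) : ⌊x / α⌋ = n := by
  rw [Int.floor_eq_iff]
  constructor
  · rw [le_div_iff₀ hα]; exact h1
  · rw [div_lt_iff₀ hα]; exact h2

lemma fold_of_mem {x : ℝ} {n : ℤ} (h1 : n * α ≤ x) (h2 : x < (n + 1) * α) :
    fold α x = if Even n then x - n * α else (n + 1) * α - x := by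
  unfold fold
  rw [floor_div_eq hα h1 h2]

lemma floor_bounds (x : ℝ) : (⌊x / α⌋ : ℝ) * α ≤ x ∧ x < (⌊x / α⌋ + 1) * α := by
  constructor
  · have := Int.floor_le (x / α)
    rwa [le_div_iff₀ hα] at this
  · have := Int.lt_floor_add_one (x / α)
    rwa [div_lt_iff₀ hα] at this

lemma fold_add_int (x : ℝ) (k : ℤ) : fold α (x + 2 * k * α) = fold α x := by
  obtain ⟨h1, h2⟩ := floor_bounds hα x
  have h3 : ((⌊x / α⌋ + 2 * k : ℤ) : ℝ) * α ≤ x + 2 * k * α := by push_cast; linarith
  have h4 : x + 2 * k * α < (((⌊x / α⌋ + 2 * k : ℤ) : ℝ) + 1) * α := by push_cast; linarith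
  rw [fold_of_mem hα h3 h4, fold_of_mem hα h1 h2]
  have hpar : Even (⌊x / α⌋ + 2 * k) ↔ Even ⌊x / α⌋ := by
    rw [Int.even_add]
    simp
  by_cases he : Even ⌊x / α⌋
  · rw [if_pos he, if_pos (hpar.mpr he)]; push_cast; ring
  · rw [if_neg he, if_neg (fun h => he (hpar.mp h))]; push_cast; ring

lemma fold_neg {x : ℝ} (hx : ∀ n : ℤ, x ≠ n * α) : fold α (-x) = fold α x := by
  obtain ⟨h1, h2⟩ := floor_bounds hα x
  have h1' : (⌊x / α⌋ : ℝ) * α < x := lt_of_le_of_ne h1 (fun h => hx _ h.symm)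
  have h3 : ((-⌊x / α⌋ - 1 : ℤ) : ℝ) * α ≤ -x := by push_cast; linarith
  have h4 : -x < (((-⌊x / α⌋ - 1 : ℤ) : ℝ) + 1) * α := by push_cast; linarith
  rw [fold_of_mem hα h3 h4, fold_of_mem hα h1 h2]
  have hpar : Even (-⌊x / α⌋ - 1) ↔ ¬ Even ⌊x / α⌋ := by
    rw [Int.even_sub]
    simp
  by_cases he : Even ⌊x / α⌋
  · rw [if_pos he, if_neg (fun h => (hpar.mp h) he)]; push_cast; ring
  · rw [if_neg he, if_pos (hpar.mpr he)]; push_cast; ring

lemma fold_mem {x : ℝ} (hx : ∀ n : ℤ, x ≠ n * α) : 0 < fold α x ∧ fold α x < α := by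
  obtain ⟨h1, h2⟩ := floor_bounds hα x
  have h1' : (⌊x / α⌋ : ℝ) * α < x := lt_of_le_of_ne h1 (fun h => hx _ h.symm)
  unfold fold
  split_ifs
  · constructor <;> linarith
  · constructor <;> linarith

lemma fold_of_mem_Ico {x : ℝ} (h0 : 0 ≤ x) (h1 : x < α) : fold α x = x := by
  have h := fold_of_mem hα (x := x) (n := 0) (by simpa using h0) (by simpa using h1)
  rw [h]; simp

end

/-- The main lemma on irrational angles: both functions are equal to one and the same
constant. -/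
lemma const_of_passages_both {α : ℝ} (hα0 : 0 < α) (hirr : Irrational (α / Real.pi))
    {H G : ℝ → ℂ} (hG : ContinuousOn G (Ioo 0 α))
    (hL : ∀ φ, 0 < φ → φ < α → (∀ n : ℤ, φ + Real.pi ≠ n * α) →
      H φ = G (fold α (φ + Real.pi)))
    (hR : ∀ φ, 0 < φ → φ < α → (∀ n : ℤ, φ - Real.pi ≠ n * α) →
      H φ = G (fold α (φ - Real.pi))) :
    ∃ c, (∀ φ, 0 < φ → φ < α → H φ = c) ∧ (∀ ψ, 0 < ψ → ψ < α → G ψ = c) := by
  have hπ := Real.pi_pos
  set W : ℝ → ℂ := fun x => G (fold α x) with hW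
  -- no integer relation between `π` and `α`
  have hrel : ∀ a b : ℤ, b ≠ 0 → (b : ℝ) * α ≠ a * Real.pi := by
    intro a b hb h
    apply hirr.ne_rational a b
    have hb' : (b : ℝ) ≠ 0 := by exact_mod_cast hb
    field_simp
    linarith
  -- step 1: the reflection in `π`
  have step1 : ∀ y : ℝ, (∀ n : ℤ, y ≠ n * α) → (∀ n : ℤ, y + Real.pi ≠ n * α) →
      (∀ n : ℤ, y - Real.pi ≠ n * α) → W (y + Real.pi) = W (y - Real.pi) := by
    intro y hy hyp hym
    obtain ⟨hφ0, hφα⟩ := fold_mem hα0 hy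
    set φ := fold α y with hφ
    by_cases he : Even ⌊y / α⌋
    · obtain ⟨k, hk⟩ := he
      have hyφ : y = φ + 2 * k * α := by
        rw [hφ, fold, if_pos ⟨k, hk⟩, hk]; push_cast; ring
      have hLφ : ∀ n : ℤ, φ + Real.pi ≠ n * α := by
        intro n h
        apply hyp (n + 2 * k)
        rw [hyφ]; push_cast; linarith
      have hRφ : ∀ n : ℤ, φ - Real.pi ≠ n * α := by
        intro n h
        apply hym (n + 2 * k)
        rw [hyφ]; push_cast; linarith
      have e1 : y + Real.pi = (φ + Real.pi) + 2 * k * α := by rw [hyφ]; ring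
      have e2 : y - Real.pi = (φ - Real.pi) + 2 * k * α := by rw [hyφ]; ring
      simp only [hW]
      rw [e1, e2, fold_add_int hα0, fold_add_int hα0, ← hL φ hφ0 hφα hLφ, ← hR φ hφ0 hφα hRφ]
    · have hodd : Odd ⌊y / α⌋ := Int.not_even_iff_odd.mp he
      obtain ⟨k, hk⟩ := hodd
      have hyφ : y = -φ + 2 * (k + 1 : ℤ) * α := by
        rw [hφ, fold, if_neg he, hk]; push_cast; ring
      have hLφ : ∀ n : ℤ, φ + Real.pi ≠ n * α := by
        intro n h
        apply hym (2 * (k + 1) - n)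
        rw [hyφ]; push_cast; linarith
      have hRφ : ∀ n : ℤ, φ - Real.pi ≠ n * α := by
        intro n h
        apply hyp (2 * (k + 1) - n)
        rw [hyφ]; push_cast; linarith
      have e1 : y + Real.pi = -(φ - Real.pi) + 2 * (k + 1 : ℤ) * α := by rw [hyφ]; ring
      have e2 : y - Real.pi = -(φ + Real.pi) + 2 * (k + 1 : ℤ) * α := by rw [hyφ]; ring
      simp only [hW]
      rw [e1, e2, fold_add_int hα0, fold_add_int hα0, fold_neg hα0 hRφ, fold_neg hα0 hLφ,
        ← hL φ hφ0 hφα hLφ, ← hR φ hφ0 hφα hRφ]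
  -- step 2: the orbit of `α / 2`
  have hlat : ∀ m n : ℤ, α / 2 + m * Real.pi ≠ n * α := by
    intro m n h
    apply hrel (2 * m) (2 * n - 1)
    · intro h0
      have : (2 * n - 1) % 2 = 0 := by rw [h0]; rfl
      omega
    · push_cast; linarith
  have step3 : ∀ m : ℤ, W (α / 2 + 2 * m * Real.pi) = W (α / 2) := by
    intro m
    induction m using Int.induction_on with
    | zero => simp
    | succ m ih =>
      have h := step1 (α / 2 + (2 * m + 1 : ℤ) * Real.pi) (hlat _) (fun n => by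
        have := hlat (2 * m + 2) n
        intro h'; apply this; push_cast at h' ⊢; linarith) (fun n => by
        have := hlat (2 * m) n
        intro h'; apply this; push_cast at h' ⊢; linarith)
      have e1 : α / 2 + (2 * m + 1 : ℤ) * Real.pi + Real.pi
          = α / 2 + 2 * ((m + 1 : ℤ) : ℝ) * Real.pi := by push_cast; ring
      have e2 : α / 2 + (2 * m + 1 : ℤ) * Real.pi - Real.pi = α / 2 + 2 * (m : ℝ) * Real.pi := by
        push_cast; ring
      rw [e1, e2] at h
      rw [← ih]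
      exact_mod_cast h
    | pred m ih =>
      have h := step1 (α / 2 + (2 * (-m) - 1 : ℤ) * Real.pi) (hlat _) (fun n => by
        have := hlat (2 * (-m)) n
        intro h'; apply this; push_cast at h' ⊢; linarith) (fun n => by
        have := hlat (2 * (-m) - 2) n
        intro h'; apply this; push_cast at h' ⊢; linarith)
      have e1 : α / 2 + (2 * (-m) - 1 : ℤ) * Real.pi + Real.pi
          = α / 2 + 2 * ((-m : ℤ) : ℝ) * Real.pi := by push_cast; ring
      have e2 : α / 2 + (2 * (-m) - 1 : ℤ) * Real.pi - Real.pi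
          = α / 2 + 2 * ((-m - 1 : ℤ) : ℝ) * Real.pi := by
        push_cast; ring
      rw [e1, e2] at h
      rw [← ih, ← h]
  have hWc : W (α / 2) = G (α / 2) := by
    simp only [hW]
    rw [fold_of_mem_Ico hα0 (by linarith) (by linarith)]
  have step4 : ∀ m k : ℤ, W (α / 2 + 2 * m * Real.pi + 2 * k * α) = G (α / 2) := by
    intro m k
    simp only [hW]
    rw [fold_add_int hα0]
    have := step3 m
    simp only [hW] at this
    rw [this, fold_of_mem_Ico hα0 (by linarith) (by linarith)]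
  -- step 5: density
  have hdense : Dense (AddSubgroup.closure {2 * Real.pi, 2 * α} : Set ℝ) := by
    rw [dense_addSubgroupClosure_pair_iff]
    have e : 2 * Real.pi / (2 * α) = (α / Real.pi)⁻¹ := by
      field_simp
    rw [e]
    exact hirr.inv
  have hGc : ∀ ψ, 0 < ψ → ψ < α → G ψ = G (α / 2) := by
    intro ψ hψ0 hψα
    by_contra hne
    have hopen : IsOpen (Ioo (0 : ℝ) α) := isOpen_Ioo
    have hca : ContinuousAt G ψ := hG.continuousAt (hopen.mem_nhds ⟨hψ0, hψα⟩)
    have hev1 : ∀ᶠ x in nhds ψ, x ∈ Ioo (0 : ℝ) α := hopen.mem_nhds ⟨hψ0, hψα⟩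
    have hev : ∀ᶠ x in nhds ψ, x ∈ Ioo (0 : ℝ) α ∧ G x ≠ G (α / 2) :=
      hev1.and (hca.eventually_ne hne)
    obtain ⟨δ, hδ, hball⟩ := Metric.eventually_nhds_iff.mp hev
    obtain ⟨g, hg, hgd⟩ := hdense.exists_dist_lt (ψ - α / 2) hδ
    obtain ⟨m, k, hmk⟩ := AddSubgroup.mem_closure_pair.mp hg
    have hx : dist (α / 2 + g) ψ < δ := by
      rw [Real.dist_eq] at hgd ⊢
      have : α / 2 + g - ψ = -(ψ - α / 2 - g) := by ring
      rw [this, abs_neg]; exact hgd
    obtain ⟨hmem, hneq⟩ := hball hx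
    apply hneq
    have e : α / 2 + g = α / 2 + 2 * m * Real.pi + 2 * k * α := by
      rw [← hmk]; simp only [zsmul_eq_mul]; ring
    have h4 := step4 m k
    rw [← e] at h4
    simp only [hW] at h4
    rw [fold_of_mem_Ico hα0 hmem.1.le hmem.2] at h4
    exact h4
  -- step 6
  refine ⟨G (α / 2), ?_, hGc⟩
  intro φ hφ0 hφα
  by_cases hLφ : ∀ n : ℤ, φ + Real.pi ≠ n * α
  · rw [hL φ hφ0 hφα hLφ]
    obtain ⟨h1, h2⟩ := fold_mem hα0 hLφ
    exact hGc _ h1 h2
  · have hex : ∃ n : ℤ, φ + Real.pi = n * α := by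
      by_contra hcon
      apply hLφ
      intro n h
      exact hcon ⟨n, h⟩
    obtain ⟨n, hn⟩ := hex
    have hRφ : ∀ n' : ℤ, φ - Real.pi ≠ n' * α := by
      intro n' h
      apply hrel 2 (n - n')
      · intro h0
        have hnn : (n : ℝ) = n' := by exact_mod_cast (sub_eq_zero.mp h0)
        rw [hnn] at hn
        linarith
      · push_cast; linarith
    rw [hR φ hφ0 hφα hRφ]
    obtain ⟨h1, h2⟩ := fold_mem hα0 hRφ
    exact hGc _ h1 h2

/-- The main lemma on irrational angles. -/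
lemma const_of_passages {α : ℝ} (hα0 : 0 < α) (hirr : Irrational (α / Real.pi))
    {H G : ℝ → ℂ} (hG : ContinuousOn G (Ioo 0 α))
    (hL : ∀ φ, 0 < φ → φ < α → (∀ n : ℤ, φ + Real.pi ≠ n * α) →
      H φ = G (fold α (φ + Real.pi)))
    (hR : ∀ φ, 0 < φ → φ < α → (∀ n : ℤ, φ - Real.pi ≠ n * α) →
      H φ = G (fold α (φ - Real.pi))) :
    ∃ c, ∀ φ, 0 < φ → φ < α → H φ = c := by
  obtain ⟨c, hc, -⟩ := const_of_passages_both hα0 hirr hG hL hR
  exact ⟨c, hc⟩

end Vale.Agent.Lib.P099
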