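import Vale.Agent.Lib.P099.Double3
import Vale.Agent.Lib.P099.MirrorList

/-!
# Billiards in a right triangle: folding the trajectories of the doubled triangle

A trajectory of the doubled (isosceles) triangle which does not pass through the
right-angle vertex `k` of `T` (the midpoint of the doubled leg) folds onto a trajectory
of `T`.
-/

namespace Vale.Agent.Lib.P099

open Set

namespace Triangle

variable {T : Triangle} {k : Fin 3}

private lemma ff_lin_pos {a β s τ : ℝ} (ha : 0 < a) (hb : 0 < a + τ * β) (hs : 0 < s)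
    (hsτ : s < τ) : 0 < a + s * β := by
  rcases le_or_gt 0 β with h | h
  · have := mul_nonneg hs.le h
    linarith
  · have := mul_lt_mul_of_neg_right hsτ h
    linarith

private lemma ff_lin_neg {a β s τ : ℝ} (ha : a < 0) (hb : a + τ * β < 0) (hs : 0 < s)
    (hsτ : s < τ) : a + s * β < 0 := by
  have := ff_lin_pos (a := -a) (β := -β) (s := s) (τ := τ) (by linarith) (by linarith) hs hsτ
  linarith

/-- The crossing time of the mirror line, when the two end points are on opposite sides. -/
private lemma ff_cross_pos_neg {a β τ : ℝ} (hτ : 0 < τ) (ha : 0 < a) (hb : a + τ * β < 0) :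
    ∃ s₀ : ℝ, 0 < s₀ ∧ s₀ < τ ∧ a + s₀ * β = 0 ∧ (∀ s : ℝ, s < s₀ → 0 < a + s * β) ∧
      (∀ s : ℝ, s₀ < s → a + s * β < 0) := by
  have hβ : β < 0 := by
    by_contra hcon
    have h1 : 0 ≤ β := not_lt.mp hcon
    have := mul_nonneg hτ.le h1
    linarith
  have hβ0 : β ≠ 0 := ne_of_lt hβ
  have h0 : a + (-a / β) * β = 0 := by
    field_simp
    ring
  refine ⟨-a / β, ?_, ?_, h0, ?_, ?_⟩
  · exact div_pos_of_neg_of_neg (by linarith) hβ
  · rw [div_lt_iff_of_neg hβ]
    linarith
  · intro s hs
    have := mul_lt_mul_of_neg_right hs hβ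
    linarith
  · intro s hs
    have := mul_lt_mul_of_neg_right hs hβ
    linarith

private lemma ff_cross_neg_pos {a β τ : ℝ} (hτ : 0 < τ) (ha : a < 0) (hb : 0 < a + τ * β) :
    ∃ s₀ : ℝ, 0 < s₀ ∧ s₀ < τ ∧ a + s₀ * β = 0 ∧ (∀ s : ℝ, s < s₀ → a + s * β < 0) ∧
      (∀ s : ℝ, s₀ < s → 0 < a + s * β) := by
  obtain ⟨s₀, h1, h2, h3, h4, h5⟩ :=
    ff_cross_pos_neg (a := -a) (β := -β) hτ (by linarith) (by linarith)
  refine ⟨s₀, h1, h2, by linarith, ?_, ?_⟩
  · intro s hs
    have := h4 s hs
    linarith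
  · intro s hs
    have := h5 s hs
    linarith

/-- The trivial trajectory. -/
private lemma ff_reach_refl (T : Triangle) (p : ℂ × Dir) : T.Reach 0 p p := by
  obtain ⟨z, φ⟩ := p
  have h0 : T.Reach 0 (z, φ) (z + ((0 : ℝ) : ℂ) * dirVec φ, φ) :=
    Reach.free z φ 0 le_rfl (fun s hs hs' => absurd hs (not_lt.mpr hs'))
  simpa using h0

/-- The folded point of a point of the doubled table off the mirror line is in the table. -/
private lemma RightAt.ff_fold_mem_table (h : T.RightAt k) {q : ℂ × Dir}
    (hq : q.1 ∈ (T.double k).table) (hqb : T.bc (k + 1) q.1 ≠ 0) : (T.fold k q).1 ∈ T.table := by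
  rcases lt_or_gt_of_ne hqb with hneg | hpos
  · rw [T.fold_of_neg k hneg]
    exact h.mirror_mem_table hq hneg
  · rw [T.fold_of_nonneg k hpos.le]
    exact T.mem_table_of_double k hq hpos

/-- Folding one straight flight of the doubled triangle: the folded trajectory makes at
most one reflection (in the leg joining `k` and `k + 2`), and then runs straight to the
folded end point. -/
lemma RightAt.fold_flight (h : T.RightAt k) {x : ℂ} {θ : Dir} {τ : ℝ} (hτ : 0 < τ)
    (hfree : ∀ s : ℝ, 0 < s → s < τ → x + (s : ℂ) * dirVec θ ∈ (T.double k).table)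
    (hx : T.bc (k + 1) x ≠ 0) (hy : T.bc (k + 1) (x + (τ : ℂ) * dirVec θ) ≠ 0) :
    ∃ (τ₀ : ℝ) (W : ℂ), 0 ≤ τ₀ ∧ τ₀ < τ ∧
      T.Reach τ₀ (T.fold k (x, θ)) (W, (T.fold k (x + (τ : ℂ) * dirVec θ, θ)).2) ∧
      (∀ s : ℝ, 0 < s → s < τ - τ₀ →
        W + (s : ℂ) * dirVec (T.fold k (x + (τ : ℂ) * dirVec θ, θ)).2 ∈ T.table) ∧
      W + ((τ - τ₀ : ℝ) : ℂ) * dirVec (T.fold k (x + (τ : ℂ) * dirVec θ, θ)).2
        = (T.fold k (x + (τ : ℂ) * dirVec θ, θ)).1 := by
  have hb : ∀ s : ℝ, T.bc (k + 1) (x + (s : ℂ) * dirVec θ)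
      = T.bc (k + 1) x + s * (T.bc (k + 1)).linear (dirVec θ) :=
    fun s => T.bc_add_smul (k + 1) x s (dirVec θ)
  set β := (T.bc (k + 1)).linear (dirVec θ) with hβ
  set a := T.bc (k + 1) x with ha
  have hray : ∀ (z : ℂ) (s : ℝ), T.sideMirror (k + 1) (z + (s : ℂ) * dirVec θ)
      = T.sideMirror (k + 1) z + (s : ℂ) * dirVec (T.reflect (k + 1) θ) :=
    fun z s => T.sideMirror_ray (k + 1) z θ s
  have hyb := hb τ
  rcases lt_or_gt_of_ne hx with hxneg | hxpos
  · rcases lt_or_gt_of_ne hy with hyneg | hypos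
    · -- both end points beyond the leg
      have e1 : T.fold k (x, θ) = (T.sideMirror (k + 1) x, T.reflect (k + 1) θ) :=
        T.fold_of_neg k (p := (x, θ)) hxneg
      have e2 : T.fold k (x + (τ : ℂ) * dirVec θ, θ)
          = (T.sideMirror (k + 1) (x + (τ : ℂ) * dirVec θ), T.reflect (k + 1) θ) :=
        T.fold_of_neg k (p := (x + (τ : ℂ) * dirVec θ, θ)) hyneg
      rw [e1, e2]
      refine ⟨0, T.sideMirror (k + 1) x, le_rfl, hτ, ff_reach_refl T _, ?_, ?_⟩
      · intro s hs hsτ
        rw [sub_zero] at hsτ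
        rw [← hray]
        apply h.mirror_mem_table (hfree s hs hsτ)
        rw [hb s]
        rw [hyb] at hyneg
        exact ff_lin_neg hxneg hyneg hs hsτ
      · rw [sub_zero]
        exact (hray x τ).symm
    · -- from beyond the leg into the table
      rw [hyb] at hypos
      obtain ⟨s₀, hs₀, hs₀τ, hz₀, hbefore, hafter⟩ := ff_cross_neg_pos hτ hxneg hypos
      have e1 : T.fold k (x, θ) = (T.sideMirror (k + 1) x, T.reflect (k + 1) θ) :=
        T.fold_of_neg k (p := (x, θ)) hxneg
      have e2 : T.fold k (x + (τ : ℂ) * dirVec θ, θ) = (x + (τ : ℂ) * dirVec θ, θ) :=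
        T.fold_of_nonneg k (p := (x + (τ : ℂ) * dirVec θ, θ)) (by
          change 0 ≤ T.bc (k + 1) (x + (τ : ℂ) * dirVec θ)
          rw [hyb]
          exact hypos.le)
      rw [e1, e2]
      have hz₀side : x + (s₀ : ℂ) * dirVec θ ∈ T.side (k + 1) :=
        Triangle.mem_side_of_double (hfree s₀ hs₀ hs₀τ) (by rw [hb s₀]; exact hz₀)
      have hfix : T.sideMirror (k + 1) x + (s₀ : ℂ) * dirVec (T.reflect (k + 1) θ)
          = x + (s₀ : ℂ) * dirVec θ := by
        rw [← hray]
        exact T.sideMirror_fix hz₀side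
      have hstep : T.Reach s₀ (T.sideMirror (k + 1) x, T.reflect (k + 1) θ)
          (x + (s₀ : ℂ) * dirVec θ, θ) := by
        have h1 := T.reach_step (z := T.sideMirror (k + 1) x) (θ := T.reflect (k + 1) θ)
          (k + 1) hs₀ (by
            intro s hs hss₀
            rw [← hray]
            apply h.mirror_mem_table (hfree s hs (lt_trans hss₀ hs₀τ))
            rw [hb s]
            exact hbefore s hss₀) (by rw [hfix]; exact hz₀side)
        rw [hfix, T.reflect_reflect] at h1
        exact h1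
      refine ⟨s₀, x + (s₀ : ℂ) * dirVec θ, hs₀.le, hs₀τ, hstep, ?_, ?_⟩
      · intro s hs hsτ
        have e : x + (s₀ : ℂ) * dirVec θ + (s : ℂ) * dirVec θ
            = x + ((s₀ + s : ℝ) : ℂ) * dirVec θ := by
          push_cast
          ring
        rw [e]
        apply T.mem_table_of_double k (hfree (s₀ + s) (by linarith) (by linarith))
        rw [hb (s₀ + s)]
        exact hafter (s₀ + s) (by linarith)
      · push_cast
        ring
  · rcases lt_or_gt_of_ne hy with hyneg | hypos
    · -- from the table to beyond the leg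
      rw [hyb] at hyneg
      obtain ⟨s₀, hs₀, hs₀τ, hz₀, hbefore, hafter⟩ := ff_cross_pos_neg hτ hxpos hyneg
      have e1 : T.fold k (x, θ) = (x, θ) := T.fold_of_nonneg k (p := (x, θ)) hxpos.le
      have e2 : T.fold k (x + (τ : ℂ) * dirVec θ, θ)
          = (T.sideMirror (k + 1) (x + (τ : ℂ) * dirVec θ), T.reflect (k + 1) θ) :=
        T.fold_of_neg k (p := (x + (τ : ℂ) * dirVec θ, θ)) (by
          change T.bc (k + 1) (x + (τ : ℂ) * dirVec θ) < 0
          rw [hyb]
          exact hyneg)
      rw [e1, e2]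
      have hz₀side : x + (s₀ : ℂ) * dirVec θ ∈ T.side (k + 1) :=
        Triangle.mem_side_of_double (hfree s₀ hs₀ hs₀τ) (by rw [hb s₀]; exact hz₀)
      have hstep : T.Reach s₀ (x, θ) (x + (s₀ : ℂ) * dirVec θ, T.reflect (k + 1) θ) :=
        T.reach_step (k + 1) hs₀ (by
          intro s hs hss₀
          apply T.mem_table_of_double k (hfree s hs (lt_trans hss₀ hs₀τ))
          rw [hb s]
          exact hbefore s hss₀) hz₀side
      have hafter' : ∀ s : ℝ, x + (s₀ : ℂ) * dirVec θ + (s : ℂ) * dirVec (T.reflect (k + 1) θ)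
          = T.sideMirror (k + 1) (x + ((s₀ + s : ℝ) : ℂ) * dirVec θ) := by
        intro s
        have e : x + ((s₀ + s : ℝ) : ℂ) * dirVec θ
            = x + (s₀ : ℂ) * dirVec θ + (s : ℂ) * dirVec θ := by
          push_cast
          ring
        rw [e, hray, T.sideMirror_fix hz₀side]
      refine ⟨s₀, x + (s₀ : ℂ) * dirVec θ, hs₀.le, hs₀τ, hstep, ?_, ?_⟩
      · intro s hs hsτ
        rw [hafter' s]
        apply h.mirror_mem_table (hfree (s₀ + s) (by linarith) (by linarith))
        rw [hb (s₀ + s)]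
        exact hafter (s₀ + s) (by linarith)
      · rw [hafter' (τ - s₀)]
        have e : s₀ + (τ - s₀) = τ := by ring
        rw [e]
    · -- both end points in the table
      have e1 : T.fold k (x, θ) = (x, θ) := T.fold_of_nonneg k (p := (x, θ)) hxpos.le
      have e2 : T.fold k (x + (τ : ℂ) * dirVec θ, θ) = (x + (τ : ℂ) * dirVec θ, θ) :=
        T.fold_of_nonneg k (p := (x + (τ : ℂ) * dirVec θ, θ)) hypos.le
      rw [e1, e2]
      refine ⟨0, x, le_rfl, hτ, ff_reach_refl T _, ?_, ?_⟩
      · intro s hs hsτ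
        rw [sub_zero] at hsτ
        apply T.mem_table_of_double k (hfree s hs hsτ)
        rw [hb s]
        rw [hyb] at hypos
        exact ff_lin_pos hxpos hypos hs hsτ
      · rw [sub_zero]

/-- A trajectory of the doubled triangle folds onto a trajectory of `T`, unless it passes
through the vertex `k` of `T`. -/
theorem RightAt.fold_reach (h : T.RightAt k) {t : ℝ} {p q : ℂ × Dir}
    (hR : (T.double k).Reach t p q) (hp : T.bc (k + 1) p.1 ≠ 0)
    (hq : q.1 ∈ (T.double k).table) (hqb : T.bc (k + 1) q.1 ≠ 0) :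
    T.Reach t (T.fold k p) (T.fold k q) ∨ PassThrough (T.double k) (T.vertex k) p.1 p.2 t := by
  induction hR with
  | free x θ t ht hfree =>
    left
    rcases eq_or_lt_of_le ht with h0 | hpos
    · subst h0
      have e : x + ((0 : ℝ) : ℂ) * dirVec θ = x := by simp
      rw [e]
      exact ff_reach_refl T _
    · obtain ⟨τ₀, W, hτ₀, hτ₀t, hreach, hfree2, hend⟩ :=
        h.fold_flight hpos (fun s hs hst => hfree s hs hst.le) hp hqb
      have hmem := h.ff_fold_mem_table hq hqb
      set φ := (T.fold k (x + (t : ℂ) * dirVec θ, θ)).2 with hφ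
      have h2 : T.Reach (t - τ₀) (W, φ) (W + ((t - τ₀ : ℝ) : ℂ) * dirVec φ, φ) := by
        refine Reach.free W φ (t - τ₀) (by linarith) ?_
        intro s hs hst
        rcases eq_or_lt_of_le hst with heq | hlt
        · rw [heq, hend]
          exact hmem
        · exact hfree2 s hs hlt
      have h3 := T.reach_trans hreach h2
      have e : τ₀ + (t - τ₀) = t := by ring
      rw [e, hend] at h3
      exact h3
  | bounce x θ τ t i q hτ hfree hhit hrest ih =>
    have ht : 0 ≤ t := (T.double k).reach_nonneg hrest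
    by_cases hbY : T.bc (k + 1) (x + (τ : ℂ) * dirVec θ) = 0
    · right
      refine ⟨τ, hτ, by linarith, [], ?_⟩
      exact h.double_side_zero hhit hbY
    · rcases ih hbY hq hqb with hrestT | ⟨t₁, ht₁, ht₁t, L, hL⟩
      · left
        obtain ⟨τ₀, W, hτ₀, hτ₀τ, hreach, hfree2, hend⟩ := h.fold_flight hτ hfree hp hbY
        obtain ⟨iT, hside, hfold⟩ := h.fold_bounce hhit hbY θ
        set φ := (T.fold k (x + (τ : ℂ) * dirVec θ, θ)).2 with hφ
        rw [hfold] at hrestT
        have h2 : T.Reach ((τ - τ₀) + t) (W, φ) (T.fold k q) := by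
          refine Reach.bounce W φ (τ - τ₀) t iT (T.fold k q) (by linarith) hfree2 ?_ ?_
          · rw [hend]
            exact hside
          · rw [hend]
            exact hrestT
        have h3 := T.reach_trans hreach h2
        have e : τ₀ + (τ - τ₀ + t) = τ + t := by ring
        rw [e] at h3
        exact h3
      · right
        refine ⟨τ + t₁, by linarith, by linarith, i :: L, ?_⟩
        have e : x + ((τ + t₁ : ℝ) : ℂ) * dirVec θ
            = x + (τ : ℂ) * dirVec θ + (t₁ : ℂ) * dirVec θ := by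
          push_cast
          ring
        change mirrorList (T.double k) L ((T.double k).sideMirror i
          (x + ((τ + t₁ : ℝ) : ℂ) * dirVec θ)) = T.vertex k
        rw [e, (T.double k).sideMirror_ray, (T.double k).sideMirror_fix hhit]
        exact hL

end Triangle

end Vale.Agent.Lib.P099
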