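import Vale.Agent.Lib.P099.Chain

/-!
# Billiards in a triangle: polar frames at a vertex
-/

namespace Vale.Agent.Lib.P099

open Set

lemma fin3_distinct_cases {i j k : Fin 3} (hij : i ≠ j) (hik : i ≠ k) (hjk : j ≠ k) (m : Fin 3) :
    m = i ∨ m = j ∨ m = k := by
  revert i j k m; decide

lemma fin3_distinct_succ {i j k : Fin 3} (hij : i ≠ j) (hik : i ≠ k) (hjk : j ≠ k) :
    (k + 1 = i ∧ k + 2 = j) ∨ (k + 1 = j ∧ k + 2 = i) := by
  revert i j k; decide

/-- Reflection in a line through `P` whose direction is a positive multiple of the unit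
vector `c`. -/
lemma mirror_unit {c : ℂ} (hc : ‖c‖ = 1) {l : ℝ} (hl : l ≠ 0) (P w : ℂ) :
    mirror P ((l : ℂ) * c) (P + w) = P + c ^ 2 * (starRingEnd ℂ) w := by
  have hc0 : c ≠ 0 := by
    intro h; rw [h, norm_zero] at hc; exact zero_ne_one hc
  have hcc : c * (starRingEnd ℂ) c = 1 := by
    rw [Complex.mul_conj, Complex.normSq_eq_norm_sq, hc]; simp
  have hconj : (starRingEnd ℂ) c ≠ 0 := by simpa using hc0
  have hl' : (l : ℂ) ≠ 0 := by exact_mod_cast hl
  simp only [mirror, add_sub_cancel_left, map_mul, Complex.conj_ofReal]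
  congr 1
  have : (l : ℂ) * c / ((l : ℂ) * (starRingEnd ℂ) c) = c ^ 2 := by
    rw [div_eq_iff (mul_ne_zero hl' hconj)]
    rw [show c ^ 2 * ((l : ℂ) * (starRingEnd ℂ) c) = (l : ℂ) * c * (c * (starRingEnd ℂ) c) by ring,
      hcc, mul_one]
  rw [this]

lemma div_conj_unit {c : ℂ} (hc : ‖c‖ = 1) {l : ℝ} (hl : l ≠ 0) :
    (l : ℂ) * c / (starRingEnd ℂ) ((l : ℂ) * c) = c ^ 2 := by
  have hc0 : c ≠ 0 := by
    intro h; rw [h, norm_zero] at hc; exact zero_ne_one hc
  have hcc : c * (starRingEnd ℂ) c = 1 := by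
    rw [Complex.mul_conj, Complex.normSq_eq_norm_sq, hc]; simp
  have hconj : (starRingEnd ℂ) c ≠ 0 := by simpa using hc0
  have hl' : (l : ℂ) ≠ 0 := by exact_mod_cast hl
  rw [map_mul, Complex.conj_ofReal]
  rw [div_eq_iff (mul_ne_zero hl' hconj)]
  rw [show c ^ 2 * ((l : ℂ) * (starRingEnd ℂ) c) = (l : ℂ) * c * (c * (starRingEnd ℂ) c) by ring,
    hcc, mul_one]

namespace Triangle

variable (T : Triangle)

lemma vertex_ne' {i j : Fin 3} (h : i ≠ j) : T.vertex i ≠ T.vertex j := by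
  intro he
  have h1 := T.bc_vertex_self i
  rw [he, T.bc_vertex_ne h] at h1
  exact zero_ne_one h1

lemma mem_table_of_distinct {i j k : Fin 3} (hij : i ≠ j) (hik : i ≠ k) (hjk : j ≠ k) {x : ℂ}
    (hi : 0 < T.bc i x) (hj : 0 < T.bc j x) (hk : 0 < T.bc k x) : x ∈ T.table := by
  rw [T.mem_table]
  intro m
  rcases fin3_distinct_cases hij hik hjk m with rfl | rfl | rfl
  · exact hi
  · exact hj
  · exact hk

lemma mem_side_of_distinct {i j k : Fin 3} (hij : i ≠ j) (hik : i ≠ k) (hjk : j ≠ k) {x : ℂ}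
    (hk : T.bc k x = 0) (hi : 0 < T.bc i x) (hj : 0 < T.bc j x) : x ∈ T.side k := by
  rcases fin3_distinct_succ hij hik hjk with ⟨h1, h2⟩ | ⟨h1, h2⟩
  · exact T.mem_side_of_bc hk (by rw [h1]; exact hi) (by rw [h2]; exact hj)
  · exact T.mem_side_of_bc hk (by rw [h1]; exact hj) (by rw [h2]; exact hi)

lemma bc_comb {i j k : Fin 3} (hij : i ≠ j) (hik : i ≠ k) (hjk : j ≠ k) (cj ck : ℝ) :
    T.bc i (T.vertex i + (cj : ℂ) * (T.vertex j - T.vertex i)
        + (ck : ℂ) * (T.vertex k - T.vertex i)) = 1 - cj - ck ∧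
    T.bc j (T.vertex i + (cj : ℂ) * (T.vertex j - T.vertex i)
        + (ck : ℂ) * (T.vertex k - T.vertex i)) = cj ∧
    T.bc k (T.vertex i + (cj : ℂ) * (T.vertex j - T.vertex i)
        + (ck : ℂ) * (T.vertex k - T.vertex i)) = ck := by
  simp only [T.bc_add_smul, bc_lin_sub, T.bc_vertex_self, T.bc_vertex_ne hij.symm,
    T.bc_vertex_ne hik.symm, T.bc_vertex_ne hij, T.bc_vertex_ne hik, T.bc_vertex_ne hjk,
    T.bc_vertex_ne hjk.symm]
  refine ⟨by ring, by ring, by ring⟩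

lemma eq_comb {i j k : Fin 3} (hij : i ≠ j) (hik : i ≠ k) (hjk : j ≠ k) (y : ℂ) :
    y = T.vertex i + (T.bc j y : ℂ) * (T.vertex j - T.vertex i)
        + (T.bc k y : ℂ) * (T.vertex k - T.vertex i) := by
  obtain ⟨h1, h2, h3⟩ := T.bc_comb hij hik hjk (T.bc j y) (T.bc k y)
  apply T.basis.ext_elem
  intro m
  change T.bc m y = T.bc m _
  rcases fin3_distinct_cases hij hik hjk m with rfl | rfl | rfl
  · rw [h1]
    have hs := T.sum_bc m y
    rcases fin3_distinct_succ hij hik hjk with ⟨e1, e2⟩ | ⟨e1, e2⟩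
    · have hs' := T.sum_bc k y
      rw [e1, e2] at hs'; linarith
    · have hs' := T.sum_bc k y
      rw [e1, e2] at hs'; linarith
  · rw [h2]
  · rw [h3]

/-- The reflection in the side opposite to `k`, in terms of the two other vertices. -/
lemma sideMirror_of_distinct {i j k : Fin 3} (hij : i ≠ j) (hik : i ≠ k) (hjk : j ≠ k) :
    T.sideMirror k = mirror (T.vertex i) (T.vertex j - T.vertex i) := by
  rcases fin3_distinct_succ hij hik hjk with ⟨h1, h2⟩ | ⟨h1, h2⟩
  · rw [sideMirror, sideVec, h1, h2]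
  · rw [sideMirror, sideVec, h1, h2]
    have hd : T.vertex j - T.vertex i ≠ 0 := sub_ne_zero.mpr (T.vertex_ne' hij.symm)
    have e1 : T.vertex i - T.vertex j = -(T.vertex j - T.vertex i) := by ring
    have e2 : T.vertex i + ((1 : ℝ) : ℂ) * (T.vertex j - T.vertex i) = T.vertex j := by
      push_cast; ring
    have h3 := mirror_base hd (T.vertex i) (1 : ℝ)
    rw [e2] at h3
    rw [e1, mirror_neg_dir, h3]

lemma dirVec_reflect_of_distinct {i j k : Fin 3} (hij : i ≠ j) (hik : i ≠ k) (hjk : j ≠ k)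
    (θ : Dir) :
    dirVec (T.reflect k θ) = (T.vertex j - T.vertex i) / (starRingEnd ℂ) (T.vertex j - T.vertex i)
      * (starRingEnd ℂ) (dirVec θ) := by
  rw [T.reflect_eq, dirVec_mirrorDir (T.sideVec_ne_zero k)]
  congr 1
  rcases fin3_distinct_succ hij hik hjk with ⟨h1, h2⟩ | ⟨h1, h2⟩
  · rw [sideVec, h1, h2]
  · rw [sideVec, h1, h2]
    have e1 : T.vertex i - T.vertex j = -(T.vertex j - T.vertex i) := by ring
    rw [e1, map_neg, neg_div_neg_eq]

end Triangle

/-- A polar frame at the vertex `i` of the triangle: `a` is the unit vector pointing to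
the vertex `j` (at distance `la`), and the unit vector pointing to the vertex `k` (at
distance `lb`) is `a · exp (i · sg · α)`, where `sg = ±1` and `α` is the angle at `i`. -/
structure Frame (T : Triangle) (i j k : Fin 3) where
  /-- unit vector towards the vertex `j` -/
  a : ℂ
  /-- orientation -/
  sg : ℝ
  /-- the angle at the vertex `i` -/
  α : ℝ
  /-- distance to the vertex `j` -/
  la : ℝ
  /-- distance to the vertex `k` -/
  lb : ℝ
  hij : i ≠ j
  hik : i ≠ k
  hjk : j ≠ k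
  norm_a : ‖a‖ = 1
  hsg : sg = 1 ∨ sg = -1
  hα0 : 0 < α
  hαπ : α < Real.pi
  hla : 0 < la
  hlb : 0 < lb
  vtx_j : T.vertex j = T.vertex i + (la : ℂ) * a
  vtx_k : T.vertex k = T.vertex i + (lb : ℂ) * (a * Complex.exp ((sg * α : ℝ) * Complex.I))

namespace Frame

variable {T : Triangle} {i j k : Fin 3} (F : Frame T i j k)

/-- The unit vector at the polar angle `ψ` (measured from the side towards `j`, in the
direction of the side towards `k`). -/
noncomputable def E (ψ : ℝ) : ℂ := F.a * Complex.exp ((F.sg * ψ : ℝ) * Complex.I)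

/-- The direction of `E ψ`. -/
noncomputable def dE (ψ : ℝ) : Dir := ((Complex.arg F.a + F.sg * ψ : ℝ) : Dir)

lemma a_ne_zero : F.a ≠ 0 := by
  intro h
  have := F.norm_a
  rw [h, norm_zero] at this
  exact zero_ne_one this

lemma a_conj : F.a * (starRingEnd ℂ) F.a = 1 := by
  rw [Complex.mul_conj, Complex.normSq_eq_norm_sq, F.norm_a]; simp

lemma norm_E (ψ : ℝ) : ‖F.E ψ‖ = 1 := by
  rw [E, norm_mul, F.norm_a, Complex.norm_exp_ofReal_mul_I, mul_one]

lemma dirVec_dE (ψ : ℝ) : dirVec (F.dE ψ) = F.E ψ := by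
  rw [dE, dirVec_coe, E]
  have h := Complex.norm_mul_exp_arg_mul_I F.a
  rw [F.norm_a] at h
  push_cast
  rw [add_mul, Complex.exp_add]
  congr 1
  simpa using h

lemma sg_sq : F.sg * F.sg = 1 := by
  rcases F.hsg with h | h <;> rw [h] <;> norm_num

lemma exp_sg (x : ℝ) : Complex.exp ((F.sg * x : ℝ) * Complex.I)
    = (Real.cos x : ℂ) + (F.sg : ℂ) * (Real.sin x : ℂ) * Complex.I := by
  rcases F.hsg with h | h
  · rw [h, one_mul, Complex.exp_mul_I, ← Complex.ofReal_cos, ← Complex.ofReal_sin]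
    push_cast; ring
  · rw [h, Complex.exp_mul_I, ← Complex.ofReal_cos, ← Complex.ofReal_sin, neg_one_mul,
      Real.cos_neg, Real.sin_neg]
    push_cast; ring

lemma E_add (ψ x : ℝ) : F.E (ψ + x) = F.E ψ * Complex.exp ((F.sg * x : ℝ) * Complex.I) := by
  rw [E, E, mul_assoc, ← Complex.exp_add]
  congr 2
  push_cast; ring

lemma E_add_pi (ψ : ℝ) : F.E (ψ + Real.pi) = - F.E ψ := by
  rw [F.E_add, F.exp_sg, Real.cos_pi, Real.sin_pi]
  push_cast; ring

lemma E_zero : F.E 0 = F.a := by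
  rw [E]; simp

lemma conj_E (ψ : ℝ) : (starRingEnd ℂ) (F.E ψ)
    = (starRingEnd ℂ) F.a * Complex.exp ((F.sg * (-ψ) : ℝ) * Complex.I) := by
  rw [E, map_mul, ← Complex.exp_conj]
  congr 2
  simp [Complex.conj_ofReal]

lemma sq_conj_E_a (ψ : ℝ) : F.a ^ 2 * (starRingEnd ℂ) (F.E ψ) = F.E (-ψ) := by
  rw [F.conj_E, E]
  calc F.a ^ 2 * ((starRingEnd ℂ) F.a * Complex.exp ((F.sg * (-ψ) : ℝ) * Complex.I))
      = (F.a * (starRingEnd ℂ) F.a) * (F.a * Complex.exp ((F.sg * (-ψ) : ℝ) * Complex.I)) := by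
        ring
    _ = F.a * Complex.exp ((F.sg * (-ψ) : ℝ) * Complex.I) := by rw [F.a_conj, one_mul]

lemma sq_conj_E_b (ψ : ℝ) : (F.E F.α) ^ 2 * (starRingEnd ℂ) (F.E ψ) = F.E (2 * F.α - ψ) := by
  rw [F.conj_E]
  have h1 : F.E (2 * F.α - ψ) = F.a * (Complex.exp ((F.sg * F.α : ℝ) * Complex.I)
      * Complex.exp ((F.sg * F.α : ℝ) * Complex.I)
      * Complex.exp ((F.sg * (-ψ) : ℝ) * Complex.I)) := by
    rw [E, ← Complex.exp_add, ← Complex.exp_add]
    congr 2
    push_cast; ring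
  rw [h1, E]
  calc (F.a * Complex.exp ((F.sg * F.α : ℝ) * Complex.I)) ^ 2
        * ((starRingEnd ℂ) F.a * Complex.exp ((F.sg * (-ψ) : ℝ) * Complex.I))
      = (F.a * (starRingEnd ℂ) F.a) * (F.a * (Complex.exp ((F.sg * F.α : ℝ) * Complex.I)
          * Complex.exp ((F.sg * F.α : ℝ) * Complex.I)
          * Complex.exp ((F.sg * (-ψ) : ℝ) * Complex.I))) := by ring
    _ = _ := by rw [F.a_conj, one_mul]

lemma vtx_k' : T.vertex k = T.vertex i + (F.lb : ℂ) * F.E F.α := F.vtx_k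

/-- The reflection in the side through `i` and `j`. -/
lemma mirror_a (r ψ : ℝ) :
    T.sideMirror k (T.vertex i + (r : ℂ) * F.E ψ) = T.vertex i + (r : ℂ) * F.E (-ψ) := by
  rw [T.sideMirror_of_distinct F.hij F.hik F.hjk, F.vtx_j, add_sub_cancel_left,
    mirror_unit F.norm_a F.hla.ne', map_mul, Complex.conj_ofReal, ← F.sq_conj_E_a]
  ring

/-- The reflection in the side through `i` and `k`. -/
lemma mirror_b (r ψ : ℝ) :
    T.sideMirror j (T.vertex i + (r : ℂ) * F.E ψ)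
      = T.vertex i + (r : ℂ) * F.E (2 * F.α - ψ) := by
  rw [T.sideMirror_of_distinct F.hik F.hij F.hjk.symm, F.vtx_k', add_sub_cancel_left,
    mirror_unit (F.norm_E F.α) F.hlb.ne', map_mul, Complex.conj_ofReal, ← F.sq_conj_E_b]
  ring

lemma reflect_a (ψ : ℝ) : T.reflect k (F.dE ψ) = F.dE (-ψ) := by
  apply dirVec_injective
  rw [T.dirVec_reflect_of_distinct F.hij F.hik F.hjk, F.vtx_j, add_sub_cancel_left,
    div_conj_unit F.norm_a F.hla.ne', F.dirVec_dE, F.dirVec_dE, F.sq_conj_E_a]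

lemma reflect_b (ψ : ℝ) : T.reflect j (F.dE ψ) = F.dE (2 * F.α - ψ) := by
  apply dirVec_injective
  rw [T.dirVec_reflect_of_distinct F.hik F.hij F.hjk.symm, F.vtx_k', add_sub_cancel_left,
    div_conj_unit (F.norm_E F.α) F.hlb.ne', F.dirVec_dE, F.dirVec_dE, F.sq_conj_E_b]

lemma sin_α_pos : 0 < Real.sin F.α := Real.sin_pos_of_pos_of_lt_pi F.hα0 F.hαπ

lemma E_decomp (ψ : ℝ) : (Real.sin F.α : ℂ) * F.E ψ
    = (Real.sin (F.α - ψ) : ℂ) * F.a + (Real.sin ψ : ℂ) * F.E F.α := by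
  rw [E, E, F.exp_sg, F.exp_sg, Real.sin_sub]
  push_cast
  ring

/-- Barycentric coordinates of the point with polar coordinates `(r, ψ)`. -/
lemma bc_point (r ψ : ℝ) :
    T.bc i (T.vertex i + (r : ℂ) * F.E ψ)
      = 1 - r * Real.sin (F.α - ψ) / (F.la * Real.sin F.α)
          - r * Real.sin ψ / (F.lb * Real.sin F.α) ∧
    T.bc j (T.vertex i + (r : ℂ) * F.E ψ) = r * Real.sin (F.α - ψ) / (F.la * Real.sin F.α) ∧
    T.bc k (T.vertex i + (r : ℂ) * F.E ψ) = r * Real.sin ψ / (F.lb * Real.sin F.α) := by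
  have hs := F.sin_α_pos
  have hs' : (Real.sin F.α : ℂ) ≠ 0 := by exact_mod_cast hs.ne'
  have hla' : (F.la : ℂ) ≠ 0 := by exact_mod_cast F.hla.ne'
  have hlb' : (F.lb : ℂ) ≠ 0 := by exact_mod_cast F.hlb.ne'
  have e : T.vertex i + (r : ℂ) * F.E ψ
      = T.vertex i + ((r * Real.sin (F.α - ψ) / (F.la * Real.sin F.α) : ℝ) : ℂ)
            * (T.vertex j - T.vertex i)
          + ((r * Real.sin ψ / (F.lb * Real.sin F.α) : ℝ) : ℂ) * (T.vertex k - T.vertex i) := by
    rw [F.vtx_j, F.vtx_k', add_sub_cancel_left, add_sub_cancel_left]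
    have h1 : F.E ψ = ((Real.sin (F.α - ψ) : ℂ) * F.a + (Real.sin ψ : ℂ) * F.E F.α)
        / (Real.sin F.α : ℂ) := by
      rw [← F.E_decomp]; field_simp
    rw [h1]
    push_cast
    field_simp
    ring
  rw [e]
  exact T.bc_comb F.hij F.hik F.hjk _ _

/-- The radius below which the polar sector lies in the table. -/
noncomputable def r₀ : ℝ := min F.la F.lb * Real.sin F.α / 2

lemma r₀_pos : 0 < F.r₀ := by
  have := F.sin_α_pos
  have := lt_min F.hla F.hlb
  unfold r₀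
  positivity

lemma mem_table {r ψ : ℝ} (hr : 0 < r) (hr' : r < F.r₀) (hψ : 0 < ψ) (hψ' : ψ < F.α) :
    T.vertex i + (r : ℂ) * F.E ψ ∈ T.table := by
  obtain ⟨h1, h2, h3⟩ := F.bc_point r ψ
  have hs := F.sin_α_pos
  have hsψ : 0 < Real.sin ψ := Real.sin_pos_of_pos_of_lt_pi hψ (by linarith [F.hαπ])
  have hsψ' : 0 < Real.sin (F.α - ψ) :=
    Real.sin_pos_of_pos_of_lt_pi (by linarith) (by linarith [F.hαπ])
  have hla := F.hla
  have hlb := F.hlb
  have hj : 0 < r * Real.sin (F.α - ψ) / (F.la * Real.sin F.α) := by positivity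
  have hk : 0 < r * Real.sin ψ / (F.lb * Real.sin F.α) := by positivity
  have hr₀a : F.r₀ ≤ F.la * Real.sin F.α / 2 := by
    unfold r₀
    have := min_le_left F.la F.lb
    nlinarith
  have hr₀b : F.r₀ ≤ F.lb * Real.sin F.α / 2 := by
    unfold r₀
    have := min_le_right F.la F.lb
    nlinarith
  have hj' : r * Real.sin (F.α - ψ) / (F.la * Real.sin F.α) < 1 / 2 := by
    rw [div_lt_iff₀ (by positivity)]
    have := Real.sin_le_one (F.α - ψ)
    nlinarith
  have hk' : r * Real.sin ψ / (F.lb * Real.sin F.α) < 1 / 2 := by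
    rw [div_lt_iff₀ (by positivity)]
    have := Real.sin_le_one ψ
    nlinarith
  apply T.mem_table_of_distinct F.hij F.hik F.hjk
  · rw [h1]; linarith
  · rw [h2]; exact hj
  · rw [h3]; exact hk

lemma mem_side_a {r : ℝ} (hr : 0 < r) (hr' : r < F.la) :
    T.vertex i + (r : ℂ) * F.E 0 ∈ T.side k := by
  obtain ⟨h1, h2, h3⟩ := F.bc_point r 0
  have hs := F.sin_α_pos
  have hla := F.hla
  simp only [sub_zero, Real.sin_zero, mul_zero, zero_div] at h1 h2 h3
  have e : r * Real.sin F.α / (F.la * Real.sin F.α) = r / F.la := by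
    field_simp
  rw [e] at h1 h2
  apply T.mem_side_of_distinct F.hij F.hik F.hjk h3
  · rw [h1]
    have : r / F.la < 1 := by rw [div_lt_one hla]; exact hr'
    linarith
  · rw [h2]; positivity

lemma mem_side_b {r : ℝ} (hr : 0 < r) (hr' : r < F.lb) :
    T.vertex i + (r : ℂ) * F.E F.α ∈ T.side j := by
  obtain ⟨h1, h2, h3⟩ := F.bc_point r F.α
  have hs := F.sin_α_pos
  have hlb := F.hlb
  simp only [sub_self, Real.sin_zero, mul_zero, zero_div, sub_zero] at h1 h2 h3
  have e : r * Real.sin F.α / (F.lb * Real.sin F.α) = r / F.lb := by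
    field_simp
  rw [e] at h1 h3
  apply T.mem_side_of_distinct F.hik F.hij F.hjk.symm h2
  · rw [h1]
    have : r / F.lb < 1 := by rw [div_lt_one hlb]; exact hr'
    linarith
  · rw [h3]; positivity


/-- Every point of the table has polar coordinates `(r, ψ)` with `0 < ψ < α`. -/
lemma exists_polar {y : ℂ} (hy : y ∈ T.table) :
    ∃ r ψ : ℝ, 0 < r ∧ 0 < ψ ∧ ψ < F.α ∧ y = T.vertex i + (r : ℂ) * F.E ψ := by
  have hbj : 0 < T.bc j y := (T.mem_table.mp hy) j
  have hbk : 0 < T.bc k y := (T.mem_table.mp hy) k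
  have hs := F.sin_α_pos
  set p := T.bc j y * F.la with hp
  set q := T.bc k y * F.lb with hq
  have hp0 : 0 < p := mul_pos hbj F.hla
  have hq0 : 0 < q := mul_pos hbk F.hlb
  set W : ℂ := (p : ℂ) + (q : ℂ) * Complex.exp ((F.sg * F.α : ℝ) * Complex.I) with hW
  have hyW : y = T.vertex i + F.a * W := by
    conv_lhs => rw [T.eq_comb F.hij F.hik F.hjk y]
    rw [F.vtx_j, F.vtx_k, add_sub_cancel_left, add_sub_cancel_left, hW, hp, hq]
    push_cast; ring
  have hWre : W.re = p + q * Real.cos F.α := by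
    rw [hW, F.exp_sg]
    simp [Complex.add_re, Complex.mul_re, Complex.cos_ofReal_re, Complex.sin_ofReal_re,
      Complex.cos_ofReal_im, Complex.sin_ofReal_im]
  have hWim : W.im = q * F.sg * Real.sin F.α := by
    rw [hW, F.exp_sg]
    simp [Complex.add_im, Complex.mul_im, Complex.cos_ofReal_re, Complex.sin_ofReal_re,
      Complex.cos_ofReal_im, Complex.sin_ofReal_im]
    ring
  have hW0 : W ≠ 0 := by
    intro h
    have : W.im = 0 := by rw [h]; simp
    rw [hWim] at this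
    rcases F.hsg with h1 | h1 <;> rw [h1] at this <;> nlinarith
  have hr : 0 < ‖W‖ := norm_pos_iff.mpr hW0
  set ω := Complex.arg W with hω
  have hWexp : W = (‖W‖ : ℂ) * Complex.exp ((ω : ℝ) * Complex.I) :=
    (Complex.norm_mul_exp_arg_mul_I W).symm
  have hsinω : Real.sin ω = q * F.sg * Real.sin F.α / ‖W‖ := by
    rw [hω, Complex.sin_arg, hWim]
  have hcosω : Real.cos ω = (p + q * Real.cos F.α) / ‖W‖ := by
    rw [hω, Complex.cos_arg hW0, hWre]
  have hωle : ω ≤ Real.pi := Complex.arg_le_pi W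
  have hωgt : -Real.pi < ω := Complex.neg_pi_lt_arg W
  set ψ := F.sg * ω with hψ
  have hsgψ : F.sg * ψ = ω := by rw [hψ, ← mul_assoc, F.sg_sq, one_mul]
  have hsinψ : Real.sin ψ = q * Real.sin F.α / ‖W‖ := by
    rcases F.hsg with h1 | h1
    · rw [hψ, h1, one_mul, hsinω, h1]; ring
    · rw [hψ, h1, neg_one_mul, Real.sin_neg, hsinω, h1]; ring
  have hcosψ : Real.cos ψ = (p + q * Real.cos F.α) / ‖W‖ := by
    rcases F.hsg with h1 | h1
    · rw [hψ, h1, one_mul, hcosω]
    · rw [hψ, h1, neg_one_mul, Real.cos_neg, hcosω]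
  have hsinψpos : 0 < Real.sin ψ := by rw [hsinψ]; positivity
  have hψrange : -Real.pi ≤ ψ ∧ ψ ≤ Real.pi := by
    rcases F.hsg with h1 | h1
    · rw [hψ, h1, one_mul]; exact ⟨hωgt.le, hωle⟩
    · rw [hψ, h1, neg_one_mul]; constructor <;> linarith
  have hψ0 : 0 < ψ := by
    by_contra hcon
    have h1 : ψ ≤ 0 := not_lt.mp hcon
    have := Real.sin_nonpos_of_nonpos_of_neg_pi_le h1 hψrange.1
    linarith
  have hψπ : ψ < Real.pi := by
    rcases hψrange.2.lt_or_eq with h | h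
    · exact h
    · rw [h, Real.sin_pi] at hsinψpos
      exact absurd hsinψpos (lt_irrefl _)
  have hsub : Real.sin (ψ - F.α) < 0 := by
    rw [Real.sin_sub, hsinψ, hcosψ]
    have e : q * Real.sin F.α / ‖W‖ * Real.cos F.α - (p + q * Real.cos F.α) / ‖W‖ * Real.sin F.α
        = - (p * Real.sin F.α / ‖W‖) := by
      field_simp; ring
    rw [e]
    have : 0 < p * Real.sin F.α / ‖W‖ := by positivity
    linarith
  have hψα : ψ < F.α := by
    by_contra hcon
    have h1 : 0 ≤ ψ - F.α := by linarith [not_lt.mp hcon]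
    have := Real.sin_nonneg_of_nonneg_of_le_pi h1 (by linarith [F.hα0])
    linarith
  refine ⟨‖W‖, ψ, hr, hψ0, hψα, ?_⟩
  rw [hyW, E, hsgψ]
  conv_lhs => rw [hWexp]
  ring

/-- The frame with the roles of the two sides exchanged. -/
noncomputable def flip : Frame T i k j where
  a := F.E F.α
  sg := -F.sg
  α := F.α
  la := F.lb
  lb := F.la
  hij := F.hik
  hik := F.hij
  hjk := F.hjk.symm
  norm_a := F.norm_E F.α
  hsg := by rcases F.hsg with h | h <;> rw [h] <;> simp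
  hα0 := F.hα0
  hαπ := F.hαπ
  hla := F.hlb
  hlb := F.hla
  vtx_j := F.vtx_k'
  vtx_k := by
    rw [F.vtx_j, E, mul_assoc, ← Complex.exp_add]
    have : ((F.sg * F.α : ℝ) : ℂ) * Complex.I + ((-F.sg * F.α : ℝ) : ℂ) * Complex.I = 0 := by
      push_cast; ring
    rw [this, Complex.exp_zero, mul_one]

lemma flip_α : F.flip.α = F.α := rfl

lemma flip_E (x : ℝ) : F.flip.E x = F.E (F.α - x) := by
  change F.E F.α * Complex.exp ((-F.sg * x : ℝ) * Complex.I) = F.E (F.α - x)
  rw [E, E, mul_assoc, ← Complex.exp_add]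
  congr 2
  push_cast; ring

lemma flip_dE (x : ℝ) : F.flip.dE x = F.dE (F.α - x) := by
  apply dirVec_injective
  rw [Frame.dirVec_dE, Frame.dirVec_dE, F.flip_E]

lemma flip_r₀ : F.flip.r₀ = F.r₀ := by
  change min F.lb F.la * Real.sin F.α / 2 = min F.la F.lb * Real.sin F.α / 2
  rw [min_comm]

lemma dE_add_two_pi (ψ : ℝ) : F.dE (ψ + 2 * Real.pi) = F.dE ψ := by
  apply dirVec_injective
  rw [F.dirVec_dE, F.dirVec_dE]
  have : ψ + 2 * Real.pi = ψ + Real.pi + Real.pi := by ring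
  rw [this, F.E_add_pi, F.E_add_pi, neg_neg]

end Frame

namespace Triangle

variable (T : Triangle)

/-- A polar frame exists at every vertex whose angle is strictly between `0` and `π`. -/
lemma exists_frame {i j k : Fin 3} (hij : i ≠ j) (hik : i ≠ k) (hjk : j ≠ k)
    (h0 : 0 < EuclideanGeometry.angle (T.vertex j) (T.vertex i) (T.vertex k))
    (hπ : EuclideanGeometry.angle (T.vertex j) (T.vertex i) (T.vertex k) < Real.pi) :
    ∃ F : Frame T i j k,
      F.α = EuclideanGeometry.angle (T.vertex j) (T.vertex i) (T.vertex k) := by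
  set A := T.vertex j - T.vertex i with hA
  set B := T.vertex k - T.vertex i with hB
  have hA0 : A ≠ 0 := sub_ne_zero.mpr (T.vertex_ne' hij.symm)
  have hB0 : B ≠ 0 := sub_ne_zero.mpr (T.vertex_ne' hik.symm)
  have hnA : 0 < ‖A‖ := norm_pos_iff.mpr hA0
  have hnB : 0 < ‖B‖ := norm_pos_iff.mpr hB0
  set ω := Complex.arg (B / A) with hω
  have hangle : EuclideanGeometry.angle (T.vertex j) (T.vertex i) (T.vertex k) = |ω| := by
    unfold EuclideanGeometry.angle
    simp only [vsub_eq_sub]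
    rw [InnerProductGeometry.angle_comm, Complex.angle_eq_abs_arg hB0 hA0]
  set sg : ℝ := if 0 ≤ ω then 1 else -1 with hsg
  have hsgω : sg * |ω| = ω := by
    by_cases h : 0 ≤ ω
    · rw [hsg, if_pos h, abs_of_nonneg h, one_mul]
    · rw [hsg, if_neg h, abs_of_neg (not_le.mp h)]; ring
  have hexp : B / A = (‖B / A‖ : ℂ) * Complex.exp ((ω : ℝ) * Complex.I) :=
    (Complex.norm_mul_exp_arg_mul_I (B / A)).symm
  refine ⟨{ a := A / (‖A‖ : ℂ), sg := sg, α := |ω|, la := ‖A‖, lb := ‖B‖, hij := hij, hik := hik,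
            hjk := hjk, norm_a := ?_, hsg := ?_, hα0 := ?_, hαπ := ?_, hla := hnA, hlb := hnB,
            vtx_j := ?_, vtx_k := ?_ }, hangle.symm⟩
  · rw [norm_div, Complex.norm_real, Real.norm_eq_abs, abs_of_pos hnA, div_self hnA.ne']
  · by_cases h : 0 ≤ ω
    · left; rw [hsg, if_pos h]
    · right; rw [hsg, if_neg h]
  · rw [← hangle]; exact h0
  · rw [← hangle]; exact hπ
  · have hn : (‖A‖ : ℂ) ≠ 0 := by exact_mod_cast hnA.ne'
    have h1 : (‖A‖ : ℂ) * (A / (‖A‖ : ℂ)) = A := by field_simp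
    rw [h1, hA]
    ring
  · rw [hsgω]
    have hn : (‖A‖ : ℂ) ≠ 0 := by exact_mod_cast hnA.ne'
    have h1 : B = A * (B / A) := by field_simp
    have h2 : T.vertex k = T.vertex i + B := by rw [hB]; ring
    rw [h2]
    congr 1
    conv_lhs => rw [h1, hexp]
    rw [norm_div]
    push_cast
    field_simp

end Triangle

end Vale.Agent.Lib.P099
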