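import Mathlib

namespace Vale.Agent.Lib.P099

open Set

/-- A continuous nowhere vanishing complex function on the plane has a continuous logarithm. -/
theorem exists_log_lift {H : ℝ × ℝ → ℂ} (hH : Continuous H) (h0 : ∀ p, H p ≠ 0) :
    ∃ L : ℝ × ℝ → ℂ, Continuous L ∧ ∀ p, Complex.exp (L p) = H p := by
  let f : C(ℝ × ℝ, {z : ℂ // z ≠ 0}) := ⟨fun p => ⟨H p, h0 p⟩, hH.subtype_mk _⟩
  have he : (fun z : ℂ => (⟨Complex.exp z, z.exp_ne_zero⟩ : {z : ℂ // z ≠ 0}))
      (Complex.log (H (0, 0))) = f (0, 0) := by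
    apply Subtype.ext
    exact Complex.exp_log (h0 _)
  obtain ⟨F, ⟨-, hF⟩, -⟩ := Complex.isCoveringMap_exp.existsUnique_continuousMap_lifts f (0, 0)
    (Complex.log (H (0, 0))) he
  refine ⟨F, F.continuous, fun p => ?_⟩
  have h1 := congrFun hF p
  exact congrArg Subtype.val h1

/-- A continuous function on the unit interval whose exponential is identically one and
which vanishes at zero is identically zero. -/
theorem lift_aux_zero {g : ℝ → ℂ} (hg : ContinuousOn g (Icc 0 1))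
    (h1 : ∀ s ∈ Icc (0 : ℝ) 1, Complex.exp (g s) = 1) (h0 : g 0 = 0) :
    ∀ s ∈ Icc (0 : ℝ) 1, g s = 0 := by
  intro s hs
  have hT : IsDiscrete ((AddSubgroup.zmultiples (2 * Real.pi * Complex.I : ℂ) : Set ℂ)) :=
    SetLike.isDiscrete_iff_discreteTopology.mpr (NormedSpace.discreteTopology_zmultiples _)
  have hmaps : MapsTo g (Icc 0 1)
      (AddSubgroup.zmultiples (2 * Real.pi * Complex.I : ℂ) : Set ℂ) := by
    intro t ht
    obtain ⟨n, hn⟩ := Complex.exp_eq_one_iff.mp (h1 t ht)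
    rw [SetLike.mem_coe, AddSubgroup.mem_zmultiples_iff]
    refine ⟨n, ?_⟩
    rw [hn, zsmul_eq_mul]
  have h2 := isPreconnected_Icc.constant_of_mapsTo hT hg hmaps
    (left_mem_Icc.mpr zero_le_one) hs
  rw [← h2, h0]

/-- A continuous logarithm of w exp (i a(s)) differs from i a(s) by a constant. -/
theorem lift_sub_const {L : ℝ → ℂ} {a : ℝ → ℝ} {w : ℂ} (hL : ContinuousOn L (Icc 0 1))
    (ha : ContinuousOn a (Icc 0 1))
    (h : ∀ s ∈ Icc (0 : ℝ) 1, Complex.exp (L s) = w * Complex.exp (a s * Complex.I)) :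
    ∀ s ∈ Icc (0 : ℝ) 1, L s - a s * Complex.I = L 0 - a 0 * Complex.I := by
  have hexp : ∀ s ∈ Icc (0 : ℝ) 1, Complex.exp (L s - a s * Complex.I) = w := by
    intro s hs
    rw [Complex.exp_sub, h s hs, mul_div_cancel_right₀ _ (Complex.exp_ne_zero _)]
  have h0mem : (0 : ℝ) ∈ Icc (0 : ℝ) 1 := left_mem_Icc.mpr zero_le_one
  have hw : w ≠ 0 := by
    rw [← hexp 0 h0mem]
    exact Complex.exp_ne_zero _
  have hcont : ContinuousOn
      (fun s : ℝ => L s - a s * Complex.I - (L 0 - a 0 * Complex.I)) (Icc 0 1) :=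
    (hL.sub ((Complex.continuous_ofReal.comp_continuousOn ha).mul continuousOn_const)).sub
      continuousOn_const
  have hone : ∀ s ∈ Icc (0 : ℝ) 1,
      Complex.exp (L s - a s * Complex.I - (L 0 - a 0 * Complex.I)) = 1 := by
    intro s hs
    rw [Complex.exp_sub, hexp s hs, hexp 0 h0mem, div_self hw]
  intro s hs
  have h3 := lift_aux_zero hcont hone (by simp) s hs
  exact sub_eq_zero.mp h3

/-- A continuous logarithm of a function which stays close to a constant w ≠ 0 varies little. -/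
theorem lift_small {L : ℝ → ℂ} {w : ℂ} {r : ℝ} (hL : ContinuousOn L (Icc 0 1))
    (hr : r ≤ ‖w‖ / 8) (hw : w ≠ 0)
    (h : ∀ u ∈ Icc (0 : ℝ) 1, ‖Complex.exp (L u) - w‖ ≤ r) :
    ‖L 1 - L 0‖ * ‖w‖ ≤ 4 * r := by
  have h0mem : (0 : ℝ) ∈ Icc (0 : ℝ) 1 := left_mem_Icc.mpr zero_le_one
  have h1mem : (1 : ℝ) ∈ Icc (0 : ℝ) 1 := right_mem_Icc.mpr zero_le_one
  have hwpos : 0 < ‖w‖ := norm_pos_iff.mpr hw
  have hr0 : 0 ≤ r := (norm_nonneg _).trans (h 0 h0mem)
  have hE0 : (7 / 8) * ‖w‖ ≤ ‖Complex.exp (L 0)‖ := by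
    have h1 : ‖w‖ - ‖Complex.exp (L 0)‖ ≤ ‖w - Complex.exp (L 0)‖ := norm_sub_norm_le _ _
    have h2 : ‖w - Complex.exp (L 0)‖ ≤ r := by
      rw [norm_sub_rev]
      exact h 0 h0mem
    linarith
  have hE0pos : 0 < ‖Complex.exp (L 0)‖ := by nlinarith
  have hE0ne : Complex.exp (L 0) ≠ 0 := Complex.exp_ne_zero _
  -- the quotient stays close to one
  have hz : ∀ u ∈ Icc (0 : ℝ) 1, ‖Complex.exp (L u - L 0) - 1‖ * ‖w‖ ≤ (16 / 7) * r := by
    intro u hu
    have h1 : ‖Complex.exp (L u) - Complex.exp (L 0)‖ ≤ 2 * r := by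
      have h2 : Complex.exp (L u) - Complex.exp (L 0)
          = (Complex.exp (L u) - w) - (Complex.exp (L 0) - w) := by ring
      rw [h2]
      have h3 := norm_sub_le (Complex.exp (L u) - w) (Complex.exp (L 0) - w)
      have h4 := h u hu
      have h5 := h 0 h0mem
      linarith
    have h6 : Complex.exp (L u - L 0) - 1
        = (Complex.exp (L u) - Complex.exp (L 0)) / Complex.exp (L 0) := by
      rw [Complex.exp_sub]
      field_simp
    have h7 : ‖Complex.exp (L u - L 0) - 1‖ * ‖Complex.exp (L 0)‖ ≤ 2 * r := by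
      rw [h6, norm_div, div_mul_cancel₀ _ hE0pos.ne']
      exact h1
    have h8 : 0 ≤ ‖Complex.exp (L u - L 0) - 1‖ := norm_nonneg _
    nlinarith
  have hz' : ∀ u ∈ Icc (0 : ℝ) 1, ‖Complex.exp (L u - L 0) - 1‖ ≤ 2 / 7 := by
    intro u hu
    have h1 := hz u hu
    have h2 : ‖Complex.exp (L u - L 0) - 1‖ * ‖w‖ ≤ (2 / 7) * ‖w‖ := by linarith
    exact le_of_mul_le_mul_right h2 hwpos
  have hslit : ∀ u ∈ Icc (0 : ℝ) 1, Complex.exp (L u - L 0) ∈ Complex.slitPlane := by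
    intro u hu
    have h1 : ‖Complex.exp (L u - L 0) - 1‖ < 1 := lt_of_le_of_lt (hz' u hu) (by norm_num)
    have h2 := Complex.mem_slitPlane_of_norm_lt_one h1
    rw [add_sub_cancel] at h2
    exact h2
  have hcontz : ContinuousOn (fun u : ℝ => Complex.exp (L u - L 0)) (Icc 0 1) :=
    Complex.continuous_exp.comp_continuousOn (hL.sub continuousOn_const)
  have hcont : ContinuousOn
      (fun u : ℝ => L u - L 0 - Complex.log (Complex.exp (L u - L 0))) (Icc 0 1) :=
    (hL.sub continuousOn_const).sub (hcontz.clog hslit)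
  have hone : ∀ u ∈ Icc (0 : ℝ) 1,
      Complex.exp (L u - L 0 - Complex.log (Complex.exp (L u - L 0))) = 1 := by
    intro u hu
    rw [Complex.exp_sub (L u - L 0), Complex.exp_log (Complex.exp_ne_zero _),
      div_self (Complex.exp_ne_zero _)]
  have hzero := lift_aux_zero hcont hone (by simp) 1 h1mem
  have hL1 : L 1 - L 0 = Complex.log (1 + (Complex.exp (L 1 - L 0) - 1)) := by
    rw [add_sub_cancel]
    exact sub_eq_zero.mp hzero
  have hlog : ‖L 1 - L 0‖ ≤ 3 / 2 * ‖Complex.exp (L 1 - L 0) - 1‖ := by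
    have h1 : ‖Complex.exp (L 1 - L 0) - 1‖ ≤ 1 / 2 :=
      (hz' 1 h1mem).trans (by norm_num)
    have h2 := Complex.norm_log_one_add_half_le_self h1
    rw [← hL1] at h2
    exact h2
  have h9 := hz 1 h1mem
  nlinarith [norm_nonneg (Complex.exp (L 1 - L 0) - 1)]

end Vale.Agent.Lib.P099
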