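import Mathlib

/-!
# Points of the plane off a countable family of lines
-/

namespace Vale.Agent.Lib.P099

open Set MeasureTheory

/-- A real line of the plane is a null set. -/
lemma volume_line_eq_zero (P v : ℂ) :
    volume (range (fun r : ℝ => P + (r : ℂ) * v)) = 0 := by
  have hspan : (Submodule.span ℝ {v} : Submodule ℝ ℂ) ≠ ⊤ := by
    intro h
    have h1 : Module.finrank ℝ (Submodule.span ℝ ((({v} : Finset ℂ) : Set ℂ)))
        ≤ ({v} : Finset ℂ).card := finrank_span_finset_le_card ({v} : Finset ℂ)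
    rw [Finset.coe_singleton, h, finrank_top, Complex.finrank_real_complex,
      Finset.card_singleton] at h1
    omega
  have h0 : volume ((Submodule.span ℝ {v} : Submodule ℝ ℂ) : Set ℂ) = 0 :=
    Measure.addHaar_submodule volume _ hspan
  have hsub : range (fun r : ℝ => P + (r : ℂ) * v)
      ⊆ (fun x : ℂ => x + (-P)) ⁻¹' ((Submodule.span ℝ {v} : Submodule ℝ ℂ) : Set ℂ) := by
    rintro x ⟨r, rfl⟩
    have h2 : P + (r : ℂ) * v + (-P) = r • v := by
      rw [Complex.real_smul]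
      ring
    show P + (r : ℂ) * v + (-P) ∈ Submodule.span ℝ {v}
    rw [h2]
    exact Submodule.smul_mem _ r (Submodule.mem_span_singleton_self v)
  refine measure_mono_null hsub ?_
  rw [measure_preimage_add_right]
  exact h0

/-- Every nonempty open subset of the plane contains a point which lies on no line
joining two distinct points of a given countable set. -/
theorem exists_not_on_lines {S : Set ℂ} (hS : S.Countable) {U : Set ℂ} (hU : IsOpen U)
    (hne : U.Nonempty) :
    ∃ x ∈ U, ∀ P₁ ∈ S, ∀ P₂ ∈ S, P₁ ≠ P₂ → ∀ r : ℝ, x ≠ P₁ + (r : ℂ) * (P₂ - P₁) := by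
  have hbad : volume (⋃ P₁ ∈ S, ⋃ P₂ ∈ S, range (fun r : ℝ => P₁ + (r : ℂ) * (P₂ - P₁))) = 0 :=
    (measure_biUnion_null_iff hS).2 (fun P₁ _ =>
      (measure_biUnion_null_iff hS).2 (fun P₂ _ => volume_line_eq_zero P₁ (P₂ - P₁)))
  have hpos : 0 < volume U := hU.measure_pos volume hne
  have hnot : ¬ U ⊆ ⋃ P₁ ∈ S, ⋃ P₂ ∈ S, range (fun r : ℝ => P₁ + (r : ℂ) * (P₂ - P₁)) := by
    intro hsub
    have h := measure_mono_null hsub hbad
    rw [h] at hpos
    exact lt_irrefl _ hpos
  obtain ⟨x, hxU, hx⟩ := Set.not_subset.1 hnot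
  refine ⟨x, hxU, ?_⟩
  intro P₁ h₁ P₂ h₂ _ r hr
  apply hx
  simp only [mem_iUnion]
  exact ⟨P₁, h₁, P₂, h₂, r, hr.symm⟩

end Vale.Agent.Lib.P099
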