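import Vale.Agent.Lib.P099.Core
import Vale.Agent.Lib.P099.Rotation

/-!
# Billiards in an irrational triangle: eigenfunctions of the flow that are entire in
the position are constant
-/

namespace Vale.Agent.Lib.P099

open MeasureTheory Set Filter Topology

lemma decomp_along {d : ℂ} (hd : d ≠ 0) (w : ℂ) :
    w = (w / d).re • d + (w / d).im • (Complex.I * d) := by
  have h : w = (w / d) * d := by field_simp
  conv_lhs => rw [h, ← Complex.re_add_im (w / d)]
  simp only [Complex.real_smul]
  ring

namespace Triangle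

variable (T : Triangle)

lemma bc_lin_I_sideVec_ne_zero (i : Fin 3) :
    (T.bc i).linear (Complex.I * T.sideVec i) ≠ 0 := by
  intro h0
  have hd := T.sideVec_ne_zero i
  have h1 : (T.bc i).linear (T.vertex i - T.vertex (i + 1)) = 1 := by
    rw [bc_lin_sub, T.bc_vertex_self, T.bc_vertex_ne (fin3_ne_add_one i)]; ring
  rw [decomp_along hd (T.vertex i - T.vertex (i + 1)), map_add, map_smul, map_smul,
    T.bc_lin_sideVec, h0] at h1
  simp at h1

/-- The directions parallel to the side `i` are (at most) two. -/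
lemma dir_parallel (i : Fin 3) {θ : Dir} (h : (T.bc i).linear (dirVec θ) = 0) :
    θ = ((Complex.arg (T.sideVec i) : ℝ) : Dir) ∨
    θ = ((Complex.arg (T.sideVec i) : ℝ) : Dir) + ((Real.pi : ℝ) : Dir) := by
  have hd := T.sideVec_ne_zero i
  have hdn : 0 < ‖T.sideVec i‖ := norm_pos_iff.mpr hd
  have hdec := decomp_along hd (dirVec θ)
  set z := dirVec θ / T.sideVec i with hz
  have h1 : (T.bc i).linear (dirVec θ) = z.im * (T.bc i).linear (Complex.I * T.sideVec i) := by
    conv_lhs => rw [hdec]
    rw [map_add, map_smul, map_smul, T.bc_lin_sideVec]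
    simp
  rw [h] at h1
  have him : z.im = 0 := by
    rcases mul_eq_zero.mp h1.symm with h2 | h2
    · exact h2
    · exact absurd h2 (T.bc_lin_I_sideVec_ne_zero i)
  have he : dirVec θ = (z.re : ℂ) * T.sideVec i := by
    conv_lhs => rw [hdec]
    rw [him]
    simp
  have hnorm : |z.re| * ‖T.sideVec i‖ = 1 := by
    have := norm_dirVec θ
    rw [he, norm_mul, Complex.norm_real, Real.norm_eq_abs] at this
    exact this
  rcases le_or_gt 0 z.re with hpos | hneg
  · left
    apply dirVec_injective
    rw [dirVec_arg hd, he]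
    rw [abs_of_nonneg hpos] at hnorm
    have : z.re = 1 / ‖T.sideVec i‖ := by field_simp; linarith
    rw [this]; push_cast; field_simp
  · right
    apply dirVec_injective
    rw [dirVec_add, dirVec_pi, dirVec_arg hd, he]
    rw [abs_of_neg hneg] at hnorm
    have : z.re = - (1 / ‖T.sideVec i‖) := by field_simp; linarith
    rw [this]; push_cast; field_simp

lemma ae_not_parallel (i : Fin 3) :
    ∀ᵐ θ ∂(volume : Measure Dir), (T.bc i).linear (dirVec θ) ≠ 0 := by
  rw [ae_iff]
  apply measure_mono_null (t := {((Complex.arg (T.sideVec i) : ℝ) : Dir)} ∪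
    {((Complex.arg (T.sideVec i) : ℝ) : Dir) + ((Real.pi : ℝ) : Dir)})
  · intro θ hθ
    simp only [ne_eq, not_not, Set.mem_ofPred_eq] at hθ
    rcases T.dir_parallel i hθ with h | h
    · left; exact h
    · right; exact h
  · exact measure_union_null (volume_dir_singleton _) (volume_dir_singleton _)

section steps

variable {T} {F : ℂ × Dir → ℂ} {lam : ℝ}

/-- For almost every direction the extension is invariant under the reflection in the
side `i` (acting on positions and directions). -/
lemma star_side (hFa : ∀ θ : Dir, AnalyticOnNhd ℝ (fun x : ℂ => F (x, θ)) Set.univ)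
    (hinv : ∀ t : ℝ, (fun p => F (T.flow t p)) =ᵐ[T.mu]
      fun p => Complex.exp (lam * t * Complex.I) * F p) (i : Fin 3) :
    ∀ᵐ θ ∂(volume : Measure Dir), ∀ y : ℂ,
      F (mirror (T.vertex (i + 1)) (T.sideVec i) y, mirrorDir (T.sideVec i) θ) = F (y, θ) := by
  have h1 := step_bounce hFa hinv i
  have h2 := (mirrorDir_measurePreserving (T.sideVec i)).quasiMeasurePreserving.ae h1
  filter_upwards [h1, h2, T.ae_not_parallel i] with θ hθ1 hθ2 hθ3 y
  rcases lt_or_gt_of_ne hθ3 with hneg | hpos
  · exact hθ1 hneg y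
  · have hl : (T.bc i).linear (dirVec (mirrorDir (T.sideVec i) θ)) < 0 := by
      have := T.bc_lin_dirVec_reflect i θ
      rw [T.reflect_eq] at this
      rw [this]; linarith
    have h3 := hθ2 hl (mirror (T.vertex (i + 1)) (T.sideVec i) y)
    rw [T.reflect_eq, sideMirror, mirror_mirror (T.sideVec_ne_zero i),
      mirrorDir_mirrorDir] at h3
    exact h3.symm

end steps

/-- The rotation of directions generated by the reflections in the two sides through
the vertex `i`. -/
noncomputable def rotAngle (i : Fin 3) : Dir :=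
  (2 : ℕ) • ((Complex.arg (T.vertex (i + 1) - T.vertex i) : ℝ) : Dir)
    - (2 : ℕ) • ((Complex.arg (T.vertex (i + 2) - T.vertex i) : ℝ) : Dir)

lemma vertex_ne {i j : Fin 3} (h : i ≠ j) : T.vertex i ≠ T.vertex j := by
  intro he
  have h1 := T.bc_vertex_self i
  rw [he, T.bc_vertex_ne h] at h1
  exact zero_ne_one h1

section steps

variable {T} {F : ℂ × Dir → ℂ} {lam : ℝ}

lemma vertex_profile (hFm : Measurable F)
    (hFa : ∀ θ : Dir, AnalyticOnNhd ℝ (fun x : ℂ => F (x, θ)) Set.univ)
    (hinv : ∀ t : ℝ, (fun p => F (T.flow t p)) =ᵐ[T.mu]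
      fun p => Complex.exp (lam * t * Complex.I) * F p) (i : Fin 3)
    (hrot : addOrderOf (T.rotAngle i) = 0) :
    ∃ g : ℂ → ℂ, Continuous g ∧
      ∀ᵐ θ ∂(volume : Measure Dir), ∀ z : ℂ, F (T.vertex i + dirVec θ * z, θ) = g z := by
  have hd₁ : T.vertex (i + 1) - T.vertex i ≠ 0 :=
    sub_ne_zero.mpr (T.vertex_ne (fin3_ne_add_one i).symm)
  have hd₂ : T.vertex (i + 2) - T.vertex i ≠ 0 :=
    sub_ne_zero.mpr (T.vertex_ne (fin3_ne_add_two i).symm)
  -- the side `i + 2` joins the vertices `i` and `i + 1`
  have h₁ : ∀ᵐ θ ∂(volume : Measure Dir), ∀ y : ℂ,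
      F (mirror (T.vertex i) (T.vertex (i + 1) - T.vertex i) y,
        mirrorDir (T.vertex (i + 1) - T.vertex i) θ) = F (y, θ) := by
    have h := star_side hFa hinv (i + 2)
    simp only [sideVec, fin3_add_two_add_one, fin3_add_two_add_two] at h
    exact h
  -- the side `i + 1` joins the vertices `i + 2` and `i`
  have h₂ : ∀ᵐ θ ∂(volume : Measure Dir), ∀ y : ℂ,
      F (mirror (T.vertex i) (T.vertex (i + 2) - T.vertex i) y,
        mirrorDir (T.vertex (i + 2) - T.vertex i) θ) = F (y, θ) := by
    have h := star_side hFa hinv (i + 1)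
    simp only [sideVec, fin3_add_one_add_one, fin3_add_one_add_two] at h
    have hne : T.vertex i - T.vertex (i + 2) ≠ 0 :=
      sub_ne_zero.mpr (T.vertex_ne (fin3_ne_add_two i))
    have e1 : mirror (T.vertex (i + 2)) (T.vertex i - T.vertex (i + 2))
        = mirror (T.vertex i) (T.vertex (i + 2) - T.vertex i) := by
      have hb := mirror_base hne (T.vertex (i + 2)) 1
      rw [show T.vertex (i + 2) + ((1 : ℝ) : ℂ) * (T.vertex i - T.vertex (i + 2)) = T.vertex i by
        push_cast; ring] at hb
      rw [← hb, ← mirror_neg_dir, neg_sub]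
    have e2 : mirrorDir (T.vertex i - T.vertex (i + 2))
        = mirrorDir (T.vertex (i + 2) - T.vertex i) := by
      rw [← mirrorDir_neg hd₂, neg_sub]
    rw [e1, e2] at h
    exact h
  exact exists_profile hFm hFa hrot (rot_invariant hd₁ hd₂ h₁ h₂)

end steps

/-- An irrational angle at the vertex `i` makes the rotation at this vertex of infinite
order. -/
lemma addOrderOf_rotAngle (i : Fin 3) (h : Irrational (T.interiorAngle i / Real.pi)) :
    addOrderOf (T.rotAngle i) = 0 := by
  have hd₁ : T.vertex (i + 1) - T.vertex i ≠ 0 :=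
    sub_ne_zero.mpr (T.vertex_ne (fin3_ne_add_one i).symm)
  have hd₂ : T.vertex (i + 2) - T.vertex i ≠ 0 :=
    sub_ne_zero.mpr (T.vertex_ne (fin3_ne_add_two i).symm)
  set ψ : ℝ := Complex.arg ((T.vertex (i + 1) - T.vertex i) / (T.vertex (i + 2) - T.vertex i))
    with hψ_def
  have hψ : ((ψ : ℝ) : Dir) = ((Complex.arg (T.vertex (i + 1) - T.vertex i) : ℝ) : Dir)
      - ((Complex.arg (T.vertex (i + 2) - T.vertex i) : ℝ) : Dir) :=
    Complex.arg_div_coe_angle hd₁ hd₂
  have hangle : T.interiorAngle i = |ψ| := by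
    unfold interiorAngle EuclideanGeometry.angle
    rw [vsub_eq_sub, vsub_eq_sub]
    exact Complex.angle_eq_abs_arg hd₁ hd₂
  have hrot : T.rotAngle i = (((2 * ψ : ℝ)) : Dir) := by
    unfold rotAngle
    rw [← nsmul_sub, ← hψ, ← AddCircle.coe_nsmul, nsmul_eq_mul]
    push_cast
    rfl
  rw [addOrderOf_eq_zero_iff']
  intro n hn hzero
  rw [hrot, ← AddCircle.coe_nsmul, AddCircle.coe_eq_zero_iff] at hzero
  obtain ⟨k, hk⟩ := hzero
  apply h
  have hn' : (0 : ℝ) < n := by exact_mod_cast hn
  have hpi := Real.pi_pos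
  have hk' : ψ = (k : ℝ) * Real.pi / n := by
    rw [zsmul_eq_mul, nsmul_eq_mul] at hk
    field_simp
    linarith
  rw [hangle, hk']
  refine ⟨|(k : ℚ)| / n, ?_⟩
  push_cast
  rw [abs_div, abs_mul, abs_of_pos hpi, abs_of_pos hn']
  field_simp

lemma angle_sum (i : Fin 3) :
    T.interiorAngle i + T.interiorAngle (i + 2) + T.interiorAngle (i + 1) = Real.pi := by
  have h := EuclideanGeometry.angle_add_angle_add_angle_eq_pi (p₁ := T.vertex (i + 1))
    (p₂ := T.vertex i) (T.vertex (i + 2)) (T.vertex_ne (fin3_ne_add_one i))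
  unfold interiorAngle
  simp only [fin3_add_two_add_one, fin3_add_two_add_two, fin3_add_one_add_one,
    fin3_add_one_add_two]
  exact h

lemma two_irrational (hT : T.IsIrrational) :
    ∃ i j : Fin 3, i ≠ j ∧ Irrational (T.interiorAngle i / Real.pi) ∧
      Irrational (T.interiorAngle j / Real.pi) := by
  obtain ⟨i, hi⟩ := hT
  by_cases h1 : Irrational (T.interiorAngle (i + 1) / Real.pi)
  · exact ⟨i, i + 1, fin3_ne_add_one i, hi, h1⟩
  · refine ⟨i, i + 2, fin3_ne_add_two i, hi, ?_⟩
    unfold Irrational at h1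
    rw [not_not] at h1
    obtain ⟨q, hq⟩ := h1
    have hsum := T.angle_sum i
    have hpi := Real.pi_pos
    have : T.interiorAngle (i + 2) / Real.pi = ((1 - q : ℚ) : ℝ) - T.interiorAngle i / Real.pi := by
      push_cast
      rw [hq]
      field_simp
      linarith
    rw [this]
    exact hi.ratCast_sub (1 - q)

/-- **Main theorem.**  In an irrational triangle, a measurable function on the phase
space which is, for every direction, an entire real-analytic function of the position
and which is an eigenfunction of the billiard flow (with frequency `lam`; `lam = 0`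
means invariance) is almost everywhere equal to a constant, and this constant
vanishes when `lam ≠ 0`. -/
theorem eigenfunction_const (hT : T.IsIrrational) (F : ℂ × Dir → ℂ) (hFm : Measurable F)
    (hFa : ∀ θ : Dir, AnalyticOnNhd ℝ (fun x : ℂ => F (x, θ)) Set.univ) (lam : ℝ)
    (hinv : ∀ t : ℝ, (fun p => F (T.flow t p)) =ᵐ[T.mu]
      fun p => Complex.exp (lam * t * Complex.I) * F p) :
    ∃ c : ℂ, (F =ᵐ[T.mu] fun _ => c) ∧ (lam ≠ 0 → c = 0) := by
  obtain ⟨i, j, hij, hi, hj⟩ := T.two_irrational hT
  obtain ⟨gA, -, hA⟩ := vertex_profile hFm hFa hinv i (T.addOrderOf_rotAngle i hi)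
  obtain ⟨gB, hgB, hB⟩ := vertex_profile hFm hFa hinv j (T.addOrderOf_rotAngle j hj)
  obtain ⟨c, hc⟩ := const_of_two_profiles (T.vertex_ne hij) hgB hA hB
  refine ⟨c, ?_, ?_⟩
  · rw [Filter.EventuallyEq, T.ae_mu]
    have hq := Measure.quasiMeasurePreserving_snd (μ := volume.restrict T.table)
      (ν := (volume : Measure Dir))
    have h := hq.ae hc
    filter_upwards [h] with p hp
    exact hp p.1
  · intro hlam
    obtain ⟨c₀, δ, hδ, hball⟩ := T.exists_free_ball
    have hpi := Real.pi_pos
    have habs : 0 < |lam| := abs_pos.mpr hlam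
    set t : ℝ := min (δ / 2) (Real.pi / |lam|) with ht_def
    have ht : 0 < t := lt_min (by linarith) (div_pos hpi habs)
    have htδ : t < δ := lt_of_le_of_lt (min_le_left _ _) (by linarith)
    have htπ : |lam| * t ≤ Real.pi := by
      have := min_le_right (δ / 2) (Real.pi / |lam|)
      rw [← ht_def, le_div_iff₀ habs] at this
      linarith
    have hfr := step_free hFa hinv hball hδ ht.le htδ
    obtain ⟨θ, hθ1, hθ2⟩ := (hfr.and hc).exists
    have h0 := hθ1 0
    rw [hθ2, hθ2] at h0
    by_contra hc0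
    have hexp : Complex.exp (lam * t * Complex.I) = 1 := by
      have : Complex.exp (lam * t * Complex.I) * c = 1 * c := by rw [one_mul]; exact h0.symm
      exact mul_right_cancel₀ hc0 this
    rw [Complex.exp_eq_one_iff] at hexp
    obtain ⟨n, hn⟩ := hexp
    have hreal : lam * t = n * (2 * Real.pi) := by
      have h1 : ((lam * t : ℝ) : ℂ) * Complex.I = ((n * (2 * Real.pi) : ℝ) : ℂ) * Complex.I := by
        push_cast; rw [hn]; ring
      exact_mod_cast mul_right_cancel₀ Complex.I_ne_zero h1
    rcases eq_or_ne n 0 with hn0 | hn0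
    · rw [hn0] at hreal
      simp only [Int.cast_zero, zero_mul, mul_eq_zero] at hreal
      rcases hreal with h | h
      · exact hlam h
      · exact ht.ne' h
    · have h1 : (1 : ℝ) ≤ |(n : ℝ)| := by
        have : (1 : ℤ) ≤ |n| := Int.one_le_abs hn0
        exact_mod_cast this
      have h2 : |lam * t| = |(n : ℝ)| * (2 * Real.pi) := by
        rw [hreal, abs_mul, abs_of_pos (by positivity : (0 : ℝ) < 2 * Real.pi)]
      rw [abs_mul, abs_of_pos ht] at h2
      nlinarith

end Triangle

end Vale.Agent.Lib.P099
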