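import Vale.Agent.Lib.P099.CoreU

/-!
# Billiards in an irrational triangle: eigenfunctions analytic in the position on a
neighbourhood of the closed triangle are constant
-/

namespace Vale.Agent.Lib.P099

open MeasureTheory Set Filter Topology

lemma norm_dirVec_mul (θ : Dir) (z : ℂ) : ‖dirVec θ * z‖ = ‖z‖ := by
  rw [norm_mul, norm_dirVec, one_mul]

lemma add_dirVec_mul_mem_ball {A z : ℂ} {ε : ℝ} (hz : ‖z‖ < ε) (θ : Dir) :
    A + dirVec θ * z ∈ Metric.ball A ε := by
  rw [Metric.mem_ball, dist_eq_norm, add_sub_cancel_left, norm_dirVec_mul]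
  exact hz

/-- Rotation invariance near a common point of two mirrors. -/
lemma rot_invariant_on {F : ℂ × Dir → ℂ} {Ω : Set ℂ} {A d₁ d₂ : ℂ} {ε : ℝ}
    (hball : Metric.ball A ε ⊆ Ω) (hd₁ : d₁ ≠ 0) (hd₂ : d₂ ≠ 0)
    (h₁ : ∀ᵐ θ ∂(volume : Measure Dir), ∀ y : ℂ, y ∈ Ω → mirror A d₁ y ∈ Ω →
      F (mirror A d₁ y, mirrorDir d₁ θ) = F (y, θ))
    (h₂ : ∀ᵐ θ ∂(volume : Measure Dir), ∀ y : ℂ, y ∈ Ω → mirror A d₂ y ∈ Ω →
      F (mirror A d₂ y, mirrorDir d₂ θ) = F (y, θ)) :
    ∀ᵐ θ ∂(volume : Measure Dir), ∀ z : ℂ, ‖z‖ < ε →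
      F (A + dirVec (((2 : ℕ) • ((Complex.arg d₁ : ℝ) : Dir)
          - (2 : ℕ) • ((Complex.arg d₂ : ℝ) : Dir)) + θ) * z,
        ((2 : ℕ) • ((Complex.arg d₁ : ℝ) : Dir) - (2 : ℕ) • ((Complex.arg d₂ : ℝ) : Dir)) + θ)
      = F (A + dirVec θ * z, θ) := by
  have h₁' := (mirrorDir_measurePreserving d₂).quasiMeasurePreserving.ae h₁
  filter_upwards [h₁', h₂] with θ hθ₁ hθ₂ z hz
  have hy : A + dirVec θ * z ∈ Metric.ball A ε := add_dirVec_mul_mem_ball hz θ
  have hy' : mirror A d₂ (A + dirVec θ * z) ∈ Metric.ball A ε := by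
    rw [Metric.mem_ball, dist_mirror hd₂]; exact hy
  have hy'' : mirror A d₁ (mirror A d₂ (A + dirVec θ * z)) ∈ Metric.ball A ε := by
    rw [Metric.mem_ball, dist_mirror hd₁]; exact hy'
  rw [← mirrorDir_comp, ← mirror_comp hd₁ hd₂, hθ₁ _ (hball hy') (hball hy''),
    hθ₂ _ (hball hy) (hball hy')]

/-- If the rotation is irrational, near the point `A` the function only depends on the
position in the frame attached to the direction. -/
lemma exists_profile_on {F : ℂ × Dir → ℂ} (hFm : Measurable F) {Ω : Set ℂ}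
    (hFa : ∀ θ : Dir, AnalyticOnNhd ℝ (fun x : ℂ => F (x, θ)) Ω) {A : ℂ} {ε : ℝ}
    (hball : Metric.ball A ε ⊆ Ω) {rho : Dir} (hrho : addOrderOf rho = 0)
    (h : ∀ᵐ θ ∂(volume : Measure Dir), ∀ z : ℂ, ‖z‖ < ε →
      F (A + dirVec (rho + θ) * z, rho + θ) = F (A + dirVec θ * z, θ)) :
    ∃ g : ℂ → ℂ, ContinuousOn g (Metric.ball 0 ε) ∧
      ∀ᵐ θ ∂(volume : Measure Dir), ∀ z : ℂ, ‖z‖ < ε → F (A + dirVec θ * z, θ) = g z := by
  have herg : Ergodic (fun θ : Dir => rho + θ) volume := AddCircle.ergodic_add_left.mpr hrho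
  have hcont : ∀ θ : Dir, ContinuousOn (fun z : ℂ => F (A + dirVec θ * z, θ))
      (Metric.ball 0 ε) := by
    intro θ
    have h1 : ContinuousOn (fun x : ℂ => F (x, θ)) Ω := (hFa θ).continuousOn
    have h2 : Continuous fun z : ℂ => A + dirVec θ * z := by fun_prop
    refine h1.comp h2.continuousOn ?_
    intro z hz
    rw [Metric.mem_ball, dist_zero_right] at hz
    exact hball (add_dirVec_mul_mem_ball hz θ)
  have hG : ∀ z : ℂ, ∃ c : ℂ, ‖z‖ < ε → (fun θ : Dir => F (A + dirVec θ * z, θ))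
      =ᵐ[volume] Function.const Dir c := by
    intro z
    by_cases hz : ‖z‖ < ε
    · have hmeas : Measurable fun θ : Dir => F (A + dirVec θ * z, θ) := by
        have hd : Measurable dirVec := continuous_dirVec.measurable
        exact hFm.comp (by fun_prop)
      obtain ⟨c, hc⟩ := herg.ae_eq_const_of_ae_eq_comp₀ hmeas.nullMeasurable
        (by filter_upwards [h] with θ hθ using hθ z hz)
      exact ⟨c, fun _ => hc⟩
    · exact ⟨0, fun h => absurd h hz⟩
  choose c hc using hG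
  obtain ⟨D, hDc, hDd⟩ := TopologicalSpace.exists_countable_dense ℂ
  have hall : ∀ᵐ θ ∂(volume : Measure Dir), ∀ z ∈ D, ‖z‖ < ε →
      F (A + dirVec θ * z, θ) = c z := by
    rw [ae_ball_iff hDc]
    intro z _
    by_cases hz : ‖z‖ < ε
    · filter_upwards [hc z hz] with θ hθ _ using hθ
    · exact Filter.Eventually.of_forall (fun θ h => absurd h hz)
  obtain ⟨θ₁, hθ₁⟩ := hall.exists
  refine ⟨fun z => F (A + dirVec θ₁ * z, θ₁), hcont θ₁, ?_⟩
  filter_upwards [hall] with θ hθ z hz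
  have hEq : EqOn (fun z : ℂ => F (A + dirVec θ * z, θ)) (fun z : ℂ => F (A + dirVec θ₁ * z, θ₁))
      (Metric.ball 0 ε ∩ D) := by
    intro z' hz'
    have hz'' : ‖z'‖ < ε := by simpa using hz'.1
    simp only
    rw [hθ z' hz'.2 hz'', hθ₁ z' hz'.2 hz'']
  have hEq' := hEq.of_subset_closure (hcont θ) (hcont θ₁) inter_subset_left
    (hDd.open_subset_closure_inter Metric.isOpen_ball)
  exact hEq' (by simpa using hz)

lemma convex_dirVec_preimage {Ω : Set ℂ} (hΩ : Convex ℝ Ω) (B : ℂ) (θ : Dir) :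
    Convex ℝ {p : ℂ | B + dirVec θ * p ∈ Ω} := by
  intro x hx y hy a b ha hb hab
  have h := hΩ hx hy ha hb hab
  have hc : B + dirVec θ * (a • x + b • y) = a • (B + dirVec θ * x) + b • (B + dirVec θ * y) := by
    obtain rfl : b = 1 - a := by linarith
    simp only [Complex.real_smul]
    push_cast
    ring
  change B + dirVec θ * (a • x + b • y) ∈ Ω
  rw [hc]; exact h

lemma conj_dirVec_neg_arg {u : ℂ} (hu : ‖u‖ = 1) :
    (starRingEnd ℂ) (dirVec (-((Complex.arg u : ℝ) : Dir))) = u := by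
  have hu0 : u ≠ 0 := by
    intro h; rw [h, norm_zero] at hu; exact zero_ne_one hu
  rw [dirVec_neg, Complex.conj_conj, dirVec_arg hu0, hu, Complex.ofReal_one, div_one]

/-- Two profiles at distinct points force the function to be constant on `Ω`. -/
lemma const_of_two_profiles_on {F : ℂ × Dir → ℂ} {Ω : Set ℂ} (hΩc : Convex ℝ Ω)
    (hFa : ∀ θ : Dir, AnalyticOnNhd ℝ (fun x : ℂ => F (x, θ)) Ω) {A B : ℂ} (hAB : A ≠ B)
    {ε : ℝ} (hε : 0 < ε) (hballA : Metric.ball A ε ⊆ Ω) (hballB : Metric.ball B ε ⊆ Ω)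
    {gA gB : ℂ → ℂ} (hgA : ContinuousOn gA (Metric.ball 0 ε))
    (hA : ∀ᵐ θ ∂(volume : Measure Dir), ∀ z : ℂ, ‖z‖ < ε → F (A + dirVec θ * z, θ) = gA z)
    (hB : ∀ᵐ θ ∂(volume : Measure Dir), ∀ z : ℂ, ‖z‖ < ε → F (B + dirVec θ * z, θ) = gB z) :
    ∃ c : ℂ, ∀ᵐ θ ∂(volume : Measure Dir), ∀ y ∈ Ω, F (y, θ) = c := by
  set w : ℂ := A - B with hw_def
  have hw : w ≠ 0 := sub_ne_zero.mpr hAB
  have hwn : 0 < ‖w‖ := norm_pos_iff.mpr hw
  set S : Set Dir := {θ | (∀ z : ℂ, ‖z‖ < ε → F (A + dirVec θ * z, θ) = gA z) ∧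
    (∀ z : ℂ, ‖z‖ < ε → F (B + dirVec θ * z, θ) = gB z)} with hS_def
  have hS : ∀ᵐ θ ∂(volume : Measure Dir), θ ∈ S := by
    filter_upwards [hA, hB] with θ ha hb using ⟨ha, hb⟩
  have hSd : Dense S := Measure.dense_of_ae hS
  -- consistency of the frame functions at `B`
  have hPB : ∀ θ ∈ S, ∀ θ' ∈ S, ∀ p : ℂ, B + dirVec θ * p ∈ Ω → B + dirVec θ' * p ∈ Ω →
      F (B + dirVec θ * p, θ) = F (B + dirVec θ' * p, θ') := by
    intro θ hθ θ' hθ' p hp hp'
    have han : ∀ φ : Dir, AnalyticOnNhd ℝ (fun p : ℂ => F (B + dirVec φ * p, φ))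
        {p : ℂ | B + dirVec φ * p ∈ Ω} := by
      intro φ
      have h1 : AnalyticOnNhd ℝ (fun p : ℂ => B + dirVec φ * p) {p : ℂ | B + dirVec φ * p ∈ Ω} :=
        analyticOnNhd_const.add (analyticOnNhd_const.mul analyticOnNhd_id)
      exact (hFa φ).comp h1 (fun p hp => hp)
    have hpre : IsPreconnected ({p : ℂ | B + dirVec θ * p ∈ Ω} ∩ {p : ℂ | B + dirVec θ' * p ∈ Ω}) :=
      ((convex_dirVec_preimage hΩc B θ).inter (convex_dirVec_preimage hΩc B θ')).isPreconnected
    have h0 : (0 : ℂ) ∈ {p : ℂ | B + dirVec θ * p ∈ Ω} ∩ {p : ℂ | B + dirVec θ' * p ∈ Ω} := by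
      constructor
      · exact hballB (add_dirVec_mul_mem_ball (by simpa using hε) θ)
      · exact hballB (add_dirVec_mul_mem_ball (by simpa using hε) θ')
    have hev : (fun p : ℂ => F (B + dirVec θ * p, θ)) =ᶠ[𝓝 0]
        (fun p : ℂ => F (B + dirVec θ' * p, θ')) := by
      apply Filter.eventuallyEq_of_mem (Metric.ball_mem_nhds (0 : ℂ) hε)
      intro z hz
      have hz' : ‖z‖ < ε := by simpa using hz
      simp only
      rw [hθ.2 z hz', hθ'.2 z hz']
    exact ((han θ).mono inter_subset_left).eqOn_of_preconnected_of_eventuallyEq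
      ((han θ').mono inter_subset_right) hpre h0 hev ⟨hp, hp'⟩
  -- the profile at `A` is invariant under the differences of two points of a circle
  have hkey : ∀ θ ∈ S, ∀ θ' ∈ S, ∀ z₁ : ℂ, ‖z₁‖ < ε →
      ‖z₁ + (starRingEnd ℂ) (dirVec θ) * w - (starRingEnd ℂ) (dirVec θ') * w‖ < ε →
      gA z₁ = gA (z₁ + (starRingEnd ℂ) (dirVec θ) * w - (starRingEnd ℂ) (dirVec θ') * w) := by
    intro θ hθ θ' hθ' z₁ hz₁ hz₂
    have he := dirVec_mul_conj θ
    have he' := dirVec_mul_conj θ'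
    have e1 : B + dirVec θ * (z₁ + (starRingEnd ℂ) (dirVec θ) * w) = A + dirVec θ * z₁ := by
      calc B + dirVec θ * (z₁ + (starRingEnd ℂ) (dirVec θ) * w)
          = B + dirVec θ * z₁ + (dirVec θ * (starRingEnd ℂ) (dirVec θ)) * w := by ring
        _ = A + dirVec θ * z₁ := by rw [he, hw_def]; ring
    have e2 : B + dirVec θ' * (z₁ + (starRingEnd ℂ) (dirVec θ) * w)
        = A + dirVec θ' * (z₁ + (starRingEnd ℂ) (dirVec θ) * w
            - (starRingEnd ℂ) (dirVec θ') * w) := by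
      calc B + dirVec θ' * (z₁ + (starRingEnd ℂ) (dirVec θ) * w)
          = B + 1 * w + dirVec θ' * (z₁ + (starRingEnd ℂ) (dirVec θ) * w)
              - (dirVec θ' * (starRingEnd ℂ) (dirVec θ')) * w := by rw [he']; ring
        _ = A + dirVec θ' * (z₁ + (starRingEnd ℂ) (dirVec θ) * w
              - (starRingEnd ℂ) (dirVec θ') * w) := by rw [hw_def]; ring
    have m1 : B + dirVec θ * (z₁ + (starRingEnd ℂ) (dirVec θ) * w) ∈ Ω := by
      rw [e1]; exact hballA (add_dirVec_mul_mem_ball hz₁ θ)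
    have m2 : B + dirVec θ' * (z₁ + (starRingEnd ℂ) (dirVec θ) * w) ∈ Ω := by
      rw [e2]; exact hballA (add_dirVec_mul_mem_ball hz₂ θ')
    have h3 := hPB θ hθ θ' hθ' _ m1 m2
    rw [e1, e2, hθ.1 z₁ hz₁, hθ'.1 _ hz₂] at h3
    exact h3
  -- by density, the same for all pairs of directions
  have hkey' : ∀ (θ θ' : Dir) (z₁ : ℂ), ‖z₁‖ < ε →
      ‖z₁ + (starRingEnd ℂ) (dirVec θ) * w - (starRingEnd ℂ) (dirVec θ') * w‖ < ε →
      gA z₁ = gA (z₁ + (starRingEnd ℂ) (dirVec θ) * w - (starRingEnd ℂ) (dirVec θ') * w) := by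
    intro θ θ' z₁ hz₁ hz₂
    have hd := continuous_dirVec
    have hmap : Continuous fun q : Dir × Dir =>
        z₁ + (starRingEnd ℂ) (dirVec q.1) * w - (starRingEnd ℂ) (dirVec q.2) * w := by
      have h1 : Continuous fun q : Dir × Dir => (starRingEnd ℂ) (dirVec q.1) :=
        Complex.continuous_conj.comp (hd.comp continuous_fst)
      have h2 : Continuous fun q : Dir × Dir => (starRingEnd ℂ) (dirVec q.2) :=
        Complex.continuous_conj.comp (hd.comp continuous_snd)
      exact (continuous_const.add (h1.mul continuous_const)).sub (h2.mul continuous_const)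
    set O : Set (Dir × Dir) := {q | ‖z₁ + (starRingEnd ℂ) (dirVec q.1) * w
      - (starRingEnd ℂ) (dirVec q.2) * w‖ < ε} with hO_def
    have hO : IsOpen O := isOpen_lt hmap.norm continuous_const
    have hf : ContinuousOn (fun q : Dir × Dir =>
        gA (z₁ + (starRingEnd ℂ) (dirVec q.1) * w - (starRingEnd ℂ) (dirVec q.2) * w)) O := by
      refine hgA.comp hmap.continuousOn ?_
      intro q hq
      rw [Metric.mem_ball, dist_zero_right]
      exact hq
    have hg : ContinuousOn (fun _ : Dir × Dir => gA z₁) O := continuousOn_const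
    have hEq : EqOn (fun _ : Dir × Dir => gA z₁) (fun q : Dir × Dir =>
        gA (z₁ + (starRingEnd ℂ) (dirVec q.1) * w - (starRingEnd ℂ) (dirVec q.2) * w))
        (O ∩ S ×ˢ S) := by
      intro q hq
      exact hkey q.1 hq.2.1 q.2 hq.2.2 z₁ hz₁ hq.1
    have hEq' := hEq.of_subset_closure hg hf inter_subset_left
      ((hSd.prod hSd).open_subset_closure_inter hO)
    exact hEq' (show (θ, θ') ∈ O from hz₂)
  -- hence the profile at `A` is constant near `0`
  set ε' : ℝ := min ε ‖w‖ with hε'_def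
  have hε' : 0 < ε' := lt_min hε hwn
  have hconst : ∀ z : ℂ, ‖z‖ < ε' → gA z = gA 0 := by
    intro z hz
    have hσ : ‖z / w‖ ≤ 2 := by
      rw [norm_div, div_le_iff₀ hwn]
      have : ε' ≤ ‖w‖ := min_le_right _ _
      linarith
    obtain ⟨u, u', hu, hu', huu⟩ := exists_units_sub hσ
    have h1 := hkey' (-((Complex.arg u : ℝ) : Dir)) (-((Complex.arg u' : ℝ) : Dir)) 0
      (by simpa using hε)
    rw [conj_dirVec_neg_arg hu, conj_dirVec_neg_arg hu'] at h1
    have e : (0 : ℂ) + u * w - u' * w = z := by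
      have : (u - u') * w = z := by rw [huu]; field_simp
      rw [← this]; ring
    rw [e] at h1
    exact (h1 (lt_of_lt_of_le hz (min_le_left _ _))).symm
  refine ⟨gA 0, ?_⟩
  filter_upwards [hS] with θ hθ y hy
  have hAΩ : A ∈ Ω := hballA (Metric.mem_ball_self hε)
  have hev : (fun x : ℂ => F (x, θ)) =ᶠ[𝓝 A] (fun _ : ℂ => gA 0) := by
    apply Filter.eventuallyEq_of_mem (Metric.ball_mem_nhds A hε')
    intro x hx
    have hx' : ‖x - A‖ < ε' := by rwa [Metric.mem_ball, dist_eq_norm] at hx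
    have he := dirVec_mul_conj θ
    have e : A + dirVec θ * ((starRingEnd ℂ) (dirVec θ) * (x - A)) = x := by
      calc A + dirVec θ * ((starRingEnd ℂ) (dirVec θ) * (x - A))
          = A + (dirVec θ * (starRingEnd ℂ) (dirVec θ)) * (x - A) := by ring
        _ = x := by rw [he]; ring
    have hn : ‖(starRingEnd ℂ) (dirVec θ) * (x - A)‖ = ‖x - A‖ := by
      rw [norm_mul, RCLike.norm_conj, norm_dirVec, one_mul]
    have h1 := hθ.1 ((starRingEnd ℂ) (dirVec θ) * (x - A))
      (by rw [hn]; exact lt_of_lt_of_le hx' (min_le_left _ _))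
    rw [e] at h1
    simp only
    rw [h1, hconst _ (by rw [hn]; exact hx')]
  exact (hFa θ).eqOn_of_preconnected_of_eventuallyEq analyticOnNhd_const hΩc.isPreconnected
    hAΩ hev hy

namespace Triangle

variable {T : Triangle} {F : ℂ × Dir → ℂ} {lam : ℝ} {Ω : Set ℂ} {ε : ℝ}

lemma vertex_profile_on (hΩ : T.Nhd Ω ε) (hΩo : IsOpen Ω) (hFm : Measurable F)
    (hFa : ∀ θ : Dir, AnalyticOnNhd ℝ (fun x : ℂ => F (x, θ)) Ω)
    (hinv : ∀ t : ℝ, (fun p => F (T.flow t p)) =ᵐ[T.mu]
      fun p => Complex.exp (lam * t * Complex.I) * F p) (i : Fin 3)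
    (hrot : addOrderOf (T.rotAngle i) = 0) :
    ∃ g : ℂ → ℂ, ContinuousOn g (Metric.ball 0 ε) ∧
      ∀ᵐ θ ∂(volume : Measure Dir), ∀ z : ℂ, ‖z‖ < ε →
        F (T.vertex i + dirVec θ * z, θ) = g z := by
  have hd₁ : T.vertex (i + 1) - T.vertex i ≠ 0 :=
    sub_ne_zero.mpr (T.vertex_ne (fin3_ne_add_one i).symm)
  have hd₂ : T.vertex (i + 2) - T.vertex i ≠ 0 :=
    sub_ne_zero.mpr (T.vertex_ne (fin3_ne_add_two i).symm)
  have h₁ : ∀ᵐ θ ∂(volume : Measure Dir), ∀ y : ℂ, y ∈ Ω →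
      mirror (T.vertex i) (T.vertex (i + 1) - T.vertex i) y ∈ Ω →
      F (mirror (T.vertex i) (T.vertex (i + 1) - T.vertex i) y,
        mirrorDir (T.vertex (i + 1) - T.vertex i) θ) = F (y, θ) := by
    have h := star_side_on hΩ hΩo hFa hinv (i + 2)
    simp only [sideVec, fin3_add_two_add_one, fin3_add_two_add_two] at h
    exact h
  have h₂ : ∀ᵐ θ ∂(volume : Measure Dir), ∀ y : ℂ, y ∈ Ω →
      mirror (T.vertex i) (T.vertex (i + 2) - T.vertex i) y ∈ Ω →
      F (mirror (T.vertex i) (T.vertex (i + 2) - T.vertex i) y,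
        mirrorDir (T.vertex (i + 2) - T.vertex i) θ) = F (y, θ) := by
    have h := star_side_on hΩ hΩo hFa hinv (i + 1)
    simp only [sideVec, fin3_add_one_add_one, fin3_add_one_add_two] at h
    have hne : T.vertex i - T.vertex (i + 2) ≠ 0 :=
      sub_ne_zero.mpr (T.vertex_ne (fin3_ne_add_two i))
    have e1 : mirror (T.vertex (i + 2)) (T.vertex i - T.vertex (i + 2))
        = mirror (T.vertex i) (T.vertex (i + 2) - T.vertex i) := by
      have hb := mirror_base hne (T.vertex (i + 2)) 1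
      rw [show T.vertex (i + 2) + ((1 : ℝ) : ℂ) * (T.vertex i - T.vertex (i + 2)) = T.vertex i by
        push_cast; ring] at hb
      rw [← hb, ← mirror_neg_dir, neg_sub]
    have e2 : mirrorDir (T.vertex i - T.vertex (i + 2))
        = mirrorDir (T.vertex (i + 2) - T.vertex i) := by
      rw [← mirrorDir_neg hd₂, neg_sub]
    rw [e1, e2] at h
    exact h
  exact exists_profile_on hFm hFa (hΩ.vertex_ball i) hrot
    (rot_invariant_on (hΩ.vertex_ball i) hd₁ hd₂ h₁ h₂)

/-- The main theorem on a convex open neighbourhood with uniform margin. -/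
theorem eigenfunction_const_on (hT : T.IsIrrational) (hΩ : T.Nhd Ω ε) (hΩo : IsOpen Ω)
    (hFm : Measurable F) (hFa : ∀ θ : Dir, AnalyticOnNhd ℝ (fun x : ℂ => F (x, θ)) Ω)
    (hinv : ∀ t : ℝ, (fun p => F (T.flow t p)) =ᵐ[T.mu]
      fun p => Complex.exp (lam * t * Complex.I) * F p) :
    ∃ c : ℂ, (F =ᵐ[T.mu] fun _ => c) ∧ (lam ≠ 0 → c = 0) := by
  obtain ⟨i, j, hij, hi, hj⟩ := T.two_irrational hT
  obtain ⟨gA, hgA, hA⟩ := vertex_profile_on hΩ hΩo hFm hFa hinv i (T.addOrderOf_rotAngle i hi)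
  obtain ⟨gB, -, hB⟩ := vertex_profile_on hΩ hΩo hFm hFa hinv j (T.addOrderOf_rotAngle j hj)
  obtain ⟨c, hc⟩ := const_of_two_profiles_on hΩ.convex hFa (T.vertex_ne hij) hΩ.pos
    (hΩ.vertex_ball i) (hΩ.vertex_ball j) hgA hA hB
  refine ⟨c, ?_, ?_⟩
  · have hq := Measure.quasiMeasurePreserving_snd (μ := volume.restrict T.table)
      (ν := (volume : Measure Dir))
    have h := hq.ae hc
    have h' : ∀ᵐ p ∂T.mu, ∀ y ∈ Ω, F (y, p.2) = c := by rw [T.ae_mu]; exact h
    filter_upwards [h', T.ae_mu_fst_mem] with p hp hp1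
    exact hp p.1 (hΩ.table_sub hp1)
  · intro hlam
    obtain ⟨c₀, δ, hδ, hball⟩ := T.exists_free_ball
    have hpi := Real.pi_pos
    have habs : 0 < |lam| := abs_pos.mpr hlam
    set t : ℝ := min (δ / 2) (Real.pi / |lam|) with ht_def
    have ht : 0 < t := lt_min (by linarith) (div_pos hpi habs)
    have htδ : t < δ := lt_of_le_of_lt (min_le_left _ _) (by linarith)
    have htπ : |lam| * t ≤ Real.pi := by
      have := min_le_right (δ / 2) (Real.pi / |lam|)
      rw [← ht_def, le_div_iff₀ habs] at this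
      linarith
    have hfr := step_free_on hΩ hFa hinv hball hδ ht.le htδ
    obtain ⟨θ, hθ1, hθ2⟩ := (hfr.and hc).exists
    have hc₀ : c₀ ∈ Metric.ball c₀ (2 * δ) := Metric.mem_ball_self (by linarith)
    have hc₁ : c₀ + (t : ℂ) * dirVec θ ∈ Metric.ball c₀ (2 * δ) := by
      rw [Metric.mem_ball, dist_eq_norm, add_sub_cancel_left, norm_ofReal_mul_dirVec,
        abs_of_pos ht]
      linarith
    have m0 : c₀ ∈ Ω := hΩ.table_sub (hball hc₀)
    have m1 : c₀ + (t : ℂ) * dirVec θ ∈ Ω := hΩ.table_sub (hball hc₁)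
    have h0 := hθ1 c₀ m0 m1
    rw [hθ2 _ m1, hθ2 _ m0] at h0
    by_contra hc0
    have hexp : Complex.exp (lam * t * Complex.I) = 1 := by
      have : Complex.exp (lam * t * Complex.I) * c = 1 * c := by rw [one_mul]; exact h0.symm
      exact mul_right_cancel₀ hc0 this
    rw [Complex.exp_eq_one_iff] at hexp
    obtain ⟨n, hn⟩ := hexp
    have hreal : lam * t = n * (2 * Real.pi) := by
      have h1 : ((lam * t : ℝ) : ℂ) * Complex.I = ((n * (2 * Real.pi) : ℝ) : ℂ) * Complex.I := by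
        push_cast; rw [hn]; ring
      exact_mod_cast mul_right_cancel₀ Complex.I_ne_zero h1
    rcases eq_or_ne n 0 with hn0 | hn0
    · rw [hn0] at hreal
      simp only [Int.cast_zero, zero_mul, mul_eq_zero] at hreal
      rcases hreal with h | h
      · exact hlam h
      · exact ht.ne' h
    · have h1 : (1 : ℝ) ≤ |(n : ℝ)| := by
        have : (1 : ℤ) ≤ |n| := Int.one_le_abs hn0
        exact_mod_cast this
      have h2 : |lam * t| = |(n : ℝ)| * (2 * Real.pi) := by
        rw [hreal, abs_mul, abs_of_pos (by positivity : (0 : ℝ) < 2 * Real.pi)]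
      rw [abs_mul, abs_of_pos ht] at h2
      nlinarith

variable (T)

lemma isCompact_hull : IsCompact (convexHull ℝ (Set.range T.vertex)) :=
  (Set.finite_range T.vertex).isCompact_convexHull ℝ

lemma closure_table : closure T.table = convexHull ℝ (Set.range T.vertex) := by
  unfold table
  rw [(convex_convexHull ℝ _).closure_interior_eq_closure_of_nonempty_interior T.table_nonempty]
  exact T.isCompact_hull.isClosed.closure_eq

/-- **Main theorem, local version.**  In an irrational triangle, a measurable function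
on the phase space which is, for every direction, real-analytic in the position on a
fixed open set `U` containing the closed triangle, and which is an eigenfunction of the
billiard flow with frequency `lam`, is almost everywhere constant (zero if `lam ≠ 0`). -/
theorem eigenfunction_const_nhd (hT : T.IsIrrational) (U : Set ℂ) (hU : IsOpen U)
    (hTU : closure T.table ⊆ U) (F : ℂ × Dir → ℂ) (hFm : Measurable F)
    (hFa : ∀ θ : Dir, AnalyticOnNhd ℝ (fun x : ℂ => F (x, θ)) U) (lam : ℝ)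
    (hinv : ∀ t : ℝ, (fun p => F (T.flow t p)) =ᵐ[T.mu]
      fun p => Complex.exp (lam * t * Complex.I) * F p) :
    ∃ c : ℂ, (F =ᵐ[T.mu] fun _ => c) ∧ (lam ≠ 0 → c = 0) := by
  rw [T.closure_table] at hTU
  obtain ⟨ε, hε, hsub⟩ := T.isCompact_hull.exists_thickening_subset_open hU hTU
  have hΩ : T.Nhd (Metric.thickening ε (convexHull ℝ (Set.range T.vertex))) ε :=
    { convex := (convex_convexHull ℝ _).thickening ε
      pos := hε
      ball_sub := fun p hp => Metric.ball_subset_thickening hp ε }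
  exact eigenfunction_const_on hT hΩ Metric.isOpen_thickening hFm
    (fun θ => (hFa θ).mono hsub) hinv

end Triangle

end Vale.Agent.Lib.P099
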