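import Mathlib
namespace Vale.Agent.Lib.P099

theorem margin_pi_ne {α : ℝ} (hirr : Irrational (α / Real.pi)) (n : ℤ) :
    Real.pi ≠ n * α := by
  intro h
  have hpi : Real.pi ≠ 0 := Real.pi_ne_zero
  have hn : (n : ℝ) ≠ 0 := by
    intro h0
    rw [h0, zero_mul] at h
    exact hpi h
  have hα : α ≠ 0 := by
    intro h0
    rw [h0, mul_zero] at h
    exact hpi h
  apply hirr
  refine ⟨1 / (n : ℚ), ?_⟩
  rw [h]
  push_cast
  field_simp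

theorem margin_floor_le {α : ℝ} (hα0 : 0 < α) :
    (⌊Real.pi / α⌋ : ℝ) * α ≤ Real.pi ∧ Real.pi < ((⌊Real.pi / α⌋ : ℝ) + 1) * α := by
  constructor
  · have h1 : (⌊Real.pi / α⌋ : ℝ) ≤ Real.pi / α := Int.floor_le _
    rwa [le_div_iff₀ hα0] at h1
  · have h1 : Real.pi / α < (⌊Real.pi / α⌋ : ℝ) + 1 := Int.lt_floor_add_one _
    rwa [div_lt_iff₀ hα0] at h1

/-- For an angle α which is an irrational multiple of π, the number π stays at a positive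
distance from the multiples of α. -/
theorem exists_margin {α : ℝ} (hα0 : 0 < α) (hirr : Irrational (α / Real.pi)) :
    ∃ κ : ℝ, 0 < κ ∧ κ < Real.pi / 2 ∧ ∀ n : ℤ, 2 * κ ≤ |Real.pi - n * α| := by
  obtain ⟨h1, h2⟩ := margin_floor_le hα0
  have h1' : (⌊Real.pi / α⌋ : ℝ) * α < Real.pi :=
    lt_of_le_of_ne h1 (fun h => margin_pi_ne hirr _ h.symm)
  have ha0 : 0 < Real.pi - (⌊Real.pi / α⌋ : ℝ) * α := by linarith
  have hb0 : 0 < ((⌊Real.pi / α⌋ : ℝ) + 1) * α - Real.pi := by linarith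
  refine ⟨min (min (Real.pi - (⌊Real.pi / α⌋ : ℝ) * α)
    (((⌊Real.pi / α⌋ : ℝ) + 1) * α - Real.pi)) 1 / 2, ?_, ?_, ?_⟩
  · have h3 : 0 < min (min (Real.pi - (⌊Real.pi / α⌋ : ℝ) * α)
        (((⌊Real.pi / α⌋ : ℝ) + 1) * α - Real.pi)) 1 := lt_min (lt_min ha0 hb0) one_pos
    linarith
  · have h3 : min (min (Real.pi - (⌊Real.pi / α⌋ : ℝ) * α)
        (((⌊Real.pi / α⌋ : ℝ) + 1) * α - Real.pi)) 1 ≤ 1 := min_le_right _ _
    have h4 := Real.pi_gt_three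
    linarith
  · intro n
    have hκa : min (min (Real.pi - (⌊Real.pi / α⌋ : ℝ) * α)
        (((⌊Real.pi / α⌋ : ℝ) + 1) * α - Real.pi)) 1 ≤ Real.pi - (⌊Real.pi / α⌋ : ℝ) * α :=
      (min_le_left _ _).trans (min_le_left _ _)
    have hκb : min (min (Real.pi - (⌊Real.pi / α⌋ : ℝ) * α)
        (((⌊Real.pi / α⌋ : ℝ) + 1) * α - Real.pi)) 1 ≤ ((⌊Real.pi / α⌋ : ℝ) + 1) * α - Real.pi :=
      (min_le_left _ _).trans (min_le_right _ _)
    rcases le_or_gt n ⌊Real.pi / α⌋ with hn | hn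
    · have hc : (n : ℝ) ≤ (⌊Real.pi / α⌋ : ℝ) := by exact_mod_cast hn
      have h5 : (n : ℝ) * α ≤ (⌊Real.pi / α⌋ : ℝ) * α := mul_le_mul_of_nonneg_right hc hα0.le
      have h6 : Real.pi - n * α ≤ |Real.pi - n * α| := le_abs_self _
      linarith
    · have hn' : ⌊Real.pi / α⌋ + 1 ≤ n := hn
      have hc : (⌊Real.pi / α⌋ : ℝ) + 1 ≤ (n : ℝ) := by exact_mod_cast hn'
      have h5 : ((⌊Real.pi / α⌋ : ℝ) + 1) * α ≤ (n : ℝ) * α :=
        mul_le_mul_of_nonneg_right hc hα0.le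
      have h6 : -(Real.pi - n * α) ≤ |Real.pi - n * α| := neg_le_abs _
      linarith

/-- If ω is close to a multiple of α, then α - ω + π is not. -/
theorem margin_dichotomy {α κ ω : ℝ} (hα0 : 0 < α) (hκ : 0 < κ)
    (hm : ∀ n : ℤ, 2 * κ ≤ |Real.pi - n * α|) (hω0 : 0 < ω) (hω : ω < α + Real.pi) :
    (∃ N : ℕ, N * α + κ ≤ ω ∧ ω ≤ (N + 1) * α - κ) ∨
    (∃ N : ℕ, N * α + κ ≤ α - ω + Real.pi ∧ α - ω + Real.pi ≤ (N + 1) * α - κ) := by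
  have hN1 : ((⌊ω / α⌋₊ : ℕ) : ℝ) * α ≤ ω := by
    have h := Nat.floor_le (div_pos hω0 hα0).le
    rwa [le_div_iff₀ hα0] at h
  have hN2 : ω < (((⌊ω / α⌋₊ : ℕ) : ℝ) + 1) * α := by
    have h := Nat.lt_floor_add_one (ω / α)
    rwa [div_lt_iff₀ hα0] at h
  obtain ⟨hp1, hp2⟩ := margin_floor_le hα0
  have hq1 : (⌊Real.pi / α⌋ : ℝ) * α + 2 * κ ≤ Real.pi := by
    have h := hm ⌊Real.pi / α⌋
    rw [abs_of_nonneg (by linarith)] at h
    linarith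
  have hq2 : Real.pi ≤ ((⌊Real.pi / α⌋ : ℝ) + 1) * α - 2 * κ := by
    have h := hm (⌊Real.pi / α⌋ + 1)
    push_cast at h
    rw [abs_of_neg (by linarith)] at h
    linarith
  by_cases hA : ((⌊ω / α⌋₊ : ℕ) : ℝ) * α + κ ≤ ω ∧ ω ≤ (((⌊ω / α⌋₊ : ℕ) : ℝ) + 1) * α - κ
  · exact Or.inl ⟨⌊ω / α⌋₊, hA⟩
  · right
    have key : ∃ m : ℤ, -κ < ω - (m : ℝ) * α ∧ ω - (m : ℝ) * α < κ := by
      by_cases hB : ((⌊ω / α⌋₊ : ℕ) : ℝ) * α + κ ≤ ω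
      · have hC : ¬ ω ≤ (((⌊ω / α⌋₊ : ℕ) : ℝ) + 1) * α - κ := fun h => hA ⟨hB, h⟩
        refine ⟨((⌊ω / α⌋₊ : ℕ) : ℤ) + 1, ?_, ?_⟩
        · push_cast
          linarith [not_le.1 hC]
        · push_cast
          linarith [not_le.1 hC]
      · refine ⟨((⌊ω / α⌋₊ : ℕ) : ℤ), ?_, ?_⟩
        · push_cast
          linarith [not_le.1 hB]
        · push_cast
          linarith [not_le.1 hB]
    obtain ⟨m, he1, he2⟩ := key
    have hy1 : ((1 - m + ⌊Real.pi / α⌋ : ℤ) : ℝ) * α + κ ≤ α - ω + Real.pi := by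
      push_cast
      linarith
    have hy2 : α - ω + Real.pi ≤ (((1 - m + ⌊Real.pi / α⌋ : ℤ) : ℝ) + 1) * α - κ := by
      push_cast
      linarith
    have hN' : 0 ≤ (1 - m + ⌊Real.pi / α⌋ : ℤ) := by
      by_contra hneg
      have hneg' : (1 - m + ⌊Real.pi / α⌋ : ℤ) + 1 ≤ 0 := by omega
      have hc : (((1 - m + ⌊Real.pi / α⌋ : ℤ) : ℝ) + 1) ≤ 0 := by exact_mod_cast hneg'
      have h7 : (((1 - m + ⌊Real.pi / α⌋ : ℤ) : ℝ) + 1) * α ≤ 0 :=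
        mul_nonpos_of_nonpos_of_nonneg hc hα0.le
      linarith
    have hcast : (((1 - m + ⌊Real.pi / α⌋ : ℤ).toNat : ℕ) : ℝ)
        = ((1 - m + ⌊Real.pi / α⌋ : ℤ) : ℝ) := by
      have h8 := Int.toNat_of_nonneg hN'
      exact_mod_cast congrArg (fun z : ℤ => (z : ℝ)) h8
    refine ⟨(1 - m + ⌊Real.pi / α⌋ : ℤ).toNat, ?_, ?_⟩
    · rw [hcast]
      exact hy1
    · rw [hcast]
      exact hy2

end Vale.Agent.Lib.P099
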