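import Vale.Agent.Lib.P099.EigenMain
import Vale.Agent.Lib.P099.Lift

/-!
# Billiards in a triangle: the winding argument

A continuous nowhere vanishing function on the phase space which is, near two distinct
vertices, uniformly close to nonzero constants, and which along the rays through one of
these vertices is a constant times the phase factor of the distance to that vertex, has
frequency zero.
-/

namespace Vale.Agent.Lib.P099

open Set

namespace Triangle

variable {T : Triangle}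

/-- The table is convex. -/
lemma wind_convex_table (T : Triangle) : Convex ℝ T.table :=
  (convex_convexHull ℝ _).interior

/-- A vertex is not a point of the (open) table. -/
lemma wind_vertex_notMem_table (T : Triangle) (j : Fin 3) : T.vertex j ∉ T.table := by
  intro h
  have h1 := (T.mem_table.mp h) (j + 1)
  rw [T.bc_vertex_ne (fin3_ne_add_one j).symm] at h1
  exact lt_irrefl _ h1

/-- Every vertex is a limit of points of the table. -/
lemma wind_exists_table_near (T : Triangle) (v : Fin 3) {δ : ℝ} (hδ : 0 < δ) :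
    ∃ y ∈ T.table, dist y (T.vertex v) < δ := by
  have hconv : Convex ℝ (convexHull ℝ (Set.range T.vertex)) := convex_convexHull ℝ _
  have hne : (interior (convexHull ℝ (Set.range T.vertex))).Nonempty := T.table_nonempty
  have hcl : T.vertex v ∈ closure T.table := by
    unfold table
    rw [hconv.closure_interior_eq_closure_of_nonempty_interior hne]
    exact subset_closure (subset_convexHull ℝ _ (Set.mem_range_self v))
  obtain ⟨y, hy, hd⟩ := Metric.mem_closure_iff.mp hcl δ hδ
  exact ⟨y, hy, by rwa [dist_comm]⟩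

/-- The clamp of a real number to the unit interval. -/
noncomputable def windClamp (s : ℝ) : ℝ := max 0 (min 1 s)

lemma windClamp_continuous : Continuous windClamp :=
  continuous_const.max (continuous_const.min continuous_id)

lemma windClamp_nonneg (s : ℝ) : 0 ≤ windClamp s := le_max_left _ _

lemma windClamp_le_one (s : ℝ) : windClamp s ≤ 1 := max_le zero_le_one (min_le_left _ _)

lemma windClamp_zero : windClamp 0 = 0 := by simp [windClamp]

lemma windClamp_one : windClamp 1 = 1 := by simp [windClamp]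

/-- **The winding argument.** -/
theorem lam_eq_zero_of_uniform {i j : Fin 3} (hij : i ≠ j) {Fn : ℂ × Dir → ℂ} {lam : ℝ}
    (hFc : ContinuousOn Fn (T.table ×ˢ univ))
    (hne : ∀ p ∈ T.table ×ˢ (univ : Set Dir), Fn p ≠ 0)
    {ci cj : ℂ} (hci : ci ≠ 0) (hcj : cj ≠ 0)
    (hray : ∀ y ∈ T.table, ∀ θ : Dir, ∀ s : ℝ, 0 < s →
      (y + (s : ℂ) * dirVec θ = T.vertex j →
        Fn (y, θ) = cj * Complex.exp (-(lam * s * Complex.I))) ∧
      (y = T.vertex j + (s : ℂ) * dirVec θ →
        Fn (y, θ) = cj * Complex.exp (lam * s * Complex.I)))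
    (hui : ∀ ε' : ℝ, 0 < ε' → ∃ δ : ℝ, 0 < δ ∧ ∀ y ∈ T.table, dist y (T.vertex i) < δ →
      ∀ θ : Dir, ‖Fn (y, θ) - ci‖ < ε')
    (huj : ∀ ε' : ℝ, 0 < ε' → ∃ δ : ℝ, 0 < δ ∧ ∀ y ∈ T.table, dist y (T.vertex j) < δ →
      ∀ θ : Dir, ‖Fn (y, θ) - cj‖ < ε') :
    lam = 0 := by
  by_contra hlam
  have hlam' : 0 < |lam| := abs_pos.mpr hlam
  obtain ⟨a, ha⟩ : ∃ a : ℝ, a = dist (T.vertex i) (T.vertex j) := ⟨_, rfl⟩
  have ha0 : 0 < a := by
    rw [ha]
    exact dist_pos.mpr (T.vertex_ne' hij)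
  have hci0 : 0 < ‖ci‖ := norm_pos_iff.mpr hci
  have hcj0 : 0 < ‖cj‖ := norm_pos_iff.mpr hcj
  obtain ⟨m, hm⟩ : ∃ m : ℝ, m = min ‖ci‖ ‖cj‖ := ⟨_, rfl⟩
  have hm0 : 0 < m := by
    rw [hm]
    exact lt_min hci0 hcj0
  have hmi : m ≤ ‖ci‖ := by
    rw [hm]
    exact min_le_left _ _
  have hmj : m ≤ ‖cj‖ := by
    rw [hm]
    exact min_le_right _ _
  obtain ⟨q, hq⟩ : ∃ q : ℝ, q = min (1 / 8 : ℝ) (|lam| * a / 16) := ⟨_, rfl⟩
  have hla : 0 < |lam| * a := mul_pos hlam' ha0
  have hq0 : 0 < q := by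
    rw [hq]
    exact lt_min (by norm_num) (by linarith)
  have hq1 : q ≤ 1 / 8 := by
    rw [hq]
    exact min_le_left _ _
  have hq2 : q ≤ |lam| * a / 16 := by
    rw [hq]
    exact min_le_right _ _
  obtain ⟨r, hr⟩ : ∃ r : ℝ, r = m * q := ⟨_, rfl⟩
  have hr0 : 0 < r := by
    rw [hr]
    exact mul_pos hm0 hq0
  have hri : r ≤ ‖ci‖ / 8 := by
    rw [hr]
    nlinarith
  have hrj : r ≤ ‖cj‖ / 8 := by
    rw [hr]
    nlinarith
  have hri' : 4 * r ≤ ‖ci‖ * (|lam| * a / 4) := by
    rw [hr]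
    nlinarith
  have hrj' : 4 * r ≤ ‖cj‖ * (|lam| * a / 4) := by
    rw [hr]
    nlinarith
  obtain ⟨δi, hδi, hFi⟩ := hui r hr0
  obtain ⟨δj, hδj, hFj⟩ := huj r hr0
  obtain ⟨ya, hya, hyad⟩ := T.wind_exists_table_near i (lt_min hδi (by linarith : 0 < a / 4))
  obtain ⟨yb, hyb, hybd⟩ := T.wind_exists_table_near j (lt_min hδj (by linarith : 0 < a / 4))
  -- the path from `ya` to `yb`
  obtain ⟨y, hy⟩ : ∃ y : ℝ → ℂ, ∀ s, y s = ya + (windClamp s : ℂ) * (yb - ya) :=
    ⟨_, fun _ => rfl⟩
  have hycont : Continuous y := by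
    have h1 : y = fun s => ya + (windClamp s : ℂ) * (yb - ya) := funext hy
    rw [h1]
    exact continuous_const.add
      ((Complex.continuous_ofReal.comp windClamp_continuous).mul continuous_const)
  have hy0 : y 0 = ya := by
    rw [hy, windClamp_zero]
    simp
  have hy1 : y 1 = yb := by
    rw [hy, windClamp_one]
    simp
  have hymem : ∀ s, y s ∈ T.table := by
    intro s
    have h1 := T.wind_convex_table.add_smul_sub_mem hya hyb
      (show windClamp s ∈ Icc (0 : ℝ) 1 from ⟨windClamp_nonneg s, windClamp_le_one s⟩)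
    rw [hy]
    rw [Complex.real_smul] at h1
    exact h1
  have hyne : ∀ s, y s - T.vertex j ≠ 0 := by
    intro s h
    have h1 := hymem s
    rw [sub_eq_zero.mp h] at h1
    exact T.wind_vertex_notMem_table j h1
  obtain ⟨ρ, hρ⟩ : ∃ ρ : ℝ → ℝ, ∀ s, ρ s = ‖y s - T.vertex j‖ := ⟨_, fun _ => rfl⟩
  have hρcont : Continuous ρ := by
    have h1 : ρ = fun s => ‖y s - T.vertex j‖ := funext hρ
    rw [h1]
    exact (hycont.sub continuous_const).norm
  have hρpos : ∀ s, 0 < ρ s := by
    intro s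
    rw [hρ]
    exact norm_pos_iff.mpr (hyne s)
  obtain ⟨θ, hθ⟩ : ∃ θ : ℝ → Dir, ∀ s, θ s = ((Complex.arg (y s - T.vertex j) : ℝ) : Dir) :=
    ⟨_, fun _ => rfl⟩
  have hθcont : Continuous θ := by
    have h1 : θ = fun s => ((Complex.arg (y s - T.vertex j) : ℝ) : Dir) := funext hθ
    rw [h1, continuous_iff_continuousAt]
    intro s
    have h2 : ContinuousAt (fun z : ℂ => ((Complex.arg z : ℝ) : Dir)) (y s - T.vertex j) :=
      Complex.continuousAt_arg_coe_angle (hyne s)
    have h3 : ContinuousAt (fun s => y s - T.vertex j) s :=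
      (hycont.sub continuous_const).continuousAt
    exact ContinuousAt.comp (g := fun z : ℂ => ((Complex.arg z : ℝ) : Dir)) h2 h3
  have hdir : ∀ s, (ρ s : ℂ) * dirVec (θ s) = y s - T.vertex j := by
    intro s
    rw [hθ, hρ, dirVec_arg (hyne s)]
    have h1 : ((‖y s - T.vertex j‖ : ℝ) : ℂ) ≠ 0 :=
      Complex.ofReal_ne_zero.mpr (norm_ne_zero_iff.mpr (hyne s))
    rw [mul_div_cancel₀ _ h1]
  -- the square in the phase space
  obtain ⟨g, hg⟩ : ∃ g : ℝ × ℝ → ℂ × Dir,
      ∀ p, g p = (y p.1, θ p.1 + ((Real.pi * windClamp p.2 : ℝ) : Dir)) := ⟨_, fun _ => rfl⟩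
  have hgcont : Continuous g := by
    have h1 : g = fun p => (y p.1, θ p.1 + ((Real.pi * windClamp p.2 : ℝ) : Dir)) := funext hg
    rw [h1]
    refine (hycont.comp continuous_fst).prodMk ?_
    refine (hθcont.comp continuous_fst).add ?_
    exact (AddCircle.continuous_mk' _).comp
      (continuous_const.mul (windClamp_continuous.comp continuous_snd))
  have hgmem : ∀ p, g p ∈ T.table ×ˢ (univ : Set Dir) := by
    intro p
    rw [hg]
    exact ⟨hymem p.1, mem_univ _⟩
  have hg0 : ∀ s, g (s, 0) = (y s, θ s) := by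
    intro s
    rw [hg]
    simp [windClamp_zero]
  have hg1 : ∀ s, g (s, 1) = (y s, θ s + ((Real.pi : ℝ) : Dir)) := by
    intro s
    rw [hg]
    simp [windClamp_one]
  have hHcont : Continuous (fun p => Fn (g p)) := hFc.comp_continuous hgcont hgmem
  have hH0 : ∀ p, Fn (g p) ≠ 0 := fun p => hne _ (hgmem p)
  obtain ⟨L, hLcont, hL⟩ := exists_log_lift hHcont hH0
  have h0mem : (0 : ℝ) ∈ Icc (0 : ℝ) 1 := left_mem_Icc.mpr zero_le_one
  have h1mem : (1 : ℝ) ∈ Icc (0 : ℝ) 1 := right_mem_Icc.mpr zero_le_one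
  -- the bottom edge: the rays issued from the vertex
  have hbot : ∀ s ∈ Icc (0 : ℝ) 1, L (s, 0) - ((lam * ρ s : ℝ) : ℂ) * Complex.I
      = L (0, 0) - ((lam * ρ 0 : ℝ) : ℂ) * Complex.I := by
    refine lift_sub_const (L := fun s => L (s, 0)) (a := fun s => lam * ρ s) (w := cj) ?_ ?_ ?_
    · exact (hLcont.comp (continuous_id.prodMk continuous_const)).continuousOn
    · exact (continuous_const.mul hρcont).continuousOn
    · intro s hs
      have h1 : y s = T.vertex j + (ρ s : ℂ) * dirVec (θ s) := by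
        rw [hdir]
        ring
      have h2 := (hray (y s) (hymem s) (θ s) (ρ s) (hρpos s)).2 h1
      change Complex.exp (L (s, 0)) = cj * Complex.exp (((lam * ρ s : ℝ) : ℂ) * Complex.I)
      rw [hL, hg0, h2]
      congr 2
      push_cast
      ring
  -- the top edge: the rays arriving at the vertex
  have htop : ∀ s ∈ Icc (0 : ℝ) 1, L (s, 1) - ((-(lam * ρ s) : ℝ) : ℂ) * Complex.I
      = L (0, 1) - ((-(lam * ρ 0) : ℝ) : ℂ) * Complex.I := by
    refine lift_sub_const (L := fun s => L (s, 1)) (a := fun s => -(lam * ρ s)) (w := cj)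
      ?_ ?_ ?_
    · exact (hLcont.comp (continuous_id.prodMk continuous_const)).continuousOn
    · exact (continuous_const.mul hρcont).neg.continuousOn
    · intro s hs
      have h1 : y s + (ρ s : ℂ) * dirVec (θ s + ((Real.pi : ℝ) : Dir)) = T.vertex j := by
        rw [dirVec_add, dirVec_coe, Complex.exp_pi_mul_I, mul_neg_one, mul_neg, hdir]
        ring
      have h2 := (hray (y s) (hymem s) (θ s + ((Real.pi : ℝ) : Dir)) (ρ s) (hρpos s)).1 h1
      change Complex.exp (L (s, 1)) = cj * Complex.exp (((-(lam * ρ s) : ℝ) : ℂ) * Complex.I)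
      rw [hL, hg1, h2]
      congr 2
      push_cast
      ring
  -- the left edge: near the vertex `i`
  have hleft : ‖L (0, 1) - L (0, 0)‖ * ‖ci‖ ≤ 4 * r := by
    refine lift_small (L := fun u => L (0, u)) (w := ci) ?_ hri hci ?_
    · exact (hLcont.comp (continuous_const.prodMk continuous_id)).continuousOn
    · intro u hu
      rw [hL, hg]
      have h1 : dist (y 0) (T.vertex i) < δi := by
        rw [hy0]
        exact lt_of_lt_of_le hyad (min_le_left _ _)
      exact (hFi (y 0) (hymem 0) h1 _).le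
  -- the right edge: near the vertex `j`
  have hright : ‖L (1, 1) - L (1, 0)‖ * ‖cj‖ ≤ 4 * r := by
    refine lift_small (L := fun u => L (1, u)) (w := cj) ?_ hrj hcj ?_
    · exact (hLcont.comp (continuous_const.prodMk continuous_id)).continuousOn
    · intro u hu
      rw [hL, hg]
      have h1 : dist (y 1) (T.vertex j) < δj := by
        rw [hy1]
        exact lt_of_lt_of_le hybd (min_le_left _ _)
      exact (hFj (y 1) (hymem 1) h1 _).le
  -- the distances to the vertex `j` at both ends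
  have hρ0 : a - a / 4 ≤ ρ 0 := by
    have h1 : dist (T.vertex i) (T.vertex j) ≤ dist (T.vertex i) ya + dist ya (T.vertex j) :=
      dist_triangle _ _ _
    have h2 : dist ya (T.vertex i) < a / 4 := lt_of_lt_of_le hyad (min_le_right _ _)
    have h3 : ρ 0 = dist ya (T.vertex j) := by
      rw [hρ, hy0, dist_eq_norm]
    rw [dist_comm] at h2
    rw [h3]
    linarith
  have hρ1 : ρ 1 < a / 4 := by
    have h3 : ρ 1 = dist yb (T.vertex j) := by
      rw [hρ, hy1, dist_eq_norm]
    rw [h3]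
    exact lt_of_lt_of_le hybd (min_le_right _ _)
  -- conclusion
  have hb1 := hbot 1 h1mem
  have ht1 := htop 1 h1mem
  have hkey : (L (1, 1) - L (1, 0)) - (L (0, 1) - L (0, 0))
      = ((2 * lam * (ρ 0 - ρ 1) : ℝ) : ℂ) * Complex.I := by
    push_cast at hb1 ht1 ⊢
    linear_combination ht1 - hb1
  have hpos : 0 < ρ 0 - ρ 1 := by linarith
  have hnorm : ‖((2 * lam * (ρ 0 - ρ 1) : ℝ) : ℂ) * Complex.I‖ = 2 * |lam| * (ρ 0 - ρ 1) := by
    rw [norm_mul, Complex.norm_I, mul_one, Complex.norm_real, Real.norm_eq_abs, abs_mul,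
      abs_mul, abs_two, abs_of_pos hpos]
  have hle : ‖(L (1, 1) - L (1, 0)) - (L (0, 1) - L (0, 0))‖
      ≤ ‖L (1, 1) - L (1, 0)‖ + ‖L (0, 1) - L (0, 0)‖ := norm_sub_le _ _
  have hA : ‖L (0, 1) - L (0, 0)‖ ≤ |lam| * a / 4 := by
    have h1 := le_trans hleft hri'
    rw [mul_comm] at h1
    exact le_of_mul_le_mul_left h1 hci0
  have hB : ‖L (1, 1) - L (1, 0)‖ ≤ |lam| * a / 4 := by
    have h1 := le_trans hright hrj'
    rw [mul_comm] at h1
    exact le_of_mul_le_mul_left h1 hcj0
  rw [hkey, hnorm] at hle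
  nlinarith [mul_pos hlam' (by linarith : 0 < ρ 0 - ρ 1 - a / 2)]

end Triangle

end Vale.Agent.Lib.P099
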