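import Vale.Agent.Lib.P099.VertexUniform
import Vale.Agent.Lib.P099.Winding

/-!
# Billiards in a triangle with three irrational angles: no continuous eigenfunctions

A continuous function `Fn` on the phase space with `Fn ∘ Φ_t = exp (i lam t) Fn` and
`lam ≠ 0` vanishes identically.
-/

namespace Vale.Agent.Lib.P099

open Set MeasureTheory

namespace Triangle

variable {T : Triangle}

/-- The constant attached to a vertex does not vanish if the function does not. -/
lemma rayForm_ne_zero {Fn : ℂ × Dir → ℂ} {lam : ℝ} {i : Fin 3} {c : ℂ}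
    (hc : RayForm T Fn lam i c) (hne : ∀ p ∈ T.table ×ˢ (univ : Set Dir), Fn p ≠ 0) : c ≠ 0 := by
  obtain ⟨y, hy⟩ := T.table_nonempty
  have hyv : y - T.vertex i ≠ 0 := by
    intro h
    have h1 : y = T.vertex i := sub_eq_zero.mp h
    have h2 := (T.mem_table.mp hy) (i + 1)
    rw [h1, T.bc_vertex_ne (fin3_ne_add_one i).symm] at h2
    exact lt_irrefl _ h2
  have hs : 0 < ‖y - T.vertex i‖ := norm_pos_iff.mpr hyv
  set θ : Dir := ((Complex.arg (y - T.vertex i) : ℝ) : Dir) with hθ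
  have hdir : y = T.vertex i + ((‖y - T.vertex i‖ : ℝ) : ℂ) * dirVec θ := by
    rw [hθ, dirVec_arg hyv]
    have hn : ((‖y - T.vertex i‖ : ℝ) : ℂ) ≠ 0 := by exact_mod_cast hs.ne'
    field_simp
    ring
  have h := (hc y hy θ _ hs).2 hdir
  intro hc0
  rw [hc0, zero_mul] at h
  exact hne (y, θ) ⟨hy, mem_univ _⟩ h

/-- Triangles with three irrational angles: a continuous eigenfunction of the billiard
flow with a nonzero frequency vanishes identically (trajectory form). -/
theorem no_eigen_reach (hT : ∀ i, Irrational (T.interiorAngle i / Real.pi))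
    {Fn : ℂ × Dir → ℂ} {lam : ℝ} (hFc : ContinuousOn Fn (T.table ×ˢ univ))
    (hinv : ∀ (t : ℝ) (p q : ℂ × Dir), T.Reach t p q → p.1 ∈ T.table → q.1 ∈ T.table →
      Fn q = Complex.exp (lam * t * Complex.I) * Fn p)
    (hlam : lam ≠ 0) : ∀ p ∈ T.table ×ˢ (univ : Set Dir), Fn p = 0 := by
  -- the modulus is a continuous invariant function, hence constant
  have hnc : ContinuousOn (fun p => ((‖Fn p‖ : ℝ) : ℂ)) (T.table ×ˢ (univ : Set Dir)) :=
    Complex.continuous_ofReal.comp_continuousOn hFc.norm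
  have hninv : ∀ (t : ℝ) (p q : ℂ × Dir), T.Reach t p q → p.1 ∈ T.table → q.1 ∈ T.table →
      ((‖Fn q‖ : ℝ) : ℂ) = ((‖Fn p‖ : ℝ) : ℂ) := by
    intro t p q hR hp hq
    rw [hinv t p q hR hp hq, norm_mul, norm_exp_lam, one_mul]
  obtain ⟨κ, hκ⟩ := continuous_invariant_const_reach hT hnc hninv
  by_contra hzero
  have hκ0 : κ ≠ 0 := by
    intro h0
    apply hzero
    intro p hp
    have h1 := hκ p hp
    rw [h0] at h1
    have h2 : ‖Fn p‖ = 0 := by exact_mod_cast h1
    exact norm_eq_zero.mp h2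
  have hne : ∀ p ∈ T.table ×ˢ (univ : Set Dir), Fn p ≠ 0 := by
    intro p hp h0
    have h1 := hκ p hp
    rw [h0, norm_zero] at h1
    exact hκ0 (by simpa using h1.symm)
  obtain ⟨c0, hc0⟩ := vertex_eigen hFc hinv 0 (hT 0)
  obtain ⟨c1, hc1⟩ := vertex_eigen hFc hinv 1 (hT 1)
  have hc0' : RayForm T Fn lam 0 c0 := hc0
  have hc1' : RayForm T Fn lam 1 c1 := hc1
  exact hlam (lam_eq_zero_of_uniform (i := 0) (j := 1) (by decide) hFc hne
    (rayForm_ne_zero hc0' hne) (rayForm_ne_zero hc1' hne) hc1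
    (fun ε' hε' => vertex_uniform hFc hinv 0 (hT 0) hc0' hε')
    (fun ε' hε' => vertex_uniform hFc hinv 1 (hT 1) hc1' hε'))

/-- Triangles with three irrational angles: a continuous function on the phase space
which satisfies `Fn ∘ Φ_t = exp (i lam t) Fn` almost everywhere, for every `t`, is constant
if `lam = 0` and vanishes identically if `lam ≠ 0`. -/
theorem no_continuous_eigen (hT : ∀ i, Irrational (T.interiorAngle i / Real.pi))
    {Fn : ℂ × Dir → ℂ} (hFc : ContinuousOn Fn (T.table ×ˢ univ)) (lam : ℝ)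
    (hae : ∀ t : ℝ, (fun p => Fn (T.flow t p)) =ᵐ[T.mu]
      fun p => Complex.exp (lam * t * Complex.I) * Fn p) :
    (lam = 0 → ∃ c : ℂ, ∀ p ∈ T.table ×ˢ (univ : Set Dir), Fn p = c) ∧
    (lam ≠ 0 → ∀ p ∈ T.table ×ˢ (univ : Set Dir), Fn p = 0) := by
  have hinv : ∀ (t : ℝ) (p q : ℂ × Dir), T.Reach t p q → p.1 ∈ T.table → q.1 ∈ T.table →
      Fn q = Complex.exp (lam * t * Complex.I) * Fn p :=
    fun t p q hR hp hq => T.reach_eq_of_ae hFc lam hae hR hp hq
  exact ⟨(continuous_eigen hT hFc lam hae).1, fun hlam => no_eigen_reach hT hFc hinv hlam⟩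

end Triangle

end Vale.Agent.Lib.P099
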