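import Vale.Agent.Lib.P099.Frame

/-!
# Billiards in a triangle: trajectories passing close to a vertex

A trajectory aimed almost exactly at a vertex is reflected a bounded number of times in
the two sides through this vertex and leaves along a ray which is determined by the
unfolding.  For a continuous function invariant under the flow, this relates its values
on the rays entering the vertex to its values on the rays leaving it.
-/

namespace Vale.Agent.Lib.P099

open Set Filter Topology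

namespace Frame

variable {T : Triangle} {i j k : Fin 3} (F : Frame T i j k)

/-- The sides met successively by a line passing close to the vertex `i` on the side of
the increasing polar angles: alternately the side through `i` and `k` (opposite to `j`)
and the side through `i` and `j` (opposite to `k`). -/
def J (_F : Frame T i j k) (m : ℕ) : Fin 3 := if m % 2 = 1 then j else k

/-- The polar angle, in the table, of the ray with polar angle `ψ` in the `n`-th unfolded
copy of the table. -/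
noncomputable def fN (n : ℕ) (ψ : ℝ) : ℝ :=
  if n % 2 = 0 then ψ - n * F.α else (n + 1) * F.α - ψ

lemma unfG_E (n : ℕ) (r ψ : ℝ) :
    T.unfG F.J n (T.vertex i + (r : ℂ) * F.E ψ) = T.vertex i + (r : ℂ) * F.E (F.fN n ψ) := by
  induction n with
  | zero => simp [Triangle.unfG, fN]
  | succ n ih =>
    change T.sideMirror (F.J (n + 1)) (T.unfG F.J n _) = _
    rw [ih]
    rcases Nat.mod_two_eq_zero_or_one n with h | h
    · have h1 : (n + 1) % 2 = 1 := by omega
      have hJ : F.J (n + 1) = j := by simp [J, h1]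
      rw [hJ, F.mirror_b]
      congr 3
      simp only [fN, h, h1, if_true]
      norm_num
      try ring
    · have h1 : (n + 1) % 2 = 0 := by omega
      have hJ : F.J (n + 1) = k := by simp [J, h1]
      rw [hJ, F.mirror_a]
      congr 3
      simp only [fN, h, h1, if_true]
      norm_num
      try ring

lemma unfD_dE (n : ℕ) (ψ : ℝ) : T.unfD F.J n (F.dE ψ) = F.dE (F.fN n ψ) := by
  induction n with
  | zero => simp [Triangle.unfD, fN]
  | succ n ih =>
    change T.reflect (F.J (n + 1)) (T.unfD F.J n _) = _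
    rw [ih]
    rcases Nat.mod_two_eq_zero_or_one n with h | h
    · have h1 : (n + 1) % 2 = 1 := by omega
      have hJ : F.J (n + 1) = j := by simp [J, h1]
      rw [hJ, F.reflect_b]
      congr 1
      simp only [fN, h, h1, if_true]
      norm_num
      try ring
    · have h1 : (n + 1) % 2 = 0 := by omega
      have hJ : F.J (n + 1) = k := by simp [J, h1]
      rw [hJ, F.reflect_a]
      congr 1
      simp only [fN, h, h1, if_true]
      norm_num
      try ring

/-- The point where the line passing at the (signed) distance `ε` from the vertex meets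
the ray of polar angle `φ + x`. -/
lemma cross_point (φ x s₀ ε : ℝ) (hx : Real.sin x ≠ 0) :
    T.vertex i + ((s₀ : ℂ) + ((F.sg * ε : ℝ) : ℂ) * Complex.I) * F.E φ
        + ((s₀ + ε * (-Real.cos x / Real.sin x) : ℝ) : ℂ) * (-F.E φ)
      = T.vertex i + ((ε / Real.sin x : ℝ) : ℂ) * F.E (φ + x) := by
  have hx' : Complex.sin (x : ℂ) ≠ 0 := by
    rw [← Complex.ofReal_sin]; exact_mod_cast hx
  rw [F.E_add, F.exp_sg]
  push_cast
  field_simp
  ring


/-- The starting point: on the line parallel to the ray of polar angle `φ` at the signed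
distance `ε`, at the height `s₀`. -/
noncomputable def xε (φ s₀ ε : ℝ) : ℂ :=
  T.vertex i + ((s₀ : ℂ) + ((F.sg * ε : ℝ) : ℂ) * Complex.I) * F.E φ

/-- The (rescaled) time at which the line meets the ray of polar angle `m α`. -/
noncomputable def cN (φ : ℝ) (m : ℕ) : ℝ :=
  -Real.cos (m * F.α - φ) / Real.sin (m * F.α - φ)

lemma sin_pos_of_le {φ : ℝ} (hφα : φ < F.α) {N : ℕ} (hN1 : N * F.α < φ + Real.pi)
    {m : ℕ} (hm1 : 1 ≤ m) (hmN : m ≤ N) : 0 < Real.sin (m * F.α - φ) := by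
  have h1 : (1 : ℝ) ≤ m := by exact_mod_cast hm1
  have h2 : (m : ℝ) ≤ N := by exact_mod_cast hmN
  have hα := F.hα0
  apply Real.sin_pos_of_pos_of_lt_pi
  · nlinarith
  · nlinarith

lemma cN_lt {φ : ℝ} (hφα : φ < F.α) {N : ℕ} (hN1 : N * F.α < φ + Real.pi)
    {m : ℕ} (hm1 : 1 ≤ m) (hmN : m + 1 ≤ N) : F.cN φ m < F.cN φ (m + 1) := by
  have hs := F.sin_pos_of_le hφα hN1 hm1 (by omega : m ≤ N)
  have hs' := F.sin_pos_of_le hφα hN1 (by omega : 1 ≤ m + 1) hmN
  unfold cN
  rw [div_lt_div_iff₀ hs hs']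
  have h := Real.sin_sub (((m + 1 : ℕ) : ℝ) * F.α - φ) ((m : ℝ) * F.α - φ)
  have e : ((m + 1 : ℕ) : ℝ) * F.α - φ - ((m : ℝ) * F.α - φ) = F.α := by push_cast; ring
  rw [e] at h
  have := F.sin_α_pos
  nlinarith

/-- The trajectory issued from a point close to the ray of polar angle `φ`, aimed
parallel to this ray, passes the vertex after `N` reflections. -/
lemma reach_passage {φ : ℝ} (hφα : φ < F.α) (N : ℕ)
    (hN1 : N * F.α < φ + Real.pi) {s₀ s₁ ε : ℝ} (hpos : 0 < s₀ + s₁) (hε : 0 < ε)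
    (hx : F.xε φ s₀ ε ∈ T.table)
    (hy : T.unfG F.J N (F.xε φ s₀ ε + ((s₀ + s₁ : ℝ) : ℂ) * dirVec (F.dE (φ + Real.pi)))
      ∈ T.table)
    (hsmall : ∀ m : ℕ, 1 ≤ m → m ≤ N → ε / Real.sin (m * F.α - φ) < min F.la F.lb)
    (h1 : 1 ≤ N → 0 < s₀ + ε * F.cN φ 1)
    (h2 : 1 ≤ N → ε * F.cN φ N < s₁) :
    T.Reach (s₀ + s₁) (F.xε φ s₀ ε, F.dE (φ + Real.pi))
      (T.unfG F.J N (F.xε φ s₀ ε + ((s₀ + s₁ : ℝ) : ℂ) * dirVec (F.dE (φ + Real.pi))),
        F.dE (F.fN N (φ + Real.pi))) := by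
  set θ := F.dE (φ + Real.pi) with hθ
  have hu : dirVec θ = -F.E φ := by rw [hθ, F.dirVec_dE, F.E_add_pi]
  set τ : ℕ → ℝ := fun m => if m = 0 then 0 else if m ≤ N then s₀ + ε * F.cN φ m else s₀ + s₁
    with hτ
  have hτ0 : τ 0 = 0 := by simp [hτ]
  have hτN : τ (N + 1) = s₀ + s₁ := by simp [hτ]
  have hτm : ∀ m, 1 ≤ m → m ≤ N → τ m = s₀ + ε * F.cN φ m := by
    intro m h1 h2
    have : m ≠ 0 := by omega
    simp [hτ, this, h2]
  have hmono : ∀ m, m ≤ N → τ m < τ (m + 1) := by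
    intro m hm
    rcases Nat.eq_zero_or_pos m with rfl | hmpos
    · rw [hτ0]
      by_cases hN : 1 ≤ N
      · rw [hτm 1 le_rfl hN]; exact h1 hN
      · have hN0 : N = 0 := by omega
        subst hN0
        rw [hτN]; exact hpos
    · rw [hτm m hmpos hm]
      by_cases hmN : m + 1 ≤ N
      · rw [hτm (m + 1) (by omega) hmN]
        have := F.cN_lt hφα hN1 hmpos hmN
        nlinarith
      · have hmN' : m = N := by omega
        subst hmN'
        rw [hτN]
        have := h2 hmpos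
        linarith
  have hside : ∀ m, m < N →
      T.unfG F.J m (F.xε φ s₀ ε + (τ (m + 1) : ℂ) * dirVec θ) ∈ T.side (F.J (m + 1)) := by
    intro m hm
    have hs := F.sin_pos_of_le hφα hN1 (by omega : 1 ≤ m + 1) (by omega : m + 1 ≤ N)
    have hsm := hsmall (m + 1) (by omega) (by omega)
    rw [hτm (m + 1) (by omega) (by omega), hu]
    have hcp := F.cross_point φ (((m + 1 : ℕ) : ℝ) * F.α - φ) s₀ ε hs.ne'
    have e : φ + (((m + 1 : ℕ) : ℝ) * F.α - φ) = ((m + 1 : ℕ) : ℝ) * F.α := by ring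
    rw [e] at hcp
    change T.unfG F.J m (T.vertex i + ((s₀ : ℂ) + ((F.sg * ε : ℝ) : ℂ) * Complex.I) * F.E φ
      + ((s₀ + ε * F.cN φ (m + 1) : ℝ) : ℂ) * (-F.E φ)) ∈ T.side (F.J (m + 1))
    unfold cN
    rw [hcp, F.unfG_E]
    have hr : 0 < ε / Real.sin (((m + 1 : ℕ) : ℝ) * F.α - φ) := div_pos hε hs
    rcases Nat.mod_two_eq_zero_or_one m with h | h
    · have h1' : (m + 1) % 2 = 1 := by omega
      have hJ : F.J (m + 1) = j := by simp [J, h1']
      have hf : F.fN m (((m + 1 : ℕ) : ℝ) * F.α) = F.α := by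
        simp only [fN, h, if_true]; push_cast; ring
      rw [hJ, hf]
      exact F.mem_side_b hr (lt_of_lt_of_le hsm (min_le_right _ _))
    · have h1' : (m + 1) % 2 = 0 := by omega
      have hJ : F.J (m + 1) = k := by simp [J, h1']
      have hf : F.fN m (((m + 1 : ℕ) : ℝ) * F.α) = 0 := by
        simp only [fN, h]; norm_num
      rw [hJ, hf]
      exact F.mem_side_a hr (lt_of_lt_of_le hsm (min_le_left _ _))
  have hJ : ∀ m, 1 ≤ m → m < N → F.J m ≠ F.J (m + 1) := by
    intro m _ _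
    rcases Nat.mod_two_eq_zero_or_one m with h | h
    · have h1' : (m + 1) % 2 = 1 := by omega
      simp only [J, h, h1']
      simpa using F.hjk.symm
    · have h1' : (m + 1) % 2 = 0 := by omega
      simp only [J, h, h1']
      simpa using F.hjk
  have hend : T.unfG F.J N (F.xε φ s₀ ε + (τ (N + 1) : ℂ) * dirVec θ) ∈ T.table := by
    rw [hτN]; exact hy
  have key := Triangle.reach_chain F.J N θ τ hτ0 hx hmono hside hJ hend
  rw [hτN, hθ, F.unfD_dE] at key
  exact key

/-- The relation between the values of a continuous invariant function on the ray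
entering the vertex at the polar angle `φ` and on the ray leaving it after the passage
on the side of the increasing polar angles. -/
lemma passage {Fn : ℂ × Dir → ℂ} (hFc : ContinuousOn Fn (T.table ×ˢ univ))
    (hinv : ∀ (t : ℝ) (p q : ℂ × Dir), T.Reach t p q → p.1 ∈ T.table → q.1 ∈ T.table →
      Fn q = Fn p)
    {φ : ℝ} (hφ0 : 0 < φ) (hφα : φ < F.α) (N : ℕ) (hN1 : N * F.α < φ + Real.pi)
    (hN2 : φ + Real.pi < (N + 1) * F.α) {s₀ s₁ : ℝ} (hs₀ : 0 < s₀) (hs₀' : s₀ < F.r₀)
    (hs₁ : 0 < s₁) (hs₁' : s₁ < F.r₀) :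
    Fn (T.vertex i + (s₀ : ℂ) * F.E φ, F.dE (φ + Real.pi))
      = Fn (T.vertex i + (s₁ : ℂ) * F.E (F.fN N (φ + Real.pi)), F.dE (F.fN N (φ + Real.pi))) := by
  set θ := F.dE (φ + Real.pi) with hθ
  have hu : dirVec θ = -F.E φ := by rw [hθ, F.dirVec_dE, F.E_add_pi]
  set X : ℝ → ℂ := fun ε => F.xε φ s₀ ε with hX
  set Y : ℝ → ℂ := fun ε => T.unfG F.J N (X ε + ((s₀ + s₁ : ℝ) : ℂ) * dirVec θ) with hY
  have hXc : Continuous X := by
    simp only [hX, xε]
    fun_prop
  have hYc : Continuous Y :=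
    (T.unf_unfG F.J N).continuous.comp (hXc.add continuous_const)
  have hX0 : X 0 = T.vertex i + (s₀ : ℂ) * F.E φ := by
    simp [hX, xε]
  have hψ : 0 < F.fN N (φ + Real.pi) ∧ F.fN N (φ + Real.pi) < F.α := by
    unfold fN
    split_ifs
    · constructor <;> linarith
    · constructor <;> linarith
  have hY0 : Y 0 = T.vertex i + (s₁ : ℂ) * F.E (F.fN N (φ + Real.pi)) := by
    have e : X 0 + ((s₀ + s₁ : ℝ) : ℂ) * dirVec θ = T.vertex i + (s₁ : ℂ) * F.E (φ + Real.pi) := by
      rw [hX0, hu, F.E_add_pi]; push_cast; ring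
    simp only [hY]
    rw [e, F.unfG_E]
  have hX0mem : X 0 ∈ T.table := by rw [hX0]; exact F.mem_table hs₀ hs₀' hφ0 hφα
  have hY0mem : Y 0 ∈ T.table := by rw [hY0]; exact F.mem_table hs₁ hs₁' hψ.1 hψ.2
  have hlb : (𝓝[>] (0 : ℝ)) ≤ 𝓝 0 := nhdsWithin_le_nhds
  -- smallness conditions, eventually as `ε → 0+`
  have e1 : ∀ᶠ ε in 𝓝[>] (0 : ℝ), X ε ∈ T.table :=
    hlb (hXc.continuousAt.eventually (T.isOpen_table.mem_nhds hX0mem))
  have e2 : ∀ᶠ ε in 𝓝[>] (0 : ℝ), Y ε ∈ T.table :=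
    hlb (hYc.continuousAt.eventually (T.isOpen_table.mem_nhds hY0mem))
  have e3 : ∀ᶠ ε in 𝓝[>] (0 : ℝ), 0 < ε := self_mem_nhdsWithin
  have hmin : 0 < min F.la F.lb := lt_min F.hla F.hlb
  have e4 : ∀ᶠ ε in 𝓝[>] (0 : ℝ), ∀ m ∈ Finset.Icc 1 N,
      ε / Real.sin (m * F.α - φ) < min F.la F.lb := by
    rw [Filter.eventually_all_finset]
    intro m _
    apply hlb
    have hc : Continuous (fun ε : ℝ => ε / Real.sin (m * F.α - φ)) := by fun_prop
    have h0 : (fun ε : ℝ => ε / Real.sin (m * F.α - φ)) 0 < min F.la F.lb := by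
      simp only [zero_div]; exact hmin
    exact hc.continuousAt.eventually (gt_mem_nhds h0)
  have e5 : ∀ᶠ ε in 𝓝[>] (0 : ℝ), 0 < s₀ + ε * F.cN φ 1 := by
    apply hlb
    have hc : Continuous (fun ε : ℝ => s₀ + ε * F.cN φ 1) := by fun_prop
    have h0 : 0 < (fun ε : ℝ => s₀ + ε * F.cN φ 1) 0 := by simpa using hs₀
    exact hc.continuousAt.eventually (lt_mem_nhds h0)
  have e6 : ∀ᶠ ε in 𝓝[>] (0 : ℝ), ε * F.cN φ N < s₁ := by
    apply hlb
    have hc : Continuous (fun ε : ℝ => ε * F.cN φ N) := by fun_prop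
    have h0 : (fun ε : ℝ => ε * F.cN φ N) 0 < s₁ := by simpa using hs₁
    exact hc.continuousAt.eventually (gt_mem_nhds h0)
  have hev : ∀ᶠ ε in 𝓝[>] (0 : ℝ), Fn (Y ε, F.dE (F.fN N (φ + Real.pi))) = Fn (X ε, θ) := by
    filter_upwards [e1, e2, e3, e4, e5, e6] with ε h1 h2 h3 h4 h5 h6
    have hR := F.reach_passage hφα N hN1 (add_pos hs₀ hs₁) h3 h1 h2
      (fun m hm1 hmN => h4 m (Finset.mem_Icc.mpr ⟨hm1, hmN⟩)) (fun _ => h5) (fun _ => h6)
    exact hinv _ _ _ hR h1 h2
  -- pass to the limit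
  have hopen : IsOpen (T.table ×ˢ (univ : Set Dir)) := T.isOpen_table.prod isOpen_univ
  have hcX : Tendsto (fun ε => Fn (X ε, θ)) (𝓝[>] (0 : ℝ)) (𝓝 (Fn (X 0, θ))) := by
    have hca : ContinuousAt Fn (X 0, θ) :=
      hFc.continuousAt (hopen.mem_nhds ⟨hX0mem, mem_univ _⟩)
    have hcm : Continuous (fun ε => (X ε, θ)) := hXc.prodMk continuous_const
    exact (hca.tendsto.comp hcm.continuousAt.tendsto).mono_left hlb
  have hcY : Tendsto (fun ε => Fn (Y ε, F.dE (F.fN N (φ + Real.pi)))) (𝓝[>] (0 : ℝ))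
      (𝓝 (Fn (Y 0, F.dE (F.fN N (φ + Real.pi))))) := by
    have hca : ContinuousAt Fn (Y 0, F.dE (F.fN N (φ + Real.pi))) :=
      hFc.continuousAt (hopen.mem_nhds ⟨hY0mem, mem_univ _⟩)
    have hcm : Continuous (fun ε => (Y ε, F.dE (F.fN N (φ + Real.pi)))) :=
      hYc.prodMk continuous_const
    exact (hca.tendsto.comp hcm.continuousAt.tendsto).mono_left hlb
  have hlim := tendsto_nhds_unique (hcY.congr' hev) hcX
  rw [hX0, hY0] at hlim
  exact hlim.symm

end Frame

end Vale.Agent.Lib.P099
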