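import Vale.Agent.Lib.P099.Sets
import Vale.Agent.Lib.P099.Translations

/-!
# Billiards in a triangle: invariant sets whose slices do not depend on the direction

If a set of phase points is invariant under the billiard flow (up to sets of measure
zero) and, over a set of directions of positive measure, its slices are all equal to one
set `B` of positions, then `B` has measure zero or full measure in the table.
-/

namespace Vale.Agent.Lib.P099

open Set MeasureTheory
open scoped symmDiff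

namespace Triangle

variable (T : Triangle)

theorem slice_trivial {S : Set (ℂ × Dir)}
    (hinv : ∀ t : ℝ, T.mu ((T.flow t ⁻¹' S) ∆ S) = 0)
    {B : Set ℂ} (hB : MeasurableSet B) {D₀ : Set Dir} (hD₀ : MeasurableSet D₀)
    (hpos : (volume : Measure Dir) D₀ ≠ 0)
    (hslice : ∀ x : ℂ, ∀ θ ∈ D₀, ((x, θ) ∈ S ↔ x ∈ B)) :
    (volume : Measure ℂ) (B ∩ T.table) = 0 ∨ (volume : Measure ℂ) (T.table \ B) = 0 := by
  -- Steps 1 and 2: one pair of rationals
  have key : ∀ t r : ℚ, 0 < t → t < r → ∀ᵐ θ ∂(volume : Measure Dir), θ ∈ D₀ →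
      ∀ᵐ x ∂(volume : Measure ℂ), Metric.ball x (r : ℝ) ⊆ T.table →
        ((x + ((t : ℝ) : ℂ) * dirVec θ ∈ B) ↔ x ∈ B) := by
    intro t r ht htr
    have htR : (0 : ℝ) < (t : ℝ) := by exact_mod_cast ht
    have htrR : (t : ℝ) < (r : ℝ) := by exact_mod_cast htr
    have h0 := hinv (t : ℝ)
    have h1 : ∀ᵐ p ∂T.leb, p.2 ∈ D₀ → Metric.ball p.1 (r : ℝ) ⊆ T.table →
        ((p.1 + ((t : ℝ) : ℂ) * dirVec p.2 ∈ B) ↔ p.1 ∈ B) := by
      rw [measure_eq_zero_iff_ae_notMem, T.ae_mu] at h0
      filter_upwards [h0] with p hp hθ hball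
      have hflow : T.flow (t : ℝ) (p.1, p.2) = (p.1 + ((t : ℝ) : ℂ) * dirVec p.2, p.2) := by
        apply T.flow_free htR.le
        intro s hs hst
        apply hball
        rw [Metric.mem_ball, dist_eq_norm, add_sub_cancel_left, norm_ofReal_mul_dirVec,
          abs_of_nonneg hs]
        linarith
      have hmem : (T.flow (t : ℝ) (p.1, p.2) ∈ S ↔ (p.1, p.2) ∈ S) := by
        rw [Set.mem_symmDiff] at hp
        simp only [Set.mem_preimage] at hp
        tauto
      have e1 := hslice (p.1 + ((t : ℝ) : ℂ) * dirVec p.2) p.2 hθ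
      have e2 := hslice p.1 p.2 hθ
      rw [← e1, ← e2, ← hflow]
      exact hmem
    have hsw : MeasurePreserving Prod.swap
        ((volume : Measure Dir).prod (volume.restrict T.table)) T.leb :=
      Measure.measurePreserving_swap
    have h2 := hsw.quasiMeasurePreserving.ae h1
    have h3 := Measure.ae_ae_of_ae_prod h2
    filter_upwards [h3] with θ hθ hθD
    rw [ae_restrict_iff' T.isOpen_table.measurableSet] at hθ
    filter_upwards [hθ] with x hx hball
    have hxT : x ∈ T.table := hball (Metric.mem_ball_self (htR.trans htrR))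
    exact hx hxT hθD hball
  -- Step 3: all pairs of rationals at once
  have key2 : ∀ᵐ θ ∂(volume : Measure Dir), θ ∈ D₀ → ∀ t r : ℚ, 0 < t → t < r →
      ∀ᵐ x ∂(volume : Measure ℂ), Metric.ball x (r : ℝ) ⊆ T.table →
        ((x + ((t : ℝ) : ℂ) * dirVec θ ∈ B) ↔ x ∈ B) := by
    have hall : ∀ᵐ θ ∂(volume : Measure Dir), ∀ t r : ℚ, 0 < t → t < r → θ ∈ D₀ →
        ∀ᵐ x ∂(volume : Measure ℂ), Metric.ball x (r : ℝ) ⊆ T.table →
          ((x + ((t : ℝ) : ℂ) * dirVec θ ∈ B) ↔ x ∈ B) := by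
      rw [ae_all_iff]
      intro t
      rw [ae_all_iff]
      intro r
      by_cases ht : 0 < t
      · by_cases htr : t < r
        · filter_upwards [key t r ht htr] with θ hθ _ _ using hθ
        · exact Filter.Eventually.of_forall (fun θ _ h => absurd h htr)
      · exact Filter.Eventually.of_forall (fun θ h => absurd h ht)
    filter_upwards [hall] with θ hθ hD t r ht htr using hθ t r ht htr hD
  -- Step 4: two good directions
  obtain ⟨G, hGdef⟩ : ∃ G : Set Dir, G = {θ : Dir | θ ∈ D₀ ∧ ∀ t r : ℚ, 0 < t → t < r →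
      ∀ᵐ x ∂(volume : Measure ℂ), Metric.ball x (r : ℝ) ⊆ T.table →
        ((x + ((t : ℝ) : ℂ) * dirVec θ ∈ B) ↔ x ∈ B)} := ⟨_, rfl⟩
  have hnull : (volume : Measure Dir) (D₀ \ G) = 0 := by
    have hsub : D₀ \ G ⊆ {θ : Dir | ¬ (θ ∈ D₀ → ∀ t r : ℚ, 0 < t → t < r →
        ∀ᵐ x ∂(volume : Measure ℂ), Metric.ball x (r : ℝ) ⊆ T.table →
          ((x + ((t : ℝ) : ℂ) * dirVec θ ∈ B) ↔ x ∈ B))} := by
      intro θ hθ h
      apply hθ.2
      rw [hGdef]
      exact ⟨hθ.1, h hθ.1⟩
    exact measure_mono_null hsub (ae_iff.mp key2)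
  have hGne : ∃ θ₁, θ₁ ∈ G := by
    by_contra hcon
    apply hpos
    have hsub : D₀ ⊆ D₀ \ G := fun θ hθ => ⟨hθ, fun h => hcon ⟨θ, h⟩⟩
    exact measure_mono_null hsub hnull
  obtain ⟨θ₁, h1G⟩ := hGne
  have hG2 : ∃ θ₂, θ₂ ∈ G ∧ θ₂ ≠ θ₁ ∧ θ₂ ≠ θ₁ + ((Real.pi : ℝ) : Dir) := by
    by_contra hcon
    apply hpos
    have hsub : D₀ ⊆ (D₀ \ G) ∪ ({θ₁} ∪ {θ₁ + ((Real.pi : ℝ) : Dir)}) := by
      intro θ hθ
      by_cases hθG : θ ∈ G
      · right
        by_cases h1 : θ = θ₁
        · left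
          exact h1
        · right
          by_contra h2
          exact hcon ⟨θ, hθG, h1, h2⟩
      · left
        exact ⟨hθ, hθG⟩
    refine measure_mono_null hsub ?_
    rw [measure_union_null_iff, measure_union_null_iff]
    exact ⟨hnull, volume_dir_singleton _, volume_dir_singleton _⟩
  obtain ⟨θ₂, h2G, h21, h2pi⟩ := hG2
  rw [hGdef] at h1G h2G
  -- Step 5: the two translations
  have hconv : Convex ℝ T.table := by
    unfold Triangle.table
    exact (convex_convexHull ℝ _).interior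
  refine null_or_conull_of_two_translations T.isOpen_table hconv hB (norm_dirVec θ₁)
    (norm_dirVec θ₂) ?_ ?_ ?_
  · intro h
    exact h21 (dirVec_injective h).symm
  · intro h
    apply h2pi
    apply dirVec_injective
    rw [dirVec_add, dirVec_pi, h]
    ring
  · rintro e (rfl | rfl) t r ht htr
    · exact h1G.2 t r ht htr
    · exact h2G.2 t r ht htr

end Triangle

end Vale.Agent.Lib.P099
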