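import Vale.Agent.Lib.P099.Quasi
import Vale.Agent.Lib.P099.Slice

/-!
# Billiards in an irrational triangle: invariant finite unions of rectangles

A finite union of measurable rectangles `A × D` (a set of positions times a set of
directions) which is invariant under the billiard flow up to sets of measure zero has
measure `0` or `1`.
-/

namespace Vale.Agent.Lib.P099

open Set MeasureTheory
open scoped symmDiff

namespace Triangle

variable {T : Triangle}

/-- A rectangle one of whose factors is a null set is a null set of the phase space. -/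
private lemma leb_rect_null (T : Triangle) (E : Set ℂ) (F : Set Dir)
    (h : (volume : Measure ℂ) (E ∩ T.table) = 0 ∨ (volume : Measure Dir) F = 0) :
    T.leb (E ×ˢ F) = 0 := by
  unfold leb
  rw [Measure.prod_prod, Measure.restrict_apply' T.isOpen_table.measurableSet]
  rcases h with h | h
  · rw [h, zero_mul]
  · rw [h, mul_zero]

/-- Countably many rectangles whose sets of directions are pairwise disjoint. -/
theorem disjoint_rect_union_trivial (hT : T.IsIrrational) {ι : Type} [Countable ι]
    (A : ι → Set ℂ) (D : ι → Set Dir) (hA : ∀ m, MeasurableSet (A m))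
    (hD : ∀ m, MeasurableSet (D m)) (hdisj : Pairwise (fun m n => Disjoint (D m) (D n)))
    (hinv : ∀ t : ℝ, T.mu ((T.flow t ⁻¹' (⋃ m, A m ×ˢ D m)) ∆ (⋃ m, A m ×ˢ D m)) = 0) :
    T.mu (⋃ m, A m ×ˢ D m) = 0 ∨ T.mu (⋃ m, A m ×ˢ D m) = 1 := by
  classical
  set S : Set (ℂ × Dir) := ⋃ m, A m ×ˢ D m with hS
  -- the slices of `S` over `D m` are equal to `A m`
  have hslice : ∀ m, ∀ x : ℂ, ∀ θ ∈ D m, ((x, θ) ∈ S ↔ x ∈ A m) := by
    intro m x θ hθ
    constructor
    · intro h
      rw [hS, mem_iUnion] at h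
      obtain ⟨n, hn⟩ := h
      by_cases hnm : n = m
      · subst hnm
        exact hn.1
      · exact absurd hθ (fun h' => Set.disjoint_left.mp (hdisj hnm) hn.2 h')
    · intro h
      exact mem_iUnion.mpr ⟨m, h, hθ⟩
  have hdich : ∀ m, (volume : Measure Dir) (D m) ≠ 0 →
      (volume : Measure ℂ) (A m ∩ T.table) = 0 ∨ (volume : Measure ℂ) (T.table \ A m) = 0 :=
    fun m hm => T.slice_trivial hinv (hA m) (hD m) hm (hslice m)
  set J : Set ι :=
    {m | (volume : Measure Dir) (D m) ≠ 0 ∧ (volume : Measure ℂ) (T.table \ A m) = 0} with hJ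
  set D' : Set Dir := ⋃ m ∈ J, D m with hD'
  have hD'm : MeasurableSet D' := MeasurableSet.biUnion (Set.to_countable J) (fun m _ => hD m)
  -- the exceptional null sets
  set E : ι → Set (ℂ × Dir) := fun m =>
    if (volume : Measure Dir) (D m) = 0 then univ ×ˢ D m
    else if (volume : Measure ℂ) (T.table \ A m) = 0 then (T.table \ A m) ×ˢ D m
    else (A m ∩ T.table) ×ˢ D m with hE
  have hEnull : ∀ m, T.leb (E m) = 0 := by
    intro m
    simp only [hE]
    split_ifs with h1 h2
    · exact leb_rect_null T _ _ (Or.inr h1)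
    · exact leb_rect_null T _ _ (Or.inl (measure_mono_null inter_subset_left h2))
    · exact leb_rect_null T _ _
        (Or.inl (measure_mono_null inter_subset_left ((hdich m h1).resolve_right h2)))
  have hEae : ∀ᵐ p ∂T.mu, ∀ m, p ∉ E m := by
    rw [T.ae_mu, ae_all_iff]
    intro m
    exact measure_eq_zero_iff_ae_notMem.mp (hEnull m)
  have hclaim : ∀ᵐ p ∂T.mu, (p ∈ S ↔ p ∈ T.table ×ˢ D') := by
    filter_upwards [hEae, T.ae_mu_fst_mem] with p hp hp1
    obtain ⟨x, θ⟩ := p
    replace hp1 : x ∈ T.table := hp1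
    by_cases hθ : ∃ m, θ ∈ D m
    · obtain ⟨m, hm⟩ := hθ
      have hpm := hp m
      have hvol : (volume : Measure Dir) (D m) ≠ 0 := by
        intro h0
        apply hpm
        simp only [hE, if_pos h0]
        exact ⟨mem_univ _, hm⟩
      by_cases hmJ : (volume : Measure ℂ) (T.table \ A m) = 0
      · have hxA : x ∈ A m := by
          by_contra hx
          apply hpm
          simp only [hE, if_neg hvol, if_pos hmJ]
          exact ⟨⟨hp1, hx⟩, hm⟩
        constructor
        · intro _
          exact ⟨hp1, mem_biUnion (show m ∈ J from ⟨hvol, hmJ⟩) hm⟩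
        · intro _
          exact (hslice m x θ hm).mpr hxA
      · have hxA : x ∉ A m := by
          intro hx
          apply hpm
          simp only [hE, if_neg hvol, if_neg hmJ]
          exact ⟨⟨hx, hp1⟩, hm⟩
        constructor
        · intro h
          exact absurd ((hslice m x θ hm).mp h) hxA
        · intro h
          exfalso
          obtain ⟨n, hnJ, hn⟩ := mem_iUnion₂.mp h.2
          by_cases hnm : n = m
          · subst hnm
            exact hmJ hnJ.2
          · exact Set.disjoint_left.mp (hdisj hnm) hn hm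
    · constructor
      · intro h
        obtain ⟨n, hn⟩ := mem_iUnion.mp h
        exact absurd ⟨n, hn.2⟩ hθ
      · intro h
        obtain ⟨n, _, hn⟩ := mem_iUnion₂.mp h.2
        exact absurd ⟨n, hn⟩ hθ
  have hinv' : ∀ t : ℝ, T.mu ((T.flow t ⁻¹' (T.table ×ˢ D')) ∆ (T.table ×ˢ D')) = 0 := by
    intro t
    have h1 : ∀ᵐ p ∂T.mu, p ∉ (T.flow t ⁻¹' S) ∆ S :=
      measure_eq_zero_iff_ae_notMem.mp (hinv t)
    have h2 := T.ae_flow_of_ae t hclaim
    rw [measure_eq_zero_iff_ae_notMem]
    filter_upwards [h1, h2, hclaim] with p hp1 hp2 hp3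
    rw [mem_symmDiff] at hp1 ⊢
    rw [mem_preimage] at hp1 ⊢
    rw [← hp2, ← hp3]
    exact hp1
  have hmeas : T.mu S = T.mu (T.table ×ˢ D') :=
    measure_congr (Filter.eventuallyEq_set.mpr hclaim)
  rw [hmeas]
  exact T.direction_set_trivial hT D' hD'm hinv'

/-- Finitely many arbitrary measurable rectangles. -/
theorem rect_union_trivial (hT : T.IsIrrational) {N : ℕ}
    (A : Fin N → Set ℂ) (D : Fin N → Set Dir) (hA : ∀ m, MeasurableSet (A m))
    (hD : ∀ m, MeasurableSet (D m))
    (hinv : ∀ t : ℝ, T.mu ((T.flow t ⁻¹' (⋃ m, A m ×ˢ D m)) ∆ (⋃ m, A m ×ˢ D m)) = 0) :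
    T.mu (⋃ m, A m ×ˢ D m) = 0 ∨ T.mu (⋃ m, A m ×ˢ D m) = 1 := by
  classical
  set A' : Finset (Fin N) → Set ℂ := fun I => ⋃ m ∈ I, A m with hA'
  set D' : Finset (Fin N) → Set Dir := fun I => {θ | ∀ m, m ∈ I ↔ θ ∈ D m} with hD'
  have hA'm : ∀ I, MeasurableSet (A' I) := fun I =>
    Finset.measurableSet_biUnion I (fun m _ => hA m)
  have hD'eq : ∀ I, D' I = ⋂ m, (if m ∈ I then D m else (D m)ᶜ) := by
    intro I
    ext θ
    simp only [hD', mem_ofPred_eq, mem_iInter]
    constructor
    · intro h m
      by_cases hm : m ∈ I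
      · rw [if_pos hm]
        exact (h m).mp hm
      · rw [if_neg hm]
        exact fun hc => hm ((h m).mpr hc)
    · intro h m
      have hmm := h m
      by_cases hm : m ∈ I
      · rw [if_pos hm] at hmm
        exact ⟨fun _ => hmm, fun _ => hm⟩
      · rw [if_neg hm] at hmm
        exact ⟨fun hc => absurd hc hm, fun hc => absurd hc hmm⟩
  have hD'm : ∀ I, MeasurableSet (D' I) := by
    intro I
    rw [hD'eq]
    apply MeasurableSet.iInter
    intro m
    split_ifs
    · exact hD m
    · exact (hD m).compl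
  have hdisj : Pairwise (fun I I' => Disjoint (D' I) (D' I')) := by
    intro I I' hne
    rw [Set.disjoint_left]
    intro θ h1 h2
    apply hne
    ext m
    exact (h1 m).trans (h2 m).symm
  have hunion : (⋃ I, A' I ×ˢ D' I) = ⋃ m, A m ×ˢ D m := by
    ext ⟨x, θ⟩
    simp only [mem_iUnion, mem_prod, hA', hD', mem_ofPred_eq]
    constructor
    · rintro ⟨I, ⟨m, hmI, hxm⟩, hθ⟩
      exact ⟨m, hxm, (hθ m).mp hmI⟩
    · rintro ⟨m, hxm, hθm⟩
      refine ⟨Finset.univ.filter (fun m => θ ∈ D m), ⟨m, ?_, hxm⟩, ?_⟩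
      · simp [hθm]
      · intro n
        simp
  have key := disjoint_rect_union_trivial hT A' D' hA'm hD'm hdisj
    (by rw [hunion]; exact hinv)
  rw [hunion] at key
  exact key

end Triangle

end Vale.Agent.Lib.P099
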