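import Vale.Agent.Lib.P099.RidgeDefs

/-!
# Functions of the plane invariant along a direction: small steps suffice
-/

namespace Vale.Agent.Lib.P099

open MeasureTheory

/-- Invariance along `v` for all small rational steps implies invariance for all rational
steps (on a convex set). -/
theorem TwInv.of_small {Q : Set ℂ} (hQc : Convex ℝ Q) {v : ℂ} {lam : ℝ} {h : ℂ → ℂ} {ρ : ℝ}
    (hρ : 0 < ρ)
    (hs : ∀ t : ℚ, 0 < t → (t : ℝ) < ρ → ∀ᵐ x ∂(volume : Measure ℂ), x ∈ Q →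
      x + ((t : ℝ) : ℂ) * v ∈ Q →
        h (x + ((t : ℝ) : ℂ) * v) = Complex.exp (lam * (t : ℝ) * Complex.I) * h x) :
    TwInv Q v lam h := by
  intro t ht
  have htR : (0 : ℝ) < (t : ℝ) := by exact_mod_cast ht
  obtain ⟨k, hk⟩ := exists_nat_gt ((t : ℝ) / ρ)
  have hkR : (0 : ℝ) < (k : ℝ) := lt_of_le_of_lt (div_nonneg htR.le hρ.le) hk
  have hk0 : 0 < k := by exact_mod_cast hkR
  obtain ⟨τ, hτ⟩ : ∃ τ : ℚ, τ = t / k := ⟨_, rfl⟩
  have hτ0 : 0 < τ := by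
    rw [hτ]
    exact div_pos ht (by exact_mod_cast hk0)
  have hτR : ((τ : ℚ) : ℝ) = (t : ℝ) / k := by
    rw [hτ]
    push_cast
    rfl
  have hτρ : ((τ : ℚ) : ℝ) < ρ := by
    rw [hτR, div_lt_iff₀ hkR]
    rw [div_lt_iff₀ hρ] at hk
    linarith
  have hP := hs τ hτ0 hτρ
  have hall : ∀ᵐ x ∂(volume : Measure ℂ), ∀ i : ℕ,
      (x + (((i : ℝ) * (τ : ℝ) : ℝ) : ℂ) * v ∈ Q →
        x + (((i : ℝ) * (τ : ℝ) : ℝ) : ℂ) * v + ((τ : ℝ) : ℂ) * v ∈ Q →
        h (x + (((i : ℝ) * (τ : ℝ) : ℝ) : ℂ) * v + ((τ : ℝ) : ℂ) * v)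
          = Complex.exp (lam * (τ : ℝ) * Complex.I)
            * h (x + (((i : ℝ) * (τ : ℝ) : ℝ) : ℂ) * v)) := by
    rw [ae_all_iff]
    intro i
    exact (measurePreserving_add_right volume
      ((((i : ℝ) * (τ : ℝ) : ℝ) : ℂ) * v)).quasiMeasurePreserving.ae hP
  filter_upwards [hall] with x hx
  intro hxQ hxt
  have hmem : ∀ i : ℕ, i ≤ k → x + (((i : ℝ) * (τ : ℝ) : ℝ) : ℂ) * v ∈ Q := by
    intro i hi
    have h01 : ((i : ℝ) / k) ∈ Set.Icc (0 : ℝ) 1 := by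
      constructor
      · positivity
      · rw [div_le_one hkR]
        exact_mod_cast hi
    have h1 := hQc.add_smul_mem hxQ hxt h01
    have e : x + ((i : ℝ) / k) • (((t : ℝ) : ℂ) * v)
        = x + (((i : ℝ) * (τ : ℝ) : ℝ) : ℂ) * v := by
      rw [Complex.real_smul, hτR]
      push_cast
      ring
    rw [e] at h1
    exact h1
  have hind : ∀ i : ℕ, i ≤ k → h (x + (((i : ℝ) * (τ : ℝ) : ℝ) : ℂ) * v)
      = Complex.exp (lam * ((i : ℝ) * (τ : ℝ)) * Complex.I) * h x := by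
    intro i
    induction i with
    | zero =>
      intro _
      simp
    | succ i ih =>
      intro hi
      have e : x + ((((i + 1 : ℕ) : ℝ) * (τ : ℝ) : ℝ) : ℂ) * v
          = x + (((i : ℝ) * (τ : ℝ) : ℝ) : ℂ) * v + ((τ : ℝ) : ℂ) * v := by
        push_cast
        ring
      have hm1 := hmem (i + 1) hi
      rw [e] at hm1
      have h1 := hx i (hmem i (by omega)) hm1
      rw [e, h1, ih (by omega), ← mul_assoc, ← Complex.exp_add]
      congr 2
      push_cast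
      ring
  have hfin := hind k le_rfl
  have ek : (k : ℝ) * (τ : ℝ) = (t : ℝ) := by
    rw [hτR]
    field_simp
  have ek' : ((k : ℝ) : ℂ) * ((τ : ℝ) : ℂ) = ((t : ℝ) : ℂ) := by
    rw [← Complex.ofReal_mul, ek]
  rw [ek, ek'] at hfin
  exact hfin

end Vale.Agent.Lib.P099
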