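import Vale.Agent.Lib.P099.RidgeDefs
import Vale.Agent.Lib.P099.Translations

/-!
# Functions of the plane invariant along two directions are almost everywhere constant
-/

namespace Vale.Agent.Lib.P099

open MeasureTheory

/-- A measurable function on an open convex set which is invariant (frequency `0`) along
two non-parallel unit vectors is almost everywhere constant on the set. -/
theorem ae_const_of_twInv_two {Q : Set ℂ} (hQo : IsOpen Q) (hQc : Convex ℝ Q) {h : ℂ → ℂ}
    (hh : Measurable h) {e₁ e₂ : ℂ} (h₁ : ‖e₁‖ = 1) (h₂ : ‖e₂‖ = 1) (hne : e₁ ≠ e₂)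
    (hne' : e₁ ≠ -e₂) (hi₁ : TwInv Q e₁ 0 h) (hi₂ : TwInv Q e₂ 0 h) :
    ∃ c : ℂ, ∀ᵐ x ∂(volume : Measure ℂ), x ∈ Q → h x = c := by
  have key : ∀ S : Set ℂ, MeasurableSet S →
      (∀ᵐ x ∂((volume : Measure ℂ).restrict Q), h x ∈ S) ∨
        (∀ᵐ x ∂((volume : Measure ℂ).restrict Q), h x ∉ S) := by
    intro S hS
    have hB : MeasurableSet (h ⁻¹' S) := hh hS
    have hinv : ∀ e : ℂ, e = e₁ ∨ e = e₂ → ∀ t r : ℚ, 0 < t → t < r →
        ∀ᵐ x ∂(volume : Measure ℂ), Metric.ball x (r : ℝ) ⊆ Q →
          ((x + ((t : ℝ) : ℂ) * e ∈ h ⁻¹' S) ↔ x ∈ h ⁻¹' S) := by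
      intro e he t r ht htr
      have hie : TwInv Q e 0 h := by
        rcases he with he | he
        · rw [he]
          exact hi₁
        · rw [he]
          exact hi₂
      have hen : ‖e‖ = 1 := by
        rcases he with he | he
        · rw [he]
          exact h₁
        · rw [he]
          exact h₂
      have htpos : (0 : ℝ) < (t : ℝ) := by exact_mod_cast ht
      have htr' : (t : ℝ) < (r : ℝ) := by exact_mod_cast htr
      filter_upwards [hie t ht] with x hx hball
      have hxQ : x ∈ Q := hball (Metric.mem_ball_self (htpos.trans htr'))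
      have hxtQ : x + ((t : ℝ) : ℂ) * e ∈ Q := by
        apply hball
        rw [Metric.mem_ball, dist_eq_norm]
        have e1 : x + ((t : ℝ) : ℂ) * e - x = ((t : ℝ) : ℂ) * e := by ring
        rw [e1, norm_mul, hen, mul_one, Complex.norm_real, Real.norm_eq_abs, abs_of_pos htpos]
        exact htr'
      have heq := hx hxQ hxtQ
      simp only [Complex.ofReal_zero, zero_mul, Complex.exp_zero, one_mul] at heq
      show h (x + ((t : ℝ) : ℂ) * e) ∈ S ↔ h x ∈ S
      rw [heq]
    rcases null_or_conull_of_two_translations hQo hQc hB h₁ h₂ hne hne' hinv with h0 | h0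
    · right
      rw [ae_restrict_iff' hQo.measurableSet, ae_iff]
      refine measure_mono_null ?_ h0
      intro x hx
      obtain ⟨hxQ, hxS⟩ := Classical.not_imp.mp hx
      exact ⟨not_not.mp hxS, hxQ⟩
    · left
      rw [ae_restrict_iff' hQo.measurableSet, ae_iff]
      refine measure_mono_null ?_ h0
      intro x hx
      obtain ⟨hxQ, hxS⟩ := Classical.not_imp.mp hx
      exact ⟨hxQ, hxS⟩
  obtain ⟨c, hc⟩ := Filter.exists_eventuallyEq_const_of_forall_separating
    (l := ae ((volume : Measure ℂ).restrict Q)) (f := h) MeasurableSet key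
  refine ⟨c, ?_⟩
  rw [← ae_restrict_iff' hQo.measurableSet]
  exact hc

end Vale.Agent.Lib.P099
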