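import Vale.Agent.Lib.P099.RidgeDefs

/-!
# Exponentials with distinct frequencies are linearly independent on open sets
-/

namespace Vale.Agent.Lib.P099

open MeasureTheory

private lemma rei_rdot_add_right (w x y : ℂ) : rdot w (x + y) = rdot w x + rdot w y := by
  unfold rdot
  rw [mul_add, Complex.add_re]

private lemma rei_rdot_sub_left (w w' x : ℂ) : rdot (w - w') x = rdot w x - rdot w' x := by
  unfold rdot
  rw [map_sub, sub_mul, Complex.sub_re]

private lemma rei_rdot_smul_self (e : ℝ) (w : ℂ) : rdot w ((e : ℂ) * w) = e * ‖w‖ ^ 2 := by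
  unfold rdot
  have h1 : starRingEnd ℂ w * ((e : ℂ) * w) = (e : ℂ) * ((Complex.normSq w : ℝ) : ℂ) := by
    rw [← Complex.mul_conj w]
    ring
  rw [h1, ← Complex.ofReal_mul, Complex.ofReal_re, Complex.normSq_eq_norm_sq]

private lemma rei_rdot_continuous (w : ℂ) : Continuous (fun x : ℂ => rdot w x) := by
  unfold rdot
  exact Complex.continuous_re.comp (continuous_const.mul continuous_id)

private lemma rei_chi_add (w x a : ℂ) :
    Complex.exp ((rdot w (x + a) : ℝ) * Complex.I) =
      Complex.exp ((rdot w x : ℝ) * Complex.I) * Complex.exp ((rdot w a : ℝ) * Complex.I) := by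
  rw [rei_rdot_add_right, ← Complex.exp_add]
  congr 1
  push_cast
  ring

private lemma rei_exp_ne (s s' : ℝ) (h0 : 0 < s - s') (h1 : s - s' < 2 * Real.pi) :
    Complex.exp ((s : ℝ) * Complex.I) ≠ Complex.exp ((s' : ℝ) * Complex.I) := by
  intro h
  rw [Complex.exp_eq_exp_iff_exists_int] at h
  obtain ⟨n, hn⟩ := h
  have h2 : ((s - s' : ℝ) : ℂ) * Complex.I = ((n * (2 * Real.pi) : ℝ) : ℂ) * Complex.I := by
    push_cast
    rw [sub_mul, hn]
    ring
  have h3 : ((s - s' : ℝ) : ℂ) = ((n * (2 * Real.pi) : ℝ) : ℂ) :=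
    mul_right_cancel₀ Complex.I_ne_zero h2
  have h4 : s - s' = n * (2 * Real.pi) := Complex.ofReal_injective h3
  have hpi : 0 < 2 * Real.pi := by positivity
  rw [h4] at h0 h1
  have h5 : (0 : ℝ) < n := by
    by_contra hcon
    have : (n : ℝ) * (2 * Real.pi) ≤ 0 :=
      mul_nonpos_of_nonpos_of_nonneg (not_lt.mp hcon) hpi.le
    linarith
  have h6 : (n : ℝ) < 1 := by
    by_contra hcon
    have : 1 * (2 * Real.pi) ≤ (n : ℝ) * (2 * Real.pi) :=
      mul_le_mul_of_nonneg_right (not_lt.mp hcon) hpi.le
    linarith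
  have h7 : (0 : ℤ) < n := by exact_mod_cast h5
  have h8 : n < (1 : ℤ) := by exact_mod_cast h6
  omega

/-- The everywhere version, by induction on the number of frequencies. -/
private lemma rei_exp_sum_zero_on : ∀ (d : ℕ) (ξ : Fin d → ℂ), Function.Injective ξ →
    ∀ (α : Fin d → ℂ) (U : Set ℂ), IsOpen U → U.Nonempty →
      (∀ x ∈ U, ∑ j, α j * Complex.exp ((rdot (ξ j) x : ℝ) * Complex.I) = 0) →
      ∀ j, α j = 0 := by
  intro d
  induction d with
  | zero => intro ξ _ α U _ _ _ j; exact j.elim0
  | succ d ih =>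
    intro ξ hξ α U hU hne h
    obtain ⟨x₀, hx₀⟩ := hne
    obtain ⟨r, hr, hball⟩ := Metric.isOpen_iff.mp hU x₀ hx₀
    -- the coefficients of the first `d` exponentials
    have hcast : ∀ j : Fin d, α (Fin.castSucc j) = 0 := by
      intro j
      set w : ℂ := ξ (Fin.castSucc j) - ξ (Fin.last d) with hw
      have hwne : w ≠ 0 := by
        intro h0
        have h1 : ξ (Fin.castSucc j) = ξ (Fin.last d) := sub_eq_zero.mp h0
        exact (Fin.castSucc_lt_last j).ne (hξ h1)
      have hnw : 0 < ‖w‖ := norm_pos_iff.mpr hwne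
      set e : ℝ := min (r / (4 * ‖w‖)) (1 / ‖w‖ ^ 2) with he
      have hepos : 0 < e := by
        rw [he]
        exact lt_min (by positivity) (by positivity)
      have he1 : e * ‖w‖ ≤ r / 4 := by
        have h1 : e ≤ r / (4 * ‖w‖) := min_le_left _ _
        calc e * ‖w‖ ≤ r / (4 * ‖w‖) * ‖w‖ := mul_le_mul_of_nonneg_right h1 hnw.le
          _ = r / 4 := by field_simp
      have he2 : e * ‖w‖ ^ 2 ≤ 1 := by
        have h1 : e ≤ 1 / ‖w‖ ^ 2 := min_le_right _ _
        calc e * ‖w‖ ^ 2 ≤ 1 / ‖w‖ ^ 2 * ‖w‖ ^ 2 :=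
              mul_le_mul_of_nonneg_right h1 (by positivity)
          _ = 1 := by field_simp
      set a : ℂ := (e : ℂ) * w with ha
      have hna : ‖a‖ ≤ r / 4 := by
        rw [ha, norm_mul, Complex.norm_real, Real.norm_eq_abs, abs_of_pos hepos]
        exact he1
      -- the difference of the two characters at `a` is nonzero
      have hdiff : Complex.exp ((rdot (ξ (Fin.castSucc j)) a : ℝ) * Complex.I) -
          Complex.exp ((rdot (ξ (Fin.last d)) a : ℝ) * Complex.I) ≠ 0 := by
        refine sub_ne_zero.mpr (rei_exp_ne _ _ ?_ ?_)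
        · rw [← rei_rdot_sub_left, ← hw, ha, rei_rdot_smul_self]
          positivity
        · rw [← rei_rdot_sub_left, ← hw, ha, rei_rdot_smul_self]
          have := Real.pi_gt_three
          linarith
      -- apply the induction hypothesis on the ball of radius `r / 2`
      have hih := ih (fun i => ξ (Fin.castSucc i))
        (hξ.comp (Fin.castSucc_injective d))
        (fun i => α (Fin.castSucc i) *
          (Complex.exp ((rdot (ξ (Fin.castSucc i)) a : ℝ) * Complex.I) -
            Complex.exp ((rdot (ξ (Fin.last d)) a : ℝ) * Complex.I)))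
        (Metric.ball x₀ (r / 2)) Metric.isOpen_ball
        ⟨x₀, Metric.mem_ball_self (by positivity)⟩ ?_ j
      · exact (mul_eq_zero.mp hih).resolve_right hdiff
      · intro x hx
        have hxU : x ∈ U := by
          apply hball
          rw [Metric.mem_ball] at hx ⊢
          linarith
        have hxaU : x + a ∈ U := by
          apply hball
          rw [Metric.mem_ball, dist_eq_norm] at hx ⊢
          have h1 : x + a - x₀ = (x - x₀) + a := by ring
          rw [h1]
          have h2 := norm_add_le (x - x₀) a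
          linarith
        have e1 := h x hxU
        have e2 := h (x + a) hxaU
        rw [Fin.sum_univ_castSucc] at e1 e2
        simp only [rei_chi_add] at e2
        have key : ∑ i : Fin d, α (Fin.castSucc i) *
            (Complex.exp ((rdot (ξ (Fin.castSucc i)) a : ℝ) * Complex.I) -
              Complex.exp ((rdot (ξ (Fin.last d)) a : ℝ) * Complex.I)) *
            Complex.exp ((rdot (ξ (Fin.castSucc i)) x : ℝ) * Complex.I) =
            (∑ i : Fin d, α (Fin.castSucc i) *
              (Complex.exp ((rdot (ξ (Fin.castSucc i)) x : ℝ) * Complex.I) *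
                Complex.exp ((rdot (ξ (Fin.castSucc i)) a : ℝ) * Complex.I))) -
            Complex.exp ((rdot (ξ (Fin.last d)) a : ℝ) * Complex.I) *
              ∑ i : Fin d, α (Fin.castSucc i) *
                Complex.exp ((rdot (ξ (Fin.castSucc i)) x : ℝ) * Complex.I) := by
          rw [Finset.mul_sum, ← Finset.sum_sub_distrib]
          refine Finset.sum_congr rfl (fun i _ => ?_)
          ring
        rw [key]
        linear_combination e2 -
          Complex.exp ((rdot (ξ (Fin.last d)) a : ℝ) * Complex.I) * e1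
    -- the last coefficient
    have hlast : α (Fin.last d) = 0 := by
      have e1 := h x₀ hx₀
      rw [Fin.sum_univ_castSucc] at e1
      simp only [hcast, zero_mul, Finset.sum_const_zero, zero_add] at e1
      exact (mul_eq_zero.mp e1).resolve_right (Complex.exp_ne_zero _)
    intro j
    refine Fin.lastCases hlast hcast j

/-- If a linear combination of the exponentials `x ↦ exp (i (ξ j · x))` with pairwise
distinct frequencies `ξ j` vanishes almost everywhere on a nonempty open set of the plane,
then all its coefficients vanish. -/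
theorem exp_sum_ae_zero {d : ℕ} (ξ : Fin d → ℂ) (hξ : Function.Injective ξ) (α : Fin d → ℂ)
    {U : Set ℂ} (hU : IsOpen U) (hne : U.Nonempty)
    (h : ∀ᵐ x ∂(volume : Measure ℂ), x ∈ U →
      ∑ j, α j * Complex.exp ((rdot (ξ j) x : ℝ) * Complex.I) = 0) :
    ∀ j, α j = 0 := by
  have hcont : Continuous
      (fun x : ℂ => ∑ j, α j * Complex.exp ((rdot (ξ j) x : ℝ) * Complex.I)) := by
    refine continuous_finsetSum _ (fun j _ => ?_)
    exact continuous_const.mul (Complex.continuous_exp.comp
      ((Complex.continuous_ofReal.comp (rei_rdot_continuous (ξ j))).mul continuous_const))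
  have hopen : IsOpen (U ∩ {x : ℂ |
      ∑ j, α j * Complex.exp ((rdot (ξ j) x : ℝ) * Complex.I) ≠ 0}) :=
    hU.inter (isOpen_ne_fun hcont continuous_const)
  have hnull : (volume : Measure ℂ) (U ∩ {x : ℂ |
      ∑ j, α j * Complex.exp ((rdot (ξ j) x : ℝ) * Complex.I) ≠ 0}) = 0 := by
    refine measure_mono_null ?_ (ae_iff.mp h)
    intro x hx
    rw [Set.mem_ofPred_eq, Classical.not_imp]
    exact ⟨hx.1, hx.2⟩
  have hempty := (hopen.measure_eq_zero_iff (volume : Measure ℂ)).mp hnull
  refine rei_exp_sum_zero_on d ξ hξ α U hU hne (fun x hx => ?_)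
  by_contra hx0
  have hmem : x ∈ U ∩ {x : ℂ |
      ∑ j, α j * Complex.exp ((rdot (ξ j) x : ℝ) * Complex.I) ≠ 0} := ⟨hx, hx0⟩
  rw [hempty] at hmem
  exact hmem

end Vale.Agent.Lib.P099
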