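import Vale.Agent.Lib.P099.Ridge0
import Vale.Agent.Lib.P099.Ridge1
import Vale.Agent.Lib.P099.RidgeExpInd

/-!
# Functions invariant along a direction whose twisted differences are exponential sums
-/

namespace Vale.Agent.Lib.P099

open MeasureTheory

private lemma rexp_rdot_add (w x v : ℂ) (t : ℝ) :
    rdot w (x + (t : ℂ) * v) = rdot w x + t * rdot w v := by
  unfold rdot
  rw [mul_add, Complex.add_re, mul_left_comm, Complex.re_ofReal_mul]

private lemma rexp_rdot_comm (w x : ℂ) : rdot w x = rdot x w := by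
  unfold rdot
  simp only [Complex.mul_re, Complex.conj_re, Complex.conj_im]
  ring

private lemma rexp_rdot_self (w : ℂ) : rdot w w = ‖w‖ ^ 2 := by
  unfold rdot
  rw [Complex.conj_mul']
  norm_cast

private lemma rexp_rdot_smul_left (r : ℝ) (w x : ℂ) :
    rdot ((r : ℂ) * w) x = r * rdot w x := by
  unfold rdot
  rw [map_mul, Complex.conj_ofReal, mul_assoc, Complex.re_ofReal_mul]

private lemma rexp_rdot_add_left (w w' x : ℂ) : rdot (w + w') x = rdot w x + rdot w' x := by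
  unfold rdot
  rw [map_add, add_mul, Complex.add_re]

private lemma rexp_one_add_rdot_ne {v u : ℂ} (hv : ‖v‖ = 1) (hu : ‖u‖ = 1) (hne' : v ≠ -u) :
    1 + rdot v u ≠ 0 := by
  intro h0
  apply hne'
  have h1 : ‖v + u‖ ^ 2 = 0 := by
    rw [← rexp_rdot_self, rexp_rdot_add_left, rexp_rdot_comm v (v + u), rexp_rdot_comm u (v + u),
      rexp_rdot_add_left, rexp_rdot_add_left, rexp_rdot_self, rexp_rdot_self, hv, hu,
      rexp_rdot_comm u v]
    linarith
  have h2 : v + u = 0 := by simpa using h1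
  exact eq_neg_of_add_eq_zero_left h2

private lemma rexp_pole_left {v u : ℂ} (hv : ‖v‖ = 1) (hu : ‖u‖ = 1) (hne' : v ≠ -u) :
    rdot (pole v u) v = 1 := by
  have h0 := rexp_one_add_rdot_ne hv hu hne'
  unfold pole
  rw [rexp_rdot_smul_left, rexp_rdot_add_left, rexp_rdot_self, hv, rexp_rdot_comm u v]
  field_simp

private lemma rexp_pole_right {v u : ℂ} (hv : ‖v‖ = 1) (hu : ‖u‖ = 1) (hne' : v ≠ -u) :
    rdot (pole v u) u = 1 := by
  have h0 := rexp_one_add_rdot_ne hv hu hne'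
  unfold pole
  rw [rexp_rdot_smul_left, rexp_rdot_add_left, rexp_rdot_self, hu]
  field_simp
  ring

/-- The exponential `exp (i lam (w · x))`. -/
private noncomputable def chi (lam : ℝ) (w x : ℂ) : ℂ :=
  Complex.exp (lam * (rdot w x : ℝ) * Complex.I)

/-- The phase `exp (i lam t)`. -/
private noncomputable def ph (lam t : ℝ) : ℂ := Complex.exp (lam * t * Complex.I)

private lemma rexp_chi_add (lam : ℝ) (w x v : ℂ) (t : ℝ) :
    chi lam w (x + (t : ℂ) * v) = ph lam (t * rdot w v) * chi lam w x := by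
  unfold chi ph
  rw [rexp_rdot_add, ← Complex.exp_add]
  congr 1
  push_cast
  ring

private lemma rexp_chi_eq (lam : ℝ) (w x : ℂ) :
    Complex.exp ((rdot ((lam : ℂ) * w) x : ℝ) * Complex.I) = chi lam w x := by
  unfold chi
  rw [rexp_rdot_smul_left]
  push_cast
  rfl

private lemma rexp_ph_add (lam s t : ℝ) : ph lam (s + t) = ph lam s * ph lam t := by
  unfold ph
  rw [← Complex.exp_add]
  congr 1
  push_cast
  ring

private lemma rexp_chi_continuous (lam : ℝ) (w : ℂ) : Continuous (chi lam w) := by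
  unfold chi rdot
  fun_prop

private lemma rexp_chi_ne_zero (lam : ℝ) (w x : ℂ) : chi lam w x ≠ 0 := Complex.exp_ne_zero _

private lemma rexp_ph_ne_zero (lam t : ℝ) : ph lam t ≠ 0 := Complex.exp_ne_zero _

/-- The cocycle identity for the coefficients. -/
private lemma rexp_cocycle {Q : Set ℂ} {lam : ℝ} (hlam : lam ≠ 0) {u : ℂ} (hu : ‖u‖ = 1)
    (d : ℕ) (w : Fin d → ℂ) (hw : Function.Injective w) (h : ℂ → ℂ)
    (A : ℚ → Fin d → ℂ)
    (hA : ∀ t : ℚ, 0 < t → ∀ᵐ x ∂(volume : Measure ℂ), x ∈ Q → x + ((t : ℝ) : ℂ) * u ∈ Q →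
        h (x + ((t : ℝ) : ℂ) * u) - ph lam t * h x = ∑ j, A t j * chi lam (w j) x)
    {x₀ : ℂ} {r₀ : ℝ} (hr₀ : 0 < r₀) (hball : Metric.ball x₀ (3 * r₀) ⊆ Q)
    (t t' : ℚ) (ht : 0 < t) (ht' : 0 < t') (htr : (t : ℝ) < r₀) (htr' : (t' : ℝ) < r₀)
    (j : Fin d) :
    A (t + t') j = A t' j * ph lam (t * rdot (w j) u) + ph lam t' * A t j := by
  have htR : (0 : ℝ) < t := by exact_mod_cast ht
  have htR' : (0 : ℝ) < t' := by exact_mod_cast ht'
  have h1 := hA (t + t') (add_pos ht ht')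
  have h2 := hA t ht
  have h3 := (measurePreserving_add_right volume (((t : ℝ) : ℂ) * u)).quasiMeasurePreserving.ae
    (hA t' ht')
  have key : ∀ᵐ x ∂(volume : Measure ℂ), x ∈ Metric.ball x₀ r₀ →
      ∑ j, (A (t + t') j - A t' j * ph lam (t * rdot (w j) u) - ph lam t' * A t j) *
        Complex.exp ((rdot ((lam : ℂ) * w j) x : ℝ) * Complex.I) = 0 := by
    filter_upwards [h1, h2, h3] with x e1 e2 e3 hx
    rw [Metric.mem_ball] at hx
    have hxQ : x ∈ Q := hball (by rw [Metric.mem_ball]; linarith)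
    have hn1 : ‖((t : ℝ) : ℂ) * u‖ = t := by
      rw [norm_mul, hu, mul_one, Complex.norm_real, Real.norm_of_nonneg htR.le]
    have hn2 : ‖((t' : ℝ) : ℂ) * u‖ = t' := by
      rw [norm_mul, hu, mul_one, Complex.norm_real, Real.norm_of_nonneg htR'.le]
    have hx1 : x + ((t : ℝ) : ℂ) * u ∈ Q := by
      apply hball
      rw [Metric.mem_ball, dist_eq_norm]
      have : x + ((t : ℝ) : ℂ) * u - x₀ = (x - x₀) + ((t : ℝ) : ℂ) * u := by ring
      rw [this]
      have h5 := norm_add_le (x - x₀) (((t : ℝ) : ℂ) * u)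
      rw [dist_eq_norm] at hx
      linarith
    have hx2 : x + ((t : ℝ) : ℂ) * u + ((t' : ℝ) : ℂ) * u ∈ Q := by
      apply hball
      rw [Metric.mem_ball, dist_eq_norm]
      have : x + ((t : ℝ) : ℂ) * u + ((t' : ℝ) : ℂ) * u - x₀ =
          ((x - x₀) + ((t : ℝ) : ℂ) * u) + ((t' : ℝ) : ℂ) * u := by ring
      rw [this]
      have h5 := norm_add_le (x - x₀) (((t : ℝ) : ℂ) * u)
      have h6 := norm_add_le ((x - x₀) + ((t : ℝ) : ℂ) * u) (((t' : ℝ) : ℂ) * u)
      rw [dist_eq_norm] at hx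
      linarith
    have hxe : x + (((t + t' : ℚ) : ℝ) : ℂ) * u =
        x + ((t : ℝ) : ℂ) * u + ((t' : ℝ) : ℂ) * u := by
      push_cast
      ring
    have hx2' : x + (((t + t' : ℚ) : ℝ) : ℂ) * u ∈ Q := by rw [hxe]; exact hx2
    have e1' := e1 hxQ hx2'
    have e2' := e2 hxQ hx1
    have e3' := e3 hx1 hx2
    rw [hxe] at e1'
    have hph : ph lam ((t + t' : ℚ) : ℝ) = ph lam t * ph lam t' := by
      rw [← rexp_ph_add]
      congr 1
      push_cast
      ring
    have hs3 : ∑ j, A t' j * chi lam (w j) (x + ((t : ℝ) : ℂ) * u) =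
        ∑ j, A t' j * ph lam (t * rdot (w j) u) * chi lam (w j) x := by
      refine Finset.sum_congr rfl (fun j _ => ?_)
      rw [rexp_chi_add]
      ring
    rw [hs3] at e3'
    have hsum : ∑ j, (A (t + t') j - A t' j * ph lam (t * rdot (w j) u) - ph lam t' * A t j) *
        Complex.exp ((rdot ((lam : ℂ) * w j) x : ℝ) * Complex.I) =
        ∑ j, A (t + t') j * chi lam (w j) x -
          ∑ j, A t' j * ph lam (t * rdot (w j) u) * chi lam (w j) x -
          ph lam t' * ∑ j, A t j * chi lam (w j) x := by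
      rw [Finset.mul_sum, ← Finset.sum_sub_distrib, ← Finset.sum_sub_distrib]
      refine Finset.sum_congr rfl (fun j _ => ?_)
      rw [rexp_chi_eq]
      ring
    rw [hsum]
    linear_combination (-1 : ℂ) * e1' + e3' + ph lam t' * e2' - h x * hph
  have hinj : Function.Injective (fun j => (lam : ℂ) * w j) := by
    intro j j' hjj
    exact hw (mul_left_cancel₀ (Complex.ofReal_ne_zero.mpr hlam) hjj)
  have h0 := exp_sum_ae_zero (fun j => (lam : ℂ) * w j) hinj
    (fun j => A (t + t') j - A t' j * ph lam (t * rdot (w j) u) - ph lam t' * A t j)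
    Metric.isOpen_ball ⟨x₀, Metric.mem_ball_self hr₀⟩ key j
  linear_combination h0

/-- A small positive rational step at which no difference of phases vanishes. -/
private lemma rexp_exists_small {lam : ℝ} (hlam : lam ≠ 0) (d : ℕ) (β : Fin d → ℝ)
    (hβ : ∀ j, β j ≠ 1) {r₀ : ℝ} (hr₀ : 0 < r₀) :
    ∃ t₁ : ℚ, 0 < t₁ ∧ (t₁ : ℝ) < r₀ ∧ ∀ j, ph lam (t₁ * β j) - ph lam t₁ ≠ 0 := by
  set M : ℝ := ∑ j, |β j - 1| + 1 with hMdef
  have hM : 0 < M := by
    have : 0 ≤ ∑ j, |β j - 1| := Finset.sum_nonneg (fun j _ => abs_nonneg _)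
    linarith
  have hlam' : 0 < |lam| := abs_pos.mpr hlam
  have hpos : 0 < min r₀ (1 / (|lam| * M)) := lt_min hr₀ (by positivity)
  obtain ⟨t₁, ht0, ht1⟩ := exists_rat_btwn hpos
  refine ⟨t₁, by exact_mod_cast ht0, lt_of_lt_of_le ht1 (min_le_left _ _), fun j hj => ?_⟩
  have h1 : Complex.exp (((lam * t₁ * (β j - 1) : ℝ) : ℂ) * Complex.I) = 1 := by
    have h5 : ph lam (t₁ * β j) = ph lam t₁ := sub_eq_zero.mp hj
    unfold ph at h5
    have h2 : (((lam * t₁ * (β j - 1) : ℝ) : ℂ) * Complex.I) =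
        ((lam : ℂ) * ((t₁ * β j : ℝ) : ℂ) * Complex.I) - ((lam : ℂ) * ((t₁ : ℝ) : ℂ) * Complex.I) := by
      push_cast
      ring
    rw [h2, Complex.exp_sub, h5, div_self (Complex.exp_ne_zero _)]
  rw [Complex.exp_eq_one_iff] at h1
  obtain ⟨n, hn⟩ := h1
  have h3 : lam * t₁ * (β j - 1) = n * (2 * Real.pi) := by
    have h6 := congrArg Complex.im hn
    simpa using h6
  have h4 : |lam * t₁ * (β j - 1)| < 1 := by
    rw [abs_mul, abs_mul, abs_of_pos ht0]
    have hb : |β j - 1| ≤ M := by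
      have := Finset.single_le_sum (f := fun j => |β j - 1|) (fun i _ => abs_nonneg _)
        (Finset.mem_univ j)
      linarith
    have ht2 : (t₁ : ℝ) < 1 / (|lam| * M) := lt_of_lt_of_le ht1 (min_le_right _ _)
    have hlM : 0 < |lam| * M := by positivity
    calc |lam| * t₁ * |β j - 1| ≤ |lam| * t₁ * M := by gcongr
      _ = (|lam| * M) * t₁ := by ring
      _ < (|lam| * M) * (1 / (|lam| * M)) := by gcongr
      _ = 1 := by field_simp
  have hn0 : n = 0 := by
    by_contra hne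
    have h7 : (1 : ℝ) ≤ |(n : ℝ)| := by exact_mod_cast Int.one_le_abs hne
    rw [h3, abs_mul, abs_of_pos (by positivity : (0 : ℝ) < 2 * Real.pi)] at h4
    nlinarith [Real.pi_gt_three]
  rw [hn0] at h3
  simp only [Int.cast_zero, zero_mul, mul_eq_zero] at h3
  rcases h3 with (h3 | h3) | h3
  · exact hlam h3
  · exact ht0.ne' h3
  · exact hβ j (by linarith)

/-- Let `lam ≠ 0`, let `h` be invariant with frequency `lam` along the unit vector `v₀` on
the open convex set `Q`, and let `u` be a unit vector not parallel to `v₀`.  If for every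
rational `t > 0` the twisted difference `h (x + t u) - exp (i lam t) h x` is almost
everywhere (where `x`, `x + t u ∈ Q`) a linear combination of the exponentials
`exp (i lam (w j · x))`, with pairwise distinct `w j` such that `w j · v₀ = 1` and
`w j · u ≠ 1`, then `h` is almost everywhere on `Q` a linear combination of these
exponentials and of `exp (i lam (pole v₀ u · x))`. -/
theorem exp_of_diff {Q : Set ℂ} (hQo : IsOpen Q) (hQc : Convex ℝ Q) {lam : ℝ} (hlam : lam ≠ 0)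
    {v₀ u : ℂ} (hv₀ : ‖v₀‖ = 1) (hu : ‖u‖ = 1) (hne : v₀ ≠ u) (hne' : v₀ ≠ -u)
    (d : ℕ) (w : Fin d → ℂ) (hw : Function.Injective w) (hw₀ : ∀ j, rdot (w j) v₀ = 1)
    (hwu : ∀ j, rdot (w j) u ≠ 1) (h : ℂ → ℂ) (hh : Measurable h) (hinv : TwInv Q v₀ lam h)
    (hdiff : ∀ t : ℚ, 0 < t → ∃ a : Fin d → ℂ,
      ∀ᵐ x ∂(volume : Measure ℂ), x ∈ Q → x + ((t : ℝ) : ℂ) * u ∈ Q →
        h (x + ((t : ℝ) : ℂ) * u) - Complex.exp (lam * (t : ℝ) * Complex.I) * h x =
          ∑ j, a j * Complex.exp (lam * (rdot (w j) x : ℝ) * Complex.I)) :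
    ∃ (c : Fin d → ℂ) (c₀ : ℂ), ∀ᵐ x ∂(volume : Measure ℂ), x ∈ Q →
      h x = ∑ j, c j * Complex.exp (lam * (rdot (w j) x : ℝ) * Complex.I) +
        c₀ * Complex.exp (lam * (rdot (pole v₀ u) x : ℝ) * Complex.I) := by
  classical
  rcases Set.eq_empty_or_nonempty Q with hQe | ⟨x₀, hx₀⟩
  · refine ⟨fun _ => 0, 0, Filter.Eventually.of_forall fun x hx => ?_⟩
    rw [hQe] at hx
    exact absurd hx (Set.notMem_empty x)
  obtain ⟨R, hR, hballR⟩ := Metric.isOpen_iff.mp hQo x₀ hx₀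
  have hr₀ : 0 < R / 3 := by positivity
  have hball : Metric.ball x₀ (3 * (R / 3)) ⊆ Q := by
    have : 3 * (R / 3) = R := by ring
    rw [this]
    exact hballR
  choose! A hA using hdiff
  have hA' : ∀ t : ℚ, 0 < t → ∀ᵐ x ∂(volume : Measure ℂ), x ∈ Q → x + ((t : ℝ) : ℂ) * u ∈ Q →
      h (x + ((t : ℝ) : ℂ) * u) - ph lam t * h x = ∑ j, A t j * chi lam (w j) x := hA
  have hsym : ∀ t t' : ℚ, 0 < t → 0 < t' → (t : ℝ) < R / 3 → (t' : ℝ) < R / 3 → ∀ j,
      A t' j * (ph lam (t * rdot (w j) u) - ph lam t) =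
        A t j * (ph lam (t' * rdot (w j) u) - ph lam t') := by
    intro t t' ht ht' htr htr' j
    have h1 := rexp_cocycle hlam hu d w hw h A hA' hr₀ hball t t' ht ht' htr htr' j
    have h2 := rexp_cocycle hlam hu d w hw h A hA' hr₀ hball t' t ht' ht htr' htr j
    rw [add_comm t' t] at h2
    linear_combination h2 - h1
  obtain ⟨t₁, ht₁, ht₁r, hE⟩ := rexp_exists_small hlam d (fun j => rdot (w j) u) hwu hr₀
  have hAc : ∀ t : ℚ, 0 < t → (t : ℝ) < R / 3 → ∀ j,
      A t j = A t₁ j / (ph lam (t₁ * rdot (w j) u) - ph lam t₁) *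
        (ph lam (t * rdot (w j) u) - ph lam t) := by
    intro t ht htr j
    have h1 := hsym t t₁ ht ht₁ htr ht₁r j
    rw [div_mul_eq_mul_div, eq_div_iff (hE j)]
    exact h1.symm
  have hh' : Measurable (fun x => h x - ∑ j, A t₁ j / (ph lam (t₁ * rdot (w j) u) - ph lam t₁) *
      chi lam (w j) x) :=
    hh.sub (Finset.measurable_sum _ (fun j _ =>
      measurable_const.mul (rexp_chi_continuous lam (w j)).measurable))
  have hu' : TwInv Q u lam (fun x => h x -
      ∑ j, A t₁ j / (ph lam (t₁ * rdot (w j) u) - ph lam t₁) * chi lam (w j) x) := by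
    refine TwInv.of_small hQc hr₀ (fun t ht htr => ?_)
    filter_upwards [hA' t ht] with x e1 hxQ hxt
    have e1' := e1 hxQ hxt
    have hs : ∑ j, A t₁ j / (ph lam (t₁ * rdot (w j) u) - ph lam t₁) *
          chi lam (w j) (x + ((t : ℝ) : ℂ) * u) -
        ph lam t * ∑ j, A t₁ j / (ph lam (t₁ * rdot (w j) u) - ph lam t₁) * chi lam (w j) x =
        ∑ j, A t j * chi lam (w j) x := by
      rw [Finset.mul_sum, ← Finset.sum_sub_distrib]
      refine Finset.sum_congr rfl (fun j _ => ?_)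
      rw [rexp_chi_add, hAc t ht htr j]
      ring
    change h (x + ((t : ℝ) : ℂ) * u) - ∑ j, A t₁ j / (ph lam (t₁ * rdot (w j) u) - ph lam t₁) *
          chi lam (w j) (x + ((t : ℝ) : ℂ) * u) =
        ph lam t * (h x - ∑ j, A t₁ j / (ph lam (t₁ * rdot (w j) u) - ph lam t₁) *
          chi lam (w j) x)
    linear_combination e1' - hs
  have hv' : TwInv Q v₀ lam (fun x => h x -
      ∑ j, A t₁ j / (ph lam (t₁ * rdot (w j) u) - ph lam t₁) * chi lam (w j) x) := by
    intro t ht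
    filter_upwards [hinv t ht] with x e1 hxQ hxt
    have e1' : h (x + ((t : ℝ) : ℂ) * v₀) = ph lam t * h x := e1 hxQ hxt
    have hs : ∑ j, A t₁ j / (ph lam (t₁ * rdot (w j) u) - ph lam t₁) *
          chi lam (w j) (x + ((t : ℝ) : ℂ) * v₀) =
        ph lam t * ∑ j, A t₁ j / (ph lam (t₁ * rdot (w j) u) - ph lam t₁) * chi lam (w j) x := by
      rw [Finset.mul_sum]
      refine Finset.sum_congr rfl (fun j _ => ?_)
      rw [rexp_chi_add, hw₀ j, mul_one]
      ring
    change h (x + ((t : ℝ) : ℂ) * v₀) - ∑ j, A t₁ j / (ph lam (t₁ * rdot (w j) u) - ph lam t₁) *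
          chi lam (w j) (x + ((t : ℝ) : ℂ) * v₀) =
        ph lam t * (h x - ∑ j, A t₁ j / (ph lam (t₁ * rdot (w j) u) - ph lam t₁) *
          chi lam (w j) x)
    rw [hs, e1']
    ring
  have hWv : rdot (pole v₀ u) v₀ = 1 := rexp_pole_left hv₀ hu hne'
  have hWu : rdot (pole v₀ u) u = 1 := rexp_pole_right hv₀ hu hne'
  have hm : Measurable (fun x => (h x - ∑ j, A t₁ j / (ph lam (t₁ * rdot (w j) u) - ph lam t₁) *
      chi lam (w j) x) * (chi lam (pole v₀ u) x)⁻¹) :=
    hh'.mul (rexp_chi_continuous lam (pole v₀ u)).measurable.inv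
  have hzero : ∀ t : ℚ, Complex.exp (((0 : ℝ) : ℂ) * ((t : ℝ) : ℂ) * Complex.I) = 1 := by
    intro t
    simp
  have hmv : TwInv Q v₀ 0 (fun x => (h x -
      ∑ j, A t₁ j / (ph lam (t₁ * rdot (w j) u) - ph lam t₁) * chi lam (w j) x) *
      (chi lam (pole v₀ u) x)⁻¹) := by
    intro t ht
    filter_upwards [hv' t ht] with x e1 hxQ hxt
    have e1' := e1 hxQ hxt
    rw [hzero, one_mul]
    rw [e1', rexp_chi_add, hWv, mul_one, mul_inv]
    change ph lam t * _ * ((ph lam t)⁻¹ * _) = _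
    have hp := rexp_ph_ne_zero lam t
    field_simp
  have hmu : TwInv Q u 0 (fun x => (h x -
      ∑ j, A t₁ j / (ph lam (t₁ * rdot (w j) u) - ph lam t₁) * chi lam (w j) x) *
      (chi lam (pole v₀ u) x)⁻¹) := by
    intro t ht
    filter_upwards [hu' t ht] with x e1 hxQ hxt
    have e1' := e1 hxQ hxt
    rw [hzero, one_mul]
    rw [e1', rexp_chi_add, hWu, mul_one, mul_inv]
    change ph lam t * _ * ((ph lam t)⁻¹ * _) = _
    have hp := rexp_ph_ne_zero lam t
    field_simp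
  obtain ⟨c₀, hc₀⟩ := ae_const_of_twInv_two hQo hQc hm hv₀ hu hne hne' hmv hmu
  refine ⟨fun j => A t₁ j / (ph lam (t₁ * rdot (w j) u) - ph lam t₁), c₀, ?_⟩
  filter_upwards [hc₀] with x e1 hxQ
  have e1' := e1 hxQ
  have hchi := rexp_chi_ne_zero lam (pole v₀ u) x
  change h x = ∑ j, A t₁ j / (ph lam (t₁ * rdot (w j) u) - ph lam t₁) * chi lam (w j) x +
    c₀ * chi lam (pole v₀ u) x
  rw [← e1']
  field_simp
  ring

end Vale.Agent.Lib.P099
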