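import Vale.Agent.Lib.P099.Ridge0
import Vale.Agent.Lib.P099.Ridge1

/-!
# Functions invariant along a direction whose differences are polynomials
-/

namespace Vale.Agent.Lib.P099

open MeasureTheory

private lemma rp_rdot_add (w x y : ℂ) : rdot w (x + y) = rdot w x + rdot w y := by
  unfold rdot
  rw [mul_add, Complex.add_re]

private lemma rp_rdot_neg (w x : ℂ) : rdot w (-x) = -rdot w x := by
  unfold rdot
  rw [mul_neg, Complex.neg_re]

private lemma rp_rdot_real_mul (w v : ℂ) (t : ℝ) : rdot w ((t : ℂ) * v) = t * rdot w v := by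
  unfold rdot
  rw [mul_left_comm, Complex.re_ofReal_mul]

private lemma rp_rdot_add_mul (w x v : ℂ) (t : ℝ) :
    rdot w (x + (t : ℂ) * v) = rdot w x + t * rdot w v := by
  rw [rp_rdot_add, rp_rdot_real_mul]

private lemma rp_rdot_I_self (v : ℂ) : rdot (Complex.I * v) v = 0 := by
  unfold rdot
  simp [Complex.mul_re, Complex.mul_im]
  ring

private lemma rp_rdot_self (w : ℂ) : rdot w w = Complex.normSq w := by
  unfold rdot
  rw [mul_comm, Complex.mul_conj, Complex.ofReal_re]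

private lemma rp_sigma_ne {v₀ u : ℂ} (hv₀ : ‖v₀‖ = 1) (hu : ‖u‖ = 1) (hne : v₀ ≠ u)
    (hne' : v₀ ≠ -u) : rdot (Complex.I * v₀) u ≠ 0 := by
  intro hσ
  have hσ' : v₀.re * u.im - v₀.im * u.re = 0 := by
    have h0 : rdot (Complex.I * v₀) u = v₀.re * u.im - v₀.im * u.re := by
      unfold rdot
      simp [Complex.mul_re, Complex.mul_im]
    rw [← h0]
    exact hσ
  have ha : v₀.re ^ 2 + v₀.im ^ 2 = 1 := by
    have h1 : ‖v₀‖ ^ 2 = 1 := by rw [hv₀]; norm_num
    rw [Complex.sq_norm, Complex.normSq_apply] at h1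
    nlinarith
  have hb : u.re ^ 2 + u.im ^ 2 = 1 := by
    have h1 : ‖u‖ ^ 2 = 1 := by rw [hu]; norm_num
    rw [Complex.sq_norm, Complex.normSq_apply] at h1
    nlinarith
  have hs : (v₀.re * u.re + v₀.im * u.im) ^ 2 = 1 := by
    have h1 : (v₀.re * u.re + v₀.im * u.im) ^ 2
        = (v₀.re ^ 2 + v₀.im ^ 2) * (u.re ^ 2 + u.im ^ 2) - (v₀.re * u.im - v₀.im * u.re) ^ 2 := by
      ring
    rw [h1, ha, hb, hσ']
    norm_num
  have hs' : v₀.re * u.re + v₀.im * u.im = 1 ∨ v₀.re * u.re + v₀.im * u.im = -1 := by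
    have h5 : (v₀.re * u.re + v₀.im * u.im - 1) * (v₀.re * u.re + v₀.im * u.im + 1) = 0 := by
      linear_combination hs
    rcases mul_eq_zero.mp h5 with h6 | h6
    · left
      linarith
    · right
      linarith
  rcases hs' with h1 | h1
  · apply hne
    have h2 : (v₀.re - u.re) ^ 2 + (v₀.im - u.im) ^ 2 = 0 := by nlinarith
    have h3 : v₀.re - u.re = 0 := by nlinarith [sq_nonneg (v₀.re - u.re), sq_nonneg (v₀.im - u.im)]
    have h4 : v₀.im - u.im = 0 := by nlinarith [sq_nonneg (v₀.re - u.re), sq_nonneg (v₀.im - u.im)]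
    exact Complex.ext (by linarith) (by linarith)
  · apply hne'
    have h2 : (v₀.re + u.re) ^ 2 + (v₀.im + u.im) ^ 2 = 0 := by nlinarith
    have h3 : v₀.re + u.re = 0 := by nlinarith [sq_nonneg (v₀.re + u.re), sq_nonneg (v₀.im + u.im)]
    have h4 : v₀.im + u.im = 0 := by nlinarith [sq_nonneg (v₀.re + u.re), sq_nonneg (v₀.im + u.im)]
    exact Complex.ext (by simp; linarith) (by simp; linarith)

private lemma rp_line_null {w : ℂ} (hw : w ≠ 0) (s : ℝ) :
    (volume : Measure ℂ) {x : ℂ | rdot w x = s} = 0 := by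
  obtain ⟨L, hL⟩ : ∃ L : ℂ →ₗ[ℝ] ℝ, ∀ x, L x = rdot w x :=
    ⟨{ toFun := fun x => rdot w x
       map_add' := fun x y => rp_rdot_add w x y
       map_smul' := fun r x => by
         simp only [Complex.real_smul, RingHom.id_apply, smul_eq_mul]
         exact rp_rdot_real_mul w x r }, fun _ => rfl⟩
  have hker : LinearMap.ker L ≠ ⊤ := by
    intro htop
    have hwk : w ∈ LinearMap.ker L := by
      rw [htop]
      trivial
    rw [LinearMap.mem_ker, hL, rp_rdot_self] at hwk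
    exact hw (Complex.normSq_eq_zero.mp hwk)
  have h0 : (volume : Measure ℂ) (LinearMap.ker L : Set ℂ) = 0 :=
    Measure.addHaar_submodule volume _ hker
  by_cases hex : ∃ x₁, rdot w x₁ = s
  · obtain ⟨x₁, hx₁⟩ := hex
    have hsub : {x : ℂ | rdot w x = s} ⊆ (fun x => x + (-x₁)) ⁻¹' (LinearMap.ker L : Set ℂ) := by
      intro x hx
      simp only [Set.mem_preimage, SetLike.mem_coe, LinearMap.mem_ker]
      rw [hL, rp_rdot_add, rp_rdot_neg, hx₁]
      have hx' : rdot w x = s := hx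
      rw [hx']
      ring
    refine measure_mono_null hsub ?_
    rw [measure_preimage_add_right]
    exact h0
  · have hempty : {x : ℂ | rdot w x = s} = ∅ := by
      ext x
      simp only [Set.mem_ofPred_eq, Set.mem_empty_iff_false, iff_false]
      intro hx
      exact hex ⟨x, hx⟩
    rw [hempty]
    exact measure_empty

private lemma rp_poly_zero_of_ae {w : ℂ} (hw : w ≠ 0) (q : Polynomial ℂ) (x₀ : ℂ) {r : ℝ}
    (hr : 0 < r)
    (hq : ∀ᵐ x ∂(volume : Measure ℂ), x ∈ Metric.ball x₀ r →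
      q.eval ((rdot w x : ℝ) : ℂ) = 0) : q = 0 := by
  by_contra hq0
  have hnull : (volume : Measure ℂ) {x : ℂ | q.eval ((rdot w x : ℝ) : ℂ) = 0} = 0 := by
    have hsub : {x : ℂ | q.eval ((rdot w x : ℝ) : ℂ) = 0}
        ⊆ ⋃ z ∈ (q.roots.toFinset : Set ℂ), {x : ℂ | rdot w x = z.re} := by
      intro x hx
      simp only [Set.mem_iUnion, Set.mem_ofPred_eq, exists_prop]
      refine ⟨((rdot w x : ℝ) : ℂ), ?_, by simp⟩
      simp only [Finset.mem_coe, Multiset.mem_toFinset]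
      rw [Polynomial.mem_roots hq0]
      exact hx
    refine measure_mono_null hsub ?_
    rw [measure_biUnion_null_iff (Finset.countable_toSet _)]
    intro z _
    exact rp_line_null hw z.re
  have hball : (volume : Measure ℂ) (Metric.ball x₀ r) = 0 := by
    have h1 : (volume : Measure ℂ)
        {x | ¬ (x ∈ Metric.ball x₀ r → q.eval ((rdot w x : ℝ) : ℂ) = 0)} = 0 := hq
    refine measure_mono_null ?_ (measure_union_null h1 hnull)
    intro x hx
    by_cases h : q.eval ((rdot w x : ℝ) : ℂ) = 0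
    · right
      exact h
    · left
      simp only [Set.mem_ofPred_eq]
      intro h'
      exact h (h' hx)
  exact (Metric.measure_ball_pos volume x₀ hr).ne' hball


private lemma rp_coeff_comp (p : Polynomial ℂ) (a : ℂ) (e : ℕ)
    (hp : p.degree < ((e + 1 : ℕ) : WithBot ℕ)) :
    (p.comp (Polynomial.X + Polynomial.C a)).coeff e = p.coeff e := by
  have hco := (Polynomial.degree_lt_iff_coeff_zero p (e + 1)).mp hp
  have hnat : p.natDegree ≤ e :=
    Polynomial.natDegree_le_iff_coeff_eq_zero.mpr (fun N hN => hco N hN)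
  have h1 : p.comp (Polynomial.X + Polynomial.C a) = Polynomial.taylor a p :=
    (Polynomial.taylor_apply a p).symm
  have h2 : (Polynomial.hasseDeriv e p).natDegree ≤ 0 := by
    have h3 := Polynomial.natDegree_hasseDeriv_le p e
    omega
  rw [h1, Polynomial.taylor_coeff, Polynomial.eq_C_of_natDegree_le_zero h2, Polynomial.eval_C,
    Polynomial.hasseDeriv_coeff]
  simp

private lemma rp_coeff_shift (a : ℂ) (e m : ℕ) (hm : e ≤ m) :
    ((Polynomial.X + Polynomial.C a) ^ (e + 1) - Polynomial.X ^ (e + 1)).coeff m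
      = if m = e then ((e : ℂ) + 1) * a else 0 := by
  rw [Polynomial.coeff_sub, Polynomial.coeff_X_add_C_pow, Polynomial.coeff_X_pow]
  by_cases h1 : m = e
  · rw [h1]
    have h2 : e + 1 - e = 1 := by omega
    have h3 : ¬ (e = e + 1) := by omega
    rw [h2, if_neg h3, if_pos rfl, Nat.choose_succ_self_right]
    push_cast
    ring
  · by_cases h2 : m = e + 1
    · rw [h2]
      simp
    · have h3 : e + 1 < m := by omega
      rw [if_neg h1, if_neg h2, Nat.choose_eq_zero_of_lt h3]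
      simp

private lemma rp_additive {ρ : ℝ} (hρ : 0 < ρ) (b : ℚ → ℂ)
    (hadd : ∀ t t' : ℚ, 0 < t → 0 < t' → ((t + t' : ℚ) : ℝ) < ρ → b (t + t') = b t + b t') :
    ∃ c : ℂ, ∀ t : ℚ, 0 < t → (t : ℝ) < ρ → b t = c * ((t : ℝ) : ℂ) := by
  have hmul : ∀ (k : ℕ) (τ : ℚ), 0 < τ → ((((k : ℚ) + 1) * τ : ℚ) : ℝ) < ρ →
      b (((k : ℚ) + 1) * τ) = ((k : ℂ) + 1) * b τ := by
    intro k
    induction k with
    | zero =>
      intro τ _ _
      simp
    | succ k ih =>
      intro τ hτ hlt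
      have h1 : (((k + 1 : ℕ) : ℚ) + 1) * τ = ((k : ℚ) + 1) * τ + τ := by
        push_cast
        ring
      have hle : ((k : ℚ) + 1) * τ ≤ (((k + 1 : ℕ) : ℚ) + 1) * τ := by
        rw [h1]
        linarith
      have hlt' : ((((k : ℚ) + 1) * τ : ℚ) : ℝ) < ρ :=
        lt_of_le_of_lt (by exact_mod_cast hle) hlt
      have hpos : (0 : ℚ) < ((k : ℚ) + 1) * τ := by positivity
      rw [h1, hadd _ _ hpos hτ (by rw [← h1]; exact hlt), ih τ hτ hlt']
      push_cast
      ring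
  have hrep : ∀ t : ℚ, 0 < t → ∀ d : ℕ, 0 < d → ∃ k : ℕ,
      t = ((k : ℚ) + 1) * (1 / ((t.den : ℚ) * (d : ℚ))) := by
    intro t ht d hd
    have htnum : 0 < t.num := Rat.num_pos.mpr ht
    obtain ⟨A, hA⟩ : ∃ A : ℕ, (A : ℤ) = t.num := ⟨t.num.toNat, Int.toNat_of_nonneg htnum.le⟩
    have hApos : 0 < A := by
      have h0 : (0 : ℤ) < (A : ℤ) := by
        rw [hA]
        exact htnum
      exact_mod_cast h0
    have hK : 0 < A * d := Nat.mul_pos hApos hd
    refine ⟨A * d - 1, ?_⟩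
    have h1 : ((A * d - 1 : ℕ) : ℚ) + 1 = (A : ℚ) * (d : ℚ) := by
      have h2 : A * d - 1 + 1 = A * d := by omega
      have h3 : (((A * d - 1 + 1 : ℕ)) : ℚ) = ((A * d : ℕ) : ℚ) := by rw [h2]
      push_cast at h3
      linarith
    have hden : (t.den : ℚ) ≠ 0 := by exact_mod_cast t.den_ne_zero
    have hd0 : (d : ℚ) ≠ 0 := by exact_mod_cast hd.ne'
    have h4 : (t.num : ℚ) = (A : ℚ) := by
      rw [← hA]
      simp
    calc t = (t.num : ℚ) / (t.den : ℚ) := (Rat.num_div_den t).symm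
      _ = (((A * d - 1 : ℕ) : ℚ) + 1) * (1 / ((t.den : ℚ) * (d : ℚ))) := by
          rw [h1, h4]
          field_simp
  have hprop : ∀ t s : ℚ, 0 < t → (t : ℝ) < ρ → 0 < s → (s : ℝ) < ρ →
      b t * (s : ℂ) = b s * (t : ℂ) := by
    intro t s ht htρ hs hsρ
    obtain ⟨k, hk⟩ := hrep t ht s.den s.den_pos
    obtain ⟨k', hk'⟩ := hrep s hs t.den t.den_pos
    obtain ⟨τ, hτdef⟩ : ∃ τ : ℚ, τ = 1 / ((t.den : ℚ) * (s.den : ℚ)) := ⟨_, rfl⟩
    have hτ : 0 < τ := by
      rw [hτdef]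
      have h1 : (0 : ℚ) < (t.den : ℚ) := by exact_mod_cast t.den_pos
      have h2 : (0 : ℚ) < (s.den : ℚ) := by exact_mod_cast s.den_pos
      positivity
    have hk2 : t = ((k : ℚ) + 1) * τ := by
      rw [hτdef]
      exact hk
    have hk2' : s = ((k' : ℚ) + 1) * τ := by
      rw [hτdef, mul_comm (t.den : ℚ) (s.den : ℚ)]
      exact hk'
    have hb1 : b t = ((k : ℂ) + 1) * b τ := by
      have h1 := hmul k τ hτ (by rw [← hk2]; exact htρ)
      rw [← hk2] at h1
      exact h1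
    have hb2 : b s = ((k' : ℂ) + 1) * b τ := by
      have h1 := hmul k' τ hτ (by rw [← hk2']; exact hsρ)
      rw [← hk2'] at h1
      exact h1
    have hc1 : (t : ℂ) = ((k : ℂ) + 1) * (τ : ℂ) := by
      rw [hk2]
      push_cast
      ring
    have hc2 : (s : ℂ) = ((k' : ℂ) + 1) * (τ : ℂ) := by
      rw [hk2']
      push_cast
      ring
    rw [hb1, hb2, hc1, hc2]
    ring
  obtain ⟨t₁, ht₁, ht₁ρ⟩ := exists_rat_btwn hρ
  have ht₁' : (0 : ℚ) < t₁ := by exact_mod_cast ht₁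
  have ht₁ne : (t₁ : ℂ) ≠ 0 := by
    have h0 : t₁ ≠ 0 := ht₁'.ne'
    exact_mod_cast h0
  refine ⟨b t₁ / (t₁ : ℂ), ?_⟩
  intro t ht htρ
  have h1 := hprop t t₁ ht htρ ht₁' ht₁ρ
  have h2 : ((t : ℝ) : ℂ) = (t : ℂ) := by push_cast; rfl
  rw [h2]
  field_simp
  rw [h1]


private lemma rp_main {Q : Set ℂ} (hQo : IsOpen Q) (hQc : Convex ℝ Q) {v₀ u : ℂ}
    (hv₀ : ‖v₀‖ = 1) (hu : ‖u‖ = 1) (hne : v₀ ≠ u) (hne' : v₀ ≠ -u) (e : ℕ) :
    ∀ ρ : ℝ, 0 < ρ → ∀ h : ℂ → ℂ, Measurable h → TwInv Q v₀ 0 h →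
      (∀ t : ℚ, 0 < t → (t : ℝ) < ρ → ∃ p : Polynomial ℂ, p.degree < (e : WithBot ℕ) ∧
        ∀ᵐ x ∂(volume : Measure ℂ), x ∈ Q → x + ((t : ℝ) : ℂ) * u ∈ Q →
          h (x + ((t : ℝ) : ℂ) * u) - h x = p.eval ((rdot (Complex.I * v₀) x : ℝ) : ℂ)) →
      ∃ p : Polynomial ℂ, p.degree < ((e + 1 : ℕ) : WithBot ℕ) ∧
        ∀ᵐ x ∂(volume : Measure ℂ), x ∈ Q →
          h x = p.eval ((rdot (Complex.I * v₀) x : ℝ) : ℂ) := by
  have hσ : rdot (Complex.I * v₀) u ≠ 0 := rp_sigma_ne hv₀ hu hne hne'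
  have hw : Complex.I * v₀ ≠ 0 := by
    intro h0
    have h1 : ‖Complex.I * v₀‖ = 0 := by rw [h0, norm_zero]
    rw [norm_mul, Complex.norm_I, one_mul, hv₀] at h1
    exact one_ne_zero h1
  induction e with
  | zero =>
    intro ρ hρ h hh hinv hdiff
    have hsmall : ∀ t : ℚ, 0 < t → (t : ℝ) < ρ → ∀ᵐ x ∂(volume : Measure ℂ), x ∈ Q →
        x + ((t : ℝ) : ℂ) * u ∈ Q →
        h (x + ((t : ℝ) : ℂ) * u)
          = Complex.exp (((0 : ℝ) : ℂ) * ((t : ℝ) : ℂ) * Complex.I) * h x := by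
      intro t ht htρ
      obtain ⟨p, hp, hae⟩ := hdiff t ht htρ
      have hp0 : p = 0 := by
        have hco := (Polynomial.degree_lt_iff_coeff_zero p 0).mp hp
        ext m
        rw [hco m (Nat.zero_le m), Polynomial.coeff_zero]
      filter_upwards [hae] with x hx hxQ hxQ'
      have h1 := hx hxQ hxQ'
      rw [hp0, Polynomial.eval_zero, sub_eq_zero] at h1
      rw [h1]
      simp
    have hinvu : TwInv Q u 0 h := TwInv.of_small hQc hρ hsmall
    obtain ⟨c, hc⟩ := ae_const_of_twInv_two hQo hQc hh hv₀ hu hne hne' hinv hinvu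
    refine ⟨Polynomial.C c, ?_, ?_⟩
    · refine lt_of_le_of_lt Polynomial.degree_C_le ?_
      exact_mod_cast Nat.zero_lt_one
    · filter_upwards [hc] with x hx hxQ
      rw [Polynomial.eval_C]
      exact hx hxQ
  | succ e ih =>
    intro ρ hρ h hh hinv hdiff
    by_cases hQne : Q.Nonempty
    swap
    · refine ⟨0, ?_, ?_⟩
      · rw [Polynomial.degree_zero]
        exact WithBot.bot_lt_coe _
      · refine Filter.Eventually.of_forall (fun x hx => ?_)
        exact absurd ⟨x, hx⟩ hQne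
    obtain ⟨x₀, hx₀⟩ := hQne
    obtain ⟨r, hr, hball⟩ := Metric.isOpen_iff.mp hQo x₀ hx₀
    obtain ⟨ρ', hρ'def⟩ : ∃ ρ' : ℝ, ρ' = min ρ (r / 2) := ⟨_, rfl⟩
    have hρ' : 0 < ρ' := by
      rw [hρ'def]
      exact lt_min hρ (by linarith)
    have hρ'ρ : ρ' ≤ ρ := by
      rw [hρ'def]
      exact min_le_left _ _
    have hρ'r : ρ' ≤ r / 2 := by
      rw [hρ'def]
      exact min_le_right _ _
    have hex : ∀ t : ℚ, ∃ p : Polynomial ℂ, 0 < t → (t : ℝ) < ρ →
        (p.degree < ((e + 1 : ℕ) : WithBot ℕ) ∧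
        ∀ᵐ x ∂(volume : Measure ℂ), x ∈ Q → x + ((t : ℝ) : ℂ) * u ∈ Q →
          h (x + ((t : ℝ) : ℂ) * u) - h x = p.eval ((rdot (Complex.I * v₀) x : ℝ) : ℂ)) := by
      intro t
      by_cases ht : 0 < t ∧ (t : ℝ) < ρ
      · obtain ⟨p, hp⟩ := hdiff t ht.1 ht.2
        exact ⟨p, fun _ _ => hp⟩
      · exact ⟨0, fun h1 h2 => absurd ⟨h1, h2⟩ ht⟩
    choose P hP using hex
    have hmemQ : ∀ x ∈ Metric.ball x₀ (r / 2), ∀ s : ℝ, 0 ≤ s → s < r / 2 →
        x + (s : ℂ) * u ∈ Q := by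
      intro x hx s hs0 hs
      apply hball
      rw [Metric.mem_ball, dist_eq_norm] at hx ⊢
      have h1 : x + (s : ℂ) * u - x₀ = (x - x₀) + (s : ℂ) * u := by ring
      have h2 : ‖(s : ℂ) * u‖ = s := by
        rw [norm_mul, hu, mul_one, Complex.norm_real, Real.norm_of_nonneg hs0]
      have h3 := norm_add_le (x - x₀) ((s : ℂ) * u)
      rw [h1]
      linarith
    -- additivity of the top coefficient
    have hA : ∀ t t' : ℚ, 0 < t → 0 < t' → ((t + t' : ℚ) : ℝ) < ρ' →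
        (P (t + t')).coeff e = (P t).coeff e + (P t').coeff e := by
      intro t t' ht ht' hlt
      have hcast : ((t + t' : ℚ) : ℝ) = (t : ℝ) + (t' : ℝ) := by push_cast; ring
      have ht0 : (0 : ℝ) < t := by exact_mod_cast ht
      have ht'0 : (0 : ℝ) < t' := by exact_mod_cast ht'
      have htρ : (t : ℝ) < ρ := by linarith
      have ht'ρ : (t' : ℝ) < ρ := by linarith
      have hTρ : ((t + t' : ℚ) : ℝ) < ρ := by linarith
      obtain ⟨hd1, hae1⟩ := hP t ht htρ
      obtain ⟨hd2, hae2⟩ := hP t' ht' ht'ρ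
      obtain ⟨hd3, hae3⟩ := hP (t + t') (by positivity) hTρ
      have hae2' := (measurePreserving_add_right (volume : Measure ℂ)
        (((t : ℝ) : ℂ) * u)).quasiMeasurePreserving.ae hae2
      have hq : ∀ᵐ x ∂(volume : Measure ℂ), x ∈ Metric.ball x₀ (r / 2) →
          (P (t + t') - (P t').comp (Polynomial.X + Polynomial.C
            ((((t : ℝ) * rdot (Complex.I * v₀) u : ℝ) : ℂ))) - P t).eval
              ((rdot (Complex.I * v₀) x : ℝ) : ℂ) = 0 := by
        filter_upwards [hae1, hae2', hae3] with x h1 h2 h3 hx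
        have hxQ : x ∈ Q := hball (Metric.ball_subset_ball (by linarith) hx)
        have hx1 : x + ((t : ℝ) : ℂ) * u ∈ Q := hmemQ x hx t ht0.le (by linarith)
        have hx2 : x + (((t + t' : ℚ) : ℝ) : ℂ) * u ∈ Q :=
          hmemQ x hx _ (by linarith) (by linarith)
        have hx2' : x + ((t : ℝ) : ℂ) * u + ((t' : ℝ) : ℂ) * u
            = x + (((t + t' : ℚ) : ℝ) : ℂ) * u := by
          push_cast
          ring
        have e1 := h1 hxQ hx1
        have e2 := h2 hx1 (by rw [hx2']; exact hx2)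
        have e3 := h3 hxQ hx2
        rw [hx2', rp_rdot_add_mul] at e2
        have hcast2 : ((rdot (Complex.I * v₀) x + (t : ℝ) * rdot (Complex.I * v₀) u : ℝ) : ℂ)
            = ((rdot (Complex.I * v₀) x : ℝ) : ℂ)
              + (((t : ℝ) * rdot (Complex.I * v₀) u : ℝ) : ℂ) := by
          push_cast
          ring
        rw [hcast2] at e2
        simp only [Polynomial.eval_sub, Polynomial.eval_comp, Polynomial.eval_add,
          Polynomial.eval_X, Polynomial.eval_C]
        rw [← e1, ← e2, ← e3]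
        ring
      have hq0 := rp_poly_zero_of_ae hw _ x₀ (by linarith : 0 < r / 2) hq
      have hc := congrArg (fun q => Polynomial.coeff q e) hq0
      simp only [Polynomial.coeff_sub, Polynomial.coeff_zero] at hc
      rw [rp_coeff_comp _ _ e hd2] at hc
      linear_combination hc
    obtain ⟨c, hc⟩ := rp_additive hρ' (fun t => (P t).coeff e) hA
    obtain ⟨σ, hσdef⟩ : ∃ σ : ℝ, σ = rdot (Complex.I * v₀) u := ⟨_, rfl⟩
    have hσ0 : (σ : ℂ) ≠ 0 := by
      rw [hσdef]
      exact_mod_cast hσ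
    have he0 : ((e : ℂ) + 1) ≠ 0 := by
      have h1 : ((e + 1 : ℕ) : ℂ) ≠ 0 := Nat.cast_ne_zero.mpr (Nat.succ_ne_zero e)
      push_cast at h1
      exact h1
    obtain ⟨γ, hγdef⟩ : ∃ γ : ℂ, γ = c / (((e : ℂ) + 1) * (σ : ℂ)) := ⟨_, rfl⟩
    have hγ : γ * (((e : ℂ) + 1) * (σ : ℂ)) = c := by
      rw [hγdef]
      field_simp
    have hlm : Measurable (fun x : ℂ => ((rdot (Complex.I * v₀) x : ℝ) : ℂ)) := by
      have hcont : Continuous (fun x : ℂ => ((rdot (Complex.I * v₀) x : ℝ) : ℂ)) := by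
        unfold rdot
        exact Complex.continuous_ofReal.comp
          (Complex.continuous_re.comp (continuous_const.mul continuous_id))
      exact hcont.measurable
    have hh' : Measurable (fun x : ℂ => h x - γ * ((rdot (Complex.I * v₀) x : ℝ) : ℂ) ^ (e + 1)) :=
      hh.sub (measurable_const.mul (hlm.pow_const _))
    have hinv' : TwInv Q v₀ 0
        (fun x : ℂ => h x - γ * ((rdot (Complex.I * v₀) x : ℝ) : ℂ) ^ (e + 1)) := by
      intro t ht
      filter_upwards [hinv t ht] with x hx hxQ hxQ'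
      have h1 := hx hxQ hxQ'
      have h2 : rdot (Complex.I * v₀) (x + ((t : ℝ) : ℂ) * v₀) = rdot (Complex.I * v₀) x := by
        rw [rp_rdot_add_mul, rp_rdot_I_self, mul_zero, add_zero]
      simp only [h1, h2]
      simp
    have hdiff' : ∀ t : ℚ, 0 < t → (t : ℝ) < ρ' → ∃ p : Polynomial ℂ,
        p.degree < (e : WithBot ℕ) ∧
        ∀ᵐ x ∂(volume : Measure ℂ), x ∈ Q → x + ((t : ℝ) : ℂ) * u ∈ Q →
          (h (x + ((t : ℝ) : ℂ) * u)
              - γ * ((rdot (Complex.I * v₀) (x + ((t : ℝ) : ℂ) * u) : ℝ) : ℂ) ^ (e + 1))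
            - (h x - γ * ((rdot (Complex.I * v₀) x : ℝ) : ℂ) ^ (e + 1))
            = p.eval ((rdot (Complex.I * v₀) x : ℝ) : ℂ) := by
      intro t ht htρ'
      have htρ : (t : ℝ) < ρ := by linarith
      obtain ⟨hd, hae⟩ := hP t ht htρ
      have hco := (Polynomial.degree_lt_iff_coeff_zero (P t) (e + 1)).mp hd
      refine ⟨P t - Polynomial.C γ * ((Polynomial.X + Polynomial.C ((((t : ℝ) * σ : ℝ)) : ℂ))
        ^ (e + 1) - Polynomial.X ^ (e + 1)), ?_, ?_⟩
      · rw [Polynomial.degree_lt_iff_coeff_zero]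
        intro m hm
        rw [Polynomial.coeff_sub, Polynomial.coeff_C_mul, rp_coeff_shift _ e m hm]
        by_cases hme : m = e
        · rw [if_pos hme, hme]
          have h1 : (P t).coeff e = c * ((t : ℝ) : ℂ) := hc t ht htρ'
          rw [h1, ← hγ]
          push_cast
          ring
        · rw [if_neg hme, mul_zero, sub_zero]
          exact hco m (by omega)
      · filter_upwards [hae] with x hx hxQ hxQ'
        have h1 := hx hxQ hxQ'
        have h2 : ((rdot (Complex.I * v₀) (x + ((t : ℝ) : ℂ) * u) : ℝ) : ℂ)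
            = ((rdot (Complex.I * v₀) x : ℝ) : ℂ) + ((((t : ℝ) * σ : ℝ)) : ℂ) := by
          rw [rp_rdot_add_mul, hσdef]
          push_cast
          ring
        rw [h2]
        simp only [Polynomial.eval_sub, Polynomial.eval_mul, Polynomial.eval_C,
          Polynomial.eval_pow, Polynomial.eval_add, Polynomial.eval_X]
        rw [← h1]
        ring
    obtain ⟨p', hp'deg, hp'ae⟩ := ih ρ' hρ' _ hh' hinv' hdiff'
    have hco' := (Polynomial.degree_lt_iff_coeff_zero p' (e + 1)).mp hp'deg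
    refine ⟨p' + Polynomial.C γ * Polynomial.X ^ (e + 1), ?_, ?_⟩
    · rw [Polynomial.degree_lt_iff_coeff_zero]
      intro m hm
      rw [Polynomial.coeff_add, Polynomial.coeff_C_mul, Polynomial.coeff_X_pow,
        hco' m (by omega), if_neg (by omega), mul_zero, add_zero]
    · filter_upwards [hp'ae] with x hx hxQ
      have h1 := hx hxQ
      simp only [Polynomial.eval_add, Polynomial.eval_mul, Polynomial.eval_C,
        Polynomial.eval_pow, Polynomial.eval_X]
      rw [← h1]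
      ring

/-- Let `h` be invariant along the unit vector `v₀` on the open convex set `Q`, and let `u`
be a unit vector not parallel to `v₀`.  If for every small rational `t > 0` the difference
`h (x + t u) - h x` is almost everywhere (where `x`, `x + t u ∈ Q`) a polynomial of degree
`< e` in `rdot (i v₀) x`, then `h` is almost everywhere on `Q` a polynomial of degree
`< e + 1` in `rdot (i v₀) x`. -/
theorem poly_of_diff {Q : Set ℂ} (hQo : IsOpen Q) (hQc : Convex ℝ Q) {v₀ u : ℂ}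
    (hv₀ : ‖v₀‖ = 1) (hu : ‖u‖ = 1) (hne : v₀ ≠ u) (hne' : v₀ ≠ -u) {ρ : ℝ} (hρ : 0 < ρ)
    (e : ℕ) (h : ℂ → ℂ) (hh : Measurable h) (hinv : TwInv Q v₀ 0 h)
    (hdiff : ∀ t : ℚ, 0 < t → (t : ℝ) < ρ → ∃ p : Polynomial ℂ, p.degree < (e : WithBot ℕ) ∧
      ∀ᵐ x ∂(volume : Measure ℂ), x ∈ Q → x + ((t : ℝ) : ℂ) * u ∈ Q →
        h (x + ((t : ℝ) : ℂ) * u) - h x = p.eval ((rdot (Complex.I * v₀) x : ℝ) : ℂ)) :
    ∃ p : Polynomial ℂ, p.degree < ((e + 1 : ℕ) : WithBot ℕ) ∧
      ∀ᵐ x ∂(volume : Measure ℂ), x ∈ Q → h x = p.eval ((rdot (Complex.I * v₀) x : ℝ) : ℂ) :=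
  rp_main hQo hQc hv₀ hu hne hne' e ρ hρ h hh hinv hdiff

end Vale.Agent.Lib.P099
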