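import Vale.Agent.Lib.P099.SingFold
import Vale.Agent.Lib.P099.Lines
import Vale.Agent.Lib.P099.Dense
import Vale.Agent.Lib.P099.NoEigen
import Vale.Agent.Lib.P099.Main

/-!
# Billiards in a right triangle with irrational acute angles: no continuous eigenfunctions

The phase points whose trajectory runs into one of the two acute vertices are dense;
hence the continuous invariant functions are constant, and there is no continuous
eigenfunction with a nonzero frequency.
-/

namespace Vale.Agent.Lib.P099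

open Set Filter Topology MeasureTheory

namespace Triangle

variable {T : Triangle} {k : Fin 3}

/-- In a right triangle the phase points whose trajectory runs into one of the two acute
vertices are dense. -/
theorem RightAt.dense_sing (h : T.RightAt k) :
    ∀ p ∈ T.table ×ˢ (univ : Set Dir), ∀ U ∈ 𝓝 p,
      ∃ p' ∈ U, p'.1 ∈ T.table ∧ ∃ i, (i = k + 1 ∨ i = k + 2) ∧ p' ∈ T.Sing i := by
  rintro ⟨x₀, θ₀⟩ ⟨hx₀, -⟩ U hU
  have hx₀' : x₀ ∈ T.table := hx₀
  obtain ⟨U₁, hU₁, U₂, hU₂, hprod⟩ := mem_nhds_prod_iff.mp hU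
  obtain ⟨V, hVsub, hVopen, hx₀V⟩ := mem_nhds_iff.mp hU₁
  have hWopen : IsOpen (V ∩ T.table) := hVopen.inter T.isOpen_table
  have hWne : (V ∩ T.table).Nonempty := ⟨x₀, hx₀V, hx₀'⟩
  obtain ⟨x, ⟨hxV, hxT⟩, hgood⟩ :=
    exists_not_on_lines (specialPts_countable (T.double k) (T.vertex k)) hWopen hWne
  have hmap : Continuous (fun s : ℝ => θ₀ + (s : Dir)) :=
    continuous_const.add (AddCircle.continuous_mk' _)
  have h0 : (fun s : ℝ => θ₀ + (s : Dir)) 0 = θ₀ := by simp
  have hev : ∀ᶠ s : ℝ in 𝓝 (0 : ℝ), θ₀ + (s : Dir) ∈ U₂ := by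
    have h1 : U₂ ∈ 𝓝 ((fun s : ℝ => θ₀ + (s : Dir)) 0) := by rw [h0]; exact hU₂
    exact hmap.continuousAt h1
  obtain ⟨δ, hδ, hball⟩ := Metric.eventually_nhds_iff.mp hev
  obtain ⟨s, hs, w, hw⟩ :=
    exists_sing_dir (T := T.double k) (T.table_subset_double k hxT) θ₀ (half_pos hδ)
  have hsd : dist s 0 < δ := by
    rw [Real.dist_eq, sub_zero, abs_of_nonneg hs.1]
    linarith [hs.2]
  have hmemU : (x, θ₀ + (s : Dir)) ∈ U := hprod ⟨hVsub hxV, hball hsd⟩
  rcases h.sing_fold hxT hgood hw with h1 | h2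
  · exact ⟨(x, θ₀ + (s : Dir)), hmemU, hxT, k + 1, Or.inl rfl, h1⟩
  · exact ⟨(x, θ₀ + (s : Dir)), hmemU, hxT, k + 2, Or.inr rfl, h2⟩

/-- In a right triangle with irrational acute angles every continuous function on the
phase space which is invariant along the billiard trajectories is constant. -/
theorem RightAt.invariant_const (h : T.RightAt k)
    (h1 : Irrational (T.interiorAngle (k + 1) / Real.pi))
    (h2 : Irrational (T.interiorAngle (k + 2) / Real.pi))
    {Fn : ℂ × Dir → ℂ} (hFc : ContinuousOn Fn (T.table ×ˢ univ))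
    (hinv : ∀ (t : ℝ) (p q : ℂ × Dir), T.Reach t p q → p.1 ∈ T.table → q.1 ∈ T.table →
      Fn q = Fn p) :
    ∃ c : ℂ, ∀ p ∈ T.table ×ˢ (univ : Set Dir), Fn p = c :=
  invariant_const_of_dense (fun i => i = k + 1 ∨ i = k + 2)
    (by
      rintro i (rfl | rfl)
      · exact h1
      · exact h2) h.dense_sing hFc hinv

/-- Right triangles with irrational acute angles: a continuous eigenfunction of the
billiard flow with a nonzero frequency vanishes identically (trajectory form). -/
theorem RightAt.no_eigen_reach (h : T.RightAt k)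
    (h1 : Irrational (T.interiorAngle (k + 1) / Real.pi))
    (h2 : Irrational (T.interiorAngle (k + 2) / Real.pi))
    {Fn : ℂ × Dir → ℂ} {lam : ℝ} (hFc : ContinuousOn Fn (T.table ×ˢ univ))
    (hinv : ∀ (t : ℝ) (p q : ℂ × Dir), T.Reach t p q → p.1 ∈ T.table → q.1 ∈ T.table →
      Fn q = Complex.exp (lam * t * Complex.I) * Fn p)
    (hlam : lam ≠ 0) : ∀ p ∈ T.table ×ˢ (univ : Set Dir), Fn p = 0 := by
  have hnc : ContinuousOn (fun p => ((‖Fn p‖ : ℝ) : ℂ)) (T.table ×ˢ (univ : Set Dir)) :=
    Complex.continuous_ofReal.comp_continuousOn hFc.norm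
  have hninv : ∀ (t : ℝ) (p q : ℂ × Dir), T.Reach t p q → p.1 ∈ T.table → q.1 ∈ T.table →
      ((‖Fn q‖ : ℝ) : ℂ) = ((‖Fn p‖ : ℝ) : ℂ) := by
    intro t p q hR hp hq
    rw [hinv t p q hR hp hq, norm_mul, norm_exp_lam, one_mul]
  obtain ⟨κ, hκ⟩ := h.invariant_const h1 h2 hnc hninv
  by_contra hzero
  have hκ0 : κ ≠ 0 := by
    intro h0
    apply hzero
    intro p hp
    have h1 := hκ p hp
    rw [h0] at h1
    have h2 : ‖Fn p‖ = 0 := by exact_mod_cast h1
    exact norm_eq_zero.mp h2
  have hne : ∀ p ∈ T.table ×ˢ (univ : Set Dir), Fn p ≠ 0 := by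
    intro p hp h0
    have h1 := hκ p hp
    rw [h0, norm_zero] at h1
    exact hκ0 (by simpa using h1.symm)
  obtain ⟨c1, hc1⟩ := vertex_eigen hFc hinv (k + 1) h1
  obtain ⟨c2, hc2⟩ := vertex_eigen hFc hinv (k + 2) h2
  have hc1' : RayForm T Fn lam (k + 1) c1 := hc1
  have hc2' : RayForm T Fn lam (k + 2) c2 := hc2
  exact hlam (lam_eq_zero_of_uniform (i := k + 1) (j := k + 2)
    (fin3_add_one_ne_add_two k) hFc hne
    (rayForm_ne_zero hc1' hne) (rayForm_ne_zero hc2' hne) hc2
    (fun ε' hε' => vertex_uniform hFc hinv (k + 1) h1 hc1' hε')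
    (fun ε' hε' => vertex_uniform hFc hinv (k + 2) h2 hc2' hε'))

/-- Triangles all of whose angles are irrational multiples of `π` or right angles: a
continuous function on the phase space which satisfies `Fn ∘ Φ_t = exp (i lam t) Fn`
almost everywhere, for every `t`, is constant if `lam = 0` and vanishes identically if
`lam ≠ 0`. -/
theorem no_continuous_eigen_right
    (hT : ∀ i, Irrational (T.interiorAngle i / Real.pi) ∨ T.interiorAngle i = Real.pi / 2)
    {Fn : ℂ × Dir → ℂ} (hFc : ContinuousOn Fn (T.table ×ˢ univ)) (lam : ℝ)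
    (hae : ∀ t : ℝ, (fun p => Fn (T.flow t p)) =ᵐ[T.mu]
      fun p => Complex.exp (lam * t * Complex.I) * Fn p) :
    (lam = 0 → ∃ c : ℂ, ∀ p ∈ T.table ×ˢ (univ : Set Dir), Fn p = c) ∧
    (lam ≠ 0 → ∀ p ∈ T.table ×ˢ (univ : Set Dir), Fn p = 0) := by
  by_cases hall : ∀ i, Irrational (T.interiorAngle i / Real.pi)
  · exact no_continuous_eigen hall hFc lam hae
  · have hex : ∃ k, ¬ Irrational (T.interiorAngle k / Real.pi) := by
      by_contra hcon
      exact hall (fun i => by_contra fun hi => hcon ⟨i, hi⟩)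
    obtain ⟨k, hk⟩ := hex
    have hright : T.RightAt k := (hT k).resolve_left hk
    have hπ := Real.pi_pos
    have hsum := T.angle_sum k
    have hk' : T.interiorAngle k = Real.pi / 2 := hright
    have hzero : ∀ j : Fin 3, T.interiorAngle j = 0 → False := by
      intro j hj
      rcases hT j with h | h
      · rw [hj, zero_div] at h
        exact not_irrational_zero h
      · linarith
    have h1 : Irrational (T.interiorAngle (k + 1) / Real.pi) := by
      rcases hT (k + 1) with h | h
      · exact h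
      · exfalso
        exact hzero (k + 2) (by linarith)
    have h2 : Irrational (T.interiorAngle (k + 2) / Real.pi) := by
      rcases hT (k + 2) with h | h
      · exact h
      · exfalso
        exact hzero (k + 1) (by linarith)
    have hinv : ∀ (t : ℝ) (p q : ℂ × Dir), T.Reach t p q → p.1 ∈ T.table → q.1 ∈ T.table →
        Fn q = Complex.exp (lam * t * Complex.I) * Fn p :=
      fun t p q hR hp hq => T.reach_eq_of_ae hFc lam hae hR hp hq
    constructor
    · intro h0
      apply hright.invariant_const h1 h2 hFc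
      intro t p q hR hp hq
      have := hinv t p q hR hp hq
      rw [h0] at this
      simpa using this
    · intro hlam
      exact hright.no_eigen_reach h1 h2 hFc hinv hlam

end Triangle

end Vale.Agent.Lib.P099
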