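import Vale.Agent.Lib.P099.FoldReach

/-!
# Billiards in a right triangle: trajectories running into the acute vertices

If a trajectory of the doubled triangle issued from a generic point of `T` runs into a
vertex of the doubled triangle, the trajectory of `T` issued from the same phase point
runs into one of the two acute vertices of `T`.
-/

namespace Vale.Agent.Lib.P099

open Set

/-- Two distinct points of a set on the line issued from `x` contradict the genericity of
`x` with respect to the lines joining two points of the set. -/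
private lemma on_line_contra {S : Set ℂ} {x : ℂ}
    (hgood : ∀ P₁ ∈ S, ∀ P₂ ∈ S, P₁ ≠ P₂ → ∀ r : ℝ, x ≠ P₁ + (r : ℂ) * (P₂ - P₁))
    (θ : Dir) {a c : ℝ} (hac : a ≠ c) (h1 : x + (a : ℂ) * dirVec θ ∈ S)
    (h2 : x + (c : ℂ) * dirVec θ ∈ S) : False := by
  have hca : (c : ℂ) - (a : ℂ) ≠ 0 := by
    intro hz
    apply hac
    have h3 : (c : ℂ) = (a : ℂ) := sub_eq_zero.mp hz
    exact_mod_cast h3.symm
  have hne : x + (a : ℂ) * dirVec θ ≠ x + (c : ℂ) * dirVec θ := by
    intro he
    have h3 : ((c : ℂ) - (a : ℂ)) * dirVec θ = 0 := by linear_combination -he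
    rcases mul_eq_zero.mp h3 with h4 | h4
    · exact hca h4
    · exact dirVec_ne_zero θ h4
  apply hgood _ h1 _ h2 hne (-a / (c - a))
  push_cast
  field_simp
  ring

namespace Triangle

/-- The half-open segment from a point of the table to a vertex lies in the table. -/
private lemma seg_to_vertex (T : Triangle) {z d : ℂ} {s : ℝ} {w : Fin 3} (hz : z ∈ T.table)
    (hv : z + (s : ℂ) * d = T.vertex w) :
    ∀ r : ℝ, 0 ≤ r → r < s → z + (r : ℂ) * d ∈ T.table := by
  intro r hr0 hrs
  rw [T.mem_table]
  intro m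
  have h1 : T.bc m z + s * (T.bc m).linear d = T.bc m (T.vertex w) := by
    rw [← T.bc_add_smul, hv]
  have h2 : 0 ≤ T.bc m (T.vertex w) := by
    by_cases hm : m = w
    · subst hm
      rw [T.bc_vertex_self]
      exact zero_le_one
    · rw [T.bc_vertex_ne hm]
  have h3 := (T.mem_table.mp hz) m
  rw [T.bc_add_smul]
  rcases le_or_gt 0 ((T.bc m).linear d) with hc | hc
  · have h4 := mul_nonneg hr0 hc
    linarith
  · have h4 : s * (T.bc m).linear d < r * (T.bc m).linear d :=
      mul_lt_mul_of_neg_right hrs hc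
    linarith

/-- The values of the coordinate `k + 1` of `T` at the vertices of the doubled triangle. -/
private lemma b_double_vertex (T : Triangle) (k : Fin 3) :
    T.bc (k + 1) ((T.double k).vertex k) = -1 ∧
    T.bc (k + 1) ((T.double k).vertex (k + 1)) = 1 ∧
    T.bc (k + 1) ((T.double k).vertex (k + 2)) = 0 := by
  refine ⟨?_, ?_, ?_⟩
  · rw [(T.bc_double k _).2.1, (T.double k).bc_vertex_self,
      (T.double k).bc_vertex_ne (fin3_succ_ne k)]
    norm_num
  · rw [(T.bc_double k _).2.1, (T.double k).bc_vertex_self,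
      (T.double k).bc_vertex_ne (fin3_succ_ne k).symm]
    norm_num
  · rw [(T.bc_double k _).2.1, (T.double k).bc_vertex_ne (fin3_succ_succ_ne_succ k).symm,
      (T.double k).bc_vertex_ne (fin3_succ_succ_ne k).symm]
    norm_num

private lemma mem_sing_mk {T : Triangle} {i : Fin 3} {p : ℂ × Dir} {t : ℝ} {y : ℂ} {φ : Dir}
    {s : ℝ} (hR : T.Reach t p (y, φ)) (hy : y ∈ T.table) (hs : 0 < s)
    (hv : y + (s : ℂ) * dirVec φ = T.vertex i) : p ∈ T.Sing i :=
  ⟨t, (y, φ), hR, hy, s, hs, hv⟩

variable {T : Triangle} {k : Fin 3}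

/-- The final approach: a folded trajectory whose unfolded version is about to run into a
vertex of the doubled triangle runs into an acute vertex of `T`. -/
private lemma final_approach (h : T.RightAt k) {p : ℂ × Dir} {t2 : ℝ} {z : ℂ} {φ : Dir}
    {s2 : ℝ} {w : Fin 3} (hRf : T.Reach t2 p (T.fold k (z, φ))) (hz : z ∈ (T.double k).table)
    (hb : T.bc (k + 1) z ≠ 0) (hs2 : 0 < s2)
    (hv : z + (s2 : ℂ) * dirVec φ = (T.double k).vertex w) :
    p ∈ T.Sing (k + 1) ∨ p ∈ T.Sing (k + 2) := by
  have hseg := seg_to_vertex (T.double k) hz hv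
  set β := (T.bc (k + 1)).linear (dirVec φ) with hβ
  have hbr : ∀ r : ℝ, T.bc (k + 1) (z + (r : ℂ) * dirVec φ) = T.bc (k + 1) z + r * β :=
    fun r => T.bc_add_smul _ _ _ _
  obtain ⟨hv0, hv1, hv2⟩ := b_double_vertex T k
  have hbv : T.bc (k + 1) ((T.double k).vertex w) = T.bc (k + 1) z + s2 * β := by
    rw [← hv, hbr]
  have hray : ∀ (y : ℂ) (r : ℝ), T.sideMirror (k + 1) y
      + (r : ℂ) * dirVec (T.reflect (k + 1) φ) = T.sideMirror (k + 1) (y + (r : ℂ) * dirVec φ) :=
    fun y r => (T.sideMirror_ray (k + 1) y φ r).symm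
  rcases lt_or_gt_of_ne hb with hneg | hpos
  · -- the point is beyond the leg
    rw [T.fold_of_neg k (p := (z, φ)) hneg] at hRf
    have hσz : T.sideMirror (k + 1) z ∈ T.table := h.mirror_mem_table hz hneg
    rcases fin3_cases k w with hw | hw | hw
    · left
      rw [hw] at hv
      refine mem_sing_mk hRf hσz hs2 ?_
      rw [hray, hv, T.double_vertex_self, h.mirror_vertex']
    · left
      rw [hw] at hv hbv
      rw [hv1] at hbv
      have hβpos : 0 < β := by
        by_contra hcon
        have h1 : β ≤ 0 := not_lt.mp hcon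
        have h2 := mul_nonpos_of_nonneg_of_nonpos hs2.le h1
        linarith
      set r₀ : ℝ := -T.bc (k + 1) z / β with hr₀
      have hr₀pos : 0 < r₀ := div_pos (by linarith) hβpos
      have hβne : β ≠ 0 := hβpos.ne'
      have hr₀β : r₀ * β = -T.bc (k + 1) z := by
        rw [hr₀]
        field_simp
      have hr₀lt : r₀ < s2 := by
        by_contra hcon
        have h1 : s2 ≤ r₀ := not_lt.mp hcon
        have h2 := mul_le_mul_of_nonneg_right h1 hβpos.le
        linarith
      set z₀ : ℂ := z + (r₀ : ℂ) * dirVec φ with hz₀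
      have hz₀t : z₀ ∈ (T.double k).table := hseg r₀ hr₀pos.le hr₀lt
      have hz₀b : T.bc (k + 1) z₀ = 0 := by
        rw [hz₀, hbr, hr₀β]
        ring
      have hz₀s : z₀ ∈ T.side (k + 1) := mem_side_of_double hz₀t hz₀b
      have hstep : T.Reach r₀ (T.sideMirror (k + 1) z, T.reflect (k + 1) φ) (z₀, φ) := by
        have h1 := T.reach_step (z := T.sideMirror (k + 1) z) (θ := T.reflect (k + 1) φ)
          (τ := r₀) (k + 1) hr₀pos
          (fun r hr hrr => by
            rw [hray]
            apply h.mirror_mem_table (hseg r hr.le (by linarith))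
            rw [hbr]
            have h2 := mul_lt_mul_of_pos_right hrr hβpos
            linarith)
          (by
            rw [hray, T.sideMirror_fix hz₀s]
            exact hz₀s)
        rw [hray, T.sideMirror_fix hz₀s, T.reflect_reflect] at h1
        exact h1
      set η : ℝ := (s2 - r₀) / 2 with hη
      have hηpos : 0 < η := by
        rw [hη]
        linarith
      have hpts : ∀ r : ℝ, 0 < r → r ≤ η → z₀ + (r : ℂ) * dirVec φ ∈ T.table := by
        intro r hr hrη
        have he : z₀ + (r : ℂ) * dirVec φ = z + ((r₀ + r : ℝ) : ℂ) * dirVec φ := by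
          rw [hz₀]
          push_cast
          ring
        rw [he]
        apply T.mem_table_of_double k (hseg (r₀ + r) (by linarith) (by linarith))
        rw [hbr]
        have h2 := mul_pos hr hβpos
        linarith
      have hfl : T.Reach η (z₀, φ) (z₀ + (η : ℂ) * dirVec φ, φ) :=
        T.reach_free hηpos.le hpts
      have hR3 := T.reach_trans (T.reach_trans hRf hstep) hfl
      refine mem_sing_mk hR3 (hpts η hηpos le_rfl) (s := s2 - r₀ - η) (by linarith) ?_
      rw [← T.double_vertex_one k, ← hv, hz₀]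
      push_cast
      ring
    · right
      rw [hw] at hv
      refine mem_sing_mk hRf hσz hs2 ?_
      rw [hray, hv, T.double_vertex_two, T.sideMirror_succ_vertex]
  · -- the point is on the side of `T`
    rw [T.fold_of_nonneg k (p := (z, φ)) hpos.le] at hRf
    have hzT : z ∈ T.table := T.mem_table_of_double k hz hpos
    rcases fin3_cases k w with hw | hw | hw
    · left
      rw [hw] at hv hbv
      rw [hv0] at hbv
      have hβneg : β < 0 := by
        by_contra hcon
        have h1 : 0 ≤ β := not_lt.mp hcon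
        have h2 := mul_nonneg hs2.le h1
        linarith
      set r₀ : ℝ := -T.bc (k + 1) z / β with hr₀
      have hr₀pos : 0 < r₀ := div_pos_of_neg_of_neg (by linarith) hβneg
      have hβne : β ≠ 0 := hβneg.ne
      have hr₀β : r₀ * β = -T.bc (k + 1) z := by
        rw [hr₀]
        field_simp
      have hr₀lt : r₀ < s2 := by
        by_contra hcon
        have h1 : s2 ≤ r₀ := not_lt.mp hcon
        have h2 := mul_le_mul_of_nonpos_right h1 hβneg.le
        linarith
      set z₀ : ℂ := z + (r₀ : ℂ) * dirVec φ with hz₀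
      have hz₀t : z₀ ∈ (T.double k).table := hseg r₀ hr₀pos.le hr₀lt
      have hz₀b : T.bc (k + 1) z₀ = 0 := by
        rw [hz₀, hbr, hr₀β]
        ring
      have hz₀s : z₀ ∈ T.side (k + 1) := mem_side_of_double hz₀t hz₀b
      have hstep : T.Reach r₀ (z, φ) (z₀, T.reflect (k + 1) φ) :=
        T.reach_step (k + 1) hr₀pos
          (fun r hr hrr => by
            apply T.mem_table_of_double k (hseg r hr.le (by linarith))
            rw [hbr]
            have h2 := mul_lt_mul_of_neg_right hrr hβneg
            linarith)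
          hz₀s
      set η : ℝ := (s2 - r₀) / 2 with hη
      have hηpos : 0 < η := by
        rw [hη]
        linarith
      have hpts : ∀ r : ℝ, 0 < r → r ≤ η →
          z₀ + (r : ℂ) * dirVec (T.reflect (k + 1) φ) ∈ T.table := by
        intro r hr hrη
        have he : z₀ + (r : ℂ) * dirVec (T.reflect (k + 1) φ)
            = T.sideMirror (k + 1) (z + ((r₀ + r : ℝ) : ℂ) * dirVec φ) := by
          have e1 : z + ((r₀ + r : ℝ) : ℂ) * dirVec φ = z₀ + (r : ℂ) * dirVec φ := by
            rw [hz₀]
            push_cast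
            ring
          rw [e1, ← hray, T.sideMirror_fix hz₀s]
        rw [he]
        apply h.mirror_mem_table (hseg (r₀ + r) (by linarith) (by linarith))
        rw [hbr]
        have h2 := mul_neg_of_pos_of_neg hr hβneg
        linarith
      have hfl : T.Reach η (z₀, T.reflect (k + 1) φ)
          (z₀ + (η : ℂ) * dirVec (T.reflect (k + 1) φ), T.reflect (k + 1) φ) :=
        T.reach_free hηpos.le hpts
      have hR3 := T.reach_trans (T.reach_trans hRf hstep) hfl
      refine mem_sing_mk hR3 (hpts η hηpos le_rfl) (s := s2 - r₀ - η) (by linarith) ?_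
      have e1 : z + (s2 : ℂ) * dirVec φ = z₀ + ((s2 - r₀ : ℝ) : ℂ) * dirVec φ := by
        rw [hz₀]
        push_cast
        ring
      have e2 := hray z₀ (s2 - r₀)
      rw [← e1, hv, T.double_vertex_self, h.mirror_vertex', T.sideMirror_fix hz₀s] at e2
      rw [← e2]
      push_cast
      ring
    · left
      rw [hw] at hv
      refine mem_sing_mk hRf hzT hs2 ?_
      rw [hv, T.double_vertex_one]
    · right
      rw [hw] at hv
      refine mem_sing_mk hRf hzT hs2 ?_
      rw [hv, T.double_vertex_two]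

theorem RightAt.sing_fold (h : T.RightAt k) {x : ℂ} (hx : x ∈ T.table)
    (hgood : ∀ P₁ ∈ specialPts (T.double k) (T.vertex k),
      ∀ P₂ ∈ specialPts (T.double k) (T.vertex k), P₁ ≠ P₂ →
        ∀ r : ℝ, x ≠ P₁ + (r : ℂ) * (P₂ - P₁))
    {θ : Dir} {w : Fin 3} (hs : (x, θ) ∈ (T.double k).Sing w) :
    (x, θ) ∈ T.Sing (k + 1) ∨ (x, θ) ∈ T.Sing (k + 2) := by
  obtain ⟨t, ⟨q1, qθ⟩, hR, hq, s, hs0, hv⟩ := hs
  dsimp only at hq hv
  obtain ⟨L, γ, hU, hq1, hq2⟩ := reach_mirrorList hR
  dsimp only at hq1 hq2
  -- the point of the straight line which unfolds to the vertex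
  have hP2 : x + ((t + s : ℝ) : ℂ) * dirVec θ ∈ specialPts (T.double k) (T.vertex k) := by
    refine ⟨L, Or.inr ⟨w, ?_⟩⟩
    rw [unf_shift hU, ← hq1, ← hq2]
    exact hv
  have hseg := seg_to_vertex (T.double k) hq hv
  set β := (T.bc (k + 1)).linear (dirVec qθ) with hβ
  have hbr : ∀ r : ℝ, T.bc (k + 1) (q1 + (r : ℂ) * dirVec qθ) = T.bc (k + 1) q1 + r * β :=
    fun r => T.bc_add_smul _ _ _ _
  obtain ⟨hv0, hv1, hv2⟩ := b_double_vertex T k
  by_cases htan : T.bc (k + 1) q1 = 0 ∧ β = 0
  · -- the last flight runs along the mirror line: it comes from the vertex `k`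
    exfalso
    obtain ⟨hb0, hβ0⟩ := htan
    have hbw : T.bc (k + 1) ((T.double k).vertex w) = 0 := by
      rw [← hv, hbr, hb0, hβ0]
      ring
    have hw : w = k + 2 := by
      rcases fin3_cases k w with hw | hw | hw
      · rw [hw, hv0] at hbw
        linarith
      · rw [hw, hv1] at hbw
        linarith
      · exact hw
    rw [hw, T.double_vertex_two] at hv
    have hcomb := T.eq_comb (fin3_succ_ne k).symm (fin3_succ_succ_ne k).symm
      (fin3_succ_succ_ne_succ k).symm q1
    rw [hb0] at hcomb
    simp only [Complex.ofReal_zero, zero_mul, add_zero] at hcomb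
    have hsum := T.sum_bc k q1
    have hk0 : 0 < T.bc k q1 := ((T.mem_double_table k).mp hq).1
    set μ : ℝ := T.bc (k + 2) q1 with hμ
    have h1μ : (0 : ℝ) < 1 - μ := by linarith
    have h1μc : (1 : ℂ) - (μ : ℂ) ≠ 0 := by
      have h3 : ((1 - μ : ℝ) : ℂ) ≠ 0 := by exact_mod_cast h1μ.ne'
      simpa using h3
    have hsd : (s : ℂ) * dirVec qθ
        = ((1 : ℂ) - (μ : ℂ)) * (T.vertex (k + 2) - T.vertex k) := by
      linear_combination hv - hcomb
    set r₀ : ℝ := -μ * s / (1 - μ) with hr₀
    have hrd : (r₀ : ℂ) * dirVec qθ = -(μ : ℂ) * (T.vertex (k + 2) - T.vertex k) := by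
      have e1 : (r₀ : ℂ) = -(μ : ℂ) / ((1 : ℂ) - (μ : ℂ)) * (s : ℂ) := by
        rw [hr₀]
        push_cast
        ring
      rw [e1, mul_assoc, hsd]
      field_simp
    have hC : q1 + (r₀ : ℂ) * dirVec qθ = T.vertex k := by
      rw [hrd]
      linear_combination hcomb
    have hP1 : x + ((t + r₀ : ℝ) : ℂ) * dirVec θ ∈ specialPts (T.double k) (T.vertex k) := by
      refine ⟨L, Or.inl ?_⟩
      rw [unf_shift hU, ← hq1, ← hq2]
      exact hC
    have hne : t + r₀ ≠ t + s := by
      intro he
      have he' : r₀ = s := by linarith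
      rw [he'] at hC
      rw [hC] at hv
      exact T.vertex_ne' (fin3_succ_succ_ne k).symm hv
    exact on_line_contra hgood θ hne hP1 hP2
  · -- shorten the last flight so that it starts off the mirror line
    have hε : ∃ ε : ℝ, 0 ≤ ε ∧ ε < s ∧ T.bc (k + 1) (q1 + (ε : ℂ) * dirVec qθ) ≠ 0 := by
      by_cases hb0 : T.bc (k + 1) q1 = 0
      · refine ⟨s / 2, by linarith, by linarith, ?_⟩
        rw [hbr, hb0, zero_add]
        have hβ0 : β ≠ 0 := fun hβ0 => htan ⟨hb0, hβ0⟩
        exact mul_ne_zero (by linarith) hβ0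
      · refine ⟨0, le_rfl, hs0, ?_⟩
        rw [hbr]
        simpa using hb0
    obtain ⟨ε, hε0, hεs, hbε⟩ := hε
    have hR2 : (T.double k).Reach (t + ε) (x, θ) (q1 + (ε : ℂ) * dirVec qθ, qθ) :=
      (T.double k).reach_trans hR
        (Reach.free q1 qθ ε hε0 (fun r hr hrε => hseg r hr.le (by linarith)))
    have hbx : 0 < T.bc (k + 1) x := (T.mem_table.mp hx) (k + 1)
    rcases h.fold_reach hR2 hbx.ne' (hseg ε hε0 hεs) hbε with hRf | hpass
    · rw [T.fold_of_nonneg k (p := (x, θ)) hbx.le] at hRf
      apply final_approach h hRf (hseg ε hε0 hεs) hbε (s2 := s - ε) (by linarith) (w := w)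
      rw [← hv]
      push_cast
      ring
    · exfalso
      obtain ⟨t₁, ht₁0, ht₁, L₁, hL₁⟩ := hpass
      have hne : t₁ ≠ t + s := by
        intro he
        linarith
      exact on_line_contra hgood θ hne ⟨L₁, Or.inl hL₁⟩ hP2

end Triangle

end Vale.Agent.Lib.P099
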