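import Vale.Agent.Lib.P099.Exit
import Vale.Agent.Lib.P099.Rotation

/-!
# Billiards in a triangle: trajectories running into a vertex

From every point of the table, the directions whose trajectory runs into a vertex are
dense.
-/

namespace Vale.Agent.Lib.P099

open Set

namespace Triangle

variable (T : Triangle)

/-- The phase points whose forward trajectory runs into the vertex `i`. -/
def Sing (i : Fin 3) : Set (ℂ × Dir) :=
  {p | ∃ (t : ℝ) (q : ℂ × Dir), T.Reach t p q ∧ q.1 ∈ T.table ∧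
      ∃ s : ℝ, 0 < s ∧ q.1 + (s : ℂ) * dirVec q.2 = T.vertex i}

/-- The trajectory issued from `(x, θ)` is, at time `t`, at the point `g (x + t θ)` with
direction `γ θ`, and is about to enter the table along the image under `g` of the ray. -/
def Entering (x : ℂ) (θ : Dir) (g : ℂ → ℂ) (γ : Dir → Dir) (t : ℝ) : Prop :=
  T.Reach t (x, θ) (g (x + (t : ℂ) * dirVec θ), γ θ) ∧
    ∃ ε : ℝ, 0 < ε ∧ ∀ r : ℝ, t < r → r ≤ t + ε → g (x + (r : ℂ) * dirVec θ) ∈ T.table

variable {T}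

lemma unf_shift {g : ℂ → ℂ} {γ : Dir → Dir} (h : Unf g γ) (x : ℂ) (θ : Dir) (t s : ℝ) :
    g (x + ((t + s : ℝ) : ℂ) * dirVec θ)
      = g (x + (t : ℂ) * dirVec θ) + (s : ℂ) * dirVec (γ θ) := by
  have : x + ((t + s : ℝ) : ℂ) * dirVec θ = (x + (t : ℂ) * dirVec θ) + (s : ℂ) * dirVec θ := by
    push_cast; ring
  rw [this, h.ray]

lemma entering_reach {g : ℂ → ℂ} {γ : Dir → Dir} (h : Unf g γ) {x : ℂ} {θ : Dir} {t t' : ℝ}
    (hE : T.Entering x θ g γ t) (htt' : t ≤ t')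
    (hfree : ∀ r : ℝ, t < r → r ≤ t' → g (x + (r : ℂ) * dirVec θ) ∈ T.table) :
    T.Reach t' (x, θ) (g (x + (t' : ℂ) * dirVec θ), γ θ) := by
  have h1 : T.Reach (t' - t) (g (x + (t : ℂ) * dirVec θ), γ θ)
      (g (x + (t : ℂ) * dirVec θ) + ((t' - t : ℝ) : ℂ) * dirVec (γ θ), γ θ) := by
    apply T.reach_free (by linarith)
    intro s hs hst
    rw [← unf_shift h]
    exact hfree (t + s) (by linarith) (by linarith)
  have h2 := T.reach_trans hE.1 h1
  rw [← unf_shift h] at h2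
  have e : t + (t' - t) = t' := by ring
  rwa [e] at h2

/-- One step of the unfolding along a single trajectory that does not run into a
vertex. -/
lemma step_one {g : ℂ → ℂ} {γ : Dir → Dir} (h : Unf g γ) {x : ℂ} {θ : Dir} {t : ℝ}
    (hE : T.Entering x θ g γ t) (hns : ∀ i, (x, θ) ∉ T.Sing i) :
    ∃ (t' : ℝ) (k : Fin 3), t < t' ∧
      (∀ r : ℝ, t < r → r < t' → g (x + (r : ℂ) * dirVec θ) ∈ T.table) ∧
      g (x + (t' : ℂ) * dirVec θ) ∈ T.side k ∧ (T.bc k).linear (dirVec (γ θ)) < 0 ∧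
      T.Entering x θ (fun z => T.sideMirror k (g z)) (fun θ => T.reflect k (γ θ)) t' := by
  obtain ⟨t', htt', hfree, hcase⟩ := T.exists_exit h x θ t hE.2
  rcases hcase with ⟨k, hk, hslope⟩ | ⟨i, hi⟩
  · refine ⟨t', k, htt', hfree, hk, hslope, ?_, ?_⟩
    · -- the trajectory up to the reflection
      have h1 : T.Reach (t' - t) (g (x + (t : ℂ) * dirVec θ), γ θ)
          (g (x + (t : ℂ) * dirVec θ) + ((t' - t : ℝ) : ℂ) * dirVec (γ θ),
            T.reflect k (γ θ)) := by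
        apply T.reach_step k (by linarith)
        · intro s hs hst
          rw [← unf_shift h]
          exact hfree (t + s) (by linarith) (by linarith)
        · rw [← unf_shift h]
          have e : t + (t' - t) = t' := by ring
          rw [e]; exact hk
      have h2 := T.reach_trans hE.1 h1
      rw [← unf_shift h] at h2
      have e : t + (t' - t) = t' := by ring
      rw [e] at h2
      change T.Reach t' (x, θ) (T.sideMirror k (g (x + (t' : ℂ) * dirVec θ)), T.reflect k (γ θ))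
      rw [T.sideMirror_fix hk]
      exact h2
    · -- the reflected ray enters the table
      set Z := g (x + (t' : ℂ) * dirVec θ) with hZ
      obtain ⟨hZ0, hZ1, hZ2⟩ := T.bc_of_mem_side hk
      set w := dirVec (T.reflect k (γ θ)) with hw
      have hwk : 0 < (T.bc k).linear w := by
        rw [hw, T.bc_lin_dirVec_reflect]; linarith
      set ε₁ := T.bc (k + 1) Z / (|(T.bc (k + 1)).linear w| + 1) with hε₁
      set ε₂ := T.bc (k + 2) Z / (|(T.bc (k + 2)).linear w| + 1) with hε₂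
      have hε₁pos : 0 < ε₁ := div_pos hZ1 (by positivity)
      have hε₂pos : 0 < ε₂ := div_pos hZ2 (by positivity)
      have key : ∀ (b m s ε : ℝ), 0 < b → ε = b / (|m| + 1) → 0 < s → s ≤ ε → 0 < b + s * m := by
        intro b m s ε hb hε hs hsε
        have h1 : 0 < |m| + 1 := by positivity
        have h2 : ε * (|m| + 1) = b := by rw [hε]; field_simp
        have h3 : - |m| ≤ m := neg_abs_le m
        nlinarith [abs_nonneg m]
      refine ⟨min ε₁ ε₂, lt_min hε₁pos hε₂pos, ?_⟩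
      intro r hr1 hr2
      have hexp : T.sideMirror k (g (x + (r : ℂ) * dirVec θ)) = Z + ((r - t' : ℝ) : ℂ) * w := by
        have e : r = t' + (r - t') := by ring
        conv_lhs => rw [e]
        rw [unf_shift h, T.sideMirror_ray, T.sideMirror_fix hk]
      change T.sideMirror k (g (x + (r : ℂ) * dirVec θ)) ∈ T.table
      rw [hexp, T.mem_table]
      intro j
      rw [T.bc_add_smul]
      rcases fin3_cases k j with rfl | rfl | rfl
      · rw [hZ0]
        have := mul_pos (by linarith : (0:ℝ) < r - t') hwk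
        linarith
      · exact key _ _ _ ε₁ hZ1 hε₁ (by linarith) (by linarith [min_le_left ε₁ ε₂])
      · exact key _ _ _ ε₂ hZ2 hε₂ (by linarith) (by linarith [min_le_right ε₁ ε₂])
  · exfalso
    apply hns i
    set r₁ := (t + t') / 2 with hr₁
    have hr₁t : t < r₁ := by rw [hr₁]; linarith
    have hr₁t' : r₁ < t' := by rw [hr₁]; linarith
    refine ⟨r₁, (g (x + (r₁ : ℂ) * dirVec θ), γ θ), ?_, ?_, t' - r₁, by linarith, ?_⟩
    · exact entering_reach h hE hr₁t.le (fun r h1 h2 => hfree r h1 (by linarith))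
    · exact hfree r₁ hr₁t hr₁t'
    · change g (x + (r₁ : ℂ) * dirVec θ) + ((t' - r₁ : ℝ) : ℂ) * dirVec (γ θ) = T.vertex i
      rw [← unf_shift h]
      have e : r₁ + (t' - r₁) = t' := by ring
      rw [e]; exact hi


lemma continuous_slope {g : ℂ → ℂ} {γ : Dir → Dir} (h : Unf g γ) (θ₀ : Dir) (k : Fin 3) :
    Continuous (fun s : ℝ => (T.bc k).linear (dirVec (γ (θ₀ + (s : Dir))))) := by
  have h1 : ∀ s : ℝ, dirVec (γ (θ₀ + (s : Dir)))
      = g (dirVec θ₀ * Complex.exp (s * Complex.I)) - g 0 := by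
    intro s
    rw [h.dirVec_eq, dirVec_add, dirVec_coe]
  simp only [h1]
  exact (T.bc_lin_continuous k).comp ((h.continuous.comp (by fun_prop)).sub continuous_const)

/-- One step of the unfolding, simultaneously for an interval of directions none of
whose trajectories runs into a vertex: all of them leave through the same side. -/
lemma step_interval {g : ℂ → ℂ} {γ : Dir → Dir} (h : Unf g γ) {x : ℂ} {θ₀ : Dir} {δ : ℝ}
    {t : ℝ → ℝ} (hE : ∀ s ∈ Icc (0 : ℝ) δ, T.Entering x (θ₀ + (s : Dir)) g γ (t s))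
    (hns : ∀ s ∈ Icc (0 : ℝ) δ, ∀ i, (x, θ₀ + (s : Dir)) ∉ T.Sing i) :
    ∃ (k : Fin 3) (t' : ℝ → ℝ), ∀ s ∈ Icc (0 : ℝ) δ, t s < t' s ∧
      (∀ r : ℝ, t s < r → r < t' s → g (x + (r : ℂ) * dirVec (θ₀ + (s : Dir))) ∈ T.table) ∧
      g (x + (t' s : ℂ) * dirVec (θ₀ + (s : Dir))) ∈ T.side k ∧
      T.Entering x (θ₀ + (s : Dir)) (fun z => T.sideMirror k (g z))
        (fun θ => T.reflect k (γ θ)) (t' s) := by
  choose! t' k' hstep using fun (s : ℝ) (hs : s ∈ Icc (0 : ℝ) δ) =>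
    step_one h (hE s hs) (hns s hs)
  set b : Fin 3 → ℝ := fun j => T.bc j (g x) with hb
  set m : Fin 3 → ℝ → ℝ := fun j s => (T.bc j).linear (dirVec (γ (θ₀ + (s : Dir)))) with hm
  have hmc : ∀ j, Continuous (m j) := fun j => continuous_slope h θ₀ j
  set A : Fin 3 → Set ℝ := fun k => {s : ℝ | m k s < 0 ∧
    b (k + 1) * m k s - b k * m (k + 1) s < 0 ∧ b (k + 2) * m k s - b k * m (k + 2) s < 0}
    with hA
  have hAopen : ∀ k, IsOpen (A k) := by
    intro k
    have h1 : IsOpen {s : ℝ | m k s < 0} := isOpen_lt (hmc k) continuous_const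
    have h2 : IsOpen {s : ℝ | b (k + 1) * m k s - b k * m (k + 1) s < 0} :=
      isOpen_lt ((continuous_const.mul (hmc k)).sub (continuous_const.mul (hmc _)))
        continuous_const
    have h3 : IsOpen {s : ℝ | b (k + 2) * m k s - b k * m (k + 2) s < 0} :=
      isOpen_lt ((continuous_const.mul (hmc k)).sub (continuous_const.mul (hmc _)))
        continuous_const
    exact h1.inter (h2.inter h3)
  have hAmem : ∀ s ∈ Icc (0 : ℝ) δ, s ∈ A (k' s) := by
    intro s hs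
    obtain ⟨-, -, hside, hslope, -⟩ := hstep s hs
    obtain ⟨h0, h1, h2⟩ := T.bc_of_mem_side hside
    rw [T.bc_unf h] at h0 h1 h2
    have hbk : b (k' s) = - t' s * m (k' s) s := by
      simp only [hb, hm]; linarith
    refine ⟨hslope, ?_, ?_⟩
    · have e : b (k' s + 1) * m (k' s) s - b (k' s) * m (k' s + 1) s
          = m (k' s) s * (b (k' s + 1) + t' s * m (k' s + 1) s) := by rw [hbk]; ring
      rw [e]
      exact mul_neg_of_neg_of_pos hslope h1
    · have e : b (k' s + 2) * m (k' s) s - b (k' s) * m (k' s + 2) s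
          = m (k' s) s * (b (k' s + 2) + t' s * m (k' s + 2) s) := by rw [hbk]; ring
      rw [e]
      exact mul_neg_of_neg_of_pos hslope h2
  have hAdisj : ∀ k k', k ≠ k' → Disjoint (A k) (A k') := by
    intro k k' hkk'
    rw [Set.disjoint_left]
    intro s hs hs'
    obtain ⟨-, h1, h2⟩ := hs
    obtain ⟨-, h1', h2'⟩ := hs'
    rcases fin3_cases k k' with rfl | rfl | rfl
    · exact hkk' rfl
    · rw [fin3_add_one_add_two] at h2'
      linarith
    · rw [fin3_add_two_add_one] at h1'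
      linarith
  have hcover : Icc (0 : ℝ) δ ⊆ A 0 ∪ (A 1 ∪ A 2) := by
    intro s hs
    have := hAmem s hs
    generalize k' s = k at this
    fin_cases k
    · exact Or.inl this
    · exact Or.inr (Or.inl this)
    · exact Or.inr (Or.inr this)
  have hconn : IsPreconnected (Icc (0 : ℝ) δ) := isPreconnected_Icc
  have hex : ∃ k, Icc (0 : ℝ) δ ⊆ A k := by
    have hd : Disjoint (A 0) (A 1 ∪ A 2) :=
      Set.disjoint_union_right.mpr ⟨hAdisj 0 1 (by decide), hAdisj 0 2 (by decide)⟩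
    rcases hconn.subset_or_subset (hAopen 0) ((hAopen 1).union (hAopen 2)) hd hcover with h0 | h12
    · exact ⟨0, h0⟩
    · rcases hconn.subset_or_subset (hAopen 1) (hAopen 2) (hAdisj 1 2 (by decide)) h12
        with h1 | h2
      · exact ⟨1, h1⟩
      · exact ⟨2, h2⟩
  obtain ⟨k, hk⟩ := hex
  refine ⟨k, t', ?_⟩
  intro s hs
  have hks : k' s = k := by
    by_contra hne
    exact Set.disjoint_left.mp (hAdisj (k' s) k hne) (hAmem s hs) (hk hs)
  obtain ⟨h1, h2, h3, -, h5⟩ := hstep s hs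
  rw [hks] at h3 h5
  exact ⟨h1, h2, h3, h5⟩

/-! ### Quantitative estimates -/

variable (T)

lemma exists_side_bound : ∃ L : ℝ, 0 < L ∧ ∀ j, ‖T.sideVec j‖ ≤ L := by
  refine ⟨‖T.sideVec 0‖ + ‖T.sideVec 1‖ + ‖T.sideVec 2‖, ?_, ?_⟩
  · have := norm_pos_iff.mpr (T.sideVec_ne_zero 0)
    have := norm_nonneg (T.sideVec 1)
    have := norm_nonneg (T.sideVec 2)
    linarith
  · intro j
    have := norm_nonneg (T.sideVec 0)
    have := norm_nonneg (T.sideVec 1)
    have := norm_nonneg (T.sideVec 2)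
    fin_cases j <;> simp <;> linarith

lemma exists_bc_bound : ∃ C : ℝ, 0 < C ∧ ∀ (k : Fin 3) (w : ℂ), |(T.bc k).linear w| ≤ C * ‖w‖ := by
  set f : Fin 3 → (ℂ →L[ℝ] ℝ) := fun k => LinearMap.toContinuousLinearMap (T.bc k).linear
    with hf
  refine ⟨‖f 0‖ + ‖f 1‖ + ‖f 2‖ + 1, ?_, ?_⟩
  · have := norm_nonneg (f 0)
    have := norm_nonneg (f 1)
    have := norm_nonneg (f 2)
    linarith
  · intro k w
    have h1 : |(T.bc k).linear w| ≤ ‖f k‖ * ‖w‖ := by
      have := (f k).le_opNorm w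
      simpa [hf, Real.norm_eq_abs] using this
    have h2 : ‖f k‖ ≤ ‖f 0‖ + ‖f 1‖ + ‖f 2‖ + 1 := by
      have := norm_nonneg (f 0)
      have := norm_nonneg (f 1)
      have := norm_nonneg (f 2)
      fin_cases k <;> simp <;> linarith
    calc |(T.bc k).linear w| ≤ ‖f k‖ * ‖w‖ := h1
      _ ≤ (‖f 0‖ + ‖f 1‖ + ‖f 2‖ + 1) * ‖w‖ :=
        mul_le_mul_of_nonneg_right h2 (norm_nonneg _)

lemma abs_bc_lin_sideVec {j k : Fin 3} (hjk : j ≠ k) : |(T.bc k).linear (T.sideVec j)| = 1 := by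
  rw [sideVec, bc_lin_sub]
  rcases fin3_cases j k with rfl | rfl | rfl
  · exact absurd rfl hjk
  · rw [T.bc_vertex_self, T.bc_vertex_ne (fin3_add_one_ne_add_two j)]; simp
  · rw [T.bc_vertex_self, T.bc_vertex_ne (fin3_add_one_ne_add_two j).symm]; simp

lemma dist_side_le {j : Fin 3} {P P' : ℂ} (hP : P ∈ T.side j) (hP' : P' ∈ T.side j) :
    ‖P' - P‖ ≤ ‖T.sideVec j‖ := by
  obtain ⟨s, hs0, hs1, rfl⟩ := T.mem_side_iff.mp hP
  obtain ⟨s', hs0', hs1', rfl⟩ := T.mem_side_iff.mp hP'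
  have e : T.vertex (j + 1) + (s' : ℂ) * T.sideVec j - (T.vertex (j + 1) + (s : ℂ) * T.sideVec j)
      = ((s' - s : ℝ) : ℂ) * T.sideVec j := by push_cast; ring
  rw [e, norm_mul, Complex.norm_real, Real.norm_eq_abs]
  have h1 : |s' - s| ≤ 1 := by rw [abs_le]; constructor <;> linarith
  calc |s' - s| * ‖T.sideVec j‖ ≤ 1 * ‖T.sideVec j‖ :=
        mul_le_mul_of_nonneg_right h1 (norm_nonneg _)
    _ = ‖T.sideVec j‖ := one_mul _

variable {T}

/-- Two rays issued from the same point diverge. -/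
lemma diverge (θ₀ : Dir) (δ : ℝ) (x : ℂ) (ta tb : ℝ) :
    ta * Real.sin δ ≤ ‖(x + (tb : ℂ) * dirVec (θ₀ + (δ : Dir))) - (x + (ta : ℂ) * dirVec θ₀)‖ ∧
    tb * Real.sin δ ≤ ‖(x + (tb : ℂ) * dirVec (θ₀ + (δ : Dir))) - (x + (ta : ℂ) * dirVec θ₀)‖ := by
  set E := Complex.exp (δ * Complex.I) with hE
  have hEre : E.re = Real.cos δ := Complex.exp_ofReal_mul_I_re δ
  have hEim : E.im = Real.sin δ := Complex.exp_ofReal_mul_I_im δ
  have hEn : ‖E‖ = 1 := Complex.norm_exp_ofReal_mul_I δ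
  have e : (x + (tb : ℂ) * dirVec (θ₀ + (δ : Dir))) - (x + (ta : ℂ) * dirVec θ₀)
      = dirVec θ₀ * ((tb : ℂ) * E - ta) := by
    rw [dirVec_add, dirVec_coe]; ring
  rw [e, norm_mul, norm_dirVec, one_mul]
  constructor
  · have h1 : ‖((tb : ℂ) * E - ta) * (starRingEnd ℂ) E‖ = ‖(tb : ℂ) * E - ta‖ := by
      rw [norm_mul, RCLike.norm_conj, hEn, mul_one]
    rw [← h1]
    have h2 : (((tb : ℂ) * E - ta) * (starRingEnd ℂ) E).im = ta * Real.sin δ := by
      simp only [Complex.mul_im, Complex.sub_im, Complex.sub_re, Complex.mul_re,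
        Complex.ofReal_re, Complex.ofReal_im, Complex.conj_re, Complex.conj_im, hEre, hEim]
      ring
    calc ta * Real.sin δ = (((tb : ℂ) * E - ta) * (starRingEnd ℂ) E).im := h2.symm
      _ ≤ |(((tb : ℂ) * E - ta) * (starRingEnd ℂ) E).im| := le_abs_self _
      _ ≤ ‖((tb : ℂ) * E - ta) * (starRingEnd ℂ) E‖ := Complex.abs_im_le_norm _
  · have h2 : ((tb : ℂ) * E - ta).im = tb * Real.sin δ := by
      simp only [Complex.mul_im, Complex.sub_im, Complex.ofReal_re, Complex.ofReal_im, hEim]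
      ring
    calc tb * Real.sin δ = ((tb : ℂ) * E - ta).im := h2.symm
      _ ≤ |((tb : ℂ) * E - ta).im| := le_abs_self _
      _ ≤ ‖(tb : ℂ) * E - ta‖ := Complex.abs_im_le_norm _

lemma unf_norm_ray {g : ℂ → ℂ} {γ : Dir → Dir} (h : Unf g γ) (x : ℂ) (θ : Dir) (t t' : ℝ) :
    ‖g (x + (t' : ℂ) * dirVec θ) - g (x + (t : ℂ) * dirVec θ)‖ = |t' - t| := by
  rw [h.norm_sub]
  have e : x + (t' : ℂ) * dirVec θ - (x + (t : ℂ) * dirVec θ) = ((t' - t : ℝ) : ℂ) * dirVec θ := by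
    push_cast; ring
  rw [e, norm_ofReal_mul_dirVec]

/-- Between two consecutive common sides, two diverging rays need a definite time. -/
lemma increment {g : ℂ → ℂ} {γ : Dir → Dir} (h : Unf g γ) {C L ρ δ : ℝ}
    (hC : ∀ (k : Fin 3) (w : ℂ), |(T.bc k).linear w| ≤ C * ‖w‖)
    (hL : ∀ j, ‖T.sideVec j‖ ≤ L) (hδ0 : 0 ≤ δ) (hδ : δ ≤ Real.pi)
    {x : ℂ} {θ₀ : Dir} {j k : Fin 3} (hjk : j ≠ k) {ta tb ta' tb' : ℝ}
    (hρ : ρ ≤ ta)
    (ha : g (x + (ta : ℂ) * dirVec θ₀) ∈ T.side j)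
    (hb : g (x + (tb : ℂ) * dirVec (θ₀ + (δ : Dir))) ∈ T.side j)
    (ha' : g (x + (ta' : ℂ) * dirVec θ₀) ∈ T.side k)
    (hb' : g (x + (tb' : ℂ) * dirVec (θ₀ + (δ : Dir))) ∈ T.side k)
    (hta : ta ≤ ta') (htb : tb ≤ tb') :
    ρ * Real.sin δ ≤ L * C * ((ta' - ta) + (tb' - tb)) := by
  have hsin : 0 ≤ Real.sin δ := Real.sin_nonneg_of_nonneg_of_le_pi hδ0 hδ
  set Pa := g (x + (ta : ℂ) * dirVec θ₀) with hPa
  set Pb := g (x + (tb : ℂ) * dirVec (θ₀ + (δ : Dir))) with hPb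
  set Pa' := g (x + (ta' : ℂ) * dirVec θ₀) with hPa'
  set Pb' := g (x + (tb' : ℂ) * dirVec (θ₀ + (δ : Dir))) with hPb'
  obtain ⟨sa, -, -, hsa⟩ := T.mem_side_iff.mp ha
  obtain ⟨sb, -, -, hsb⟩ := T.mem_side_iff.mp hb
  have hdiff : Pb - Pa = (sb - sa) • T.sideVec j := by
    rw [hsa, hsb, Complex.real_smul]; push_cast; ring
  -- lower bound for the distance
  have h1 : ρ * Real.sin δ ≤ ‖Pb - Pa‖ := by
    rw [hPb, hPa, h.norm_sub]
    have := (diverge θ₀ δ x ta tb).1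
    calc ρ * Real.sin δ ≤ ta * Real.sin δ := mul_le_mul_of_nonneg_right hρ hsin
      _ ≤ _ := this
  have h2 : ‖Pb - Pa‖ ≤ |sb - sa| * L := by
    rw [hdiff, norm_smul, Real.norm_eq_abs]
    exact mul_le_mul_of_nonneg_left (hL j) (abs_nonneg _)
  -- the coordinate `k`
  have h3 : |sb - sa| = |T.bc k Pb - T.bc k Pa| := by
    rw [← bc_lin_sub, hdiff, map_smul, smul_eq_mul, abs_mul, T.abs_bc_lin_sideVec hjk, mul_one]
  have h4 : T.bc k Pb - T.bc k Pa
      = (T.bc k).linear (Pb - Pb') - (T.bc k).linear (Pa - Pa') := by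
    rw [bc_lin_sub, bc_lin_sub, (T.bc_of_mem_side ha').1, (T.bc_of_mem_side hb').1]; ring
  have h5 : |T.bc k Pb - T.bc k Pa| ≤ C * ((ta' - ta) + (tb' - tb)) := by
    rw [h4]
    have hb1 := hC k (Pb - Pb')
    have ha1 := hC k (Pa - Pa')
    have hb2 : ‖Pb - Pb'‖ = tb' - tb := by
      rw [hPb, hPb', unf_norm_ray h, abs_sub_comm, abs_of_nonneg (by linarith)]
    have ha2 : ‖Pa - Pa'‖ = ta' - ta := by
      rw [hPa, hPa', unf_norm_ray h, abs_sub_comm, abs_of_nonneg (by linarith)]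
    rw [hb2] at hb1
    rw [ha2] at ha1
    calc |(T.bc k).linear (Pb - Pb') - (T.bc k).linear (Pa - Pa')|
        ≤ |(T.bc k).linear (Pb - Pb')| + |(T.bc k).linear (Pa - Pa')| := abs_sub _ _
      _ ≤ C * (tb' - tb) + C * (ta' - ta) := add_le_add hb1 ha1
      _ = C * ((ta' - ta) + (tb' - tb)) := by ring
  have hL0 : 0 ≤ L := le_trans (norm_nonneg _) (hL 0)
  calc ρ * Real.sin δ ≤ ‖Pb - Pa‖ := h1
    _ ≤ |sb - sa| * L := h2
    _ ≤ (C * ((ta' - ta) + (tb' - tb))) * L := by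
        rw [h3]; exact mul_le_mul_of_nonneg_right h5 hL0
    _ = L * C * ((ta' - ta) + (tb' - tb)) := by ring


/-- From every point of the table, every interval of directions contains a direction
whose trajectory runs into a vertex. -/
theorem exists_sing_dir {x : ℂ} (hx : x ∈ T.table) (θ₀ : Dir) {δ : ℝ} (hδ : 0 < δ) :
    ∃ s ∈ Icc (0 : ℝ) δ, ∃ i, (x, θ₀ + (s : Dir)) ∈ T.Sing i := by
  wlog hδ2 : δ ≤ Real.pi / 2 generalizing δ
  · obtain ⟨s, hs, i, hi⟩ := this (δ := Real.pi / 2) (by positivity) le_rfl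
    exact ⟨s, ⟨hs.1, by linarith [hs.2, not_le.mp hδ2]⟩, i, hi⟩
  by_contra hcon
  have hns : ∀ s ∈ Icc (0 : ℝ) δ, ∀ i, (x, θ₀ + (s : Dir)) ∉ T.Sing i :=
    fun s hs i hi => hcon ⟨s, hs, i, hi⟩
  have hδpi : δ ≤ Real.pi := by linarith [Real.pi_pos]
  obtain ⟨ρ, hρ, hball⟩ := Metric.isOpen_iff.mp T.isOpen_table x hx
  obtain ⟨L, hL, hLb⟩ := T.exists_side_bound
  obtain ⟨C, hC, hCb⟩ := T.exists_bc_bound
  have hsin : 0 < Real.sin δ := Real.sin_pos_of_pos_of_lt_pi hδ (by linarith [Real.pi_pos])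
  set η := ρ * Real.sin δ / (L * C) with hη
  have hηpos : 0 < η := by positivity
  have h0mem : (0 : ℝ) ∈ Icc (0 : ℝ) δ := ⟨le_rfl, hδ.le⟩
  have hδmem : δ ∈ Icc (0 : ℝ) δ := ⟨hδ.le, le_rfl⟩
  have key : ∀ n : ℕ, ∃ (g : ℂ → ℂ) (γ : Dir → Dir) (t : ℝ → ℝ) (j : Fin 3), Unf g γ ∧
      (∀ s ∈ Icc (0 : ℝ) δ, T.Entering x (θ₀ + (s : Dir)) g γ (t s)) ∧ ρ ≤ t 0 ∧ 0 ≤ t δ ∧
      g (x + (t 0 : ℂ) * dirVec (θ₀ + ((0 : ℝ) : Dir))) ∈ T.side j ∧
      g (x + (t δ : ℂ) * dirVec (θ₀ + (δ : Dir))) ∈ T.side j ∧ (n : ℝ) * η ≤ t 0 + t δ := by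
    intro n
    induction n with
    | zero =>
      have hE0 : ∀ s ∈ Icc (0 : ℝ) δ,
          T.Entering x (θ₀ + (s : Dir)) (fun z => z) (fun θ => θ) ((fun _ => (0 : ℝ)) s) := by
        intro s _
        refine ⟨Reach.free x _ 0 le_rfl (fun r hr hr' => absurd hr (not_lt.mpr hr')), ρ / 2,
          by linarith, ?_⟩
        intro r hr1 hr2
        apply hball
        rw [Metric.mem_ball, dist_eq_norm, add_sub_cancel_left, norm_ofReal_mul_dirVec,
          abs_of_pos hr1]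
        linarith
      obtain ⟨k, t', hstep⟩ := step_interval Unf.id hE0 hns
      obtain ⟨h1, -, h3, h4⟩ := hstep 0 h0mem
      obtain ⟨h1', -, h3', -⟩ := hstep δ hδmem
      have hρt : ρ ≤ t' 0 := by
        by_contra hlt
        have hlt' : t' 0 < ρ := not_le.mp hlt
        apply T.side_disjoint_table h3
        apply hball
        rw [Metric.mem_ball, dist_eq_norm, add_sub_cancel_left, norm_ofReal_mul_dirVec,
          abs_of_pos h1]
        exact hlt'
      refine ⟨_, _, t', k, Triangle.Unf.mirror T Unf.id k, fun s hs => (hstep s hs).2.2.2,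
        hρt, h1'.le, ?_, ?_, ?_⟩
      · rw [T.sideMirror_fix h3]; exact h3
      · rw [T.sideMirror_fix h3']; exact h3'
      · push_cast
        linarith
    | succ n ih =>
      obtain ⟨g, γ, t, j, hU, hE, hρt, htδ, hja, hjb, hsum⟩ := ih
      obtain ⟨k, t', hstep⟩ := step_interval hU hE hns
      obtain ⟨h1, h2, h3, h4⟩ := hstep 0 h0mem
      obtain ⟨h1', h2', h3', h4'⟩ := hstep δ hδmem
      have hjk : j ≠ k := by
        rintro rfl
        have ha := (T.bc_of_mem_side hja).1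
        have hb := (T.bc_of_mem_side h3).1
        have hc := (T.mem_table.mp (h2 ((t 0 + t' 0) / 2) (by linarith) (by linarith))) j
        rw [T.bc_unf hU] at ha hb hc
        have hm : (T.bc j).linear (dirVec (γ (θ₀ + ((0 : ℝ) : Dir)))) = 0 := by
          have : (t' 0 - t 0) * (T.bc j).linear (dirVec (γ (θ₀ + ((0 : ℝ) : Dir)))) = 0 := by
            linarith
          rcases mul_eq_zero.mp this with h | h
          · linarith
          · exact h
        rw [hm] at ha hc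
        linarith
      have e0 : θ₀ + ((0 : ℝ) : Dir) = θ₀ := by simp
      have hja0 := hja
      have h30 := h3
      rw [e0] at hja0 h30
      have hinc := increment hU hCb hLb hδ.le hδpi hjk hρt hja0 hjb h30 h3' h1.le h1'.le
      have hinc' : η ≤ (t' 0 - t 0) + (t' δ - t δ) := by
        rw [hη, div_le_iff₀ (by positivity)]
        linarith
      refine ⟨_, _, t', k, Triangle.Unf.mirror T hU k, fun s hs => (hstep s hs).2.2.2,
        by linarith, by linarith, ?_, ?_, ?_⟩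
      · rw [T.sideMirror_fix h3]; exact h3
      · rw [T.sideMirror_fix h3']; exact h3'
      · push_cast
        linarith
  -- the two rays cannot share infinitely many sides
  obtain ⟨n, hn⟩ := exists_nat_gt (2 * L / Real.sin δ / η)
  obtain ⟨g, γ, t, j, hU, hE, hρt, htδ, hja, hjb, hsum⟩ := key n
  have hd := T.dist_side_le hja hjb
  rw [hU.norm_sub] at hd
  have hdiv := diverge θ₀ δ x (t 0) (t δ)
  have e0 : θ₀ + ((0 : ℝ) : Dir) = θ₀ := by simp
  rw [e0] at hd
  have h1 : t 0 * Real.sin δ ≤ L := le_trans hdiv.1 (le_trans hd (hLb j))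
  have h2 : t δ * Real.sin δ ≤ L := le_trans hdiv.2 (le_trans hd (hLb j))
  have h3 : (n : ℝ) * η * Real.sin δ ≤ 2 * L := by nlinarith
  have h4 : 2 * L / Real.sin δ / η < n := hn
  rw [div_lt_iff₀ hηpos, div_lt_iff₀ hsin] at h4
  linarith

end Triangle

end Vale.Agent.Lib.P099
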