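import Vale.Agent.Lib.P099.EigenMain

/-!
# Billiards in a triangle: a continuous eigenfunction is almost constant near a vertex

Near a vertex with an irrational angle, a continuous eigenfunction of the billiard flow is
uniformly close to the constant attached to this vertex, in all directions.  The first step
is a uniform version of the passage of a trajectory close to the vertex.
-/

namespace Vale.Agent.Lib.P099

open Set Filter Topology

lemma div_sin_sq (ε x : ℝ) (hs : Real.sin x ≠ 0) :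
    (ε / Real.sin x) ^ 2 = ε ^ 2 + (ε * (-Real.cos x / Real.sin x)) ^ 2 := by
  have hsc := Real.sin_sq_add_cos_sq x
  field_simp
  linear_combination (-ε ^ 2) * hsc

lemma sq_lt_aux (w R q ε : ℝ) (hlow : -R < w) (hupp : w < R) (hε : 0 < ε) (hεR : ε < R / 2)
    (hqsq : q ^ 2 = ε ^ 2 + w ^ 2) : q < 2 * R := by
  by_contra hcon
  have h3 : 2 * R ≤ q := not_lt.mp hcon
  have hR : 0 < R := by linarith
  have h4 : (2 * R) ^ 2 ≤ q ^ 2 := pow_le_pow_left₀ (by linarith) h3 2
  have h5 : w ^ 2 < R ^ 2 := by nlinarith [mul_pos (sub_pos.mpr hupp) (by linarith : 0 < w + R)]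
  rw [hqsq] at h4
  nlinarith

namespace Frame

variable {T : Triangle} {i j k : Fin 3} (F : Frame T i j k)

lemma E_add_half_pi (φ : ℝ) : F.E (φ + Real.pi / 2) = F.E φ * ((F.sg : ℂ) * Complex.I) := by
  rw [F.E_add, F.exp_sg, Real.cos_pi_div_two, Real.sin_pi_div_two]
  push_cast; ring

lemma xε_eq (φ s₀ ε : ℝ) :
    F.xε φ s₀ ε = T.vertex i + (s₀ : ℂ) * F.E φ + (ε : ℂ) * F.E (φ + Real.pi / 2) := by
  unfold xε
  rw [F.E_add_half_pi]
  push_cast; ring

lemma bc_lin_E (ψ : ℝ) :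
    (T.bc j).linear (F.E ψ) = Real.sin (F.α - ψ) / (F.la * Real.sin F.α) ∧
    (T.bc k).linear (F.E ψ) = Real.sin ψ / (F.lb * Real.sin F.α) := by
  obtain ⟨-, h2, h3⟩ := F.bc_point 1 ψ
  rw [T.bc_add_smul, T.bc_vertex_ne F.hij.symm] at h2
  rw [T.bc_add_smul, T.bc_vertex_ne F.hik.symm] at h3
  simp only [zero_add, one_mul] at h2 h3
  exact ⟨h2, h3⟩

/-- The barycentric coordinate, with respect to the side through `i` and `k`, of the
starting point of a line passing close to the vertex. -/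
lemma bc_xε (φ s₀ ε : ℝ) :
    T.bc j (F.xε φ s₀ ε)
      = (s₀ * Real.sin (F.α - φ) - ε * Real.cos (F.α - φ)) / (F.la * Real.sin F.α) := by
  rw [F.xε_eq, T.bc_add_smul, T.bc_add_smul, T.bc_vertex_ne F.hij.symm, (F.bc_lin_E φ).1,
    (F.bc_lin_E (φ + Real.pi / 2)).1]
  have e : F.α - (φ + Real.pi / 2) = (F.α - φ) - Real.pi / 2 := by ring
  rw [e, Real.sin_sub_pi_div_two]
  ring

lemma cN_le {φ : ℝ} (hφα : φ < F.α) {N : ℕ} (hN1 : N * F.α < φ + Real.pi)
    {m m' : ℕ} (hm1 : 1 ≤ m) (hmm : m ≤ m') (hmN : m' ≤ N) : F.cN φ m ≤ F.cN φ m' := by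
  induction m', hmm using Nat.le_induction with
  | base => exact le_rfl
  | succ n hn ih =>
    have h1 := ih (by omega)
    have h2 := F.cN_lt hφα hN1 (by omega : 1 ≤ n) hmN
    linarith

lemma r₀_le : F.r₀ ≤ min F.la F.lb / 2 := by
  unfold r₀
  have h1 := Real.sin_le_one F.α
  have h2 := lt_min F.hla F.hlb
  nlinarith

/-- Uniform passage: a continuous eigenfunction, evaluated on a line passing at a small
distance from the vertex (on the side of the increasing polar angles) and leaving the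
vertex in a direction which is not close to the two sides, is close to the value
prescribed by the ray leaving the vertex. -/
lemma passage_uniform {Fn : ℂ × Dir → ℂ} {lam : ℝ} (hFc : ContinuousOn Fn (T.table ×ˢ univ))
    (hinv : ∀ (t : ℝ) (p q : ℂ × Dir), T.Reach t p q → p.1 ∈ T.table → q.1 ∈ T.table →
      Fn q = Complex.exp (lam * t * Complex.I) * Fn p)
    {c : ℂ} (hout : ∀ ψ : ℝ, 0 < ψ → ψ < F.α →
      Fn (T.vertex i + ((F.r₀ / 2 : ℝ) : ℂ) * F.E ψ, F.dE ψ) = c * ph lam (F.r₀ / 2))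
    {κ ε' : ℝ} (hκ : 0 < κ) (hκπ : κ < Real.pi / 2) (hε' : 0 < ε') :
    ∃ δ : ℝ, 0 < δ ∧ ∀ φ s₀ ε : ℝ, φ < F.α → 0 < ε → ε < δ → |s₀| < δ →
      F.xε φ s₀ ε ∈ T.table →
      (∃ N : ℕ, N * F.α + κ ≤ φ + Real.pi ∧ φ + Real.pi ≤ (N + 1) * F.α - κ) →
      ‖Fn (F.xε φ s₀ ε, F.dE (φ + Real.pi)) - c * ph lam (-s₀)‖ < ε' := by
  have hπ := Real.pi_pos
  have hα := F.hα0
  obtain ⟨R, hR⟩ : ∃ R : ℝ, R = F.r₀ / 2 := ⟨_, rfl⟩
  rw [← hR] at hout
  have hRpos : 0 < R := by have := F.r₀_pos; rw [hR]; linarith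
  have hRlt : R < F.r₀ := by have := F.r₀_pos; rw [hR]; linarith
  have hopen : IsOpen (T.table ×ˢ (univ : Set Dir)) := T.isOpen_table.prod isOpen_univ
  -- the end point of the passage with `N` reflections
  set Y : ℕ → ℝ → ℝ → ℂ := fun N φ ε =>
    T.unfG F.J N (T.vertex i + (((-R : ℝ) : ℂ) + ((F.sg * ε : ℝ) : ℂ) * Complex.I) * F.E φ) with hY
  -- for every number of reflections, a uniform smallness
  have hN : ∀ N : ℕ, ∃ δ : ℝ, 0 < δ ∧ ∀ φ ε : ℝ, N * F.α + κ ≤ φ + Real.pi →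
      φ + Real.pi ≤ (N + 1) * F.α - κ → |ε| < δ →
      Y N φ ε ∈ T.table ∧
        ‖Fn (Y N φ ε, F.dE (F.fN N (φ + Real.pi))) - c * ph lam R‖ < ε' := by
    intro N
    set Φ : ℝ × ℝ → ℂ × Dir := fun p => (Y N p.1 p.2, F.dE (F.fN N (p.1 + Real.pi))) with hΦ
    have hΦc : Continuous Φ := by
      apply Continuous.prodMk
      · simp only [hY]
        apply (T.unf_unfG F.J N).continuous.comp
        apply continuous_const.add
        apply Continuous.mul
        · fun_prop
        · exact F.continuous_E.comp continuous_fst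
      · exact F.continuous_dE.comp ((F.continuous_fN N).comp (by fun_prop))
    set S : Set (ℂ × Dir) := (T.table ×ˢ (univ : Set Dir)) ∩
      Fn ⁻¹' (Metric.ball (c * ph lam R) ε') with hS
    have hSo : IsOpen S := hFc.isOpen_inter_preimage hopen Metric.isOpen_ball
    set K : Set (ℝ × ℝ) := Icc (N * F.α + κ - Real.pi) ((N + 1) * F.α - κ - Real.pi) ×ˢ {0}
      with hK
    have hKc : IsCompact K := isCompact_Icc.prod isCompact_singleton
    have hKW : K ⊆ Φ ⁻¹' S := by
      rintro ⟨φ, ε⟩ ⟨hφ, hε0⟩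
      simp only [mem_singleton_iff] at hε0
      subst hε0
      simp only [mem_Icc] at hφ
      have hψ : 0 < F.fN N (φ + Real.pi) ∧ F.fN N (φ + Real.pi) < F.α := by
        unfold fN
        split_ifs
        · constructor <;> linarith
        · constructor <;> linarith
      have hY0 : Y N φ 0 = T.vertex i + (R : ℂ) * F.E (F.fN N (φ + Real.pi)) := by
        simp only [hY]
        rw [← F.unfG_E, F.E_add_pi]
        congr 1
        push_cast; ring
      have hmem : Y N φ 0 ∈ T.table := by rw [hY0]; exact F.mem_table hRpos hRlt hψ.1 hψ.2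
      refine ⟨⟨hmem, mem_univ _⟩, ?_⟩
      simp only [hΦ, mem_preimage, Metric.mem_ball]
      rw [hY0, hout _ hψ.1 hψ.2, dist_self]
      exact hε'
    obtain ⟨δ, hδ, hthick⟩ := hKc.exists_thickening_subset_open (hSo.preimage hΦc) hKW
    refine ⟨δ, hδ, ?_⟩
    intro φ ε h1 h2 hε
    have hmem : (φ, ε) ∈ Metric.thickening δ K := by
      rw [Metric.mem_thickening_iff]
      refine ⟨(φ, 0), ⟨⟨by linarith, by linarith⟩, rfl⟩, ?_⟩
      rw [Prod.dist_eq]
      simp only [dist_self, Real.dist_eq, sub_zero]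
      rw [max_lt_iff]
      exact ⟨hδ, hε⟩
    have h3 := hthick hmem
    obtain ⟨⟨h4, -⟩, h5⟩ := h3
    refine ⟨h4, ?_⟩
    simpa [Metric.mem_ball, dist_eq_norm] using h5
  -- a uniform smallness for all the numbers of reflections up to a bound
  have hall : ∀ M : ℕ, ∃ δ : ℝ, 0 < δ ∧ ∀ N : ℕ, N ≤ M → ∀ φ ε : ℝ, N * F.α + κ ≤ φ + Real.pi →
      φ + Real.pi ≤ (N + 1) * F.α - κ → |ε| < δ →
      Y N φ ε ∈ T.table ∧
        ‖Fn (Y N φ ε, F.dE (F.fN N (φ + Real.pi))) - c * ph lam R‖ < ε' := by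
    intro M
    induction M with
    | zero =>
      obtain ⟨δ, hδ, h⟩ := hN 0
      refine ⟨δ, hδ, ?_⟩
      intro N hN0
      have : N = 0 := by omega
      subst this
      exact h
    | succ M ih =>
      obtain ⟨δ₁, hδ₁, h₁⟩ := ih
      obtain ⟨δ₂, hδ₂, h₂⟩ := hN (M + 1)
      refine ⟨min δ₁ δ₂, lt_min hδ₁ hδ₂, ?_⟩
      intro N hNM φ ε ha hb hε
      rcases Nat.lt_or_ge N (M + 1) with hlt | hge
      · exact h₁ N (by omega) φ ε ha hb (lt_of_lt_of_le hε (min_le_left _ _))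
      · have : N = M + 1 := by omega
        subst this
        exact h₂ φ ε ha hb (lt_of_lt_of_le hε (min_le_right _ _))
  set M := ⌈(F.α + Real.pi) / F.α⌉₊ with hM
  obtain ⟨δ₁, hδ₁, hprop⟩ := hall M
  have hsκ : 0 < Real.sin κ := Real.sin_pos_of_pos_of_lt_pi hκ (by linarith)
  refine ⟨min δ₁ (min (R / 2) (R * Real.sin κ)), lt_min hδ₁ (lt_min (by linarith) (by positivity)),
    ?_⟩
  intro φ s₀ ε hφα hε hεδ hs₀ hx ⟨N, hNa, hNb⟩
  have hεδ₁ : ε < δ₁ := lt_of_lt_of_le hεδ (min_le_left _ _)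
  have hεR : ε < R / 2 :=
    lt_of_lt_of_le hεδ (le_trans (min_le_right _ _) (min_le_left _ _))
  have hεκ : ε < R * Real.sin κ :=
    lt_of_lt_of_le hεδ (le_trans (min_le_right _ _) (min_le_right _ _))
  have hs₀R : |s₀| < R / 2 :=
    lt_of_lt_of_le hs₀ (le_trans (min_le_right _ _) (min_le_left _ _))
  obtain ⟨hs₀a, hs₀b⟩ := abs_lt.mp hs₀R
  have hN1 : N * F.α < φ + Real.pi := by linarith
  have hNM : N ≤ M := by
    have h1 : (N : ℝ) * F.α < F.α + Real.pi := by linarith
    have h2 : (N : ℝ) < (F.α + Real.pi) / F.α := by rw [lt_div_iff₀ hα]; exact h1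
    have h3 := Nat.le_ceil ((F.α + Real.pi) / F.α)
    have h4 : (N : ℝ) < (M : ℝ) := lt_of_lt_of_le h2 h3
    exact_mod_cast h4.le
  obtain ⟨hYmem, hclose⟩ := hprop N hNM φ ε hNa hNb (by rw [abs_of_pos hε]; exact hεδ₁)
  have hsin : ∀ m : ℕ, 1 ≤ m → m ≤ N → 0 < Real.sin (m * F.α - φ) :=
    fun m hm1 hmN => F.sin_pos_of_le hφα hN1 hm1 hmN
  -- the first crossing time is positive
  have h1 : 1 ≤ N → 0 < s₀ + ε * F.cN φ 1 := by
    intro hN1'
    have hs := hsin 1 le_rfl hN1'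
    have hb := (T.mem_table.mp hx) j
    rw [F.bc_xε] at hb
    have hden : 0 < F.la * Real.sin F.α := mul_pos F.hla F.sin_α_pos
    have hnum : 0 < s₀ * Real.sin (F.α - φ) - ε * Real.cos (F.α - φ) := by
      by_contra hcon
      have : (s₀ * Real.sin (F.α - φ) - ε * Real.cos (F.α - φ)) / (F.la * Real.sin F.α) ≤ 0 :=
        div_nonpos_of_nonpos_of_nonneg (not_lt.mp hcon) hden.le
      linarith
    unfold cN
    have e : ((1 : ℕ) : ℝ) * F.α - φ = F.α - φ := by push_cast; ring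
    rw [e] at hs ⊢
    have e2 : s₀ + ε * (-Real.cos (F.α - φ) / Real.sin (F.α - φ))
        = (s₀ * Real.sin (F.α - φ) - ε * Real.cos (F.α - φ)) / Real.sin (F.α - φ) := by
      field_simp
      ring
    rw [e2]
    exact div_pos hnum hs
  -- the last crossing time is before the end
  have h2 : 1 ≤ N → ε * F.cN φ N < R := by
    intro hN1'
    have hs := hsin N hN1' le_rfl
    unfold cN
    set x := (N : ℝ) * F.α - φ with hx'
    have hxle : x ≤ Real.pi - κ := by rw [hx']; linarith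
    have hx0 : 0 < x := by
      have h1' : (1 : ℝ) ≤ N := by exact_mod_cast hN1'
      rw [hx']; nlinarith
    rcases le_or_gt 0 (Real.cos x) with hc | hc
    · have : ε * (-Real.cos x / Real.sin x) ≤ 0 := by
        apply mul_nonpos_of_nonneg_of_nonpos hε.le
        apply div_nonpos_of_nonpos_of_nonneg (by linarith) hs.le
      linarith
    · have hxgt : Real.pi / 2 < x := by
        by_contra hcon
        have := Real.cos_nonneg_of_mem_Icc (x := x) ⟨by linarith, not_lt.mp hcon⟩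
        linarith
      have hsk : Real.sin κ ≤ Real.sin x := by
        rw [← Real.sin_pi_sub x]
        exact Real.sin_le_sin_of_le_of_le_pi_div_two (by linarith) (by linarith) (by linarith)
      have hcos : -Real.cos x ≤ 1 := by have := Real.neg_one_le_cos x; linarith
      have e : ε * (-Real.cos x / Real.sin x) = ε * (-Real.cos x) / Real.sin x := by ring
      rw [e, div_lt_iff₀ hs]
      nlinarith
  -- the crossing points are close to the vertex
  have hsmall : ∀ m : ℕ, 1 ≤ m → m ≤ N → ε / Real.sin (m * F.α - φ) < min F.la F.lb := by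
    intro m hm1 hmN
    have hs := hsin m hm1 hmN
    have hN1' : 1 ≤ N := le_trans hm1 hmN
    have ha := F.cN_le hφα hN1 le_rfl hm1 hmN
    have hb := F.cN_le hφα hN1 hm1 hmN le_rfl
    have hlow : -R < ε * F.cN φ m := by
      have := h1 hN1'
      nlinarith
    have hupp : ε * F.cN φ m < R := by
      have := h2 hN1'
      nlinarith
    have hqsq := div_sin_sq ε (m * F.α - φ) hs.ne'
    have hlt : ε / Real.sin (m * F.α - φ) < 2 * R :=
      sq_lt_aux (ε * F.cN φ m) R _ ε hlow hupp hε hεR hqsq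
    have h6 : F.r₀ = 2 * R := by rw [hR]; ring
    have := F.r₀_le
    have h7 := lt_min F.hla F.hlb
    linarith
  have hθ : dirVec (F.dE (φ + Real.pi)) = -F.E φ := by rw [F.dirVec_dE, F.E_add_pi]
  have hend : F.xε φ s₀ ε + ((s₀ + R : ℝ) : ℂ) * dirVec (F.dE (φ + Real.pi))
      = T.vertex i + (((-R : ℝ) : ℂ) + ((F.sg * ε : ℝ) : ℂ) * Complex.I) * F.E φ := by
    rw [hθ]
    unfold xε
    push_cast; ring
  have hy : T.unfG F.J N (F.xε φ s₀ ε + ((s₀ + R : ℝ) : ℂ) * dirVec (F.dE (φ + Real.pi)))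
      ∈ T.table := by
    rw [hend]; exact hYmem
  have hreach := F.reach_passage hφα N hN1 (by linarith : 0 < s₀ + R) hε hx hy hsmall h1 h2
  have hI := hinv _ _ _ hreach hx hy
  rw [hend] at hI
  have hI' : Fn (Y N φ ε, F.dE (F.fN N (φ + Real.pi)))
      = ph lam (s₀ + R) * Fn (F.xε φ s₀ ε, F.dE (φ + Real.pi)) := by
    rw [show Y N φ ε = T.unfG F.J N (T.vertex i + (((-R : ℝ) : ℂ) + ((F.sg * ε : ℝ) : ℂ) * Complex.I)
      * F.E φ) from rfl, hI]
    unfold ph
    push_cast
    ring_nf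
  have hA := ph_ne_zero lam (s₀ + R)
  have hnorm : ‖ph lam (s₀ + R)‖ = 1 := norm_exp_lam lam (s₀ + R)
  have e1 : ph lam (s₀ + R) * (c * ph lam (-s₀)) = c * ph lam R := by
    rw [show R = (s₀ + R) + (-s₀) by ring, ph_add lam (s₀ + R) (-s₀)]
    have : (s₀ + R + -s₀) = R := by ring
    rw [this]
    ring
  have e2 : Fn (Y N φ ε, F.dE (F.fN N (φ + Real.pi))) - c * ph lam R
      = ph lam (s₀ + R) * (Fn (F.xε φ s₀ ε, F.dE (φ + Real.pi)) - c * ph lam (-s₀)) := by
    rw [mul_sub, e1, hI']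
  rw [e2, norm_mul, hnorm, one_mul] at hclose
  exact hclose

end Frame

end Vale.Agent.Lib.P099
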