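import Vale.Agent.Lib.P099.Passage
import Vale.Agent.Lib.P099.Fold

/-!
# Billiards in a triangle: a continuous invariant function is constant on the
trajectories running into a vertex with an irrational angle
-/

namespace Vale.Agent.Lib.P099

open Set Filter Topology

namespace Triangle

variable (T : Triangle)

/-- A free flight between two points of the table. -/
lemma reach_segment {X Y : ℂ} (hX : X ∈ T.table) (hY : Y ∈ T.table) {θ : Dir} {d : ℝ}
    (hd : 0 ≤ d) (hXY : Y = X + (d : ℂ) * dirVec θ) : T.Reach d (X, θ) (Y, θ) := by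
  rw [hXY]
  apply T.reach_free hd
  intro s hs hsd
  have hdpos : 0 < d := lt_of_lt_of_le hs hsd
  rcases hsd.lt_or_eq with hlt | heq
  · have hlam : X + (s : ℂ) * dirVec θ = X + ((s / d : ℝ) : ℂ) * (Y - X) := by
      rw [hXY, add_sub_cancel_left]
      have hne : (d : ℂ) ≠ 0 := by exact_mod_cast hdpos.ne'
      rw [Complex.ofReal_div]
      field_simp
    rw [hlam]
    apply T.seg_mem_table (fun i => ((T.mem_table.mp hX) i).le)
      (fun i => ((T.mem_table.mp hY) i).le) (fun i => Or.inl ((T.mem_table.mp hX) i))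
    · exact div_pos hs hdpos
    · rw [div_lt_one hdpos]; exact hlt
  · rw [heq, ← hXY]; exact hY

end Triangle

namespace Frame

variable {T : Triangle} {i j k : Fin 3} (F : Frame T i j k)

lemma continuous_E : Continuous F.E := by
  unfold E
  fun_prop

lemma continuous_dE : Continuous F.dE := by
  unfold dE
  exact (AddCircle.continuous_mk' _).comp (by fun_prop)

lemma fold_eq_fN {x : ℝ} {N : ℕ} (h1 : N * F.α < x) (h2 : x < (N + 1) * F.α) :
    fold F.α x = F.fN N x := by
  have h := fold_of_mem F.hα0 (x := x) (n := (N : ℤ)) (by push_cast; exact h1.le)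
    (by push_cast; exact h2)
  rw [h, fN]
  by_cases hN : N % 2 = 0
  · have he : Even (N : ℤ) := (Int.even_coe_nat N).mpr (Nat.even_iff.mpr hN)
    rw [if_pos he, if_pos hN]; push_cast; ring
  · have he : ¬ Even (N : ℤ) := fun h => hN (Nat.even_iff.mp ((Int.even_coe_nat N).mp h))
    rw [if_neg he, if_neg hN]; push_cast; ring

/-- For a non-lattice positive number, the integer part as a natural number. -/
lemma exists_nat_between {x : ℝ} (hx0 : 0 < x) (hx : ∀ n : ℤ, x ≠ n * F.α) :
    ∃ N : ℕ, N * F.α < x ∧ x < (N + 1) * F.α := by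
  obtain ⟨h1, h2⟩ := floor_bounds F.hα0 x
  have h1' : (⌊x / F.α⌋ : ℝ) * F.α < x := lt_of_le_of_ne h1 (fun h => hx _ h.symm)
  have hnn : 0 ≤ ⌊x / F.α⌋ := Int.floor_nonneg.mpr (div_pos hx0 F.hα0).le
  obtain ⟨N, hN⟩ := Int.eq_ofNat_of_zero_le hnn
  refine ⟨N, ?_, ?_⟩
  · have : ((⌊x / F.α⌋ : ℤ) : ℝ) = (N : ℝ) := by rw [hN]; simp
    rw [← this]; exact h1'
  · have : ((⌊x / F.α⌋ : ℤ) : ℝ) = (N : ℝ) := by rw [hN]; simp
    rw [← this]; exact h2

end Frame

namespace Triangle

variable {T : Triangle}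

/-- A continuous function invariant along the trajectories takes one and the same value
at all the phase points aimed at a vertex whose angle is an irrational multiple of `π`. -/
theorem vertex_const {Fn : ℂ × Dir → ℂ} (hFc : ContinuousOn Fn (T.table ×ˢ univ))
    (hinv : ∀ (t : ℝ) (p q : ℂ × Dir), T.Reach t p q → p.1 ∈ T.table → q.1 ∈ T.table →
      Fn q = Fn p)
    (i : Fin 3) (hirr : Irrational (T.interiorAngle i / Real.pi)) :
    ∃ c : ℂ, ∀ y ∈ T.table, ∀ θ : Dir,
      (∃ s : ℝ, 0 < s ∧ y + (s : ℂ) * dirVec θ = T.vertex i) → Fn (y, θ) = c := by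
  have hπ := Real.pi_pos
  have hα0 : 0 < T.interiorAngle i := by
    rcases (EuclideanGeometry.angle_nonneg (T.vertex (i + 1)) (T.vertex i)
      (T.vertex (i + 2))).lt_or_eq with h | h
    · exact h
    · exfalso
      apply hirr.ne_rational 0 1
      unfold interiorAngle
      rw [← h]; simp
  have hαπ : T.interiorAngle i < Real.pi := by
    rcases (EuclideanGeometry.angle_le_pi (T.vertex (i + 1)) (T.vertex i)
      (T.vertex (i + 2))).lt_or_eq with h | h
    · exact h
    · exfalso
      apply hirr.ne_rational 1 1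
      unfold interiorAngle
      rw [h]; simp [hπ.ne']
  obtain ⟨F, hFα⟩ := T.exists_frame (fin3_ne_add_one i) (fin3_ne_add_two i)
    (fin3_add_one_ne_add_two i) hα0 hαπ
  have hFα' : F.α = T.interiorAngle i := hFα
  set v := T.vertex i with hv
  set s₀ := F.r₀ / 2 with hs₀
  have hs₀pos : 0 < s₀ := by have := F.r₀_pos; rw [hs₀]; linarith
  have hs₀lt : s₀ < F.r₀ := by have := F.r₀_pos; rw [hs₀]; linarith
  set H : ℝ → ℂ := fun φ => Fn (v + (s₀ : ℂ) * F.E φ, F.dE (φ + Real.pi)) with hH
  set G : ℝ → ℂ := fun ψ => Fn (v + (s₀ : ℂ) * F.E ψ, F.dE ψ) with hG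
  have hGc : ContinuousOn G (Ioo 0 F.α) := by
    have hmap : Continuous (fun ψ : ℝ => (v + (s₀ : ℂ) * F.E ψ, F.dE ψ)) :=
      (continuous_const.add (continuous_const.mul F.continuous_E)).prodMk F.continuous_dE
    apply hFc.comp hmap.continuousOn
    intro ψ hψ
    exact ⟨F.mem_table hs₀pos hs₀lt hψ.1 hψ.2, mem_univ _⟩
  have hL : ∀ φ, 0 < φ → φ < F.α → (∀ n : ℤ, φ + Real.pi ≠ n * F.α) →
      H φ = G (fold F.α (φ + Real.pi)) := by
    intro φ hφ0 hφα hlat
    obtain ⟨N, hN1, hN2⟩ := F.exists_nat_between (by linarith) hlat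
    rw [F.fold_eq_fN hN1 hN2]
    exact F.passage hFc hinv hφ0 hφα N hN1 hN2 hs₀pos hs₀lt hs₀pos hs₀lt
  have hR : ∀ φ, 0 < φ → φ < F.α → (∀ n : ℤ, φ - Real.pi ≠ n * F.α) →
      H φ = G (fold F.α (φ - Real.pi)) := by
    intro φ hφ0 hφα hlat
    have hlat' : ∀ n : ℤ, (F.α - φ) + Real.pi ≠ n * F.flip.α := by
      intro n h
      apply hlat (1 - n)
      rw [F.flip_α] at h
      push_cast; linarith
    obtain ⟨N, hN1, hN2⟩ := F.flip.exists_nat_between (by linarith [F.hα0]) hlat'
    have hp := F.flip.passage hFc hinv (φ := F.α - φ) (by linarith) (by rw [F.flip_α]; linarith)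
      N hN1 hN2 (s₀ := s₀) (s₁ := s₀) hs₀pos (by rw [F.flip_r₀]; exact hs₀lt) hs₀pos
      (by rw [F.flip_r₀]; exact hs₀lt)
    rw [F.flip_E, F.flip_dE, F.flip_E, F.flip_dE] at hp
    have e1 : F.α - (F.α - φ) = φ := by ring
    have e2 : F.α - (F.α - φ + Real.pi) = (φ - Real.pi) := by ring
    rw [e1, e2] at hp
    have e3 : F.dE (φ - Real.pi) = F.dE (φ + Real.pi) := by
      have := F.dE_add_two_pi (φ - Real.pi)
      rw [← this]; congr 1; ring
    rw [e3] at hp
    -- identify the angle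
    have hfold : fold F.α (φ - Real.pi) = F.α - F.flip.fN N (F.α - φ + Real.pi) := by
      rw [F.flip_α] at hN1 hN2
      have h := fold_of_mem F.hα0 (x := φ - Real.pi) (n := -(N : ℤ)) (by push_cast; linarith)
        (by push_cast; linarith)
      rw [h, Frame.fN, F.flip_α]
      by_cases hN : N % 2 = 0
      · have he : Even (-(N : ℤ)) := by
          rw [even_neg]; exact (Int.even_coe_nat N).mpr (Nat.even_iff.mpr hN)
        rw [if_pos he, if_pos hN]; push_cast; ring
      · have he : ¬ Even (-(N : ℤ)) := by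
          rw [even_neg]
          exact fun h => hN (Nat.even_iff.mp ((Int.even_coe_nat N).mp h))
        rw [if_neg he, if_neg hN]; push_cast; ring
    rw [hfold]
    exact hp
  have hirr' : Irrational (F.α / Real.pi) := by rw [hFα']; exact hirr
  obtain ⟨c, hc⟩ := const_of_passages F.hα0 hirr' hGc hL hR
  refine ⟨c, ?_⟩
  intro y hy θ hθ
  obtain ⟨s, hs, hys⟩ := hθ
  obtain ⟨r, ψ, hr, hψ0, hψα, hyr⟩ := F.exists_polar hy
  -- the direction is the one pointing to the vertex
  have hdir : (s : ℂ) * dirVec θ = (r : ℂ) * F.E (ψ + Real.pi) := by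
    rw [F.E_add_pi]
    have : (s : ℂ) * dirVec θ = v - y := by rw [← hys]; ring
    rw [this, hyr]; ring
  have hsr : s = r := by
    have h1 := congrArg norm hdir
    rw [norm_mul, norm_mul, norm_dirVec, F.norm_E, Complex.norm_real, Complex.norm_real,
      Real.norm_eq_abs, Real.norm_eq_abs, abs_of_pos hs, abs_of_pos hr] at h1
    linarith
  have hθ' : θ = F.dE (ψ + Real.pi) := by
    apply dirVec_injective
    rw [F.dirVec_dE]
    have hr' : (r : ℂ) ≠ 0 := by exact_mod_cast hr.ne'
    rw [hsr] at hdir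
    exact mul_left_cancel₀ hr' hdir
  have hu : dirVec θ = -F.E ψ := by rw [hθ', F.dirVec_dE, F.E_add_pi]
  have hP : v + (s₀ : ℂ) * F.E ψ ∈ T.table := F.mem_table hs₀pos hs₀lt hψ0 hψα
  have hval : Fn (y, θ) = Fn (v + (s₀ : ℂ) * F.E ψ, θ) := by
    rcases le_total s₀ r with hle | hle
    · have hR := T.reach_segment hy hP (θ := θ) (d := r - s₀) (by linarith)
        (by rw [hu, hyr]; push_cast; ring)
      exact (hinv _ _ _ hR hy hP).symm
    · have hR := T.reach_segment hP hy (θ := θ) (d := s₀ - r) (by linarith)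
        (by rw [hu, hyr]; push_cast; ring)
      exact hinv _ _ _ hR hP hy
  rw [hval, hθ']
  exact hc ψ hψ0 hψα

end Triangle

end Vale.Agent.Lib.P099
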