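import Vale.Agent.Lib.P099.Uniform
import Vale.Agent.Lib.P099.Reverse
import Vale.Agent.Lib.P099.Margin

/-!
# Billiards in a triangle: a continuous eigenfunction is almost constant near a vertex

Near a vertex with an irrational angle, a continuous eigenfunction of the billiard flow is
uniformly close to the constant attached to this vertex, in all directions.
-/

namespace Vale.Agent.Lib.P099

open Set Filter Topology

/-- The time reversal of a function on the phase space. -/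
noncomputable def revFn (Fn : ℂ × Dir → ℂ) : ℂ × Dir → ℂ :=
  fun p => (starRingEnd ℂ) (Fn (Triangle.reverse p))

/-- The standard form of an eigenfunction on the rays through the vertex `i`. -/
def RayForm (T : Triangle) (Fn : ℂ × Dir → ℂ) (lam : ℝ) (i : Fin 3) (c : ℂ) : Prop :=
  ∀ y ∈ T.table, ∀ θ : Dir, ∀ s : ℝ, 0 < s →
    (y + (s : ℂ) * dirVec θ = T.vertex i →
      Fn (y, θ) = c * Complex.exp (-(lam * s * Complex.I))) ∧
    (y = T.vertex i + (s : ℂ) * dirVec θ →
      Fn (y, θ) = c * Complex.exp (lam * s * Complex.I))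

lemma continuous_reverse : Continuous Triangle.reverse := by
  unfold Triangle.reverse
  fun_prop

lemma conj_exp_lam (lam s : ℝ) : (starRingEnd ℂ) (Complex.exp (lam * s * Complex.I))
    = Complex.exp (-(lam * s * Complex.I)) := by
  rw [← Complex.exp_conj]
  congr 1
  simp [Complex.conj_ofReal]

lemma conj_exp_neg_lam (lam s : ℝ) : (starRingEnd ℂ) (Complex.exp (-(lam * s * Complex.I)))
    = Complex.exp (lam * s * Complex.I) := by
  rw [← Complex.exp_conj]
  congr 1
  simp [Complex.conj_ofReal]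

namespace Triangle

variable {T : Triangle}

lemma revFn_continuousOn {Fn : ℂ × Dir → ℂ} (hFc : ContinuousOn Fn (T.table ×ˢ univ)) :
    ContinuousOn (revFn Fn) (T.table ×ˢ univ) := by
  unfold revFn
  apply Complex.continuous_conj.comp_continuousOn
  apply hFc.comp continuous_reverse.continuousOn
  intro p hp
  exact ⟨hp.1, mem_univ _⟩

lemma revFn_inv {Fn : ℂ × Dir → ℂ} {lam : ℝ}
    (hinv : ∀ (t : ℝ) (p q : ℂ × Dir), T.Reach t p q → p.1 ∈ T.table → q.1 ∈ T.table →
      Fn q = Complex.exp (lam * t * Complex.I) * Fn p) :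
    ∀ (t : ℝ) (p q : ℂ × Dir), T.Reach t p q → p.1 ∈ T.table → q.1 ∈ T.table →
      revFn Fn q = Complex.exp (lam * t * Complex.I) * revFn Fn p := by
  intro t p q hR hp hq
  have h := hinv t (reverse q) (reverse p) (reach_reverse hR hp hq) hq hp
  unfold revFn
  rw [h, map_mul, conj_exp_lam, ← mul_assoc, ← Complex.exp_add]
  simp

lemma revFn_rayForm {Fn : ℂ × Dir → ℂ} {lam : ℝ} {i : Fin 3} {c : ℂ}
    (hc : RayForm T Fn lam i c) : RayForm T (revFn Fn) lam i ((starRingEnd ℂ) c) := by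
  intro y hy θ s hs
  constructor
  · intro h
    have h1 : y = T.vertex i + (s : ℂ) * dirVec (θ + ((Real.pi : ℝ) : Dir)) := by
      rw [dirVec_add_pi, ← h]; ring
    have h2 := (hc y hy (θ + ((Real.pi : ℝ) : Dir)) s hs).2 h1
    change (starRingEnd ℂ) (Fn (y, θ + ((Real.pi : ℝ) : Dir))) = _
    rw [h2, map_mul, conj_exp_lam]
  · intro h
    have h1 : y + (s : ℂ) * dirVec (θ + ((Real.pi : ℝ) : Dir)) = T.vertex i := by
      rw [dirVec_add_pi, h]; ring
    have h2 := (hc y hy (θ + ((Real.pi : ℝ) : Dir)) s hs).1 h1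
    change (starRingEnd ℂ) (Fn (y, θ + ((Real.pi : ℝ) : Dir))) = _
    rw [h2, map_mul, conj_exp_neg_lam]

end Triangle

lemma norm_ph_sub_one_le (lam t : ℝ) : ‖ph lam t - 1‖ ≤ |lam| * |t| := by
  unfold ph
  have h := Real.norm_exp_I_mul_ofReal_sub_one_le (x := lam * t)
  have e : Complex.I * ((lam * t : ℝ) : ℂ) = (lam : ℂ) * (t : ℂ) * Complex.I := by
    push_cast; ring
  rw [e, Real.norm_eq_abs, abs_mul] at h
  exact h

lemma conj_ph (lam t : ℝ) : (starRingEnd ℂ) (ph lam t) = ph lam (-t) := by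
  unfold ph
  rw [conj_exp_lam]
  congr 1
  push_cast; ring

namespace Frame

variable {T : Triangle} {i j k : Fin 3} (F : Frame T i j k)

/-- The starting point of a line, in terms of its polar coordinates. -/
lemma xε_polar (r ψ φ : ℝ) :
    F.xε φ (r * Real.cos (ψ - φ)) (r * Real.sin (ψ - φ)) = T.vertex i + (r : ℂ) * F.E ψ := by
  unfold xε
  have h : F.E ψ = F.E φ * Complex.exp ((F.sg * (ψ - φ) : ℝ) * Complex.I) := by
    rw [← F.E_add]; congr 1; ring
  rw [h, F.exp_sg]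
  push_cast
  ring

lemma dE_add_pi (ω : ℝ) : F.dE ω + ((Real.pi : ℝ) : Dir) = F.dE (ω + Real.pi) := by
  apply dirVec_injective
  rw [Triangle.dirVec_add_pi, F.dirVec_dE, F.dirVec_dE, F.E_add_pi]

lemma E_sub_zsmul (x : ℝ) (n : ℤ) : F.E (x - n • (2 * Real.pi)) = F.E x := by
  unfold E
  congr 1
  rcases F.hsg with h | h
  · rw [h]
    have e : ((1 * (x - n • (2 * Real.pi)) : ℝ) : ℂ) * Complex.I
        = ((1 * x : ℝ) : ℂ) * Complex.I + ((-n : ℤ) : ℂ) * (2 * Real.pi * Complex.I) := by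
      push_cast; simp only [zsmul_eq_mul]; ring
    rw [e, Complex.exp_add, Complex.exp_int_mul_two_pi_mul_I, mul_one]
  · rw [h]
    have e : ((-1 * (x - n • (2 * Real.pi)) : ℝ) : ℂ) * Complex.I
        = ((-1 * x : ℝ) : ℂ) * Complex.I + ((n : ℤ) : ℂ) * (2 * Real.pi * Complex.I) := by
      push_cast; simp only [zsmul_eq_mul]; ring
    rw [e, Complex.exp_add, Complex.exp_int_mul_two_pi_mul_I, mul_one]

lemma exists_dE (θ : Dir) : ∃ ω : ℝ, F.dE ω = θ := by
  obtain ⟨t, rfl⟩ := QuotientAddGroup.mk_surjective θ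
  refine ⟨F.sg * (t - Complex.arg F.a), ?_⟩
  unfold dE
  have e : Complex.arg F.a + F.sg * (F.sg * (t - Complex.arg F.a)) = t := by
    rw [← mul_assoc, F.sg_sq]; ring
  rw [e]

/-- Every direction has a polar angle in a prescribed interval of length `2π`. -/
lemma exists_dE_Ioc (θ : Dir) (b : ℝ) :
    ∃ ω : ℝ, b < ω ∧ ω ≤ b + 2 * Real.pi ∧ F.dE ω = θ := by
  obtain ⟨ω₀, rfl⟩ := F.exists_dE θ
  have hmem := toIocMod_mem_Ioc Real.two_pi_pos b ω₀
  refine ⟨toIocMod Real.two_pi_pos b ω₀, hmem.1, hmem.2, ?_⟩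
  apply dirVec_injective
  rw [F.dirVec_dE, F.dirVec_dE, ← self_sub_toIocDiv_zsmul, F.E_sub_zsmul]

/-- Lines passing the vertex on the side of the increasing polar angles: a continuous
eigenfunction is close to the constant of the vertex. -/
lemma uniform_side {Fn : ℂ × Dir → ℂ} {lam : ℝ} (hFc : ContinuousOn Fn (T.table ×ˢ univ))
    (hinv : ∀ (t : ℝ) (p q : ℂ × Dir), T.Reach t p q → p.1 ∈ T.table → q.1 ∈ T.table →
      Fn q = Complex.exp (lam * t * Complex.I) * Fn p)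
    {c : ℂ} (hc : RayForm T Fn lam i c) {κ : ℝ} (hκ : 0 < κ) (hκπ : κ < Real.pi / 2)
    (hm : ∀ n : ℤ, 2 * κ ≤ |Real.pi - n * F.α|) {ε' : ℝ} (hε' : 0 < ε') :
    ∃ δ : ℝ, 0 < δ ∧ ∀ r ψ ω : ℝ, 0 < r → r < δ → 0 < ψ → ψ < F.α → ψ < ω → ω < ψ + Real.pi →
      T.vertex i + (r : ℂ) * F.E ψ ∈ T.table →
      ‖Fn (T.vertex i + (r : ℂ) * F.E ψ, F.dE ω) - c‖ < ε' := by
  have hπ := Real.pi_pos
  have hR : 0 < F.r₀ / 2 := by have := F.r₀_pos; linarith
  have hRlt : F.r₀ / 2 < F.r₀ := by have := F.r₀_pos; linarith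
  -- the values on the rays leaving the vertex, for the function and its time reversal
  have hout : ∀ ψ : ℝ, 0 < ψ → ψ < F.α →
      Fn (T.vertex i + ((F.r₀ / 2 : ℝ) : ℂ) * F.E ψ, F.dE ψ) = c * ph lam (F.r₀ / 2) := by
    intro ψ h0 h1
    exact (hc _ (F.mem_table hR hRlt h0 h1) (F.dE ψ) (F.r₀ / 2) hR).2 (by rw [F.dirVec_dE])
  have hout' : ∀ ψ : ℝ, 0 < ψ → ψ < F.flip.α →
      revFn Fn (T.vertex i + ((F.flip.r₀ / 2 : ℝ) : ℂ) * F.flip.E ψ, F.flip.dE ψ)
        = (starRingEnd ℂ) c * ph lam (F.flip.r₀ / 2) := by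
    intro ψ h0 h1
    have hR' : 0 < F.flip.r₀ / 2 := by rw [F.flip_r₀]; exact hR
    have hRlt' : F.flip.r₀ / 2 < F.flip.r₀ := by rw [F.flip_r₀]; exact hRlt
    exact (Triangle.revFn_rayForm hc _ (F.flip.mem_table hR' hRlt' h0 h1) (F.flip.dE ψ)
      (F.flip.r₀ / 2) hR').2 (by rw [F.flip.dirVec_dE])
  have hε2 : 0 < ε' / 2 := by linarith
  obtain ⟨δ₁, hδ₁, h₁⟩ := F.passage_uniform hFc hinv hout hκ hκπ hε2
  obtain ⟨δ₂, hδ₂, h₂⟩ := F.flip.passage_uniform (Triangle.revFn_continuousOn hFc)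
    (Triangle.revFn_inv hinv) hout' hκ hκπ hε2
  set δ₃ := ε' / (2 * (‖c‖ * |lam| + 1)) with hδ₃
  have hden : 0 < ‖c‖ * |lam| + 1 := by positivity
  have hδ₃pos : 0 < δ₃ := by rw [hδ₃]; positivity
  have hphase : ∀ t : ℝ, |t| < δ₃ → ‖c * ph lam t - c‖ < ε' / 2 := by
    intro t ht
    have e : c * ph lam t - c = c * (ph lam t - 1) := by ring
    rw [e, norm_mul]
    have h1 := norm_ph_sub_one_le lam t
    have h2 : ‖c‖ * ‖ph lam t - 1‖ ≤ ‖c‖ * (|lam| * |t|) :=
      mul_le_mul_of_nonneg_left h1 (norm_nonneg _)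
    have h3 : ‖c‖ * (|lam| * |t|) ≤ (‖c‖ * |lam| + 1) * |t| := by
      have := abs_nonneg t
      nlinarith
    have h4 : (‖c‖ * |lam| + 1) * |t| < (‖c‖ * |lam| + 1) * δ₃ :=
      mul_lt_mul_of_pos_left ht hden
    have h5 : (‖c‖ * |lam| + 1) * δ₃ = ε' / 2 := by
      rw [hδ₃]; field_simp
    linarith
  refine ⟨min δ₁ (min δ₂ δ₃), lt_min hδ₁ (lt_min hδ₂ hδ₃pos), ?_⟩
  intro r ψ ω hr hrδ hψ0 hψα hψω hωψ hy
  have hr₁ : r < δ₁ := lt_of_lt_of_le hrδ (min_le_left _ _)
  have hr₂ : r < δ₂ := lt_of_lt_of_le hrδ (le_trans (min_le_right _ _) (min_le_left _ _))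
  have hr₃ : r < δ₃ := lt_of_lt_of_le hrδ (le_trans (min_le_right _ _) (min_le_right _ _))
  rcases margin_dichotomy F.hα0 hκ hm (by linarith : 0 < ω) (by linarith : ω < F.α + Real.pi)
    with hN | hN
  · -- the outgoing direction is not close to the sides
    set φ := ω - Real.pi with hφ
    have hx0 : 0 < ψ - φ := by rw [hφ]; linarith
    have hxπ : ψ - φ < Real.pi := by rw [hφ]; linarith
    have hsin : 0 < Real.sin (ψ - φ) := Real.sin_pos_of_pos_of_lt_pi hx0 hxπ
    have hε : 0 < r * Real.sin (ψ - φ) := mul_pos hr hsin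
    have hεle : r * Real.sin (ψ - φ) ≤ r := by
      have := Real.sin_le_one (ψ - φ); nlinarith
    have hs₀ : |r * Real.cos (ψ - φ)| ≤ r := by
      rw [abs_mul, abs_of_pos hr]
      have := Real.abs_cos_le_one (ψ - φ); nlinarith
    have hxe := F.xε_polar r ψ φ
    have hω : ω = φ + Real.pi := by rw [hφ]; ring
    have hN' : ∃ N : ℕ, N * F.α + κ ≤ φ + Real.pi ∧ φ + Real.pi ≤ (N + 1) * F.α - κ := by
      rw [← hω]; exact hN
    have key := h₁ φ (r * Real.cos (ψ - φ)) (r * Real.sin (ψ - φ)) (by rw [hφ]; linarith) hε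
      (by linarith) (by linarith) (by rw [hxe]; exact hy) hN'
    rw [hxe, ← hω] at key
    have hph := hphase (-(r * Real.cos (ψ - φ))) (by rw [abs_neg]; linarith)
    calc ‖Fn (T.vertex i + (r : ℂ) * F.E ψ, F.dE ω) - c‖
        = ‖(Fn (T.vertex i + (r : ℂ) * F.E ψ, F.dE ω) - c * ph lam (-(r * Real.cos (ψ - φ))))
            + (c * ph lam (-(r * Real.cos (ψ - φ))) - c)‖ := by ring_nf
      _ ≤ ‖Fn (T.vertex i + (r : ℂ) * F.E ψ, F.dE ω) - c * ph lam (-(r * Real.cos (ψ - φ)))‖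
            + ‖c * ph lam (-(r * Real.cos (ψ - φ))) - c‖ := norm_add_le _ _
      _ < ε' := by linarith
  · -- the incoming direction is not close to the sides: time reversal
    set ψ' := F.α - ψ with hψ'
    set φ' := F.α - ω with hφ'
    have hx0 : 0 < ψ' - φ' := by rw [hψ', hφ']; linarith
    have hxπ : ψ' - φ' < Real.pi := by rw [hψ', hφ']; linarith
    have hsin : 0 < Real.sin (ψ' - φ') := Real.sin_pos_of_pos_of_lt_pi hx0 hxπ
    have hε : 0 < r * Real.sin (ψ' - φ') := mul_pos hr hsin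
    have hεle : r * Real.sin (ψ' - φ') ≤ r := by
      have := Real.sin_le_one (ψ' - φ'); nlinarith
    have hs₀ : |r * Real.cos (ψ' - φ')| ≤ r := by
      rw [abs_mul, abs_of_pos hr]
      have := Real.abs_cos_le_one (ψ' - φ'); nlinarith
    have hxe := F.flip.xε_polar r ψ' φ'
    have hE : F.flip.E ψ' = F.E ψ := by rw [F.flip_E, hψ']; congr 1; ring
    rw [hE] at hxe
    have hN' : ∃ N : ℕ, N * F.flip.α + κ ≤ φ' + Real.pi ∧
        φ' + Real.pi ≤ (N + 1) * F.flip.α - κ := by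
      rw [F.flip_α, hφ']; exact hN
    have key := h₂ φ' (r * Real.cos (ψ' - φ')) (r * Real.sin (ψ' - φ'))
      (by rw [F.flip_α, hφ']; linarith) hε (by linarith) (by linarith) (by rw [hxe]; exact hy) hN'
    rw [hxe] at key
    have hdir : F.flip.dE (φ' + Real.pi) + ((Real.pi : ℝ) : Dir) = F.dE ω := by
      rw [F.flip.dE_add_pi, F.flip_dE, hφ']
      have e : F.α - (F.α - ω + Real.pi + Real.pi) = ω - Real.pi - Real.pi := by ring
      have e2 := F.dE_add_two_pi (ω - Real.pi - Real.pi)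
      rw [e, ← e2]; congr 1; ring
    have hrev : revFn Fn (T.vertex i + (r : ℂ) * F.E ψ, F.flip.dE (φ' + Real.pi))
        = (starRingEnd ℂ) (Fn (T.vertex i + (r : ℂ) * F.E ψ, F.dE ω)) := by
      unfold revFn Triangle.reverse
      rw [hdir]
    rw [hrev] at key
    have key' : ‖Fn (T.vertex i + (r : ℂ) * F.E ψ, F.dE ω)
        - c * ph lam (r * Real.cos (ψ' - φ'))‖ < ε' / 2 := by
      have e : (starRingEnd ℂ) (Fn (T.vertex i + (r : ℂ) * F.E ψ, F.dE ω))
          - (starRingEnd ℂ) c * ph lam (-(r * Real.cos (ψ' - φ')))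
          = (starRingEnd ℂ) (Fn (T.vertex i + (r : ℂ) * F.E ψ, F.dE ω)
              - c * ph lam (r * Real.cos (ψ' - φ'))) := by
        rw [map_sub, map_mul, conj_ph]
      rw [e, RCLike.norm_conj] at key
      exact key
    have hph := hphase (r * Real.cos (ψ' - φ')) (by linarith)
    calc ‖Fn (T.vertex i + (r : ℂ) * F.E ψ, F.dE ω) - c‖
        = ‖(Fn (T.vertex i + (r : ℂ) * F.E ψ, F.dE ω) - c * ph lam (r * Real.cos (ψ' - φ')))
            + (c * ph lam (r * Real.cos (ψ' - φ')) - c)‖ := by ring_nf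
      _ ≤ ‖Fn (T.vertex i + (r : ℂ) * F.E ψ, F.dE ω) - c * ph lam (r * Real.cos (ψ' - φ'))‖
            + ‖c * ph lam (r * Real.cos (ψ' - φ')) - c‖ := norm_add_le _ _
      _ < ε' := by linarith

end Frame

namespace Triangle

variable {T : Triangle}

/-- Near a vertex with an irrational angle, a continuous eigenfunction of the billiard flow
is uniformly close, in all directions, to the constant attached to this vertex. -/
theorem vertex_uniform {Fn : ℂ × Dir → ℂ} {lam : ℝ} (hFc : ContinuousOn Fn (T.table ×ˢ univ))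
    (hinv : ∀ (t : ℝ) (p q : ℂ × Dir), T.Reach t p q → p.1 ∈ T.table → q.1 ∈ T.table →
      Fn q = Complex.exp (lam * t * Complex.I) * Fn p)
    (i : Fin 3) (hirr : Irrational (T.interiorAngle i / Real.pi)) {c : ℂ}
    (hc : RayForm T Fn lam i c) {ε' : ℝ} (hε' : 0 < ε') :
    ∃ δ : ℝ, 0 < δ ∧ ∀ y ∈ T.table, dist y (T.vertex i) < δ →
      ∀ θ : Dir, ‖Fn (y, θ) - c‖ < ε' := by
  have hπ := Real.pi_pos
  obtain ⟨hα0, hαπ⟩ := interiorAngle_bounds i hirr
  obtain ⟨F, hFα⟩ := T.exists_frame (fin3_ne_add_one i) (fin3_ne_add_two i)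
    (fin3_add_one_ne_add_two i) hα0 hαπ
  have hFα' : F.α = T.interiorAngle i := hFα
  have hirr' : Irrational (F.α / Real.pi) := by rw [hFα']; exact hirr
  obtain ⟨κ, hκ, hκπ, hm⟩ := exists_margin F.hα0 hirr'
  obtain ⟨δ₁, hδ₁, h₁⟩ := F.uniform_side hFc hinv hc hκ hκπ hm hε'
  obtain ⟨δ₂, hδ₂, h₂⟩ := F.flip.uniform_side hFc hinv hc hκ hκπ
    (by rw [F.flip_α]; exact hm) hε'
  set δ₃ := ε' / (‖c‖ * |lam| + 1) with hδ₃
  have hden : 0 < ‖c‖ * |lam| + 1 := by positivity
  have hδ₃pos : 0 < δ₃ := by rw [hδ₃]; positivity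
  have hphase : ∀ t : ℝ, |t| < δ₃ → ‖c * ph lam t - c‖ < ε' := by
    intro t ht
    have e : c * ph lam t - c = c * (ph lam t - 1) := by ring
    rw [e, norm_mul]
    have h1 := norm_ph_sub_one_le lam t
    have h2 : ‖c‖ * ‖ph lam t - 1‖ ≤ ‖c‖ * (|lam| * |t|) :=
      mul_le_mul_of_nonneg_left h1 (norm_nonneg _)
    have h3 : ‖c‖ * (|lam| * |t|) ≤ (‖c‖ * |lam| + 1) * |t| := by
      have := abs_nonneg t
      nlinarith
    have h4 : (‖c‖ * |lam| + 1) * |t| < (‖c‖ * |lam| + 1) * δ₃ :=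
      mul_lt_mul_of_pos_left ht hden
    have h5 : (‖c‖ * |lam| + 1) * δ₃ = ε' := by
      rw [hδ₃]; field_simp
    linarith
  refine ⟨min δ₁ (min δ₂ δ₃), lt_min hδ₁ (lt_min hδ₂ hδ₃pos), ?_⟩
  intro y hy hdist θ
  obtain ⟨r, ψ, hr, hψ0, hψα, hyr⟩ := F.exists_polar hy
  have hrd : dist y (T.vertex i) = r := by
    rw [hyr, dist_eq_norm, add_sub_cancel_left, norm_mul, F.norm_E, mul_one, Complex.norm_real,
      Real.norm_eq_abs, abs_of_pos hr]
  rw [hrd] at hdist
  have hr₁ : r < δ₁ := lt_of_lt_of_le hdist (min_le_left _ _)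
  have hr₂ : r < δ₂ := lt_of_lt_of_le hdist (le_trans (min_le_right _ _) (min_le_left _ _))
  have hr₃ : r < δ₃ := lt_of_lt_of_le hdist (le_trans (min_le_right _ _) (min_le_right _ _))
  obtain ⟨ω, hω1, hω2, rfl⟩ := F.exists_dE_Ioc θ (ψ - Real.pi)
  have hyr' : T.vertex i + (r : ℂ) * F.E ψ ∈ T.table := by rw [← hyr]; exact hy
  rw [hyr]
  rcases lt_trichotomy ω ψ with hlt | heq | hgt
  · -- the vertex is passed on the side of the decreasing polar angles
    have hE : F.flip.E (F.α - ψ) = F.E ψ := by rw [F.flip_E]; congr 1; ring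
    have hdE : F.flip.dE (F.α - ω) = F.dE ω := by rw [F.flip_dE]; congr 1; ring
    have key := h₂ r (F.α - ψ) (F.α - ω) hr hr₂ (by linarith) (by rw [F.flip_α]; linarith)
      (by linarith) (by linarith) (by rw [hE]; exact hyr')
    rw [hE, hdE] at key
    exact key
  · -- a ray leaving the vertex
    subst heq
    have h := (hc _ hyr' (F.dE ω) r hr).2 (by rw [F.dirVec_dE])
    rw [h]
    exact hphase r (by rw [abs_of_pos hr]; exact hr₃)
  · rcases lt_or_eq_of_le hω2 with hlt2 | heq2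
    · -- the vertex is passed on the side of the increasing polar angles
      exact h₁ r ψ ω hr hr₁ hψ0 hψα hgt (by linarith) hyr'
    · -- a ray entering the vertex
      have hω : ω = ψ + Real.pi := by linarith
      subst hω
      have h := (hc _ hyr' (F.dE (ψ + Real.pi)) r hr).1
        (by rw [F.dirVec_dE, F.E_add_pi]; ring)
      rw [h]
      have e : Complex.exp (-(lam * r * Complex.I)) = ph lam (-r) := by
        unfold ph; congr 1; push_cast; ring
      rw [e]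
      exact hphase (-r) (by rw [abs_neg, abs_of_pos hr]; exact hr₃)

end Triangle

end Vale.Agent.Lib.P099
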